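-- KEEP
import Mathlib

/-!
# Row 315, paper T (n = 3), package T3-Wall: two-sided walls in a topological space

Sub-captain: helper72.  PURE POINT-SET TOPOLOGY (no manifolds, no metrics, imports Mathlib only).

A *wall* is the zero set `S` of a continuous function `φ` on an open set `O ⊇ S` such that every
point `p ∈ S` has arbitrarily small open neighbourhoods `U` for which the two sides
`U ∩ {φ > 0}`, `U ∩ {φ < 0}` are connected and nonempty (`TWall`).  A `TSurf` is a compact connected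
wall.  (Smooth closed connected two-sided hypersurfaces of a manifold are `TSurf`s: `T3/Geo.lean`.)

EXPORTS
* `twall_conn_of_sub`  (Zorn step of T Section 3.1 / end of the proof of T Lemma 3.2):
  `S ⊆ R ⊆ Y`, `Y` connected open, `R` open, `R \ S` connected `⟹` `Y \ S` connected.
* `twall_inter_conn`   (replaces the region tree T Lemma 5.1):  the intersection of the `o`-sides of
  finitely many pairwise disjoint separating `TSurf`s of a connected open `R` is connected.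
* `twall_tube`         a `TSurf` has arbitrarily small open neighbourhoods with connected sides.

PROOFS (all elementary; `U_p^±` denotes the sides of a small neighbourhood of `p` from `loc`).
(T1) *touching*.  `Y` open connected, `S ⊆ Y` closed nonempty wall, `Z ⊆ Y \ S` nonempty, open, with
  `Y \ S \ Z` open.  Then `closure Z` meets `S` (otherwise `Z` is clopen in `Y`, so `Z = Y`), and for
  `p ∈ S ∩ closure Z` and every `U` from `loc` with `U ⊆ Y`: `U` meets `Z`, in a point with `φ ≠ 0`,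
  say `φ > 0`; `U^+` is connected in `Y \ S = Z ⊔ rest`, hence `U^+ ⊆ Z`.
`twall_conn_of_sub`: if `Y \ S = Z ⊔ Z'` (open, nonempty, disjoint), `R \ S` connected lies in one of
  them, say `Z`; (T1) for `Z'` with `U ⊆ R` gives a nonempty side `U^± ⊆ Z' ∩ (R \ S)`: absurd.
(T2) *at most two components*.  `Y` open connected, `F ⊆ Y` a `TSurf`.  There are no three pairwise
  disjoint nonempty open sets `Z₁ Z₂ Z₃` with union `Y \ F`.  For `Z` among them and a sign `σ` put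
  `F_Z^σ = {p ∈ F | ∃ U ∈ 𝓝 p, U ∩ {σ φ > 0} ⊆ Z}`: open in `F`; for fixed `σ` the three sets cover
  `F` (connectedness of `U_p^σ`) and are pairwise disjoint (nonemptiness of arbitrarily small
  `U_p^σ`), so exactly one of them is `F` (connectedness of `F`).  By (T1) every `Z` has some
  `F_Z^σ ≠ ∅`.  Three sets, two signs: pigeonhole.
`twall_inter_conn`: induction on the number of surfaces, `G_k = R ∩ A_1 ∩ … ∩ A_k` is open,
  connected, contains `o`.  `F = F_{k+1}` is connected and misses `F_i` (`i ≤ k`), so it lies in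
  `A_i` or in `A'_i` for each `i`.  If `F ⊄ G_k` then `F ∩ G_k = ∅`, `G_k` is a connected subset of
  `R \ F = A ⊔ A'` containing `o`, so `G_{k+1} = G_k`.  If `F ⊆ G_k`: `G_k ∩ A ∋ o`, and
  `G_k ∩ A' ≠ ∅` by (T1) in `R` for `Z = A'` with `U ⊆ G_k`; if `G_k ∩ A = Z₁ ⊔ Z₂` were
  disconnected, `Z₁, Z₂, G_k ∩ A'` would contradict (T2) for `Y = G_k`.
`twall_tube`: choose for every `p ∈ S` a `U_p ⊆ W ∩ O` from `loc`; `T = ⋃ U_p`,
  `T ∩ {φ>0} = ⋃ U_p^+`.  For `p' ∈ U_p ∩ S`, `loc` at `p'` inside `U_p ∩ U_p'` shows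
  `U_p^+ ∩ U_p'^+ ≠ ∅`.  So `{p' ∈ S | U_p'^+ lies in the component of U_p₀^+ in T^+}` is open and
  closed in the connected set `S`.
-/

set_option autoImplicit false
open Set Topology

namespace Claimed.Agent.R315

variable {X : Type} [TopologicalSpace X]

/-- `S` is a two-sided wall with defining function `φ` on the open set `O`. -/
structure TWall (S O : Set X) (φ : X → ℝ) : Prop where
  opn : IsOpen O
  sub : S ⊆ O
  cont : ContinuousOn φ O
  zero : ∀ x ∈ O, φ x = 0 ↔ x ∈ S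
  loc : ∀ p ∈ S, ∀ W ∈ 𝓝 p, ∃ U : Set X, IsOpen U ∧ p ∈ U ∧ U ⊆ W ∧ U ⊆ O ∧
    IsPreconnected (U ∩ {x | 0 < φ x}) ∧ (U ∩ {x | 0 < φ x}).Nonempty ∧
    IsPreconnected (U ∩ {x | φ x < 0}) ∧ (U ∩ {x | φ x < 0}).Nonempty

/-- compact connected two-sided wall. -/
def TSurf (S : Set X) : Prop :=
  IsCompact S ∧ IsConnected S ∧ ∃ (O : Set X) (φ : X → ℝ), TWall S O φ

theorem tSurf_eqns_cite : True := by
  have := @TSurf.eq_1
  trivial

/-- the other orientation -/
theorem TWall.twall_neg {S O : Set X} {φ : X → ℝ} (h : TWall S O φ) : TWall S O (fun x => -φ x) where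
  opn := h.opn
  sub := h.sub
  cont := h.cont.neg
  zero := fun x hx => by rw [neg_eq_zero]; exact h.zero x hx
  loc := fun p hp W hW => by
    obtain ⟨U, h1, h2, h3, h4, h5, h6, h7, h8⟩ := h.loc p hp W hW
    refine ⟨U, h1, h2, h3, h4, ?_, ?_, ?_, ?_⟩
    · simpa only [Left.neg_pos_iff] using h7
    · simpa only [Left.neg_pos_iff] using h8
    · simpa only [Left.neg_neg_iff] using h5
    · simpa only [Left.neg_neg_iff] using h6

/-- (T1), first half: touching -/
theorem twall_touch {Y S Z Z' : Set X} (hYc : IsPreconnected Y) (hSY : S ⊆ Y) (hSne : S.Nonempty)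
    (hZ : IsOpen Z) (hZ' : IsOpen Z') (hdis : Disjoint Z Z') (hun : Y \ S ⊆ Z ∪ Z')
    (hZne : (Y ∩ Z).Nonempty) : (S ∩ closure Z).Nonempty := by
  by_contra hcon
  rw [not_nonempty_iff_eq_empty] at hcon
  have hcov : Y ⊆ Z ∪ (closure Z)ᶜ := by
    intro y hy
    by_cases hyS : y ∈ S
    · right
      intro hc
      have : y ∈ S ∩ closure Z := ⟨hyS, hc⟩
      rw [hcon] at this
      exact this
    · rcases hun ⟨hy, hyS⟩ with h | h
      · exact Or.inl h
      · right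
        intro hc
        exact Set.disjoint_left.1 (hdis.closure_left hZ') hc h
  obtain ⟨s, hs⟩ := hSne
  have hv : (Y ∩ (closure Z)ᶜ).Nonempty := ⟨s, hSY hs, fun hc => by
    have : s ∈ S ∩ closure Z := ⟨hs, hc⟩
    rw [hcon] at this
    exact this⟩
  obtain ⟨x, -, hx1, hx2⟩ := hYc Z (closure Z)ᶜ hZ isClosed_closure.isOpen_compl hcov hZne hv
  exact hx2 (subset_closure hx1)

/-- **Zorn step.** -/
theorem twall_conn_of_sub [T2Space X] {Y R S : Set X} (hY : IsOpen Y) (hYc : IsPreconnected Y)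
    (hR : IsOpen R) (hRY : R ⊆ Y) (hS : TSurf S) (hSR : S ⊆ R) (hc : IsPreconnected (R \ S)) :
    IsPreconnected (Y \ S) := by
  have hSc : IsClosed S := hS.1.isClosed
  have hYS : IsOpen (Y \ S) := hY.sdiff hSc
  have key : ∀ u v : Set X, IsOpen u → IsOpen v → Y \ S ⊆ u ∪ v → (Y \ S) ∩ (u ∩ v) = ∅ → R \ S ⊆ u →
      Y \ S ⊆ u := by
    intro u v hu hv huv hdis hRu
    by_contra hcon
    obtain ⟨x, hx, hxu⟩ := Set.not_subset.1 hcon
    have hxv : x ∈ v := (huv hx).resolve_left hxu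
    have h1 := twall_touch (Z := (Y \ S) ∩ v) (Z' := (Y \ S) ∩ u) hYc (hSR.trans hRY) hS.2.1.nonempty
      (hYS.inter hv) (hYS.inter hu) (by
        rw [Set.disjoint_left]
        rintro y ⟨hy, hyv⟩ ⟨-, hyu⟩
        have : y ∈ (Y \ S) ∩ (u ∩ v) := ⟨hy, hyu, hyv⟩
        rw [hdis] at this
        exact this) (fun y hy => (huv hy).elim (fun h => Or.inr ⟨hy, h⟩) fun h => Or.inl ⟨hy, h⟩)
      ⟨x, hx.1, hx, hxv⟩
    obtain ⟨p, hpS, hpc⟩ := h1
    obtain ⟨y, hyR, hy, hyv⟩ := mem_closure_iff.1 hpc R hR (hSR hpS)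
    have : y ∈ (Y \ S) ∩ (u ∩ v) := ⟨hy, hRu ⟨hyR, hy.2⟩, hyv⟩
    rw [hdis] at this
    exact this
  rw [isPreconnected_iff_subset_of_disjoint]
  intro u v hu hv huv hdis
  have hsub : R \ S ⊆ Y \ S := Set.sdiff_subset_sdiff_left hRY
  rcases (isPreconnected_iff_subset_of_disjoint.1 hc) u v hu hv (hsub.trans huv) (by
    rw [← Set.subset_empty_iff, ← hdis]
    exact Set.inter_subset_inter_left _ hsub) with h | h
  · exact Or.inl (key u v hu hv huv hdis h)
  · exact Or.inr (key v u hv hu (by rwa [Set.union_comm]) (by rwa [Set.inter_comm v u]) h)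

/-- a preconnected set covered by relatively disjoint open sets lies in one of them -/
theorem twall_subset_one {ι : Type} {F : Set X} (hF : IsPreconnected F) (hne : F.Nonempty) (G : ι → Set X)
    (hG : ∀ i, IsOpen (G i)) (hcov : F ⊆ ⋃ i, G i) (hdis : ∀ i j, i ≠ j → F ∩ (G i ∩ G j) = ∅) :
    ∃ i, F ⊆ G i := by
  obtain ⟨p, hp⟩ := hne
  obtain ⟨i, hi⟩ := Set.mem_iUnion.1 (hcov hp)
  refine ⟨i, ?_⟩
  have h1 := (isPreconnected_iff_subset_of_disjoint.1 hF) (G i) (⋃ j ∈ {j | j ≠ i}, G j) (hG i)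
    (isOpen_biUnion fun j _ => hG j) (by
      intro x hx
      obtain ⟨j, hj⟩ := Set.mem_iUnion.1 (hcov hx)
      by_cases hji : j = i
      · exact Or.inl (hji ▸ hj)
      · exact Or.inr (Set.mem_biUnion (show j ∈ {j | j ≠ i} from hji) hj)) (by
      rw [Set.eq_empty_iff_forall_notMem]
      rintro x ⟨hx, hxi, hxj⟩
      obtain ⟨j, hj, hxj⟩ := Set.mem_iUnion₂.1 hxj
      have : x ∈ F ∩ (G i ∩ G j) := ⟨hx, hxi, hxj⟩
      rw [hdis i j (Ne.symm hj)] at this
      exact this)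
  rcases h1 with h | h
  · exact h
  · exfalso
    obtain ⟨j, hj, hpj⟩ := Set.mem_iUnion₂.1 (h hp)
    have : p ∈ F ∩ (G i ∩ G j) := ⟨hp, hi, hpj⟩
    rw [hdis i j (Ne.symm hj)] at this
    exact this

/-- the positive sides of all small neighbourhoods of the points of a connected wall lie in the same piece -/
theorem twall_side_one {ι : Type} {Y F O : Set X} {φ : X → ℝ} (hY : IsOpen Y) (hw : TWall F O φ)
    (hFY : F ⊆ Y) (hFc : IsPreconnected F) (hFne : F.Nonempty) (Z : ι → Set X) (hZ : ∀ i, IsOpen (Z i))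
    (hdis : Pairwise (Function.onFun Disjoint Z)) (hun : Y \ F ⊆ ⋃ i, Z i) :
    ∃ i, ∀ p ∈ F, ∃ U ∈ 𝓝 p, U ∩ {x | 0 < φ x} ⊆ Z i := by
  have hopen : ∀ i, IsOpen {p | ∃ U ∈ 𝓝 p, U ∩ {x | 0 < φ x} ⊆ Z i} := by
    intro i
    rw [isOpen_iff_mem_nhds]
    rintro p ⟨U, hU, hUZ⟩
    obtain ⟨V, hVU, hV, hpV⟩ := mem_nhds_iff.1 hU
    exact Filter.mem_of_superset (hV.mem_nhds hpV) fun p' hp' =>
      ⟨U, Filter.mem_of_superset (hV.mem_nhds hp') hVU, hUZ⟩
  refine twall_subset_one hFc hFne _ hopen ?_ ?_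
  · intro p hp
    obtain ⟨U, hU, hpU, hUY, hUO, hc, hne, -, -⟩ := hw.loc p hp Y (hY.mem_nhds (hFY hp))
    have hsub : U ∩ {x | 0 < φ x} ⊆ ⋃ i, Z i := by
      rintro x ⟨hxU, hx⟩
      refine hun ⟨hUY hxU, fun hxF => ?_⟩
      have := (hw.zero x (hUO hxU)).2 hxF
      rw [Set.mem_ofPred_eq, this] at hx
      exact lt_irrefl _ hx
    obtain ⟨i, hi⟩ := twall_subset_one hc hne Z hZ hsub (fun i j hij => by
      rw [(hdis hij).inter_eq, Set.inter_empty])
    exact Set.mem_iUnion.2 ⟨i, U, hU.mem_nhds hpU, hi⟩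
  · intro i j hij
    rw [Set.eq_empty_iff_forall_notMem]
    rintro p ⟨hp, ⟨U, hU, hUZ⟩, ⟨U', hU', hUZ'⟩⟩
    obtain ⟨V, -, -, hVW, -, -, ⟨x, hxV, hx⟩, -, -⟩ := hw.loc p hp (U ∩ U') (Filter.inter_mem hU hU')
    exact Set.disjoint_left.1 (hdis hij) (hUZ ⟨(hVW hxV).1, hx⟩) (hUZ' ⟨(hVW hxV).2, hx⟩)

/-- (T1), second half: every piece contains a full side of a small neighbourhood -/
theorem twall_touch_side {Y F O Z Z' : Set X} {φ : X → ℝ} (hY : IsOpen Y) (hYc : IsPreconnected Y)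
    (hw : TWall F O φ) (hFY : F ⊆ Y) (hFne : F.Nonempty) (hZ : IsOpen Z) (hZ' : IsOpen Z')
    (hdis : Disjoint Z Z') (hun : Y \ F ⊆ Z ∪ Z') (hZF : Disjoint Z F) (hZne : (Y ∩ Z).Nonempty) :
    ∃ p ∈ F, (∃ U ∈ 𝓝 p, U ∩ {x | 0 < φ x} ⊆ Z) ∨ ∃ U ∈ 𝓝 p, U ∩ {x | φ x < 0} ⊆ Z := by
  obtain ⟨p, hp, hpc⟩ := twall_touch hYc hFY hFne hZ hZ' hdis hun hZne
  refine ⟨p, hp, ?_⟩
  obtain ⟨U, hU, hpU, hUY, hUO, hc, -, hc', -⟩ := hw.loc p hp Y (hY.mem_nhds (hFY hp))
  obtain ⟨x, hxU, hxZ⟩ := mem_closure_iff.1 hpc U hU hpU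
  have hxF : x ∉ F := fun h => Set.disjoint_left.1 hZF hxZ h
  have hφ : φ x ≠ 0 := fun h => hxF ((hw.zero x (hUO hxU)).1 h)
  have hsub : ∀ y ∈ U, φ y ≠ 0 → y ∈ Z ∪ Z' := fun y hy hy0 =>
    hun ⟨hUY hy, fun hyF => hy0 ((hw.zero y (hUO hy)).2 hyF)⟩
  rcases lt_or_gt_of_ne hφ with h | h
  · right
    exact ⟨U, hU.mem_nhds hpU, hc'.subset_left_of_subset_union hZ hZ' hdis
      (fun y hy => hsub y hy.1 (ne_of_lt hy.2)) ⟨x, ⟨hxU, h⟩, hxZ⟩⟩
  · left
    exact ⟨U, hU.mem_nhds hpU, hc.subset_left_of_subset_union hZ hZ' hdis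
      (fun y hy => hsub y hy.1 (ne_of_gt hy.2)) ⟨x, ⟨hxU, h⟩, hxZ⟩⟩

/-- (T2): the complement of a connected wall has at most two pieces -/
theorem twall_two {ι : Type} {Y F O : Set X} {φ : X → ℝ} (hY : IsOpen Y) (hYc : IsPreconnected Y)
    (hw : TWall F O φ) (hFY : F ⊆ Y) (hFc : IsPreconnected F) (hFne : F.Nonempty) (Z : ι → Set X)
    (hZ : ∀ i, IsOpen (Z i)) (hdis : Pairwise (Function.onFun Disjoint Z)) (hun : ⋃ i, Z i = Y \ F)
    (hne : ∀ i, (Z i).Nonempty) : ∃ f : Bool → ι, Function.Surjective f := by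
  obtain ⟨ip, hip⟩ := twall_side_one hY hw hFY hFc hFne Z hZ hdis hun.ge
  obtain ⟨im, him⟩ := twall_side_one hY hw.twall_neg hFY hFc hFne Z hZ hdis hun.ge
  simp only [Left.neg_pos_iff] at him
  refine ⟨fun b => if b then ip else im, fun i => ?_⟩
  have hZi : Z i ⊆ Y \ F := hun ▸ Set.subset_iUnion Z i
  obtain ⟨p, hp, h⟩ := twall_touch_side (Z := Z i) (Z' := ⋃ j ∈ {j | j ≠ i}, Z j) hY hYc hw hFY hFne (hZ i)
    (isOpen_biUnion fun j _ => hZ j) (by
      rw [Set.disjoint_left]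
      intro x hx hx'
      obtain ⟨j, hj, hxj⟩ := Set.mem_iUnion₂.1 hx'
      exact Set.disjoint_left.1 (hdis (Ne.symm hj)) hx hxj) (by
      intro x hx
      rw [← hun] at hx
      obtain ⟨j, hj⟩ := Set.mem_iUnion.1 hx
      by_cases hji : j = i
      · exact Or.inl (hji ▸ hj)
      · exact Or.inr (Set.mem_biUnion (show j ∈ {j | j ≠ i} from hji) hj))
    (Set.disjoint_left.2 fun x hx hxF => (hZi hx).2 hxF)
    (by obtain ⟨x, hx⟩ := hne i; exact ⟨x, (hZi hx).1, hx⟩)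
  rcases h with ⟨U, hU, hUZ⟩ | ⟨U, hU, hUZ⟩
  · refine ⟨true, ?_⟩
    obtain ⟨U', hU', hUZ'⟩ := hip p hp
    obtain ⟨V, -, -, hVW, -, -, ⟨x, hxV, hx⟩, -, -⟩ := hw.loc p hp (U ∩ U') (Filter.inter_mem hU hU')
    by_contra hcon
    exact Set.disjoint_left.1 (hdis hcon) (hUZ' ⟨(hVW hxV).2, hx⟩) (hUZ ⟨(hVW hxV).1, hx⟩)
  · refine ⟨false, ?_⟩
    obtain ⟨U', hU', hUZ'⟩ := him p hp
    obtain ⟨V, -, -, hVW, -, -, -, -, ⟨x, hxV, hx⟩⟩ := hw.loc p hp (U ∩ U') (Filter.inter_mem hU hU')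
    by_contra hcon
    exact Set.disjoint_left.1 (hdis hcon) (hUZ' ⟨(hVW hxV).2, hx⟩) (hUZ ⟨(hVW hxV).1, hx⟩)

/-- the inductive form of the TOP-LEMMA -/
theorem twall_inter_conn_aux [T2Space X] {R : Set X} (hR : IsOpen R) (hRc : IsPreconnected R) {ι : Type}
    (F A A' : ι → Set X) (hF : ∀ i, TSurf (F i)) (hFR : ∀ i, F i ⊆ R)
    (hdis : Pairwise (Function.onFun Disjoint F))
    (hA : ∀ i, IsOpen (A i)) (hA' : ∀ i, IsOpen (A' i)) (hAA : ∀ i, Disjoint (A i) (A' i))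
    (hU : ∀ i, A i ∪ A' i = R \ F i) (o : X) (ho : ∀ i, o ∈ A i) (hne : ∀ i, (A' i).Nonempty)
    (s : Finset ι) : IsPreconnected (R ∩ ⋂ i ∈ s, A i) := by
  classical
  induction s using Finset.induction_on with
  | empty => simpa using hRc
  | insert a s has ih =>
    set G : Set X := R ∩ ⋂ i ∈ s, A i with hG
    have hGo : IsOpen G := hR.inter (isOpen_biInter_finset fun i _ => hA i)
    have hoR : o ∈ R := by
      have : o ∈ R \ F a := hU a ▸ Or.inl (ho a)
      exact this.1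
    have hoG : o ∈ G := ⟨hoR, Set.mem_iInter₂.2 fun i _ => ho i⟩
    have hGA : R ∩ ⋂ i ∈ insert a s, A i = G ∩ A a := by
      rw [Finset.set_biInter_insert, hG]
      ext x
      simp only [Set.mem_inter_iff]
      tauto
    rw [hGA]
    have hAsub : ∀ i, A i ⊆ R \ F i := fun i => hU i ▸ Set.subset_union_left
    have hA'sub : ∀ i, A' i ⊆ R \ F i := fun i => hU i ▸ Set.subset_union_right
    obtain ⟨hFcomp, hFconn, O, φ, hw⟩ := hF a
    -- each earlier surface has `F a` on one side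
    have hside : ∀ i ∈ s, F a ⊆ A i ∨ F a ⊆ A' i := by
      intro i hi
      have hia : i ≠ a := fun h => has (h ▸ hi)
      refine hFconn.isPreconnected.subset_or_subset (hA i) (hA' i) (hAA i) ?_
      rw [hU i]
      exact fun x hx => ⟨hFR a hx, fun hx' => Set.disjoint_left.1 (hdis hia) hx' hx⟩
    by_cases hcase : ∀ i ∈ s, F a ⊆ A i
    · -- `F a ⊆ G`
      have hFG : F a ⊆ G := fun x hx => ⟨hFR a hx, Set.mem_iInter₂.2 fun i hi => hcase i hi hx⟩
      have hGF : G \ F a = G ∩ A a ∪ G ∩ A' a := by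
        rw [← Set.inter_union_distrib_left, hU a]
        ext x
        simp only [Set.mem_sdiff, Set.mem_inter_iff]
        constructor
        · rintro ⟨h1, h2⟩; exact ⟨h1, h1.1, h2⟩
        · rintro ⟨h1, -, h2⟩; exact ⟨h1, h2⟩
      -- `G ∩ A' a` is nonempty
      have hne3 : (G ∩ A' a).Nonempty := by
        obtain ⟨p, hp, hpc⟩ := twall_touch (Z := A' a) (Z' := A a) hRc (hFR a) hFconn.nonempty (hA' a) (hA a)
          (hAA a).symm (by rw [Set.union_comm, hU a]) (by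
            obtain ⟨x, hx⟩ := hne a
            exact ⟨x, (hA'sub a hx).1, hx⟩)
        exact mem_closure_iff.1 hpc G hGo (hFG hp)
      rw [isPreconnected_iff_subset_of_disjoint]
      intro u v hu hv huv huv0
      by_contra hcon
      rw [not_or] at hcon
      obtain ⟨x1, hx1, hx1u⟩ := Set.not_subset.1 hcon.1
      obtain ⟨x2, hx2, hx2v⟩ := Set.not_subset.1 hcon.2
      have hx1v : x1 ∈ v := (huv hx1).resolve_left hx1u
      have hx2u : x2 ∈ u := (huv hx2).resolve_right hx2v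
      let Z : Fin 3 → Set X := ![G ∩ A a ∩ u, G ∩ A a ∩ v, G ∩ A' a]
      have h12 : Disjoint (G ∩ A a ∩ u) (G ∩ A a ∩ v) := by
        rw [Set.disjoint_left]
        rintro x ⟨hx, hxu⟩ ⟨-, hxv⟩
        have : x ∈ G ∩ A a ∩ (u ∩ v) := ⟨hx, hxu, hxv⟩
        rw [huv0] at this
        exact this
      have h13 : Disjoint (G ∩ A a ∩ u) (G ∩ A' a) :=
        Set.disjoint_left.2 fun x hx hx' => Set.disjoint_left.1 (hAA a) hx.1.2 hx'.2
      have h23 : Disjoint (G ∩ A a ∩ v) (G ∩ A' a) :=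
        Set.disjoint_left.2 fun x hx hx' => Set.disjoint_left.1 (hAA a) hx.1.2 hx'.2
      obtain ⟨f, hf⟩ := twall_two (Z := Z) hGo ih hw hFG hFconn.isPreconnected hFconn.nonempty
        (by
          intro i
          fin_cases i
          · exact (hGo.inter (hA a)).inter hu
          · exact (hGo.inter (hA a)).inter hv
          · exact hGo.inter (hA' a))
        (by
          intro i j hij
          fin_cases i <;> fin_cases j <;> first | exact absurd rfl hij | skip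
          · exact h12
          · exact h13
          · exact h12.symm
          · exact h23
          · exact h13.symm
          · exact h23.symm)
        (by
          rw [hGF]
          ext x
          rw [Set.mem_iUnion]
          constructor
          · rintro ⟨i, hi⟩
            fin_cases i
            · exact Or.inl hi.1
            · exact Or.inl hi.1
            · exact Or.inr hi
          · rintro (h | h)
            · rcases huv h with h' | h'
              · exact ⟨0, h, h'⟩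
              · exact ⟨1, h, h'⟩
            · exact ⟨2, h⟩)
        (by
          intro i
          fin_cases i
          · exact ⟨x2, hx2, hx2u⟩
          · exact ⟨x1, hx1, hx1v⟩
          · exact hne3)
      have := Fintype.card_le_of_surjective f hf
      simp at this
    · -- `F a` misses `G`
      push Not at hcase
      obtain ⟨i, hi, hiA⟩ := hcase
      have hiA' : F a ⊆ A' i := (hside i hi).resolve_left hiA
      have hGi : G ⊆ A i := fun x hx => Set.mem_iInter₂.1 hx.2 i hi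
      have hGsub : G ⊆ A a := by
        refine ih.subset_left_of_subset_union (hA a) (hA' a) (hAA a) ?_ ⟨o, hoG, ho a⟩
        rw [hU a]
        exact fun x hx => ⟨hx.1, fun hxF => Set.disjoint_left.1 (hAA i) (hGi hx) (hiA' hxF)⟩
      rw [Set.inter_eq_left.2 hGsub]
      exact ih

/-- **TOP-LEMMA** (replaces the complementary-region tree, T Lemma 5.1). -/
theorem twall_inter_conn [T2Space X] {R : Set X} (hR : IsOpen R) (hRc : IsPreconnected R) {m : ℕ}
    (F A A' : Fin m → Set X) (hF : ∀ i, TSurf (F i)) (hFR : ∀ i, F i ⊆ R)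
    (hdis : Pairwise (Function.onFun Disjoint F))
    (hA : ∀ i, IsOpen (A i)) (hA' : ∀ i, IsOpen (A' i)) (hAA : ∀ i, Disjoint (A i) (A' i))
    (hU : ∀ i, A i ∪ A' i = R \ F i) (o : X) (ho : ∀ i, o ∈ A i) (hne : ∀ i, (A' i).Nonempty) :
    IsPreconnected (R ∩ ⋂ i, A i) := by
  have h := twall_inter_conn_aux hR hRc F A A' hF hFR hdis hA hA' hAA hU o ho hne Finset.univ
  simpa using h

/-- one side of a union of small neighbourhoods along a connected wall -/
theorem twall_tube_side {S O : Set X} {φ : X → ℝ} (h : TWall S O φ) (hconn : IsPreconnected S)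
    (U : S → Set X) (hUo : ∀ p, IsOpen (U p)) (hpU : ∀ p : S, p.1 ∈ U p)
    (hUc : ∀ p, IsPreconnected (U p ∩ {x | 0 < φ x})) :
    IsPreconnected ((⋃ p, U p) ∩ {x | 0 < φ x}) := by
  rw [Set.iUnion_inter]
  have hr : ∀ p p' : S, p'.1 ∈ U p → ((U p ∩ {x | 0 < φ x}) ∩ (U p' ∩ {x | 0 < φ x})).Nonempty := by
    intro p p' hp'
    obtain ⟨V, -, -, hVW, -, -, ⟨x, hxV, hx⟩, -, -⟩ := h.loc p'.1 p'.2 (U p ∩ U p')
      (Filter.inter_mem ((hUo p).mem_nhds hp') ((hUo p').mem_nhds (hpU p')))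
    exact ⟨x, ⟨(hVW hxV).1, hx⟩, ⟨(hVW hxV).2, hx⟩⟩
  refine IsPreconnected.iUnion_of_reflTransGen hUc fun p₀ q₀ => ?_
  set r : S → S → Prop := fun i j => ((U i ∩ {x | 0 < φ x}) ∩ (U j ∩ {x | 0 < φ x})).Nonempty with hrdef
  have hsymm : ∀ i j, r i j → r j i := fun i j hij => by
    simp only [hrdef] at hij ⊢
    rwa [Set.inter_comm]
  by_contra hcon
  set E : Set S := {p | Relation.ReflTransGen r p₀ p} with hE
  have h1 := hconn (⋃ p ∈ E, U p) (⋃ p ∈ Eᶜ, U p) (isOpen_biUnion fun p _ => hUo p)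
    (isOpen_biUnion fun p _ => hUo p) (by
      intro x hx
      by_cases hxE : (⟨x, hx⟩ : S) ∈ E
      · exact Or.inl (Set.mem_biUnion hxE (hpU ⟨x, hx⟩))
      · exact Or.inr (Set.mem_biUnion (show (⟨x, hx⟩ : S) ∈ Eᶜ from hxE) (hpU ⟨x, hx⟩)))
    ⟨p₀.1, p₀.2, Set.mem_biUnion (show p₀ ∈ E from Relation.ReflTransGen.refl) (hpU p₀)⟩
    ⟨q₀.1, q₀.2, Set.mem_biUnion (show q₀ ∈ Eᶜ from hcon) (hpU q₀)⟩
  obtain ⟨x, hxS, hx1, hx2⟩ := h1
  obtain ⟨p, hpE, hxp⟩ := Set.mem_iUnion₂.1 hx1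
  obtain ⟨p', hpE', hxp'⟩ := Set.mem_iUnion₂.1 hx2
  apply hpE'
  have a1 : r p ⟨x, hxS⟩ := hr p ⟨x, hxS⟩ hxp
  have a2 : r ⟨x, hxS⟩ p' := hsymm _ _ (hr p' ⟨x, hxS⟩ hxp')
  exact (Relation.ReflTransGen.tail hpE a1).tail a2

/-- small tubes with connected sides. -/
theorem twall_tube {S O : Set X} {φ : X → ℝ} (h : TWall S O φ) (hconn : IsConnected S)
    {W : Set X} (hW : IsOpen W) (hSW : S ⊆ W) :
    ∃ T : Set X, IsOpen T ∧ S ⊆ T ∧ T ⊆ W ∩ O ∧ IsPreconnected (T ∩ {x | 0 < φ x}) ∧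
      IsPreconnected (T ∩ {x | φ x < 0}) := by
  choose U hU1 hU2 hU3 hU4 hU5 hU6 hU7 hU8 using fun p : S => h.loc p.1 p.2 W (hW.mem_nhds (hSW p.2))
  refine ⟨⋃ p, U p, isOpen_iUnion hU1, fun x hx => Set.mem_iUnion.2 ⟨⟨x, hx⟩, hU2 ⟨x, hx⟩⟩,
    Set.iUnion_subset fun p x hx => ⟨hU3 p hx, hU4 p hx⟩,
    twall_tube_side h hconn.isPreconnected U hU1 hU2 hU5, ?_⟩
  have := twall_tube_side h.twall_neg hconn.isPreconnected U hU1 hU2 (by
    simpa only [Left.neg_pos_iff] using hU7)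
  simpa only [Left.neg_pos_iff] using this

end Claimed.Agent.R315
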