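-- KEEP
import Claimed.Agent.R315.T3.Wall

/-!
# Row 315, paper T (n = 3), package T3-Cover: from slabs to a cover of multiplicity two
(T Section 5 end + Section 6, after the shortcut "`r` made locally constant near the cuts")

PURE TOPOLOGY of a proper metric space `X` with an auxiliary symmetric function `d` satisfying the
triangle inequality (the Riemannian distance), imports Mathlib only (+ `T3/Wall.lean`).

Data: a locally finite family `𝒮` of pairwise disjoint `TSurf`s of `d`-diameter `≤ δ₀`,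
`Y = (⋃₀ 𝒮)ᶜ`, a function `r` continuous on `Y` such that
* (`hosc`) every `S ∈ 𝒮` has a neighbourhood `W` with `osc_A r ≤ β` for connected `A ⊆ W \ ⋃₀ 𝒮`;
* (`hslab`) connected subsets of `Y` on which `r` takes values in an interval of length `2β+4` have
  `d`-diameter `≤ D₀`.
Output (`t3_cover_abs`): a locally finite open cover of multiplicity `≤ 2` by sets of `d`-diameter
`≤ max D₀ (δ₀ + 2)`.
Hypothesis `hβ : 0 ≤ β` (added by helper282): for `β < 0` and `𝒮 = ∅` the statements fail (`hslab` is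
then about intervals shorter than the slabs `Ω j` need).  ALL STEPS BELOW ARE PROVED.

STEPS.
* `t3_refine` (PROVED): local finiteness is free (`precise_refinement`, metric spaces are
  paracompact).
* `t3_expand`: disjoint locally finite closed thickenings of the members of `𝒮` inside prescribed
  neighbourhoods.  [`e S = infDist`-distance from `S` to the closed set `⋃ (𝒮 \ {S})` is positive;
  `ε S = min 1 (e S / 3)`, shrunk so that `cthickening (ε S) S ⊆ W S` (compactness of `S`).  Disjoint: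
  a common point gives `dist (S, S') ≤ ε S + ε S' ≤ 2/3 max (e S) (e S')`.  Locally finite: if
  infinitely many distinct `cthickening`s met the ball `B(x,1)`, the corresponding `S` would meet the
  compact ball `closedBall x 2`, contradicting local finiteness of `𝒮` on a compact set.]
* `t3_flatten`: `r' = r + ∑_S χ_S (j_S^± - r)`.  For `S ∈ 𝒮` with wall `(O, φ)`: `T` a tube from
  `twall_tube` inside `W_osc ∩ (neighbourhoods U_p with d p · ≤ 1) ∩ (complement of the other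
  members)`; `ε S` from `t3_expand` with `cthickening (ε S) S ⊆ T`; `χ_S x = clamp (2 - 3 infDist x S / ε S)`;
  `j_S^± ∈ ℤ` with `|j_S^± - r x_S^±| ≤ 1/2` for a chosen `x_S^± ∈ T^±`; on `T^±` one has
  `|r - j_S^±| ≤ β + 1/2`.  `N S = thickening (ε S / 3) S`, `Z S = cthickening (ε S / 6) S`.
  Continuity of `r'` on `Y`: each term is continuous on `Y` (on the open set
  `thickening (ε S) S \ S` the sign of `φ` is locally constant; off `cthickening (2 ε S/3) S` the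
  term vanishes), the family of supports is locally finite.
* `t3_cover_raw`: members `N S` (`S ∈ 𝒮`) and `C \ ⋃ Z S`, `C` a connected component of
  `Ω j = {x ∈ Y | j - 3/4 < r' x < j + 3/4}`, `j ∈ ℤ` (index type: pairs `(j, C)`).  Open: `X` is
  locally connected.  Cover: clear.  Multiplicity: a point of `N S \ Z S` has `r' = ` integer, so it
  lies in exactly one `Ω j`, hence in one `C`, and in no other `N S'`; a point of `Z S` lies only in
  `N S`; any other point lies in at most two `Ω j`.  Diameter: `C` is connected in `Y` and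
  `j - 5/4 - β < r < j + 5/4 + β` on it: `hslab` with `l = j - 5/4 - β`.
-/

set_option autoImplicit false
open Set Topology

namespace Claimed.Agent.R315

/-- local finiteness is free. -/
theorem t3_refine {X : Type} [MetricSpace X] (d : X → X → ℝ) (D : ℝ) (k : ℕ) {J : Type}
    (U : J → Set X) (hU : ∀ j, IsOpen (U j)) (hcov : ∀ x, ∃ j, x ∈ U j)
    (hmult : ∀ x, ∀ s : Finset J, (∀ j ∈ s, x ∈ U j) → s.card ≤ k)
    (hdiam : ∀ j, ∀ x ∈ U j, ∀ y ∈ U j, d x y ≤ D) :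
    ∃ U' : J → Set X, (∀ j, IsOpen (U' j)) ∧ (∀ x, ∃ j, x ∈ U' j) ∧ LocallyFinite U' ∧
      (∀ x, ∀ s : Finset J, (∀ j ∈ s, x ∈ U' j) → s.card ≤ k) ∧
      ∀ j, ∀ x ∈ U' j, ∀ y ∈ U' j, d x y ≤ D := by
  obtain ⟨v, hv, hvc, hvl, hvs⟩ := precise_refinement U hU
    (by ext x; simpa using hcov x)
  refine ⟨v, hv, ?_, hvl, ?_, ?_⟩
  · intro x
    have : x ∈ ⋃ i, v i := hvc ▸ mem_univ x
    exact mem_iUnion.mp this
  · intro x s hs
    exact hmult x s fun j hj => hvs j (hs j hj)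
  · intro j x hx y hy
    exact hdiam j x (hvs j hx) y (hvs j hy)

/-- the union of the other members of a locally finite family of compact sets is closed. -/
theorem t3c_isClosed_others {X : Type} [MetricSpace X] (𝒮 : Set (Set X))
    (hc : ∀ S ∈ 𝒮, IsCompact S) (hlf : LocallyFinite (fun S : 𝒮 => (S : Set X))) (S : Set X) :
    IsClosed (⋃ S' : {T : 𝒮 // (T : Set X) ≠ S}, ((S' : 𝒮) : Set X)) := by
  have h1 : LocallyFinite (fun S' : {T : 𝒮 // (T : Set X) ≠ S} => ((S' : 𝒮) : Set X)) :=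
    hlf.comp_injective Subtype.val_injective
  exact h1.isClosed_iUnion fun S' => (hc _ S'.1.2).isClosed

/-- a positive lower bound for the distance from `S` to the other members. -/
theorem t3c_sep {X : Type} [MetricSpace X] (𝒮 : Set (Set X))
    (hc : ∀ S ∈ 𝒮, IsCompact S) (hdis : 𝒮.PairwiseDisjoint id)
    (hlf : LocallyFinite (fun S : 𝒮 => (S : Set X))) {S : Set X} (hS : S ∈ 𝒮) :
    ∃ e : ℝ, 0 < e ∧ ∀ S' ∈ 𝒮, S' ≠ S → ∀ x ∈ S, ∀ y ∈ S', e ≤ dist x y := by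
  have hcl := t3c_isClosed_others 𝒮 hc hlf S
  have hd : Disjoint S (⋃ S' : {T : 𝒮 // (T : Set X) ≠ S}, ((S' : 𝒮) : Set X)) := by
    rw [Set.disjoint_iUnion_right]
    intro S'
    exact hdis hS S'.1.2 (Ne.symm S'.2)
  obtain ⟨e, he, hde⟩ := hd.exists_thickenings (hc S hS) hcl
  refine ⟨e, he, fun S' hS' hne x hx y hy => ?_⟩
  by_contra hlt
  push Not at hlt
  have h1 : y ∈ Metric.thickening e S := by
    rw [Metric.mem_thickening_iff]
    exact ⟨x, hx, by rwa [dist_comm]⟩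
  have h2 : y ∈ Metric.thickening e (⋃ S' : {T : 𝒮 // (T : Set X) ≠ S}, ((S' : 𝒮) : Set X)) :=
    Metric.self_subset_thickening he _ (mem_iUnion.2 ⟨⟨⟨S', hS'⟩, hne⟩, hy⟩)
  exact Set.disjoint_left.1 hde h1 h2

/-- disjoint, locally finite closed thickenings inside prescribed neighbourhoods. -/
theorem t3_expand {X : Type} [MetricSpace X] [ProperSpace X] (𝒮 : Set (Set X))
    (hc : ∀ S ∈ 𝒮, IsCompact S) (hne : ∀ S ∈ 𝒮, S.Nonempty) (hdis : 𝒮.PairwiseDisjoint id)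
    (hlf : LocallyFinite (fun S : 𝒮 => (S : Set X)))
    (W : Set X → Set X) (hW : ∀ S ∈ 𝒮, IsOpen (W S) ∧ S ⊆ W S) :
    ∃ ε : Set X → ℝ, (∀ S ∈ 𝒮, 0 < ε S ∧ Metric.cthickening (ε S) S ⊆ W S) ∧
      (∀ S ∈ 𝒮, ∀ S' ∈ 𝒮, S ≠ S' →
        Disjoint (Metric.cthickening (ε S) S) (Metric.cthickening (ε S') S')) ∧
      LocallyFinite (fun S : 𝒮 => Metric.cthickening (ε S) (S : Set X)) := by
  classical
  have h1 : ∀ S : Set X, ∃ ε : ℝ, S ∈ 𝒮 → (0 < ε ∧ ε ≤ 1 ∧ Metric.cthickening ε S ⊆ W S ∧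
      ∀ S' ∈ 𝒮, S' ≠ S → ∀ x ∈ S, ∀ y ∈ S', 3 * ε ≤ dist x y) := by
    intro S
    by_cases hS : S ∈ 𝒮
    · obtain ⟨e, he, hsep⟩ := t3c_sep 𝒮 hc hdis hlf hS
      obtain ⟨η, hη, hηW⟩ := (hc S hS).exists_cthickening_subset_open (hW S hS).1 (hW S hS).2
      refine ⟨min 1 (min (e / 3) η), fun _ => ⟨?_, min_le_left _ _, ?_, ?_⟩⟩
      · exact lt_min one_pos (lt_min (by positivity) hη)
      · exact (Metric.cthickening_mono ((min_le_right _ _).trans (min_le_right _ _)) S).trans hηW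
      · intro S' hS' hne' x hx y hy
        have h2 : min 1 (min (e / 3) η) ≤ e / 3 := (min_le_right _ _).trans (min_le_left _ _)
        have h3 := hsep S' hS' hne' x hx y hy
        linarith
    · exact ⟨0, fun h => absurd h hS⟩
  choose ε hε using h1
  have hmem : ∀ S ∈ 𝒮, ∀ z ∈ Metric.cthickening (ε S) S, ∃ x ∈ S, dist z x ≤ ε S := by
    intro S hS z hz
    rw [(hc S hS).cthickening_eq_biUnion_closedBall (hε S hS).1.le] at hz
    simp only [mem_iUnion, Metric.mem_closedBall, exists_prop] at hz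
    exact hz
  refine ⟨ε, fun S hS => ⟨(hε S hS).1, (hε S hS).2.2.1⟩, ?_, ?_⟩
  · intro S hS S' hS' hne'
    rw [Set.disjoint_left]
    intro z hz hz'
    obtain ⟨x, hx, hzx⟩ := hmem S hS z hz
    obtain ⟨y, hy, hzy⟩ := hmem S' hS' z hz'
    have h2 := (hε S hS).2.2.2 S' hS' (Ne.symm hne') x hx y hy
    have h3 := (hε S' hS').2.2.2 S hS hne' y hy x hx
    have h4 : dist x y ≤ ε S + ε S' := by
      calc dist x y ≤ dist x z + dist z y := dist_triangle _ _ _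
        _ ≤ ε S + ε S' := add_le_add (by rwa [dist_comm]) hzy
    rw [dist_comm] at h3
    have := (hε S hS).1
    have := (hε S' hS').1
    linarith
  · intro x
    refine ⟨Metric.ball x 1, Metric.ball_mem_nhds x one_pos, ?_⟩
    refine (hlf.finite_nonempty_inter_compact (isCompact_closedBall x 2)).subset ?_
    rintro S ⟨z, hz, hzx⟩
    obtain ⟨y, hy, hzy⟩ := hmem S S.2 z hz
    refine ⟨y, hy, ?_⟩
    rw [Metric.mem_closedBall]
    rw [Metric.mem_ball] at hzx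
    have := (hε S S.2).2.1
    calc dist y x ≤ dist y z + dist z x := dist_triangle _ _ _
      _ ≤ 1 + 1 := add_le_add (by rw [dist_comm]; linarith) hzx.le
      _ = 2 := by norm_num

theorem t3c_mem_th {X : Type} [MetricSpace X] {S : Set X} (hne : S.Nonempty) {δ : ℝ} {x : X} :
    x ∈ Metric.thickening δ S ↔ Metric.infDist x S < δ := by
  rw [Metric.mem_thickening_iff, Metric.infDist_lt_iff hne]

theorem t3c_mem_cth {X : Type} [MetricSpace X] {S : Set X} (hS : IsCompact S) (hne : S.Nonempty)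
    {δ : ℝ} (hδ : 0 ≤ δ) {x : X} : x ∈ Metric.cthickening δ S ↔ Metric.infDist x S ≤ δ := by
  constructor
  · intro h
    rw [hS.cthickening_eq_biUnion_closedBall hδ] at h
    simp only [mem_iUnion, Metric.mem_closedBall, exists_prop] at h
    obtain ⟨y, hy, hxy⟩ := h
    exact (Metric.infDist_le_dist_of_mem hy).trans hxy
  · intro h
    obtain ⟨y, hy, hxy⟩ := hS.exists_infDist_eq_dist hne x
    exact Metric.mem_cthickening_of_dist_le x y δ S hy (hxy ▸ h)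

/-- a function of oscillation `≤ β` is within `β + 1/2` of an integer. -/
theorem t3c_round {X : Type} (r : X → ℝ) (β : ℝ) (A : Set X)
    (h : ∀ x ∈ A, ∀ y ∈ A, |r x - r y| ≤ β) : ∃ j : ℤ, ∀ x ∈ A, |r x - j| ≤ β + 1 / 2 := by
  by_cases hA : A.Nonempty
  · obtain ⟨x0, hx0⟩ := hA
    refine ⟨round (r x0), fun x hx => ?_⟩
    have h1 := h x hx x0 hx0
    have h2 := abs_sub_round (r x0)
    calc |r x - round (r x0)| = |(r x - r x0) + (r x0 - round (r x0))| := by ring_nf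
      _ ≤ |r x - r x0| + |r x0 - round (r x0)| := abs_add_le _ _
      _ ≤ β + 1 / 2 := add_le_add h1 h2
  · exact ⟨0, fun x hx => absurd ⟨x, hx⟩ hA⟩

/-- the local data at one cut surface: a tube `T` with the two integers `j^±`. -/
theorem t3c_local {X : Type} [MetricSpace X] (d : X → X → ℝ)
    (hcont : ∀ p, ∀ w > 0, ∃ W ∈ 𝓝 p, ∀ x ∈ W, d p x ≤ w)
    (𝒮 : Set (Set X)) (hS : ∀ S ∈ 𝒮, TSurf S) (hdis : 𝒮.PairwiseDisjoint id)
    (hlf : LocallyFinite (fun S : 𝒮 => (S : Set X))) (β : ℝ) (r : X → ℝ)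
    (hosc : ∀ S ∈ 𝒮, ∃ W, IsOpen W ∧ S ⊆ W ∧ ∀ A ⊆ W \ ⋃₀ 𝒮, IsPreconnected A →
      ∀ x ∈ A, ∀ y ∈ A, |r x - r y| ≤ β) {S : Set X} (hSm : S ∈ 𝒮) :
    ∃ (T O : Set X) (φ : X → ℝ) (jp jm : ℤ), IsOpen T ∧ S ⊆ T ∧ IsOpen O ∧ T ⊆ O ∧
      ContinuousOn φ O ∧ (∀ x ∈ T, φ x = 0 ↔ x ∈ S) ∧ (∀ S' ∈ 𝒮, S' ≠ S → Disjoint T S') ∧
      (∀ x ∈ T, ∃ p ∈ S, d p x ≤ 1) ∧
      (∀ x ∈ T, 0 < φ x → |r x - jp| ≤ β + 1 / 2) ∧ (∀ x ∈ T, φ x < 0 → |r x - jm| ≤ β + 1 / 2) := by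
  obtain ⟨-, hconn, O, φ, hw⟩ := hS S hSm
  obtain ⟨W₁, hW₁o, hSW₁, hoscW⟩ := hosc S hSm
  have hc : ∀ S ∈ 𝒮, IsCompact S := fun S h => (hS S h).1
  have hcl := t3c_isClosed_others 𝒮 hc hlf S
  obtain ⟨D, hD⟩ : ∃ D : Set X, D = ⋃ p ∈ S, interior {x | d p x ≤ 1} := ⟨_, rfl⟩
  have hDo : IsOpen D := by
    rw [hD]
    exact isOpen_biUnion fun _ _ => isOpen_interior
  have hSD : S ⊆ D := by
    intro p hp
    rw [hD]
    refine mem_biUnion hp ?_
    obtain ⟨W, hW, hWd⟩ := hcont p 1 one_pos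
    exact mem_interior_iff_mem_nhds.2 (Filter.mem_of_superset hW hWd)
  have hSC : S ⊆ (⋃ S' : {T : 𝒮 // (T : Set X) ≠ S}, ((S' : 𝒮) : Set X))ᶜ := by
    intro x hx hx'
    obtain ⟨S', hxS'⟩ := mem_iUnion.1 hx'
    exact Set.disjoint_left.1 (hdis hSm S'.1.2 (Ne.symm S'.2)) hx hxS'
  obtain ⟨T, hTo, hST, hTW, hTp, hTm⟩ := twall_tube hw hconn
    ((hW₁o.inter hDo).inter hcl.isOpen_compl) (fun x hx => ⟨⟨hSW₁ hx, hSD hx⟩, hSC hx⟩)
  have hTdis : ∀ S' ∈ 𝒮, S' ≠ S → Disjoint T S' := by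
    intro S' hS' hne
    rw [Set.disjoint_left]
    intro x hx hxS'
    exact (hTW hx).1.2 (mem_iUnion.2 ⟨⟨⟨S', hS'⟩, hne⟩, hxS'⟩)
  have hzero : ∀ x ∈ T, φ x = 0 ↔ x ∈ S := fun x hx => hw.zero x (hTW hx).2
  have hside : ∀ x ∈ T, φ x ≠ 0 → x ∈ W₁ \ ⋃₀ 𝒮 := by
    intro x hx hφ
    refine ⟨(hTW hx).1.1.1, ?_⟩
    rintro ⟨S', hS', hxS'⟩
    by_cases hne : S' = S
    · exact hφ ((hzero x hx).2 (hne ▸ hxS'))
    · exact Set.disjoint_left.1 (hTdis S' hS' hne) hx hxS'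
  obtain ⟨jp, hjp⟩ := t3c_round r β (T ∩ {x | 0 < φ x})
    (hoscW _ (fun x hx => hside x hx.1 (ne_of_gt hx.2)) hTp)
  obtain ⟨jm, hjm⟩ := t3c_round r β (T ∩ {x | φ x < 0})
    (hoscW _ (fun x hx => hside x hx.1 (ne_of_lt hx.2)) hTm)
  refine ⟨T, O, φ, jp, jm, hTo, hST, hw.opn, fun x hx => (hTW hx).2, hw.cont, hzero, hTdis, ?_,
    fun x hx h => hjp x ⟨hx, h⟩, fun x hx h => hjm x ⟨hx, h⟩⟩
  intro x hx
  have h1 : x ∈ D := (hTW hx).1.1.2
  rw [hD] at h1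
  simp only [mem_iUnion, exists_prop] at h1
  obtain ⟨p, hp, hxp⟩ := h1
  have h2 : x ∈ {x | d p x ≤ 1} := interior_subset hxp
  exact ⟨p, hp, h2⟩

/-- the radial function made locally constant (integer valued) near the cut surfaces. -/
theorem t3_flatten {X : Type} [MetricSpace X] [ProperSpace X] [LocallyConnectedSpace X]
    (d : X → X → ℝ) (hsymm : ∀ x y, d x y = d y x) (htri : ∀ x y z, d x z ≤ d x y + d y z)
    (hcont : ∀ p, ∀ w > 0, ∃ W ∈ 𝓝 p, ∀ x ∈ W, d p x ≤ w)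
    (𝒮 : Set (Set X)) (hS : ∀ S ∈ 𝒮, TSurf S) (hdis : 𝒮.PairwiseDisjoint id)
    (hlf : LocallyFinite (fun S : 𝒮 => (S : Set X)))
    (δ₀ β : ℝ) (hβ : 0 ≤ β) (hdiam : ∀ S ∈ 𝒮, ∀ x ∈ S, ∀ y ∈ S, d x y ≤ δ₀)
    (r : X → ℝ) (hr : ContinuousOn r (⋃₀ 𝒮)ᶜ)
    (hosc : ∀ S ∈ 𝒮, ∃ W, IsOpen W ∧ S ⊆ W ∧ ∀ A ⊆ W \ ⋃₀ 𝒮, IsPreconnected A →
      ∀ x ∈ A, ∀ y ∈ A, |r x - r y| ≤ β) :
    ∃ (r' : X → ℝ) (N Z : Set X → Set X), ContinuousOn r' (⋃₀ 𝒮)ᶜ ∧
      (∀ x ∈ (⋃₀ 𝒮)ᶜ, |r' x - r x| ≤ β + 1 / 2) ∧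
      (∀ S ∈ 𝒮, IsOpen (N S) ∧ S ⊆ Z S ∧ Z S ⊆ N S ∧ N S ∩ ⋃₀ 𝒮 ⊆ S) ∧
      (∀ S ∈ 𝒮, ∀ S' ∈ 𝒮, S ≠ S' → Disjoint (N S) (N S')) ∧
      IsClosed (⋃ S ∈ 𝒮, Z S) ∧
      (∀ S ∈ 𝒮, ∀ x ∈ N S \ S, ∃ j : ℤ, r' x = j) ∧
      (∀ S ∈ 𝒮, ∀ x ∈ N S, ∀ y ∈ N S, d x y ≤ δ₀ + 2) := by
  classical
  have hc : ∀ S ∈ 𝒮, IsCompact S := fun S h => (hS S h).1
  have hne : ∀ S ∈ 𝒮, S.Nonempty := fun S h => (hS S h).2.1.nonempty
  have hYo : IsOpen (⋃₀ 𝒮)ᶜ := by
    have := hlf.isClosed_iUnion (fun S => (hc _ S.2).isClosed)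
    rw [← Set.sUnion_eq_iUnion] at this
    exact this.isOpen_compl
  -- the local data
  have hloc : ∀ S : Set X, ∃ (T O : Set X) (φ : X → ℝ) (jp jm : ℤ), S ∈ 𝒮 → (IsOpen T ∧ S ⊆ T ∧
      IsOpen O ∧ T ⊆ O ∧ ContinuousOn φ O ∧ (∀ x ∈ T, φ x = 0 ↔ x ∈ S) ∧
      (∀ S' ∈ 𝒮, S' ≠ S → Disjoint T S') ∧ (∀ x ∈ T, ∃ p ∈ S, d p x ≤ 1) ∧
      (∀ x ∈ T, 0 < φ x → |r x - jp| ≤ β + 1 / 2) ∧
      (∀ x ∈ T, φ x < 0 → |r x - jm| ≤ β + 1 / 2)) := by
    intro S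
    by_cases hSm : S ∈ 𝒮
    · obtain ⟨T, O, φ, jp, jm, h⟩ := t3c_local d hcont 𝒮 hS hdis hlf β r hosc hSm
      exact ⟨T, O, φ, jp, jm, fun _ => h⟩
    · exact ⟨∅, ∅, 0, 0, 0, fun h => absurd h hSm⟩
  choose T O φ jp jm hT using hloc
  obtain ⟨ε, hε, hεd, hεl⟩ := t3_expand 𝒮 hc hne hdis hlf T
    (fun S h => ⟨(hT S h).1, (hT S h).2.1⟩)
  -- the cut-off functions
  obtain ⟨χ, hχ⟩ : ∃ χ : Set X → X → ℝ, ∀ S x,
      χ S x = max 0 (min 1 (2 - 3 * Metric.infDist x S / ε S)) := ⟨_, fun _ _ => rfl⟩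
  have hχ0 : ∀ S x, 0 ≤ χ S x := fun S x => by rw [hχ]; exact le_max_left _ _
  have hχ1 : ∀ S x, χ S x ≤ 1 := fun S x => by
    rw [hχ]; exact max_le zero_le_one (min_le_left _ _)
  have hχc : ∀ S, Continuous (χ S) := by
    intro S
    have : χ S = fun x => max 0 (min 1 (2 - 3 * Metric.infDist x S / ε S)) := funext (hχ S)
    rw [this]
    exact continuous_const.max (continuous_const.min (continuous_const.sub
      ((continuous_const.mul (Metric.continuous_infDist_pt S)).div_const _)))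
  have hχone : ∀ S ∈ 𝒮, ∀ x, Metric.infDist x S ≤ ε S / 3 → χ S x = 1 := by
    intro S hSm x hx
    have he := (hε S hSm).1
    have h1 : 3 * Metric.infDist x S / ε S ≤ 1 := by
      rw [div_le_one he]; linarith
    rw [hχ, min_eq_left (by linarith), max_eq_right zero_le_one]
  have hχzero : ∀ S ∈ 𝒮, ∀ x, 2 * ε S / 3 ≤ Metric.infDist x S → χ S x = 0 := by
    intro S hSm x hx
    have he := (hε S hSm).1
    have h1 : 2 ≤ 3 * Metric.infDist x S / ε S := by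
      rw [le_div_iff₀ he]; linarith
    rw [hχ, max_eq_left]
    exact (min_le_right _ _).trans (by linarith)
  obtain ⟨jj, hjj⟩ : ∃ jj : Set X → X → ℝ, ∀ S x,
      jj S x = if 0 < φ S x then (jp S : ℝ) else (jm S : ℝ) := ⟨_, fun _ _ => rfl⟩
  -- the new function
  obtain ⟨r', hr'1, hr'2⟩ : ∃ r' : X → ℝ,
      (∀ S ∈ 𝒮, ∀ x ∈ Metric.cthickening (ε S) S, r' x = r x + χ S x * (jj S x - r x)) ∧
      (∀ x, (∀ S ∈ 𝒮, x ∉ Metric.cthickening (ε S) S) → r' x = r x) := by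
    refine ⟨fun x => if h : ∃ S, S ∈ 𝒮 ∧ x ∈ Metric.cthickening (ε S) S then
      r x + χ h.choose x * (jj h.choose x - r x) else r x, ?_, ?_⟩
    · intro S hSm x hx
      have h : ∃ S, S ∈ 𝒮 ∧ x ∈ Metric.cthickening (ε S) S := ⟨S, hSm, hx⟩
      have e : h.choose = S := by
        by_contra hne'
        exact Set.disjoint_left.1 (hεd _ h.choose_spec.1 S hSm hne') h.choose_spec.2 hx
      simp only [dif_pos h, e]
    · intro x hx
      have h : ¬ ∃ S, S ∈ 𝒮 ∧ x ∈ Metric.cthickening (ε S) S := by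
        rintro ⟨S, hSm, hxS⟩
        exact hx S hSm hxS
      simp only [dif_neg h]
  -- points of the closed thickening off `S`
  have hoff : ∀ S ∈ 𝒮, ∀ x ∈ Metric.cthickening (ε S) S, x ∉ S → |jj S x - r x| ≤ β + 1 / 2 := by
    intro S hSm x hx hxS
    have hxT : x ∈ T S := (hε S hSm).2 hx
    have hφ : φ S x ≠ 0 := fun h0 => hxS (((hT S hSm).2.2.2.2.2.1 x hxT).1 h0)
    rw [hjj, abs_sub_comm]
    rcases lt_or_gt_of_ne hφ with h | h
    · rw [if_neg (not_lt.2 h.le)]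
      exact (hT S hSm).2.2.2.2.2.2.2.2.2 x hxT h
    · rw [if_pos h]
      exact (hT S hSm).2.2.2.2.2.2.2.2.1 x hxT h
  have hsubN : ∀ S ∈ 𝒮, Metric.thickening (ε S / 3) S ⊆ Metric.cthickening (ε S) S := by
    intro S hSm
    have he := (hε S hSm).1
    exact (Metric.thickening_subset_cthickening _ _).trans (Metric.cthickening_mono (by linarith) S)
  refine ⟨r', fun S => Metric.thickening (ε S / 3) S, fun S => Metric.cthickening (ε S / 6) S,
    ?_, ?_, ?_, ?_, ?_, ?_, ?_⟩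
  · -- continuity
    intro x hx
    refine ContinuousAt.continuousWithinAt ?_
    have hrx : ContinuousAt r x := hr.continuousAt (hYo.mem_nhds hx)
    by_cases hcase : ∃ S ∈ 𝒮, Metric.infDist x S < ε S
    · obtain ⟨S, hSm, hxS⟩ := hcase
      have he := (hε S hSm).1
      have hxth : x ∈ Metric.thickening (ε S) S := (t3c_mem_th (hne S hSm)).2 hxS
      have hxT : x ∈ T S := (hε S hSm).2 (Metric.thickening_subset_cthickening _ _ hxth)
      have hxnS : x ∉ S := fun h => hx ⟨S, hSm, h⟩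
      have hφ : φ S x ≠ 0 := fun h0 => hxnS (((hT S hSm).2.2.2.2.2.1 x hxT).1 h0)
      have hxO : x ∈ O S := (hT S hSm).2.2.2.1 hxT
      rcases lt_or_gt_of_ne hφ with h | h
      · have hV : Metric.thickening (ε S) S ∩ (O S ∩ φ S ⁻¹' Iio 0) ∈ 𝓝 x :=
          (Metric.isOpen_thickening.inter
            ((hT S hSm).2.2.2.2.1.isOpen_inter_preimage (hT S hSm).2.2.1 isOpen_Iio)).mem_nhds
            ⟨hxth, hxO, h⟩
        have hg : ContinuousAt (fun y => r y + χ S y * ((jm S : ℝ) - r y)) x :=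
          hrx.add ((hχc S).continuousAt.mul (continuousAt_const.sub hrx))
        refine hg.congr (Filter.eventuallyEq_of_mem hV fun y hy => ?_)
        have hy0 : φ S y < 0 := hy.2.2
        rw [hr'1 S hSm y (Metric.thickening_subset_cthickening _ _ hy.1), hjj,
          if_neg (not_lt.2 hy0.le)]
      · have hV : Metric.thickening (ε S) S ∩ (O S ∩ φ S ⁻¹' Ioi 0) ∈ 𝓝 x :=
          (Metric.isOpen_thickening.inter
            ((hT S hSm).2.2.2.2.1.isOpen_inter_preimage (hT S hSm).2.2.1 isOpen_Ioi)).mem_nhds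
            ⟨hxth, hxO, h⟩
        have hg : ContinuousAt (fun y => r y + χ S y * ((jp S : ℝ) - r y)) x :=
          hrx.add ((hχc S).continuousAt.mul (continuousAt_const.sub hrx))
        refine hg.congr (Filter.eventuallyEq_of_mem hV fun y hy => ?_)
        have hy0 : 0 < φ S y := hy.2.2
        rw [hr'1 S hSm y (Metric.thickening_subset_cthickening _ _ hy.1), hjj, if_pos hy0]
    · push Not at hcase
      have hFl : LocallyFinite (fun S : 𝒮 => Metric.cthickening (2 * ε S / 3) (S : Set X)) :=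
        hεl.subset fun S => Metric.cthickening_mono (by have := (hε S S.2).1; linarith) _
      have hFc : IsClosed (⋃ S : 𝒮, Metric.cthickening (2 * ε S / 3) (S : Set X)) :=
        hFl.isClosed_iUnion fun S => Metric.isClosed_cthickening
      have hxF : x ∈ (⋃ S : 𝒮, Metric.cthickening (2 * ε S / 3) (S : Set X))ᶜ := by
        intro hxF
        obtain ⟨S, hxS⟩ := mem_iUnion.1 hxF
        have he := (hε S S.2).1
        have h1 := (t3c_mem_cth (hc S S.2) (hne S S.2) (by linarith)).1 hxS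
        have h2 := hcase S S.2
        linarith
      refine hrx.congr (Filter.eventuallyEq_of_mem (hFc.isOpen_compl.mem_nhds hxF) fun y hy => ?_)
      by_cases hy' : ∃ S ∈ 𝒮, y ∈ Metric.cthickening (ε S) S
      · obtain ⟨S, hSm, hyS⟩ := hy'
        have he := (hε S hSm).1
        have h1 : 2 * ε S / 3 ≤ Metric.infDist y S := by
          by_contra hlt
          push Not at hlt
          exact hy (mem_iUnion.2 ⟨⟨S, hSm⟩,
            (t3c_mem_cth (hc S hSm) (hne S hSm) (by linarith)).2 hlt.le⟩)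
        rw [hr'1 S hSm y hyS, hχzero S hSm y h1, zero_mul, add_zero]
      · push Not at hy'
        rw [hr'2 y hy']
  · -- closeness
    intro x hx
    by_cases hx' : ∃ S ∈ 𝒮, x ∈ Metric.cthickening (ε S) S
    · obtain ⟨S, hSm, hxS⟩ := hx'
      have hxnS : x ∉ S := fun h => hx ⟨S, hSm, h⟩
      have h1 := hoff S hSm x hxS hxnS
      rw [hr'1 S hSm x hxS, add_sub_cancel_left, abs_mul, abs_of_nonneg (hχ0 S x)]
      calc χ S x * |jj S x - r x| ≤ 1 * |jj S x - r x| :=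
            mul_le_mul_of_nonneg_right (hχ1 S x) (abs_nonneg _)
        _ ≤ β + 1 / 2 := by rw [one_mul]; exact h1
    · push Not at hx'
      rw [hr'2 x hx', sub_self, abs_zero]
      linarith
  · -- the sets `N`, `Z`
    intro S hSm
    have he := (hε S hSm).1
    refine ⟨Metric.isOpen_thickening, Metric.self_subset_cthickening S,
      Metric.cthickening_subset_thickening' (by linarith) (by linarith) S, ?_⟩
    rintro x ⟨hxN, S', hS', hxS'⟩
    by_contra hxS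
    have hne' : S' ≠ S := fun h => hxS (h ▸ hxS')
    exact Set.disjoint_left.1 ((hT S hSm).2.2.2.2.2.2.1 S' hS' hne')
      ((hε S hSm).2 (hsubN S hSm hxN)) hxS'
  · intro S hSm S' hS' hne'
    exact (hεd S hSm S' hS' hne').mono (hsubN S hSm) (hsubN S' hS')
  · have hZl : LocallyFinite (fun S : 𝒮 => Metric.cthickening (ε S / 6) (S : Set X)) :=
      hεl.subset fun S => Metric.cthickening_mono (by have := (hε S S.2).1; linarith) _
    have := hZl.isClosed_iUnion fun S => Metric.isClosed_cthickening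
    rwa [← Set.biUnion_eq_iUnion 𝒮 (fun S _ => Metric.cthickening (ε S / 6) S)] at this
  · rintro S hSm x ⟨hxN, hxS⟩
    have h1 : Metric.infDist x S ≤ ε S / 3 := ((t3c_mem_th (hne S hSm)).1 hxN).le
    rw [hr'1 S hSm x (hsubN S hSm hxN), hχone S hSm x h1, one_mul, add_sub_cancel, hjj]
    by_cases h : 0 < φ S x
    · exact ⟨jp S, by rw [if_pos h]⟩
    · exact ⟨jm S, by rw [if_neg h]⟩
  · intro S hSm x hx y hy
    obtain ⟨p, hp, hpx⟩ := (hT S hSm).2.2.2.2.2.2.2.1 x ((hε S hSm).2 (hsubN S hSm hx))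
    obtain ⟨q, hq, hqy⟩ := (hT S hSm).2.2.2.2.2.2.2.1 y ((hε S hSm).2 (hsubN S hSm hy))
    have h1 := htri x p y
    have h2 := htri p q y
    have h3 := hdiam S hSm p hp q hq
    rw [hsymm x p] at h1
    linarith

/-- the integers in an open interval of length `3/2`. -/
theorem t3c_two_int (t : ℝ) (j : ℤ) (h1 : (j : ℝ) - 3 / 4 < t) (h2 : t < j + 3 / 4) :
    j = ⌊t - 3 / 4⌋ + 1 ∨ j = ⌊t - 3 / 4⌋ + 1 + 1 := by
  have a1 : (⌊t - 3 / 4⌋ : ℝ) ≤ t - 3 / 4 := Int.floor_le _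
  have a2 : t - 3 / 4 < ⌊t - 3 / 4⌋ + 1 := Int.lt_floor_add_one _
  have b1 : (⌊t - 3 / 4⌋ : ℝ) < j := by linarith
  have b2 : (j : ℝ) < ⌊t - 3 / 4⌋ + 3 := by linarith
  have c1 : ⌊t - 3 / 4⌋ < j := by exact_mod_cast b1
  have c2 : j < ⌊t - 3 / 4⌋ + 3 := by exact_mod_cast b2
  omega

/-- the cover before refinement. -/
theorem t3_cover_raw {X : Type} [MetricSpace X] [ProperSpace X] [LocallyConnectedSpace X]
    (d : X → X → ℝ) (hsymm : ∀ x y, d x y = d y x) (htri : ∀ x y z, d x z ≤ d x y + d y z)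
    (hcont : ∀ p, ∀ w > 0, ∃ W ∈ 𝓝 p, ∀ x ∈ W, d p x ≤ w)
    (𝒮 : Set (Set X)) (hS : ∀ S ∈ 𝒮, TSurf S) (hdis : 𝒮.PairwiseDisjoint id)
    (hlf : LocallyFinite (fun S : 𝒮 => (S : Set X)))
    (δ₀ β D₀ : ℝ) (hβ : 0 ≤ β) (hdiam : ∀ S ∈ 𝒮, ∀ x ∈ S, ∀ y ∈ S, d x y ≤ δ₀)
    (r : X → ℝ) (hr : ContinuousOn r (⋃₀ 𝒮)ᶜ)
    (hosc : ∀ S ∈ 𝒮, ∃ W, IsOpen W ∧ S ⊆ W ∧ ∀ A ⊆ W \ ⋃₀ 𝒮, IsPreconnected A →
      ∀ x ∈ A, ∀ y ∈ A, |r x - r y| ≤ β)
    (hslab : ∀ l : ℝ, ∀ C ⊆ (⋃₀ 𝒮)ᶜ, IsPreconnected C →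
      (∀ x ∈ C, l < r x ∧ r x < l + (2 * β + 4)) → ∀ x ∈ C, ∀ y ∈ C, d x y ≤ D₀) :
    ∃ (J : Type) (U : J → Set X), (∀ j, IsOpen (U j)) ∧ (∀ x, ∃ j, x ∈ U j) ∧
      (∀ x, ∀ s : Finset J, (∀ j ∈ s, x ∈ U j) → s.card ≤ 2) ∧
      ∀ j, ∀ x ∈ U j, ∀ y ∈ U j, d x y ≤ max D₀ (δ₀ + 2) := by
  classical
  obtain ⟨r', N, Z, hr'c, hr'r, hNZ, hNd, hZc, hint, hNdiam⟩ :=
    t3_flatten d hsymm htri hcont 𝒮 hS hdis hlf δ₀ β hβ hdiam r hr hosc
  have hYo : IsOpen (⋃₀ 𝒮)ᶜ := by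
    have := hlf.isClosed_iUnion (fun S => (hS _ S.2).1.isClosed)
    rw [← Set.sUnion_eq_iUnion] at this
    exact this.isOpen_compl
  obtain ⟨Ω, hΩ⟩ : ∃ Ω : ℤ → Set X, ∀ j,
      Ω j = (⋃₀ 𝒮)ᶜ ∩ r' ⁻¹' Ioo ((j : ℝ) - 3 / 4) (j + 3 / 4) := ⟨_, fun _ => rfl⟩
  have hΩo : ∀ j, IsOpen (Ω j) := fun j => by
    rw [hΩ]; exact hr'c.isOpen_inter_preimage hYo isOpen_Ioo
  have hΩY : ∀ j, Ω j ⊆ (⋃₀ 𝒮)ᶜ := fun j => by rw [hΩ]; exact inter_subset_left
  have hΩr : ∀ j, ∀ x ∈ Ω j, (j : ℝ) - 3 / 4 < r' x ∧ r' x < j + 3 / 4 := fun j x hx => by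
    rw [hΩ] at hx; exact hx.2
  refine ⟨𝒮 ⊕ {p : ℤ × Set X // ∃ x ∈ Ω p.1, p.2 = connectedComponentIn (Ω p.1) x},
    Sum.elim (fun S => N S) (fun p => p.1.2 \ ⋃ S ∈ 𝒮, Z S), ?_, ?_, ?_, ?_⟩
  · rintro (S | ⟨⟨j, C⟩, x, hx, hC⟩)
    · exact (hNZ S S.2).1
    · simp only [Sum.elim_inr]
      simp only at hC
      rw [hC]
      exact (hΩo j).connectedComponentIn.sdiff hZc
  · intro x
    by_cases hx : x ∈ ⋃ S ∈ 𝒮, Z S
    · simp only [mem_iUnion, exists_prop] at hx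
      obtain ⟨S, hSm, hxZ⟩ := hx
      exact ⟨Sum.inl ⟨S, hSm⟩, (hNZ S hSm).2.2.1 hxZ⟩
    · have hxY : x ∈ (⋃₀ 𝒮)ᶜ := by
        rintro ⟨S, hSm, hxS⟩
        exact hx (mem_biUnion hSm ((hNZ S hSm).2.1 hxS))
      have h1 := abs_sub_round (r' x)
      rw [abs_le] at h1
      have hxΩ : x ∈ Ω (round (r' x)) := by
        rw [hΩ]
        exact ⟨hxY, by constructor <;> linarith [h1.1, h1.2]⟩
      exact ⟨Sum.inr ⟨(round (r' x), connectedComponentIn (Ω (round (r' x))) x), x, hxΩ, rfl⟩,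
        mem_connectedComponentIn hxΩ, hx⟩
  · intro x s hs
    -- the key of an index
    obtain ⟨f, hf⟩ : ∃ f : 𝒮 ⊕ {p : ℤ × Set X // ∃ x ∈ Ω p.1, p.2 = connectedComponentIn (Ω p.1) x} →
        Option ℤ, f = Sum.elim (fun _ => none) (fun p => some p.1.1) := ⟨_, rfl⟩
    have hinj : Set.InjOn f (s : Set _) := by
      rintro (S | ⟨⟨j, C⟩, y, hy, hC⟩) ha (S' | ⟨⟨j', C'⟩, y', hy', hC'⟩) hb hab
      · have h1 : x ∈ N S := hs _ ha
        have h2 : x ∈ N S' := hs _ hb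
        by_contra hne
        have hne' : (S : Set X) ≠ S' := fun h => hne (congrArg Sum.inl (Subtype.ext h))
        exact Set.disjoint_left.1 (hNd S S.2 S' S'.2 hne') h1 h2
      · rw [hf] at hab
        simp at hab
      · rw [hf] at hab
        simp at hab
      · rw [hf] at hab
        simp only [Sum.elim_inr, Option.some.injEq] at hab
        subst hab
        have h1 : x ∈ C := (hs _ ha).1
        have h2 : x ∈ C' := (hs _ hb).1
        simp only at hC hC'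
        have e1 : C = connectedComponentIn (Ω j) x := by
          rw [hC] at h1 ⊢
          exact connectedComponentIn_eq h1
        have e2 : C' = connectedComponentIn (Ω j) x := by
          rw [hC'] at h2 ⊢
          exact connectedComponentIn_eq h2
        have e3 : C = C' := e1.trans e2.symm
        subst e3
        rfl
    have hmemΩ : ∀ p : {p : ℤ × Set X // ∃ x ∈ Ω p.1, p.2 = connectedComponentIn (Ω p.1) x},
        x ∈ p.1.2 → x ∈ Ω p.1.1 := by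
      rintro ⟨⟨j, C⟩, y, hy, hC⟩ hx
      simp only at hC hx ⊢
      rw [hC] at hx
      exact connectedComponentIn_subset _ _ hx
    by_cases hx : ∃ S ∈ 𝒮, x ∈ N S
    · obtain ⟨S₀, hS₀, hxN⟩ := hx
      obtain ⟨j₀, hj₀⟩ : ∃ j₀ : ℤ, x ∉ S₀ → r' x = j₀ := by
        by_cases hxS : x ∈ S₀
        · exact ⟨0, fun h => absurd hxS h⟩
        · obtain ⟨j, hj⟩ := hint S₀ hS₀ x ⟨hxN, hxS⟩
          exact ⟨j, fun _ => hj⟩
      refine (Finset.card_le_card_of_injOn (t := {none, some j₀}) f ?_ hinj).trans Finset.card_le_two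
      rintro (S | p) ha
      · rw [hf]; simp
      · have h1 : x ∈ Ω p.1.1 := hmemΩ p (hs _ ha).1
        have h2 : x ∉ S₀ := fun h => hΩY _ h1 ⟨S₀, hS₀, h⟩
        have h3 := hΩr _ x h1
        rw [hj₀ h2] at h3
        have c1 : p.1.1 - 1 < j₀ := by
          have : ((p.1.1 : ℝ) - 1) < j₀ := by linarith [h3.1]
          exact_mod_cast this
        have c2 : j₀ < p.1.1 + 1 := by
          have : (j₀ : ℝ) < p.1.1 + 1 := by linarith [h3.2]
          exact_mod_cast this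
        have c3 : p.1.1 = j₀ := by omega
        rw [hf]
        simp [c3]
    · push Not at hx
      refine (Finset.card_le_card_of_injOn
        (t := {some (⌊r' x - 3 / 4⌋ + 1), some (⌊r' x - 3 / 4⌋ + 1 + 1)}) f ?_ hinj).trans
        Finset.card_le_two
      rintro (S | p) ha
      · exact absurd (hs _ ha) (hx S S.2)
      · have h1 : x ∈ Ω p.1.1 := hmemΩ p (hs _ ha).1
        have h3 := hΩr _ x h1
        rw [hf]
        rcases t3c_two_int (r' x) p.1.1 h3.1 h3.2 with h | h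
        · simp [← h]
        · simp [← h]
  · rintro (S | ⟨⟨j, C⟩, x0, hx0, hC⟩) x hx y hy
    · exact (hNdiam S S.2 x hx y hy).trans (le_max_right _ _)
    · refine le_trans ?_ (le_max_left _ _)
      simp only at hC
      have hCΩ : C ⊆ Ω j := by rw [hC]; exact connectedComponentIn_subset _ _
      refine hslab ((j : ℝ) - 5 / 4 - β) C (hCΩ.trans (hΩY j))
        (by rw [hC]; exact isPreconnected_connectedComponentIn) ?_ x hx.1 y hy.1
      intro z hz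
      have h1 := hΩr j z (hCΩ hz)
      have h2 := hr'r z (hΩY j (hCΩ hz))
      rw [abs_le] at h2
      constructor <;> linarith [h1.1, h1.2, h2.1, h2.2]

/-- **The cover** (T Sections 5-6). -/
theorem t3_cover_abs {X : Type} [MetricSpace X] [ProperSpace X] [LocallyConnectedSpace X]
    (d : X → X → ℝ) (hsymm : ∀ x y, d x y = d y x) (htri : ∀ x y z, d x z ≤ d x y + d y z)
    (hcont : ∀ p, ∀ w > 0, ∃ W ∈ 𝓝 p, ∀ x ∈ W, d p x ≤ w)
    (𝒮 : Set (Set X)) (hS : ∀ S ∈ 𝒮, TSurf S) (hdis : 𝒮.PairwiseDisjoint id)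
    (hlf : LocallyFinite (fun S : 𝒮 => (S : Set X)))
    (δ₀ β D₀ : ℝ) (hβ : 0 ≤ β) (hdiam : ∀ S ∈ 𝒮, ∀ x ∈ S, ∀ y ∈ S, d x y ≤ δ₀)
    (r : X → ℝ) (hr : ContinuousOn r (⋃₀ 𝒮)ᶜ)
    (hosc : ∀ S ∈ 𝒮, ∃ W, IsOpen W ∧ S ⊆ W ∧ ∀ A ⊆ W \ ⋃₀ 𝒮, IsPreconnected A →
      ∀ x ∈ A, ∀ y ∈ A, |r x - r y| ≤ β)
    (hslab : ∀ l : ℝ, ∀ C ⊆ (⋃₀ 𝒮)ᶜ, IsPreconnected C →
      (∀ x ∈ C, l < r x ∧ r x < l + (2 * β + 4)) → ∀ x ∈ C, ∀ y ∈ C, d x y ≤ D₀) :
    ∃ (J : Type) (U : J → Set X), (∀ j, IsOpen (U j)) ∧ (∀ x, ∃ j, x ∈ U j) ∧ LocallyFinite U ∧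
      (∀ x, ∀ s : Finset J, (∀ j ∈ s, x ∈ U j) → s.card ≤ 2) ∧
      ∀ j, ∀ x ∈ U j, ∀ y ∈ U j, d x y ≤ max D₀ (δ₀ + 2) := by
  obtain ⟨J, U, h1, h2, h3, h4⟩ := t3_cover_raw d hsymm htri hcont 𝒮 hS hdis hlf δ₀ β D₀ hβ hdiam r hr
    hosc hslab
  exact ⟨J, t3_refine d _ 2 U h1 h2 h3 h4⟩

end Claimed.Agent.R315
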