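-- KEEP
import Claimed.Agent.R315.T3.Wall

/-!
# Row 315, paper T (n = 3), package T3-Fin: finiteness of jointly non-separating families

Replaces the homological argument of T Section 3.1 (`dim H_2(Y; Z/2) < ∞`, intersection pairing).
PURE TOPOLOGY, imports Mathlib only (+ `T3/Wall.lean`).

`TLift U`: every continuous map `U → ℝ/ℤ` has a continuous real lift (chart balls of a manifold have
this property: `T3/Geo.lean`).

EXPORT `t3_fin_abs`: in a locally compact, locally connected Hausdorff space in which every point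
has arbitrarily small `TLift` neighbourhoods, for every compact `K` there is `n` such that every
family of `k` pairwise disjoint `TSurf`s contained in `K` whose union does not disconnect the space
has `k ≤ n`.

PROOF.
0. Fix a compact neighbourhood `K₁` of `K`, open `TLift` sets `W_1 … W_N` covering `K₁`, open
   `W'_a` with compact closure `cl W'_a ⊆ W_a` still covering `K₁` (shrinking in a locally compact
   Hausdorff space: cover `K₁` by open sets with compact closure inside some `W_a`, finite subcover,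
   group), `W_0 = (K₂)ᶜ`, `W'_0 = K₁'ᶜ` with `K ⊆ int K₂ ⊆ K₂ ⊆ int K₁' ⊆ K₁' ⊆ int K₁` compact.  For `a ≠ b` the set
   `C_ab = cl W'_a ∩ cl W'_b` is compact (one of the two closures is compact) and contained in the
   open set `W_a ∩ W_b`, whose connected components are open: finitely many points
   `P_ab ⊆ W_a ∩ W_b` such that every point of `C_ab` lies in `connectedComponentIn (W_a ∩ W_b) p`
   for some `p ∈ P_ab`.  `n := ∑ |P_ab|`: it depends only on `K`.
1. Let `S_1 … S_k ⊆ K` be as in the statement, with walls `(O_i, φ_i)`.  Collapse maps: choose a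
   compact neighbourhood `N_i ⊆ O_i ∩ int K₂` of `S_i` missing the other `S_j`;
   for small `ε_i > 0` `{x ∈ N_i | |φ_i x| ≤ ε_i} ⊆ int N_i` (compactness: the intersection over `ε`
   is `S_i`).  `κ : ℝ → [0,1]` continuous, `κ = 0` on `(-∞,-1]`, `κ = 1` on `[1,∞)`, `κ 0 = 1/2`
   (e.g. clamp of `(s+1)/2`).  `c_i x = κ (φ_i x / ε_i)` on `N_i`, `u_i x = (c_i x : ℝ/ℤ)` on `N_i`,
   `u_i = 0` elsewhere: continuous on `X`.  `v_i x = c_i x` if `x ∈ N_i, φ_i x < 0`,
   `c_i x - 1` if `x ∈ N_i, φ_i x > 0`, `0` outside `N_i`: continuous on `X \ S_i`, a lift of `u_i`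
   there; `v_i → 1/2` resp. `-1/2` at points of `S_i` from the negative resp. positive side.
2. Lifts `θ_{i,a}` of `u_i` on `W_a` (`a ≥ 1`: `TLift`; `a = 0`: `θ = 0`, as `u_i = 0` off `K₂`).
   `θ_{i,a} - θ_{i,b}` is continuous on `W_a ∩ W_b` with integer values, hence constant on connected
   subsets.
3. If `k > n` the linear map `ℝ^k → ℝ^n`, `λ ↦ (∑_i λ_i (θ_{i,a} p - θ_{i,b} p))_{(a,b,p)}` has a
   nonzero kernel vector `λ`.  `Θ_a = ∑ λ_i θ_{i,a}`; `Θ_a - Θ_b` is constant on connected subsets of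
   `W_a ∩ W_b` and vanishes on `P_ab`, so it vanishes on `C_ab ⊇ W'_a ∩ W'_b`.  The `Θ_a | W'_a` glue
   to a continuous `Θ : X → ℝ`.
4. On `Y = (⋃ S_i)ᶜ` (connected by hypothesis) `Θ - ∑ λ_i v_i` is locally constant (on `W'_a ∩ Y` it
   is `∑ λ_i (θ_{i,a} - v_i)`, each term continuous and integer valued), hence constant `= c`.
   Let `p ∈ S_{i₀}`.  `Θ` and `v_j` (`j ≠ i₀`) are continuous at `p`; `p` is a limit of points of `Y`
   with `φ_{i₀} > 0` and of points with `φ_{i₀} < 0` (`TWall.loc`).  Passing to the limit on both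
   sides: `Θ p = c + ∑_{j≠i₀} λ_j v_j p + λ_{i₀}/2 = c + ∑_{j≠i₀} λ_j v_j p - λ_{i₀}/2`.  So
   `λ_{i₀} = 0` for every `i₀`: contradiction.
-/

set_option autoImplicit false
open Set Topology
open Filter

namespace Claimed.Agent.R315

variable {X : Type} [TopologicalSpace X]

/-- every continuous circle valued map on `U` has a continuous real lift. -/
def TLift (U : Set X) : Prop :=
  ∀ u : X → AddCircle (1 : ℝ), ContinuousOn u U →
    ∃ θ : X → ℝ, ContinuousOn θ U ∧ ∀ x ∈ U, ((θ x : ℝ) : AddCircle (1 : ℝ)) = u x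

theorem tLift_eqns_cite : True := by
  have := @TLift.eq_1
  trivial

/-- continuous integer valued functions are locally constant -/
theorem t3fin_int_loc {C : Set X} {f : X → ℝ} (hf : ContinuousOn f C) (hint : ∀ x ∈ C, ∃ m : ℤ, f x = m)
    {x : X} (hx : x ∈ C) : ∀ᶠ y in 𝓝[C] x, f y = f x := by
  have h1 : ∀ᶠ y in 𝓝[C] x, f y ∈ Metric.ball (f x) 1 := (hf x hx) (Metric.ball_mem_nhds _ one_pos)
  filter_upwards [h1, self_mem_nhdsWithin] with y hy hyC
  obtain ⟨m, hm⟩ := hint x hx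
  obtain ⟨m', hm'⟩ := hint y hyC
  rw [Metric.mem_ball, Real.dist_eq, hm, hm', ← Int.cast_sub, ← Int.cast_abs] at hy
  have h2 : |m' - m| < 1 := by exact_mod_cast hy
  rw [Int.abs_lt_one_iff, sub_eq_zero] at h2
  rw [hm, hm', h2]

/-- locally constant functions on preconnected sets are constant -/
theorem t3fin_const {β : Type} {C : Set X} (hC : IsPreconnected C) (g : X → β)
    (h : ∀ x ∈ C, ∀ᶠ y in 𝓝[C] x, g y = g x) {x y : X} (hx : x ∈ C) (hy : y ∈ C) : g x = g y := by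
  by_contra hne
  have h' : ∀ z : C, ∃ U : Set X, IsOpen U ∧ z.1 ∈ U ∧ ∀ w ∈ U ∩ C, g w = g z.1 := by
    intro z
    obtain ⟨U, hU, hzU, hUC⟩ := mem_nhdsWithin.1 (h z.1 z.2)
    exact ⟨U, hU, hzU, hUC⟩
  choose U hU hzU hUC using h'
  obtain ⟨w, hwC, hw1, hw2⟩ := hC (⋃ z ∈ {z : C | g z.1 = g x}, U z) (⋃ z ∈ {z : C | g z.1 ≠ g x}, U z)
    (isOpen_biUnion fun z _ => hU z) (isOpen_biUnion fun z _ => hU z) (by
      intro z hz
      by_cases hgz : g z = g x
      · exact Or.inl (Set.mem_biUnion (show (⟨z, hz⟩ : C) ∈ {z : C | g z.1 = g x} from hgz) (hzU ⟨z, hz⟩))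
      · exact Or.inr (Set.mem_biUnion (show (⟨z, hz⟩ : C) ∈ {z : C | g z.1 ≠ g x} from hgz) (hzU ⟨z, hz⟩)))
    ⟨x, hx, Set.mem_biUnion (show (⟨x, hx⟩ : C) ∈ {z : C | g z.1 = g x} from rfl) (hzU ⟨x, hx⟩)⟩
    ⟨y, hy, Set.mem_biUnion (show (⟨y, hy⟩ : C) ∈ {z : C | g z.1 ≠ g x} from fun e => hne e.symm) (hzU ⟨y, hy⟩)⟩
  obtain ⟨z, hz, hwz⟩ := Set.mem_iUnion₂.1 hw1
  obtain ⟨z', hz', hwz'⟩ := Set.mem_iUnion₂.1 hw2
  exact hz' ((hUC z' w ⟨hwz', hwC⟩).symm.trans ((hUC z w ⟨hwz, hwC⟩).trans hz))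

/-- the clamp `κ` -/
noncomputable def t3finKap (s : ℝ) : ℝ := max 0 (min 1 ((s + 1) / 2))

/-- the sawtooth `w = κ - 1_{s ≥ 0}` -/
noncomputable def t3finSaw (s : ℝ) : ℝ := if s < 0 then t3finKap s else t3finKap s - 1

theorem t3finKap_eqns_cite : True := by
  have := @t3finKap.eq_1
  have := @t3finSaw.eq_1
  trivial

theorem t3fin_kap_cont : Continuous t3finKap := by
  unfold t3finKap
  fun_prop

theorem t3fin_kap_zero : t3finKap 0 = 1 / 2 := by
  unfold t3finKap
  norm_num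

theorem t3fin_kap_le {s : ℝ} (h : s ≤ -1) : t3finKap s = 0 := by
  unfold t3finKap
  rw [max_eq_left]
  exact (min_le_right _ _).trans (by linarith)

theorem t3fin_kap_ge {s : ℝ} (h : 1 ≤ s) : t3finKap s = 1 := by
  unfold t3finKap
  rw [min_eq_left (by linarith), max_eq_right zero_le_one]

theorem t3fin_saw_far {s : ℝ} (h : 1 < |s|) : t3finSaw s = 0 ∧ ((t3finKap s : ℝ) : AddCircle (1 : ℝ)) = 0 := by
  unfold t3finSaw
  rcases lt_abs.1 h with h1 | h1
  · rw [if_neg (by linarith), t3fin_kap_ge h1.le, sub_self]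
    exact ⟨rfl, AddCircle.coe_period 1⟩
  · rw [if_pos (by linarith), t3fin_kap_le (by linarith)]
    exact ⟨rfl, rfl⟩

theorem t3fin_saw_coe (s : ℝ) : ((t3finSaw s : ℝ) : AddCircle (1 : ℝ)) = ((t3finKap s : ℝ) : AddCircle (1 : ℝ)) := by
  unfold t3finSaw
  split_ifs
  · rfl
  · rw [AddCircle.coe_sub, AddCircle.coe_period, sub_zero]

theorem t3fin_saw_cont {s : ℝ} (h : s ≠ 0) : ContinuousAt t3finSaw s := by
  rcases lt_or_gt_of_ne h with h1 | h1
  · refine t3fin_kap_cont.continuousAt.congr ?_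
    filter_upwards [Iio_mem_nhds h1] with t ht
    unfold t3finSaw
    rw [if_pos (show t < 0 from ht)]
  · refine (t3fin_kap_cont.continuousAt.sub (continuousAt_const (y := (1 : ℝ)))).congr ?_
    filter_upwards [Ioi_mem_nhds h1] with t ht
    unfold t3finSaw
    rw [if_neg (not_lt.2 (le_of_lt (show 0 < t from ht)))]
    rfl

theorem t3fin_coe_cont : Continuous (fun s : ℝ => (s : AddCircle (1 : ℝ))) :=
  AddCircle.continuous_mk' 1

open Classical in
/-- collapse map of a `TSurf` -/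
theorem t3fin_collapse [T2Space X] [LocallyCompactSpace X] {S G : Set X} (hS : TSurf S) (hG : IsOpen G)
    (hSG : S ⊆ G) :
    ∃ (u : X → AddCircle (1 : ℝ)) (v : X → ℝ), Continuous u ∧ (∀ x, x ∉ G → u x = 0) ∧
      ContinuousOn v Sᶜ ∧ (∀ x, ((v x : ℝ) : AddCircle (1 : ℝ)) = u x) ∧
      ∀ p ∈ S, ∃ l₁ l₂ : Filter X, l₁.NeBot ∧ l₂.NeBot ∧ l₁ ≤ 𝓝 p ∧ l₂ ≤ 𝓝 p ∧ Sᶜ ∈ l₁ ∧ Sᶜ ∈ l₂ ∧
        Tendsto v l₁ (𝓝 (-1 / 2)) ∧ Tendsto v l₂ (𝓝 (1 / 2)) := by
  obtain ⟨hSc, -, O, φ, hw⟩ := hS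
  obtain ⟨N, hN, hSN, hNO⟩ := exists_compact_between hSc (hw.opn.inter hG) (subset_inter hw.sub hSG)
  have hφN : ContinuousOn φ N := hw.cont.mono (hNO.trans inter_subset_left)
  have hfr : IsCompact (N \ interior N) := hN.diff isOpen_interior
  obtain ⟨ε, hε, hεN⟩ : ∃ ε : ℝ, 0 < ε ∧ ∀ x ∈ N \ interior N, ε < |φ x| := by
    rcases (N \ interior N).eq_empty_or_nonempty with he | hne
    · exact ⟨1, one_pos, fun x hx => by rw [he] at hx; exact hx.elim⟩
    · obtain ⟨x₀, hx₀, hmin⟩ := hfr.exists_isMinOn hne (hφN.abs.mono sdiff_subset)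
      have h0 : 0 < |φ x₀| := by
        rw [abs_pos]
        intro h0
        exact hx₀.2 (hSN ((hw.zero x₀ (hNO hx₀.1).1).1 h0))
      exact ⟨|φ x₀| / 2, by positivity, fun x hx => lt_of_lt_of_le (by linarith) (hmin hx)⟩
  have hMcl : IsClosed (N ∩ (fun x => |φ x|) ⁻¹' Iic ε) :=
    hφN.abs.preimage_isClosed_of_isClosed hN.isClosed isClosed_Iic
  set M : Set X := N ∩ (fun x => |φ x|) ⁻¹' Iic ε with hM
  have hMN : M ⊆ interior N := by
    intro x hx
    by_contra hxi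
    exact absurd (hεN x ⟨hx.1, hxi⟩) (not_lt.2 hx.2)
  have hfar : ∀ x, x ∈ N → x ∉ M → 1 < |φ x / ε| := by
    intro x hxN hxM
    have h1 : ε < |φ x| := by
      by_contra hcon
      exact hxM ⟨hxN, not_lt.1 hcon⟩
    rw [abs_div, abs_of_pos hε, lt_div_iff₀ hε, one_mul]
    exact h1
  have hφat : ∀ x ∈ interior N, ContinuousAt (fun y => φ y / ε) x := by
    intro x hx
    exact ((hw.cont x (hNO (interior_subset hx)).1).continuousAt
      (hw.opn.mem_nhds (hNO (interior_subset hx)).1)).div_const ε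
  refine ⟨fun x => if x ∈ N then ((t3finKap (φ x / ε) : ℝ) : AddCircle (1 : ℝ)) else 0,
    fun x => if x ∈ N then t3finSaw (φ x / ε) else 0, ?_, ?_, ?_, ?_, ?_⟩
  · rw [continuous_iff_continuousAt]
    intro x
    by_cases hx : x ∈ M
    · have h1 : ContinuousAt (fun y => ((t3finKap (φ y / ε) : ℝ) : AddCircle (1 : ℝ))) x :=
        (t3fin_coe_cont.comp t3fin_kap_cont).continuousAt.comp (hφat x (hMN hx))
      refine h1.congr ?_
      filter_upwards [isOpen_interior.mem_nhds (hMN hx)] with y hy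
      rw [if_pos (interior_subset hy)]
    · refine (continuousAt_const (y := (0 : AddCircle (1 : ℝ)))).congr ?_
      filter_upwards [hMcl.isOpen_compl.mem_nhds hx] with y hy
      by_cases hyN : y ∈ N
      · rw [if_pos hyN, (t3fin_saw_far (hfar y hyN hy)).2]
      · rw [if_neg hyN]
  · intro x hx
    exact if_neg (fun hxN => hx (hNO hxN).2)
  · intro x hx
    refine ContinuousAt.continuousWithinAt ?_
    by_cases hxM : x ∈ M
    · have h0 : φ x / ε ≠ 0 := by
        refine div_ne_zero ?_ hε.ne'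
        intro h0
        exact hx ((hw.zero x (hNO hxM.1).1).1 h0)
      have h1 : ContinuousAt (fun y => t3finSaw (φ y / ε)) x :=
        ContinuousAt.comp (f := fun y => φ y / ε) (g := t3finSaw) (t3fin_saw_cont h0) (hφat x (hMN hxM))
      refine h1.congr ?_
      filter_upwards [isOpen_interior.mem_nhds (hMN hxM)] with y hy
      rw [if_pos (interior_subset hy)]
    · refine (continuousAt_const (y := (0 : ℝ))).congr ?_
      filter_upwards [hMcl.isOpen_compl.mem_nhds hxM] with y hy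
      by_cases hyN : y ∈ N
      · rw [if_pos hyN, (t3fin_saw_far (hfar y hyN hy)).1]
      · rw [if_neg hyN]
  · intro x
    by_cases hxN : x ∈ N
    · simp only [if_pos hxN]
      exact t3fin_saw_coe _
    · simp only [if_neg hxN]
      rfl
  · intro p hp
    have hpN : p ∈ interior N := hSN hp
    have hp0 : φ p = 0 := (hw.zero p (hw.sub hp)).2 hp
    have hkap : Tendsto (fun y => t3finKap (φ y / ε)) (𝓝 p) (𝓝 (1 / 2)) := by
      have h1 : ContinuousAt (fun y => t3finKap (φ y / ε)) p :=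
        ContinuousAt.comp (f := fun y => φ y / ε) (g := t3finKap) t3fin_kap_cont.continuousAt (hφat p hpN)
      have h2 := h1.tendsto
      rwa [hp0, zero_div, t3fin_kap_zero] at h2
    refine ⟨𝓝[{x | 0 < φ x}] p, 𝓝[{x | φ x < 0}] p, ?_, ?_, nhdsWithin_le_nhds, nhdsWithin_le_nhds,
      ?_, ?_, ?_, ?_⟩
    · rw [← mem_closure_iff_nhdsWithin_neBot, mem_closure_iff_nhds]
      intro W hW
      obtain ⟨U, -, -, hUW, -, -, hne, -, -⟩ := hw.loc p hp W hW
      exact hne.mono (inter_subset_inter_left _ hUW)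
    · rw [← mem_closure_iff_nhdsWithin_neBot, mem_closure_iff_nhds]
      intro W hW
      obtain ⟨U, -, -, hUW, -, -, -, -, hne⟩ := hw.loc p hp W hW
      exact hne.mono (inter_subset_inter_left _ hUW)
    · filter_upwards [self_mem_nhdsWithin] with x hx hxS
      have h0 : φ x = 0 := (hw.zero x (hw.sub hxS)).2 hxS
      have hx' : 0 < φ x := hx
      linarith
    · filter_upwards [self_mem_nhdsWithin] with x hx hxS
      have h0 : φ x = 0 := (hw.zero x (hw.sub hxS)).2 hxS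
      have hx' : φ x < 0 := hx
      linarith
    · have h1 : Tendsto (fun y => t3finKap (φ y / ε) - 1) (𝓝[{x | 0 < φ x}] p) (𝓝 (-1 / 2)) := by
        have h2 := (hkap.sub_const 1).mono_left (nhdsWithin_le_nhds (s := {x | 0 < φ x}))
        have e : (1 / 2 - 1 : ℝ) = -1 / 2 := by norm_num
        rwa [e] at h2
      refine h1.congr' ?_
      filter_upwards [self_mem_nhdsWithin, nhdsWithin_le_nhds (isOpen_interior.mem_nhds hpN)] with y hy hyN
      have hy' : 0 < φ y := hy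
      rw [if_pos (interior_subset hyN)]
      unfold t3finSaw
      rw [if_neg (not_lt.2 (div_nonneg hy'.le hε.le))]
    · have h1 : Tendsto (fun y => t3finKap (φ y / ε)) (𝓝[{x | φ x < 0}] p) (𝓝 (1 / 2)) :=
        hkap.mono_left nhdsWithin_le_nhds
      refine h1.congr' ?_
      filter_upwards [self_mem_nhdsWithin, nhdsWithin_le_nhds (isOpen_interior.mem_nhds hpN)] with y hy hyN
      have hy' : φ y < 0 := hy
      rw [if_pos (interior_subset hyN)]
      unfold t3finSaw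
      rw [if_pos (div_neg_of_neg_of_pos hy' hε)]

/-- finitely many components of an open set cover a compact subset -/
theorem t3fin_pts [LocallyConnectedSpace X] {C V : Set X} (hC : IsCompact C) (hV : IsOpen V)
    (hCV : C ⊆ V) : ∃ P : Finset X, ∀ x ∈ C, ∃ p ∈ P, p ∈ V ∧ x ∈ connectedComponentIn V p := by
  obtain ⟨t, ht, hcov⟩ := hC.elim_nhds_subcover (fun x => connectedComponentIn V x)
    (fun x hx => hV.connectedComponentIn.mem_nhds (mem_connectedComponentIn (hCV hx)))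
  refine ⟨t, fun x hx => ?_⟩
  obtain ⟨p, hp, hxp⟩ := Set.mem_iUnion₂.1 (hcov hx)
  exact ⟨p, hp, hCV (ht p hp), hxp⟩

/-- the finite cover -/
theorem t3fin_cover [T2Space X] [LocallyCompactSpace X] [LocallyConnectedSpace X]
    (hlift : ∀ x : X, ∀ W ∈ 𝓝 x, ∃ U : Set X, IsOpen U ∧ x ∈ U ∧ U ⊆ W ∧ TLift U)
    (K : Set X) (hK : IsCompact K) :
    ∃ (G : Set X) (I : Type) (_ : Fintype I) (W W' : I → Set X) (P : I → I → Finset X),
      IsOpen G ∧ K ⊆ G ∧ (∀ a, IsOpen (W a)) ∧ (∀ a, IsOpen (W' a)) ∧ (∀ a, W' a ⊆ W a) ∧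
      (∀ x, ∃ a, x ∈ W' a) ∧ (∀ a, TLift (W a) ∨ W a ⊆ Gᶜ) ∧
      ∀ a b, a ≠ b → ∀ x ∈ W' a ∩ W' b, ∃ p ∈ P a b, p ∈ W a ∩ W b ∧
        x ∈ connectedComponentIn (W a ∩ W b) p := by
  obtain ⟨K₂, hK₂, hKK₂⟩ := exists_compact_superset hK
  obtain ⟨K₁, hK₁, hK₂K₁⟩ := exists_compact_superset hK₂
  have h1 : ∀ x : X, ∃ U : Set X, IsOpen U ∧ x ∈ U ∧ TLift U := fun x => by
    obtain ⟨U, h1, h2, -, h3⟩ := hlift x univ univ_mem
    exact ⟨U, h1, h2, h3⟩
  choose U hU hxU hUl using h1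
  choose L hL hxL hLU using fun x => exists_compact_subset (hU x) (hxU x)
  obtain ⟨t, -, hcov⟩ := hK₁.elim_nhds_subcover (fun x => interior (L x))
    (fun x _ => isOpen_interior.mem_nhds (hxL x))
  let W : Option {x // x ∈ t} → Set X := fun a => a.elim K₂ᶜ (fun x => U x.1)
  let W' : Option {x // x ∈ t} → Set X := fun a => a.elim K₁ᶜ (fun x => interior (L x.1))
  let Cc : Option {x // x ∈ t} → Set X := fun a => a.elim (interior K₁)ᶜ (fun x => L x.1)
  have hWo : ∀ a, IsOpen (W a) := by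
    rintro (_ | x)
    · exact hK₂.isClosed.isOpen_compl
    · exact hU x.1
  have hW'C : ∀ a, W' a ⊆ Cc a := by
    rintro (_ | x)
    · exact compl_subset_compl.2 interior_subset
    · exact interior_subset
  have hCW : ∀ a, Cc a ⊆ W a := by
    rintro (_ | x)
    · exact compl_subset_compl.2 hK₂K₁
    · exact hLU x.1
  have hCcl : ∀ a, IsClosed (Cc a) := by
    rintro (_ | x)
    · exact isOpen_interior.isClosed_compl
    · exact (hL x.1).isClosed
  have hCcomp : ∀ a b, a ≠ b → IsCompact (Cc a ∩ Cc b) := by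
    rintro (_ | x) (_ | y) hab
    · exact absurd rfl hab
    · exact (hL y.1).inter_left (hCcl none)
    · exact (hL x.1).inter_right (hCcl none)
    · exact (hL x.1).inter_right (hCcl (some y))
  have hP : ∀ a b, ∃ P : Finset X, a ≠ b → ∀ x ∈ W' a ∩ W' b, ∃ p ∈ P, p ∈ W a ∩ W b ∧
      x ∈ connectedComponentIn (W a ∩ W b) p := by
    intro a b
    by_cases hab : a = b
    · exact ⟨∅, fun h => absurd hab h⟩
    · obtain ⟨P, hP⟩ := t3fin_pts (hCcomp a b hab) ((hWo a).inter (hWo b))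
        (inter_subset_inter (hCW a) (hCW b))
      exact ⟨P, fun _ x hx => hP x ⟨hW'C a hx.1, hW'C b hx.2⟩⟩
  choose P hP using hP
  refine ⟨interior K₂, Option {x // x ∈ t}, inferInstance, W, W', P, isOpen_interior, hKK₂, hWo, ?_,
    fun a => (hW'C a).trans (hCW a), ?_, ?_, hP⟩
  · rintro (_ | x)
    · exact hK₁.isClosed.isOpen_compl
    · exact isOpen_interior
  · intro x
    by_cases hx : x ∈ K₁
    · obtain ⟨y, hy, hxy⟩ := Set.mem_iUnion₂.1 (hcov hx)
      exact ⟨some ⟨y, hy⟩, hxy⟩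
    · exact ⟨none, hx⟩
  · rintro (_ | x)
    · exact Or.inr (compl_subset_compl.2 interior_subset)
    · exact Or.inl (hUl x.1)

theorem t3fin_int_of_coe {s t : ℝ} (h : (s : AddCircle (1 : ℝ)) = (t : AddCircle (1 : ℝ))) :
    ∃ m : ℤ, s - t = m := by
  have h1 : ((s - t : ℝ) : AddCircle (1 : ℝ)) = 0 := by
    rw [AddCircle.coe_sub, h, sub_self]
  obtain ⟨n, hn⟩ := (AddCircle.coe_eq_zero_iff (1 : ℝ)).1 h1
  exact ⟨n, by rw [← hn]; simp⟩

theorem t3fin_int_const {C : Set X} (hC : IsPreconnected C) {f : X → ℝ} (hf : ContinuousOn f C)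
    (hint : ∀ x ∈ C, ∃ m : ℤ, f x = m) {x y : X} (hx : x ∈ C) (hy : y ∈ C) : f x = f y :=
  t3fin_const hC f (fun _ hz => t3fin_int_loc hf hint hz) hx hy

/-- **FIN.** -/
theorem t3_fin_abs [T2Space X] [LocallyCompactSpace X] [LocallyConnectedSpace X]
    (hlift : ∀ x : X, ∀ W ∈ 𝓝 x, ∃ U : Set X, IsOpen U ∧ x ∈ U ∧ U ⊆ W ∧ TLift U)
    (K : Set X) (hK : IsCompact K) :
    ∃ n : ℕ, ∀ (k : ℕ) (S : Fin k → Set X), (∀ i, TSurf (S i)) → (∀ i, S i ⊆ K) →
      Pairwise (Function.onFun Disjoint S) → IsPreconnected (⋃ i, S i)ᶜ → k ≤ n := by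
  obtain ⟨G, I, hI, W, W', P, hG, hKG, hWo, hW'o, hW'W, hcov, hWl, hP⟩ := t3fin_cover hlift K hK
  refine ⟨Fintype.card (Σ ab : I × I, {p // p ∈ P ab.1 ab.2}), fun k S hS hSK hdis hconn => ?_⟩
  by_contra hk
  rw [not_le] at hk
  choose u v hu hu0 hv huv hlim using fun i => t3fin_collapse (hS i) hG ((hSK i).trans hKG)
  have hθ : ∀ i a, ∃ θ : X → ℝ, ContinuousOn θ (W a) ∧
      ∀ x ∈ W a, ((θ x : ℝ) : AddCircle (1 : ℝ)) = u i x := by
    intro i a
    rcases hWl a with h | h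
    · exact h (u i) (hu i).continuousOn
    · exact ⟨fun _ => 0, continuousOn_const, fun x hx => (hu0 i x (h hx)).symm⟩
  choose θ hθc hθu using hθ
  -- the kernel vector
  let Λ : (Fin k → ℝ) →ₗ[ℝ] ((Σ ab : I × I, {p // p ∈ P ab.1 ab.2}) → ℝ) :=
    LinearMap.pi (fun j => ∑ i, (θ i j.1.1 j.2.1 - θ i j.1.2 j.2.1) • LinearMap.proj i)
  have hΛ : ∀ c j, Λ c j = ∑ i, (θ i j.1.1 j.2.1 - θ i j.1.2 j.2.1) * c i := by
    intro c j
    simp [Λ]
  have hker : LinearMap.ker Λ ≠ ⊥ := by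
    apply LinearMap.ker_ne_bot_of_finrank_lt
    rw [Module.finrank_fintype_fun_eq_card, Module.finrank_fin_fun]
    exact hk
  obtain ⟨c, hc, hc0⟩ := Submodule.exists_mem_ne_zero_of_ne_bot hker
  rw [LinearMap.mem_ker] at hc
  apply hc0
  -- the glued function
  have hagree : ∀ a b, ∀ x ∈ W' a ∩ W' b, ∑ i, c i * θ i a x = ∑ i, c i * θ i b x := by
    intro a b x hx
    by_cases hab : a = b
    · rw [hab]
    obtain ⟨p, hp, hpW, hxp⟩ := hP a b hab x hx
    have h1 : ∀ i, θ i a x - θ i b x = θ i a p - θ i b p := by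
      intro i
      have hsub : connectedComponentIn (W a ∩ W b) p ⊆ W a ∩ W b := connectedComponentIn_subset _ _
      exact t3fin_int_const (f := fun y => θ i a y - θ i b y) isPreconnected_connectedComponentIn
        (((hθc i a).mono (hsub.trans inter_subset_left)).sub
          ((hθc i b).mono (hsub.trans inter_subset_right)))
        (fun y hy => t3fin_int_of_coe ((hθu i a y (hsub hy).1).trans (hθu i b y (hsub hy).2).symm))
        hxp (mem_connectedComponentIn hpW)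
    have h2 := congrFun hc ⟨(a, b), ⟨p, hp⟩⟩
    rw [hΛ] at h2
    simp only [Pi.zero_apply] at h2
    rw [← sub_eq_zero, ← Finset.sum_sub_distrib, ← h2]
    refine Finset.sum_congr rfl fun i _ => ?_
    rw [← h1 i]
    ring
  choose α hα using hcov
  have hΘeq : ∀ a, ∀ x ∈ W' a, ∑ i, c i * θ i (α x) x = ∑ i, c i * θ i a x :=
    fun a x hx => hagree (α x) a x ⟨hα x, hx⟩
  have hΘa : ∀ a, ∀ x ∈ W' a, ContinuousAt (fun y => ∑ i, c i * θ i a y) x := by
    intro a x hx
    refine tendsto_finsetSum _ fun i _ => ?_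
    exact ((hθc i a x (hW'W a hx)).continuousAt ((hWo a).mem_nhds (hW'W a hx))).const_mul (c i)
  have hΘc : Continuous (fun x => ∑ i, c i * θ i (α x) x) := by
    rw [continuous_iff_continuousAt]
    intro x
    refine (hΘa (α x) x (hα x)).congr ?_
    filter_upwards [(hW'o (α x)).mem_nhds (hα x)] with y hy
    exact (hΘeq (α x) y hy).symm
  have hScl : ∀ i, IsClosed (S i) := fun i => (hS i).1.isClosed
  have hYo : IsOpen (⋃ i, S i)ᶜ := (isClosed_iUnion_of_finite hScl).isOpen_compl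
  have hYsub : ∀ i, (⋃ i, S i)ᶜ ⊆ (S i)ᶜ := fun i => compl_subset_compl.2 (subset_iUnion S i)
  -- the difference is constant on `Y`
  have hD : ∀ x ∈ (⋃ i, S i)ᶜ, ∀ y ∈ (⋃ i, S i)ᶜ,
      (∑ i, c i * θ i (α x) x) - ∑ i, c i * v i x = (∑ i, c i * θ i (α y) y) - ∑ i, c i * v i y := by
    intro x hx y hy
    refine t3fin_const hconn (fun x => (∑ i, c i * θ i (α x) x) - ∑ i, c i * v i x) ?_ hx hy
    intro z hz
    have hop : IsOpen (W' (α z) ∩ (⋃ i, S i)ᶜ) := (hW'o (α z)).inter hYo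
    have h1 : ∀ i, ∀ᶠ w in 𝓝 z, θ i (α z) w - v i w = θ i (α z) z - v i z := by
      intro i
      have h2 := t3fin_int_loc (C := W' (α z) ∩ (⋃ i, S i)ᶜ) (f := fun w => θ i (α z) w - v i w)
        (((hθc i (α z)).mono (inter_subset_left.trans (hW'W _))).sub
          ((hv i).mono (inter_subset_right.trans (hYsub i))))
        (fun w hw => t3fin_int_of_coe ((hθu i (α z) w (hW'W _ hw.1)).trans (huv i w).symm))
        ⟨hα z, hz⟩
      rwa [hop.nhdsWithin_eq ⟨hα z, hz⟩] at h2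
    have h3 := Filter.eventually_all.2 h1
    refine nhdsWithin_le_nhds ?_
    filter_upwards [h3, (hW'o (α z)).mem_nhds (hα z)] with w hw hwW
    rw [hΘeq (α z) w hwW, ← Finset.sum_sub_distrib, ← Finset.sum_sub_distrib]
    refine Finset.sum_congr rfl fun i _ => ?_
    rw [← mul_sub, ← mul_sub, hw i]
  -- jump
  funext i₀
  obtain ⟨p, hp⟩ := (hS i₀).2.1.nonempty
  obtain ⟨l₁, l₂, hl₁, hl₂, hl₁p, hl₂p, hSl₁, hSl₂, ht₁, ht₂⟩ := hlim i₀ p hp
  have hYl : ∀ l : Filter X, l ≤ 𝓝 p → (S i₀)ᶜ ∈ l → (⋃ i, S i)ᶜ ∈ l := by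
    intro l hl hSl
    rw [compl_iUnion, Filter.iInter_mem]
    intro i
    by_cases hi : i = i₀
    · rw [hi]; exact hSl
    · exact hl ((hScl i).isOpen_compl.mem_nhds (fun hpi => Set.disjoint_left.1 (hdis hi) hpi hp))
  have hE : ContinuousAt (fun x => (∑ i, c i * θ i (α x) x) -
      ∑ i ∈ Finset.univ.erase i₀, c i * v i x) p := by
    refine hΘc.continuousAt.sub (tendsto_finsetSum _ fun i hi => ?_)
    have hpi : p ∈ (S i)ᶜ := fun hpi => Set.disjoint_left.1 (hdis (Finset.ne_of_mem_erase hi)) hpi hp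
    exact ((hv i p hpi).continuousAt ((hScl i).isOpen_compl.mem_nhds hpi)).const_mul (c i)
  have hsplit : ∀ x, (∑ i, c i * θ i (α x) x) - ∑ i, c i * v i x =
      ((∑ i, c i * θ i (α x) x) - ∑ i ∈ Finset.univ.erase i₀, c i * v i x) - c i₀ * v i₀ x := by
    intro x
    rw [← Finset.add_sum_erase Finset.univ (fun i => c i * v i x) (Finset.mem_univ i₀)]
    ring
  obtain ⟨y₀, hy₀⟩ := Filter.nonempty_of_mem (hYl l₁ hl₁p hSl₁)
  have hlimit : ∀ (l : Filter X) (r : ℝ), l.NeBot → l ≤ 𝓝 p → (S i₀)ᶜ ∈ l → Tendsto (v i₀) l (𝓝 r) →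
      (∑ i, c i * θ i (α y₀) y₀) - ∑ i, c i * v i y₀ =
        ((∑ i, c i * θ i (α p) p) - ∑ i ∈ Finset.univ.erase i₀, c i * v i p) - c i₀ * r := by
    intro l r hl hlp hSl ht
    have h1 : Tendsto (fun x => (∑ i, c i * θ i (α x) x) - ∑ i, c i * v i x) l
        (𝓝 (((∑ i, c i * θ i (α p) p) - ∑ i ∈ Finset.univ.erase i₀, c i * v i p) - c i₀ * r)) := by
      simp only [hsplit]
      exact (hE.tendsto.mono_left hlp).sub (ht.const_mul (c i₀))
    have h2 : Tendsto (fun x => (∑ i, c i * θ i (α x) x) - ∑ i, c i * v i x) l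
        (𝓝 ((∑ i, c i * θ i (α y₀) y₀) - ∑ i, c i * v i y₀)) := by
      refine tendsto_const_nhds.congr' ?_
      filter_upwards [hYl l hlp hSl] with x hx
      exact hD y₀ hy₀ x hx
    exact tendsto_nhds_unique h2 h1
  have e1 := hlimit l₁ _ hl₁ hl₁p hSl₁ ht₁
  have e2 := hlimit l₂ _ hl₂ hl₂p hSl₂ ht₂
  rw [e1] at e2
  simp only [Pi.zero_apply]
  linarith

end Claimed.Agent.R315
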