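-- KEEP
import Claimed.Agent.R315.Pack002
import Claimed.Agent.R315.Pack003
import Claimed.Agent.R315.Gs.Calc

/-!
# Row 315, paper T (n = 3), package T3-Gw: smoothing of Lipschitz functions (Greene-Wu), on ANY Core manifold

Sub-captain: helper72.  `M` need not be closed, complete or compact; `V` any finite dimensional normed space.
EXPORT `t3_smooth_lip`: `r` 1-Lipschitz for `rdist M g` ⟹ `ρ` smooth along `M`, `|ρ - r| < ε`, `|dρ| ≤ 1 + ε`.
(`ss_smooth_dist` of `Ss/Cut.lean` is the special case `r = min (dist(A,·)) R`.)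

PLAN.  Fix `η > 0` with `(1+η)³ ≤ 1 + ε/2`.
(G1) `t3_gw_chart`: normalised charts: `ψ 0 = x`, `(1+η)⁻² |X|² ≤ G(u)(X,X) ≤ (1+η)² |X|²` on `ball 0 (3s)`.  [any chart, translated, composed with a linear isomorphism `L` with `Lᵀ G(0) L = 1`
   (`G(0)` positive definite: Cholesky / square root / Gram-Schmidt: `Matrix.PosDef`), continuity of `G`.]
(G2) `t3_gw_moll`: Euclidean mollification of a Lipschitz function.  [`LipschitzOnWith.extend_real`; convolution with `ContDiffBump.normed` of radius `δ/(L+1)`: smooth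
   (`HasCompactSupport.contDiff_convolution_left/right`), `L`-Lipschitz (average of translates), `|F - f| ≤ L δ/(L+1)`; a differentiable `L`-Lipschitz function has `‖fderiv‖ ≤ L`.]
(G3) `t3_gw_local`: for `x ∈ M` there are an open `N ∋ x` and, for every `δ > 0`, a function `F` smooth along `M ∩ N` with `|F - r| ≤ δ`, `gradSq F ≤ (1+η)⁴` on `M ∩ N`.
   [`f = r ∘ ψ` is `(1+η)`-Lipschitz on `ball 0 (3s)` (`if_rdist_le_of_segment`-type estimate: length of the image of a segment `≤ (1+η)|u-u'|`); (G2); `F = F₀ ∘ ψ⁻¹` on `N`, `M ∩ N = ψ '' ball 0 (2s)`;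
   `gradSqC G F₀ = G⁻¹(dF₀,dF₀) ≤ (1+η)² |dF₀|²`.]
(G4) `t3_smooth_lip`: `if_exists_pou` for the cover `N_x`: countable family `χ_a`, compact supports in `N_{k a}`, locally finite on `Ω = ⋃ N_x ⊇ M`, `∑ χ_a = 1` on `Ω`.  `c_a = sup_{M ∩ supp χ_a} |dχ_a|_g < ∞`?  NOT needed as a sup over a possibly
   non-compact set: `tsupport χ_a` is compact in `V` but `M ∩ tsupport χ_a` need not be compact; therefore take `N_x` with `M ∩ closure N_x ⊆ ψ '' closedBall 0 (2s)` compact (then `gradSq χ_a` is bounded on it by continuity).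
   Enumerate `a ↦ j(a) ∈ ℕ` (injective), `δ_a = (ε/4) 2^{-j(a)-1}/(1 + c_a)`, `F_a` from (G3), `ρ = ∑ᶠ χ_a F_a` (each term extended by `0`: smooth along `M` because `tsupport χ_a ⊆ N_{k a}`).
   On `M`: `ρ - r = ∑ χ_a (F_a - r)`, `|ρ - r| ≤ ε/4`; near a point only finitely many terms: `dρ = ∑ χ_a dF_a + ∑ (F_a - r(x₀)) dχ_a` and `∑ dχ_a = 0`, so at `x₀`:
   `|dρ| ≤ ∑ χ_a |dF_a| + ∑ |F_a - r|(x₀) |dχ_a| ≤ (1+η)² + ε/4`  (triangle inequality for `√gradSq`: `gs_ip_cs`, `gs_sq_add`, finite sums).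
LEAVES: L-T3-Gw-1 ... L-T3-Gw-4.
-/

set_option autoImplicit false
set_option linter.unusedSectionVars false
open scoped ContDiff Topology
open Claims.C0499 Set Metric

namespace Claimed.Agent.R315

open scoped Convolution in
/-- helper of (G2): mollification of a globally Lipschitz function -/
theorem t3gw_moll_aux {d : ℕ} {g : E d → ℝ} {K : NNReal} (hg : LipschitzWith K g) {ρ : ℝ} (hρ : 0 < ρ) :
    ∃ F : E d → ℝ, ContDiff ℝ ∞ F ∧ (∀ u, |F u - g u| ≤ K * ρ) ∧ LipschitzWith K F := by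
  let φ : ContDiffBump (0 : E d) := ⟨ρ / 2, ρ, half_pos hρ, half_lt_self hρ⟩
  have hφc : HasCompactSupport (φ.normed MeasureTheory.volume) := φ.hasCompactSupport_normed
  have hφs : ContDiff ℝ ∞ (φ.normed MeasureTheory.volume) := φ.contDiff_normed
  have hgc : Continuous g := hg.continuous
  refine ⟨(φ.normed MeasureTheory.volume) ⋆[ContinuousLinearMap.lsmul ℝ ℝ, MeasureTheory.volume] g, ?_, ?_, ?_⟩
  · exact hφc.contDiff_convolution_left _ hφs hgc.locallyIntegrable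
  · intro u
    have h := φ.dist_normed_convolution_le (μ := MeasureTheory.volume) (g := g) (x₀ := u) (ε := K * ρ)
      hgc.aestronglyMeasurable (fun x hx => by
        refine (hg.dist_le_mul x u).trans ?_
        exact mul_le_mul_of_nonneg_left (le_of_lt (Metric.mem_ball.1 hx)) K.coe_nonneg)
    rwa [Real.dist_eq] at h
  · refine LipschitzWith.of_dist_le_mul fun x y => ?_
    have hint : ∀ z : E d, MeasureTheory.Integrable (fun t => φ.normed MeasureTheory.volume t * g (z - t)) MeasureTheory.volume := fun z =>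
      (Continuous.integrable_of_hasCompactSupport
        (φ.continuous_normed.mul (hgc.comp (continuous_const.sub continuous_id))) (hφc.mul_right))
    have e : ∀ z : E d, ((φ.normed MeasureTheory.volume) ⋆[ContinuousLinearMap.lsmul ℝ ℝ, MeasureTheory.volume] g) z
        = ∫ t, φ.normed MeasureTheory.volume t * g (z - t) := fun z => rfl
    rw [Real.dist_eq, e, e, ← MeasureTheory.integral_sub (hint x) (hint y)]
    have h1 : ∀ t, ‖φ.normed MeasureTheory.volume t * g (x - t) - φ.normed MeasureTheory.volume t * g (y - t)‖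
        ≤ φ.normed MeasureTheory.volume t * (K * dist x y) := by
      intro t
      rw [← mul_sub, norm_mul, Real.norm_of_nonneg (φ.nonneg_normed t)]
      refine mul_le_mul_of_nonneg_left ?_ (φ.nonneg_normed t)
      have := hg.dist_le_mul (x - t) (y - t)
      rwa [dist_sub_right, Real.dist_eq] at this
    have h2 := MeasureTheory.norm_integral_le_of_norm_le (μ := MeasureTheory.volume)
      ((φ.integrable_normed (μ := MeasureTheory.volume)).mul_const (K * dist x y)) (Filter.Eventually.of_forall h1)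
    rw [MeasureTheory.integral_mul_const, φ.integral_normed, one_mul, Real.norm_eq_abs] at h2
    exact h2

/-- **(G2) L-T3-Gw-2.** -/
theorem t3_gw_moll {d : ℕ} {f : E d → ℝ} {L s δ : ℝ} (hL : 0 ≤ L) (hs : 0 < s) (hδ : 0 < δ)
    (hf : ∀ u ∈ ball (0 : E d) (3 * s), ∀ u' ∈ ball (0 : E d) (3 * s), |f u - f u'| ≤ L * ‖u - u'‖) :
    ∃ F : E d → ℝ, ContDiff ℝ ∞ F ∧ (∀ u ∈ ball (0 : E d) (3 * s), |F u - f u| ≤ δ) ∧
      ∀ u, ‖fderiv ℝ F u‖ ≤ L := by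
  have hfL : LipschitzOnWith (Real.toNNReal L) f (ball (0 : E d) (3 * s)) :=
    LipschitzOnWith.of_dist_le_mul fun u hu u' hu' => by
      rw [Real.dist_eq, dist_eq_norm, Real.coe_toNNReal _ hL]
      exact hf u hu u' hu'
  obtain ⟨g, hg, hfg⟩ := hfL.extend_real
  have hL1 : 0 < L + 1 := by linarith
  obtain ⟨F, hF1, hF2, hF3⟩ := t3gw_moll_aux hg (div_pos hδ hL1)
  refine ⟨F, hF1, fun u hu => ?_, fun u => ?_⟩
  · rw [hfg hu]
    refine (hF2 u).trans ?_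
    rw [Real.coe_toNNReal _ hL, ← mul_div_assoc, div_le_iff₀ hL1]
    nlinarith
  · have := norm_fderiv_le_of_lipschitz ℝ hF3 (x₀ := u)
    rwa [Real.coe_toNNReal _ hL] at this

theorem t3gw_bil_pos {d : ℕ} {G : Matrix (Fin d) (Fin d) ℝ} (hG : G.PosDef) {X : E d}
    (hX : X ≠ 0) : 0 < if_bil G X X := by
  rw [if_bil_eq_dot]
  have hX' : (X : Fin d → ℝ) ≠ 0 := by
    intro h
    apply hX
    ext i
    exact congrFun h i
  have := hG.dotProduct_mulVec_pos hX'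
  simpa using this

/-- a positive definite matrix is the Euclidean form in suitable linear coordinates. -/
theorem t3gw_exists_normalise {d : ℕ} {G : Matrix (Fin d) (Fin d) ℝ} (hG : G.PosDef) :
    ∃ L : E d ≃L[ℝ] E d, ∀ Y : E d, if_bil G (L Y) (L Y) = ‖Y‖ ^ 2 := by
  obtain ⟨s, hs⟩ := Claimed.Agent.Gmt.gmt_exists_sqrt_form (if_bil G)
    (if_bil_symm (if_isSymm_of_posSemidef hG.posSemidef)) (if_bil_nonneg hG.posSemidef)
  have hinj : Function.Injective s := by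
    rw [injective_iff_map_eq_zero]
    intro X hX
    by_contra hne
    have h1 := t3gw_bil_pos hG hne
    have h2 := hs X X
    rw [hX, inner_zero_left] at h2
    exact absurd h2 h1.ne'
  refine ⟨(if_equiv s hinj).symm, fun Y => ?_⟩
  have h1 : s ((if_equiv s hinj).symm Y) = Y := by
    have : (if_equiv s hinj) ((if_equiv s hinj).symm Y) = Y := (if_equiv s hinj).apply_symm_apply Y
    have e : ∀ Z, (if_equiv s hinj) Z = s Z := fun Z => by
      conv_rhs => rw [← if_equiv_coe s hinj]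
      rfl
    rwa [e] at this
  have h2 := hs ((if_equiv s hinj).symm Y) ((if_equiv s hinj).symm Y)
  rw [h1, real_inner_self_eq_norm_sq] at h2
  exact h2
variable {V : Type} [NormedAddCommGroup V] [NormedSpace ℝ V] [FiniteDimensional ℝ V]
variable {d : ℕ} {M : Set V} {g : Ten V}

/-- **(G1) L-T3-Gw-1.** -/
theorem t3_gw_chart (hM : IsMfd d M) (hg : IsMetricOn d M g) {x : V} (hx : x ∈ M) {η : ℝ}
    (hη : 0 < η) :
    ∃ (ψ : E d → V) (s : ℝ), 0 < s ∧ IsParam M ψ (ball 0 (4 * s)) ∧ ψ 0 = x ∧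
      ∀ u ∈ ball (0 : E d) (4 * s), ∀ Y : E d,
        ((1 + η) ^ 2)⁻¹ * ‖Y‖ ^ 2 ≤ if_bil (cm g ψ u) Y Y ∧
          if_bil (cm g ψ u) Y Y ≤ (1 + η) ^ 2 * ‖Y‖ ^ 2 := by
  obtain ⟨ψ₀, U₀, h₀, u₀, hu₀, rfl⟩ := hM x hx
  obtain ⟨L, hL⟩ := t3gw_exists_normalise ((hg ψ₀ U₀ h₀).2 u₀ hu₀)
  have hcont : ContinuousAt (fun w => if_bil (cm g ψ₀ w)) u₀ :=
    (if_bil_cm_continuousOn (if_isMetricOn_iff.1 hg).1 h₀).continuousAt
      ((if_open h₀).mem_nhds hu₀)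
  -- the tolerance
  have h1η : 1 < (1 + η) ^ 2 := by nlinarith
  obtain ⟨ε, hε, hε1, hε2⟩ : ∃ ε : ℝ, 0 < ε ∧ 1 + ε ≤ (1 + η) ^ 2 ∧ ((1 + η) ^ 2)⁻¹ ≤ 1 - ε := by
    have h2 : ((1 + η) ^ 2)⁻¹ < 1 := inv_lt_one_of_one_lt₀ h1η
    refine ⟨min ((1 + η) ^ 2 - 1) (1 - ((1 + η) ^ 2)⁻¹), lt_min (by linarith) (by linarith), ?_, ?_⟩
    · linarith [min_le_left ((1 + η) ^ 2 - 1) (1 - ((1 + η) ^ 2)⁻¹)]
    · linarith [min_le_right ((1 + η) ^ 2 - 1) (1 - ((1 + η) ^ 2)⁻¹)]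
  have hLn : 0 ≤ ‖(L : E d →L[ℝ] E d)‖ := norm_nonneg _
  have hε' : 0 < ε / (‖(L : E d →L[ℝ] E d)‖ ^ 2 + 1) := by positivity
  obtain ⟨δ₁, hδ₁, hB⟩ := (Metric.continuousAt_iff (f := fun w => if_bil (cm g ψ₀ w))
    (a := u₀)).1 hcont _ hε'
  obtain ⟨δ₂, hδ₂, hU⟩ := Metric.isOpen_iff.1 (if_open h₀) u₀ hu₀
  obtain ⟨δ, hδ, hδ1, hδ2⟩ : ∃ δ : ℝ, 0 < δ ∧ δ ≤ δ₁ ∧ δ ≤ δ₂ :=
    ⟨min δ₁ δ₂, lt_min hδ₁ hδ₂, min_le_left _ _, min_le_right _ _⟩
  have hs : 0 < δ / (4 * (‖(L : E d →L[ℝ] E d)‖ + 1)) := by positivity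
  have hτ : ∀ u ∈ ball (0 : E d) (4 * (δ / (4 * (‖(L : E d →L[ℝ] E d)‖ + 1)))),
      u₀ + L u ∈ ball u₀ δ := by
    intro u hu
    rw [mem_ball_zero_iff] at hu
    rw [mem_ball, dist_eq_norm, add_sub_cancel_left]
    have h1 : ‖L u‖ ≤ ‖(L : E d →L[ℝ] E d)‖ * ‖u‖ := (L : E d →L[ℝ] E d).le_opNorm u
    have h2 : 4 * (δ / (4 * (‖(L : E d →L[ℝ] E d)‖ + 1))) = δ / (‖(L : E d →L[ℝ] E d)‖ + 1) := by
      field_simp
    rw [h2, lt_div_iff₀ (by positivity)] at hu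
    nlinarith [norm_nonneg u]
  have hτd : ∀ u : E d, HasFDerivAt (fun u : E d => u₀ + L u) (L : E d →L[ℝ] E d) u := fun u =>
    (L : E d →L[ℝ] E d).hasFDerivAt.const_add u₀
  have hP : IsParam M (ψ₀ ∘ fun u : E d => u₀ + L u)
      (ball 0 (4 * (δ / (4 * (‖(L : E d →L[ℝ] E d)‖ + 1))))) := by
    refine if_comp h₀ isOpen_ball ?_ ?_ ?_ ?_
    · exact (contDiff_const.add L.contDiff).contDiffOn
    · intro u _ u' _ h
      exact L.injective (add_left_cancel h)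
    · intro w _
      rw [(hτd w).fderiv]
      exact L.injective
    · intro u hu
      exact hU (ball_subset_ball hδ2 (hτ u hu))
  refine ⟨ψ₀ ∘ fun u : E d => u₀ + L u, δ / (4 * (‖(L : E d →L[ℝ] E d)‖ + 1)), hs, hP, ?_, ?_⟩
  · simp
  · intro u hu Y
    have hu' := hτ u hu
    have hd : fderiv ℝ (ψ₀ ∘ fun u : E d => u₀ + L u) u Y = fderiv ℝ ψ₀ (u₀ + L u) (L Y) := by
      have := ((if_differentiableAt h₀ (hU (ball_subset_ball hδ2 hu'))).hasFDerivAt.comp u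
        (hτd u)).fderiv
      rw [this]
      rfl
    have e1 : if_bil (cm g (ψ₀ ∘ fun u : E d => u₀ + L u) u) Y Y =
        if_bil (cm g ψ₀ (u₀ + L u)) (L Y) (L Y) := by
      rw [if_cm_bil, if_cm_bil, hd]
      rfl
    have h3 : ‖if_bil (cm g ψ₀ (u₀ + L u)) - if_bil (cm g ψ₀ u₀)‖ <
        ε / (‖(L : E d →L[ℝ] E d)‖ ^ 2 + 1) := by
      have h3a := dist_eq_norm (if_bil (cm g ψ₀ (u₀ + L u))) (if_bil (cm g ψ₀ u₀))
      have h3b := hB (ball_subset_ball hδ1 hu')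
      rw [h3a] at h3b
      exact h3b
    have h4 : |(if_bil (cm g ψ₀ (u₀ + L u)) - if_bil (cm g ψ₀ u₀)) (L Y) (L Y)| ≤
        ‖if_bil (cm g ψ₀ (u₀ + L u)) - if_bil (cm g ψ₀ u₀)‖ * ‖L Y‖ * ‖L Y‖ := by
      rw [← Real.norm_eq_abs]
      exact ContinuousLinearMap.le_opNorm₂ _ _ _
    have h5 : ‖L Y‖ ≤ ‖(L : E d →L[ℝ] E d)‖ * ‖Y‖ := (L : E d →L[ℝ] E d).le_opNorm Y
    have h6 : ‖if_bil (cm g ψ₀ (u₀ + L u)) - if_bil (cm g ψ₀ u₀)‖ * ‖L Y‖ * ‖L Y‖ ≤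
        ε * ‖Y‖ ^ 2 := by
      have h7 : ‖L Y‖ * ‖L Y‖ ≤ ‖(L : E d →L[ℝ] E d)‖ ^ 2 * ‖Y‖ ^ 2 := by
        nlinarith [norm_nonneg (L Y), norm_nonneg Y]
      calc ‖if_bil (cm g ψ₀ (u₀ + L u)) - if_bil (cm g ψ₀ u₀)‖ * ‖L Y‖ * ‖L Y‖
          = ‖if_bil (cm g ψ₀ (u₀ + L u)) - if_bil (cm g ψ₀ u₀)‖ * (‖L Y‖ * ‖L Y‖) := by ring
        _ ≤ ε / (‖(L : E d →L[ℝ] E d)‖ ^ 2 + 1) * (‖(L : E d →L[ℝ] E d)‖ ^ 2 * ‖Y‖ ^ 2) :=
            mul_le_mul h3.le h7 (by positivity) hε'.le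
        _ = ε * ‖Y‖ ^ 2 * (‖(L : E d →L[ℝ] E d)‖ ^ 2 / (‖(L : E d →L[ℝ] E d)‖ ^ 2 + 1)) := by
            field_simp
        _ ≤ ε * ‖Y‖ ^ 2 * 1 := by
            refine mul_le_mul_of_nonneg_left ?_ (by positivity)
            rw [div_le_one (by positivity)]
            linarith
        _ = ε * ‖Y‖ ^ 2 := mul_one _
    have h8 : (if_bil (cm g ψ₀ (u₀ + L u)) - if_bil (cm g ψ₀ u₀)) (L Y) (L Y) =
        if_bil (cm g ψ₀ (u₀ + L u)) (L Y) (L Y) - ‖Y‖ ^ 2 := by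
      rw [← hL Y]
      rfl
    rw [h8] at h4
    have h9 := abs_le.1 (h4.trans h6)
    have hY : 0 ≤ ‖Y‖ ^ 2 := by positivity
    rw [e1]
    constructor
    · nlinarith [h9.1]
    · nlinarith [h9.2]

/-- the gradient vector of a covector (as `pk_exists_grad`). -/
theorem t3gw_exists_grad {G : Matrix (Fin d) (Fin d) ℝ} (hG : G.PosDef) (φ : E d →L[ℝ] ℝ) :
    ∃ Y : E d, φ Y = ∑ i, ∑ j, G⁻¹ i j * φ (eb i) * φ (eb j) ∧
      if_bil G Y Y = ∑ i, ∑ j, G⁻¹ i j * φ (eb i) * φ (eb j) := by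
  have hu : IsUnit G.det := isUnit_iff_ne_zero.2 hG.det_pos.ne'
  set p : Fin d → ℝ := fun i => φ (eb i) with hp
  set Y : E d := WithLp.toLp 2 (G⁻¹.mulVec p) with hY
  have hGY : G.mulVec (Y : Fin d → ℝ) = p := by
    show G.mulVec (G⁻¹.mulVec p) = p
    rw [Matrix.mulVec_mulVec, Matrix.mul_nonsing_inv G hu, Matrix.one_mulVec]
  have h2 : if_bil G Y Y = ∑ i, ∑ j, G⁻¹ i j * φ (eb i) * φ (eb j) := by
    rw [if_bil_eq_dot, hGY]
    show (G⁻¹.mulVec p) ⬝ᵥ p = _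
    simp only [dotProduct, Matrix.mulVec, Finset.sum_mul]
    refine Finset.sum_congr rfl fun i _ => Finset.sum_congr rfl fun j _ => ?_
    ring
  have h1 : if_bil G Y Y = φ Y := by
    rw [if_bil_eq_dot, hGY, if_clm_expand φ Y]
    rfl
  exact ⟨Y, h1 ▸ h2, h2⟩

/-- upper bound of the dual quadratic form. -/
theorem t3gw_dual_le {G : Matrix (Fin d) (Fin d) ℝ} (hG : G.PosDef) {Λ : ℝ} (hΛ : 0 ≤ Λ)
    (hlow : ∀ Y : E d, ‖Y‖ ^ 2 ≤ Λ * if_bil G Y Y) (φ : E d →L[ℝ] ℝ) :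
    ∑ i, ∑ j, G⁻¹ i j * φ (eb i) * φ (eb j) ≤ Λ * ‖φ‖ ^ 2 := by
  obtain ⟨Y, h1, h2⟩ := t3gw_exists_grad hG φ
  rw [← h2]
  have hQ0 : 0 ≤ if_bil G Y Y := if_bil_nonneg hG.posSemidef Y
  have h3 : if_bil G Y Y ≤ ‖φ‖ * ‖Y‖ := by
    rw [h2, ← h1]
    exact (le_abs_self _).trans (φ.le_opNorm Y)
  have h4 := hlow Y
  rcases hQ0.eq_or_lt with h0 | h0
  · rw [← h0]
    positivity
  · have h5 : (if_bil G Y Y) ^ 2 ≤ ‖φ‖ ^ 2 * (Λ * if_bil G Y Y) := by
      calc (if_bil G Y Y) ^ 2 ≤ (‖φ‖ * ‖Y‖) ^ 2 := pow_le_pow_left₀ hQ0 h3 2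
        _ = ‖φ‖ ^ 2 * ‖Y‖ ^ 2 := by ring
        _ ≤ ‖φ‖ ^ 2 * (Λ * if_bil G Y Y) := mul_le_mul_of_nonneg_left h4 (by positivity)
    have h6 : if_bil G Y Y * if_bil G Y Y ≤ (Λ * ‖φ‖ ^ 2) * if_bil G Y Y := by nlinarith
    exact le_of_mul_le_mul_right h6 h0

/-- operator norm of a positive semidefinite form. -/
theorem t3gw_bil_norm_le {G : Matrix (Fin d) (Fin d) ℝ} (hG : G.PosSemidef) {Λ : ℝ} (hΛ : 0 ≤ Λ)
    (hup : ∀ Y : E d, if_bil G Y Y ≤ Λ * ‖Y‖ ^ 2) : ‖if_bil G‖ ≤ Λ := by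
  refine ContinuousLinearMap.opNorm_le_bound₂ _ hΛ fun X Y => ?_
  have h1 := if_bil_cs hG X Y
  have h2 : if_bil G X X * if_bil G Y Y ≤ (Λ * ‖X‖ ^ 2) * (Λ * ‖Y‖ ^ 2) :=
    mul_le_mul (hup X) (hup Y) (if_bil_nonneg hG Y) (by positivity)
  rw [Real.norm_eq_abs]
  apply abs_le_of_sq_le_sq _ (by positivity)
  calc (if_bil G X Y) ^ 2 ≤ (Λ * ‖X‖ ^ 2) * (Λ * ‖Y‖ ^ 2) := h1.trans h2
    _ = (Λ * ‖X‖ * ‖Y‖) ^ 2 := by ring

/-- **(G3) L-T3-Gw-3.** -/
theorem t3_gw_local (hM : IsMfd d M) (hg : IsMetricOn d M g) {r : V → ℝ}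
    (hr : ∀ x ∈ M, ∀ y ∈ M, if_Join M x y → |r x - r y| ≤ rdist M g x y) {x : V} (hx : x ∈ M)
    {η : ℝ} (hη : 0 < η) :
    ∃ (N K : Set V), IsOpen N ∧ x ∈ N ∧ IsCompact K ∧ K ⊆ M ∧ M ∩ closure N ⊆ K ∧
      ∀ δ > 0, ∃ F : V → ℝ, SmoothAlong d (M ∩ N) F ∧ (∀ y ∈ M ∩ N, |F y - r y| ≤ δ) ∧
        ∀ y ∈ M ∩ N, gradSq d (M ∩ N) g F y ≤ (1 + η) ^ 4 := by
  obtain ⟨ψ, s, hs, hP, hψ0, hb⟩ := t3_gw_chart hM hg hx hη
  have hT : IsTenOn d M g := (if_isMetricOn_iff.1 hg).1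
  have hη1 : 0 ≤ 1 + η := by linarith
  have hη2 : 0 < (1 + η) ^ 2 := by positivity
  have h34 : ball (0 : E d) (3 * s) ⊆ ball 0 (4 * s) := ball_subset_ball (by linarith)
  have h24 : ball (0 : E d) (2 * s) ⊆ ball 0 (4 * s) := ball_subset_ball (by linarith)
  have h23 : ball (0 : E d) (2 * s) ⊆ ball 0 (3 * s) := ball_subset_ball (by linarith)
  have hLip : ∀ u ∈ ball (0 : E d) (3 * s), ∀ u' ∈ ball (0 : E d) (3 * s),
      |(r ∘ ψ) u - (r ∘ ψ) u'| ≤ (1 + η) * ‖u - u'‖ := by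
    intro u hu u' hu'
    have hseg : segment ℝ u u' ⊆ ball (0 : E d) (4 * s) :=
      ((convex_ball 0 (3 * s)).segment_subset hu hu').trans h34
    have h1 := hr (ψ u) (if_mem hP (h34 hu)) (ψ u') (if_mem hP (h34 hu'))
      (if_join_of_segment hP hseg)
    have h2 := if_rdist_le_of_segment hM hT hP (K := (1 + η) ^ 2) hseg (fun w hw =>
      t3gw_bil_norm_le ((hg ψ _ hP).2 w (hseg hw)).posSemidef hη2.le
        (fun Y => (hb w (hseg hw) Y).2))
    rw [Real.sqrt_sq hη1, norm_sub_rev] at h2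
    exact h1.trans h2
  obtain ⟨O₂, hO₂, hO₂e⟩ := if_image_open hP isOpen_ball h24
  have hxO : x ∈ O₂ := by
    have : x ∈ ψ '' ball (0 : E d) (2 * s) := ⟨0, mem_ball_self (by linarith), hψ0⟩
    rw [hO₂e] at this
    exact this.2
  obtain ⟨ρ, hρ, hρO⟩ := Metric.nhds_basis_closedBall.mem_iff.1 (hO₂.mem_nhds hxO)
  have hMN : ∀ y ∈ M ∩ ball x ρ, ∃ u ∈ ball (0 : E d) (2 * s), ψ u = y := by
    intro y hy
    have : y ∈ ψ '' ball (0 : E d) (2 * s) := by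
      rw [hO₂e]
      exact ⟨hy.1, hρO (ball_subset_closedBall hy.2)⟩
    obtain ⟨u, hu, rfl⟩ := this
    exact ⟨u, hu, rfl⟩
  refine ⟨ball x ρ, ψ '' closedBall 0 (2 * s), isOpen_ball, mem_ball_self hρ, ?_, ?_, ?_, ?_⟩
  · exact (isCompact_closedBall 0 (2 * s)).image_of_continuousOn
      ((if_continuousOn hP).mono (closedBall_subset_ball (by linarith)))
  · rintro _ ⟨u, hu, rfl⟩
    exact if_mem hP (closedBall_subset_ball (by linarith) hu)
  · rintro y ⟨hyM, hyN⟩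
    have : y ∈ ψ '' ball (0 : E d) (2 * s) := by
      rw [hO₂e]
      exact ⟨hyM, hρO (closure_ball_subset_closedBall hyN)⟩
    exact image_mono ball_subset_closedBall this
  · intro δ hδ
    obtain ⟨F₀, hF1, hF2, hF3⟩ := t3_gw_moll hη1 hs hδ hLip
    have hP' : IsParam (M ∩ ball x ρ) ψ (ball 0 (4 * s) ∩ ψ ⁻¹' ball x ρ) :=
      if_param_restrict isOpen_ball hP
    have hFψ : ∀ u ∈ ball (0 : E d) (4 * s),
        F₀ (Function.invFunOn ψ (ball 0 (4 * s)) (ψ u)) = F₀ u := by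
      intro u hu
      rw [if_leftInv hP hu]
    have hsm : SmoothAlong d (M ∩ ball x ρ)
        (fun y => F₀ (Function.invFunOn ψ (ball 0 (4 * s)) y)) := by
      refine if_smoothAlong_of_atlas fun y hy => ?_
      obtain ⟨u, hu, rfl⟩ := hMN y hy
      refine ⟨ψ, _, hP', ⟨u, ⟨h24 hu, hy.2⟩, rfl⟩, ?_⟩
      exact hF1.contDiffOn.congr fun w hw => hFψ w hw.1
    refine ⟨fun y => F₀ (Function.invFunOn ψ (ball 0 (4 * s)) y), hsm, ?_, ?_⟩
    · intro y hy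
      obtain ⟨u, hu, rfl⟩ := hMN y hy
      show |F₀ (Function.invFunOn ψ (ball 0 (4 * s)) (ψ u)) - r (ψ u)| ≤ δ
      rw [hFψ u (h24 hu)]
      exact hF2 u (h23 hu)
    · intro y hy
      obtain ⟨u, hu, rfl⟩ := hMN y hy
      have hu' : u ∈ ball (0 : E d) (4 * s) ∩ ψ ⁻¹' ball x ρ := ⟨h24 hu, hy.2⟩
      rw [if_gradSq_eq (if_isMetricOn_inter hg isOpen_ball) hsm hP' hu']
      have hev : (fun y => F₀ (Function.invFunOn ψ (ball 0 (4 * s)) y)) ∘ ψ =ᶠ[𝓝 u] F₀ := by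
        filter_upwards [isOpen_ball.mem_nhds (h24 hu)] with w hw
        exact hFψ w hw
      have hpd : ∀ i, pdiff ((fun y => F₀ (Function.invFunOn ψ (ball 0 (4 * s)) y)) ∘ ψ) i u =
          fderiv ℝ F₀ u (eb i) := by
        intro i
        unfold pdiff
        rw [hev.fderiv_eq]
      unfold gradSqC
      simp only [hpd]
      have h1 := t3gw_dual_le ((hg ψ _ hP).2 u (h24 hu)) hη2.le (fun Y => by
        have := (hb u (h24 hu) Y).1
        rw [inv_mul_le_iff₀ hη2] at this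
        exact this) (fderiv ℝ F₀ u)
      refine h1.trans ?_
      have h2 : ‖fderiv ℝ F₀ u‖ ^ 2 ≤ (1 + η) ^ 2 := pow_le_pow_left₀ (norm_nonneg _) (hF3 u) 2
      calc (1 + η) ^ 2 * ‖fderiv ℝ F₀ u‖ ^ 2 ≤ (1 + η) ^ 2 * (1 + η) ^ 2 :=
            mul_le_mul_of_nonneg_left h2 hη2.le
        _ = (1 + η) ^ 4 := by ring

/-- triangle inequality for `|df|`. -/
theorem t3gw_sqrt_add (hM : IsMfd d M) (hg : IsMetricOn d M g) {f k : V → ℝ}
    (hf : SmoothAlong d M f) (hk : SmoothAlong d M k) {x : V} (hx : x ∈ M) :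
    Real.sqrt (gradSq d M g (fun y => f y + k y) x) ≤
      Real.sqrt (gradSq d M g f x) + Real.sqrt (gradSq d M g k x) := by
  have ha := gs_sq_nonneg hM hg hf hx
  have hb := gs_sq_nonneg hM hg hk hx
  have hcs := gs_ip_cs hM hg hf hk hx
  rw [gs_sq_add hM hg hf hk hx]
  apply Real.sqrt_le_iff.2
  refine ⟨by positivity, ?_⟩
  have h1 : gradIp d M g f k x ≤ Real.sqrt (gradSq d M g f x) * Real.sqrt (gradSq d M g k x) := by
    rw [← Real.sqrt_mul ha]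
    exact Real.le_sqrt_of_sq_le hcs
  have h2 := Real.sq_sqrt ha
  have h3 := Real.sq_sqrt hb
  nlinarith

/-- triangle inequality for finite sums. -/
theorem t3gw_sqrt_sum (hM : IsMfd d M) (hg : IsMetricOn d M g) {ι : Type} (s : Finset ι)
    {F : ι → V → ℝ} (hF : ∀ i ∈ s, SmoothAlong d M (F i)) {x : V} (hx : x ∈ M) :
    Real.sqrt (gradSq d M g (fun y => ∑ i ∈ s, F i y) x) ≤
      ∑ i ∈ s, Real.sqrt (gradSq d M g (F i) x) := by
  classical
  induction s using Finset.induction_on with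
  | empty =>
    simp only [Finset.sum_empty]
    rw [gs_sq_const hM hg 0 hx, Real.sqrt_zero]
  | insert a s ha ih =>
    simp only [Finset.sum_insert ha]
    have h1 := t3gw_sqrt_add hM hg (hF a (Finset.mem_insert_self a s))
      (gs_sm_sum s fun i hi => hF i (Finset.mem_insert_of_mem hi)) hx
    have h2 := ih fun i hi => hF i (Finset.mem_insert_of_mem hi)
    linarith

/-- product rule for `|df|`. -/
theorem t3gw_sqrt_mul (hM : IsMfd d M) (hg : IsMetricOn d M g) {f k : V → ℝ}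
    (hf : SmoothAlong d M f) (hk : SmoothAlong d M k) {x : V} (hx : x ∈ M) :
    Real.sqrt (gradSq d M g (fun y => f y * k y) x) ≤
      |f x| * Real.sqrt (gradSq d M g k x) + |k x| * Real.sqrt (gradSq d M g f x) := by
  have ha := gs_sq_nonneg hM hg hf hx
  have hb := gs_sq_nonneg hM hg hk hx
  have hcs := gs_ip_cs hM hg hf hk hx
  rw [gs_sq_mul hM hg hf hk hx]
  apply Real.sqrt_le_iff.2
  refine ⟨by positivity, ?_⟩
  have h1 : |gradIp d M g f k x| ≤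
      Real.sqrt (gradSq d M g f x) * Real.sqrt (gradSq d M g k x) := by
    rw [← Real.sqrt_mul ha]
    exact Real.abs_le_sqrt hcs
  have h2 := Real.sq_sqrt ha
  have h3 := Real.sq_sqrt hb
  have h4 : (f x * k x) * gradIp d M g f k x ≤
      (|f x| * |k x|) * (Real.sqrt (gradSq d M g f x) * Real.sqrt (gradSq d M g k x)) := by
    calc (f x * k x) * gradIp d M g f k x ≤ |(f x * k x) * gradIp d M g f k x| := le_abs_self _
      _ = (|f x| * |k x|) * |gradIp d M g f k x| := by rw [abs_mul, abs_mul]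
      _ ≤ _ := mul_le_mul_of_nonneg_left h1 (by positivity)
  have h5 : f x ^ 2 = |f x| ^ 2 := (sq_abs _).symm
  have h6 : k x ^ 2 = |k x| ^ 2 := (sq_abs _).symm
  rw [h5, h6]
  nlinarith

/-- the gradient of a partition-of-unity average. -/
theorem t3gw_local_est (hM : IsMfd d M) (hg : IsMetricOn d M g) {κ : Type} (s : Finset κ)
    {χ F : κ → V → ℝ} (hχ : ∀ a ∈ s, SmoothAlong d M (χ a)) (hF : ∀ a ∈ s, SmoothAlong d M (F a))
    (hone : ∀ y ∈ M, ∑ a ∈ s, χ a y = 1) {x : V} (hx : x ∈ M) (h0 : ∀ a ∈ s, 0 ≤ χ a x)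
    {r₀ Λ : ℝ} {δ c : κ → ℝ} (hΛ : ∀ a ∈ s, Real.sqrt (gradSq d M g (F a) x) ≤ Λ)
    (hδ : ∀ a ∈ s, |F a x - r₀| ≤ δ a) (hc : ∀ a ∈ s, Real.sqrt (gradSq d M g (χ a) x) ≤ c a) :
    Real.sqrt (gradSq d M g (fun y => ∑ a ∈ s, χ a y * F a y) x) ≤ Λ + ∑ a ∈ s, δ a * c a := by
  have e : ∀ y ∈ M, ∑ a ∈ s, χ a y * F a y = r₀ + ∑ a ∈ s, χ a y * (F a y + -r₀) := by
    intro y hy
    have : ∑ a ∈ s, χ a y * (F a y + -r₀) = ∑ a ∈ s, χ a y * F a y - r₀ * ∑ a ∈ s, χ a y := by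
      rw [Finset.mul_sum, ← Finset.sum_sub_distrib]
      refine Finset.sum_congr rfl fun a _ => ?_
      ring
    rw [this, hone y hy]
    ring
  rw [gs_sq_congr (x := x) (h := g) e]
  have hG : ∀ a ∈ s, SmoothAlong d M (fun y => F a y + -r₀) := fun a ha =>
    gs_sm_add (hF a ha) (gs_sm_const (-r₀))
  have hT : ∀ a ∈ s, SmoothAlong d M (fun y => χ a y * (F a y + -r₀)) := fun a ha =>
    gs_sm_mul (hχ a ha) (hG a ha)
  have h1 := t3gw_sqrt_add hM hg (gs_sm_const r₀) (gs_sm_sum s hT) hx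
  rw [gs_sq_const hM hg r₀ hx, Real.sqrt_zero, zero_add] at h1
  have h2 := t3gw_sqrt_sum hM hg s hT hx
  have h3 : ∀ a ∈ s, Real.sqrt (gradSq d M g (fun y => χ a y * (F a y + -r₀)) x) ≤
      χ a x * Λ + δ a * c a := by
    intro a ha
    have h4 := t3gw_sqrt_mul hM hg (hχ a ha) (hG a ha) hx
    have h5 := t3gw_sqrt_add hM hg (hF a ha) (gs_sm_const (-r₀)) hx
    rw [gs_sq_const hM hg (-r₀) hx, Real.sqrt_zero, add_zero] at h5
    rw [abs_of_nonneg (h0 a ha)] at h4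
    have h6 : χ a x * Real.sqrt (gradSq d M g (fun y => F a y + -r₀) x) ≤ χ a x * Λ :=
      mul_le_mul_of_nonneg_left (h5.trans (hΛ a ha)) (h0 a ha)
    have h7 : |F a x + -r₀| * Real.sqrt (gradSq d M g (χ a) x) ≤ δ a * c a := by
      rw [← sub_eq_add_neg]
      exact mul_le_mul (hδ a ha) (hc a ha) (Real.sqrt_nonneg _) ((abs_nonneg _).trans (hδ a ha))
    linarith
  have h8 : ∑ a ∈ s, (χ a x * Λ + δ a * c a) = Λ + ∑ a ∈ s, δ a * c a := by
    rw [Finset.sum_add_distrib, ← Finset.sum_mul, hone x hx, one_mul]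
  calc _ ≤ _ := h1
    _ ≤ _ := h2
    _ ≤ ∑ a ∈ s, (χ a x * Λ + δ a * c a) := Finset.sum_le_sum h3
    _ = _ := h8

/-- geometric weights along an injection. -/
theorem t3gw_sum_geom {κ : Type} {j : κ → ℕ} (hj : Function.Injective j) (s : Finset κ) :
    ∑ a ∈ s, (1 / 2 : ℝ) ^ (j a + 1) ≤ 1 := by
  classical
  rw [← Finset.sum_image (f := fun n : ℕ => (1 / 2 : ℝ) ^ (n + 1)) (fun a _ b _ h => hj h)]
  have hs : Summable fun n : ℕ => (1 / 2 : ℝ) ^ (n + 1) := by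
    simp only [pow_succ]
    exact summable_geometric_two.mul_right _
  have ht : ∑' n : ℕ, (1 / 2 : ℝ) ^ (n + 1) = 1 := by
    simp only [pow_succ]
    rw [tsum_mul_right, tsum_geometric_two]
    norm_num
  calc _ ≤ ∑' n : ℕ, (1 / 2 : ℝ) ^ (n + 1) := hs.sum_le_tsum _ (fun _ _ => by positivity)
    _ = 1 := ht

/-- local structure of a locally finite family of cut-offs. -/
theorem t3gw_locfin {ι κ : Type} {N : ι → Set V} (hN : ∀ i, IsOpen (N i)) {k : κ → ι}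
    {χ : κ → V → ℝ} (hsub : ∀ a, tsupport (χ a) ⊆ N (k a)) {x : V} {W : Set V} (hW : W ∈ 𝓝 x)
    (hfin : {a | (Function.support (χ a) ∩ W).Nonempty}.Finite) :
    ∃ (O : Set V) (A : Finset κ), IsOpen O ∧ x ∈ O ∧ (∀ a ∈ A, O ⊆ N (k a)) ∧
      ∀ y ∈ O, ∀ a ∉ A, χ a y = 0 := by
  classical
  refine ⟨interior W ∩ (⋂ a ∈ hfin.toFinset.filter (fun a => x ∈ tsupport (χ a)), N (k a)) ∩
    ⋂ a ∈ hfin.toFinset.filter (fun a => x ∉ tsupport (χ a)), (tsupport (χ a))ᶜ,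
    hfin.toFinset.filter (fun a => x ∈ tsupport (χ a)), ?_, ?_, ?_, ?_⟩
  · exact (isOpen_interior.inter (isOpen_biInter_finset fun a _ => hN _)).inter
      (isOpen_biInter_finset fun a _ => (isClosed_tsupport _).isOpen_compl)
  · refine ⟨⟨mem_interior_iff_mem_nhds.2 hW, ?_⟩, ?_⟩
    · simp only [mem_iInter]
      intro a ha
      exact hsub a (Finset.mem_filter.1 ha).2
    · simp only [mem_iInter]
      intro a ha
      exact (Finset.mem_filter.1 ha).2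
  · intro a ha y hy
    have := hy.1.2
    simp only [mem_iInter] at this
    exact this a ha
  · intro y hy a ha
    by_contra hne
    have h1 : a ∈ hfin.toFinset := by
      rw [Set.Finite.mem_toFinset]
      exact ⟨y, hne, interior_subset hy.1.1⟩
    have h2 : x ∉ tsupport (χ a) := fun h => ha (Finset.mem_filter.2 ⟨h1, h⟩)
    have h3 := hy.2
    simp only [mem_iInter] at h3
    exact h3 a (Finset.mem_filter.2 ⟨h1, h2⟩) (subset_tsupport _ hne)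

/-- cut-offs supported in a relatively compact piece have bounded gradient. -/
theorem t3gw_cutoff_bound (hM : IsMfd d M) (hg : IsMetricOn d M g) {χ : V → ℝ}
    (hχ : ContDiff ℝ ∞ χ) {N K : Set V} (hsub : tsupport χ ⊆ N) (hK : IsCompact K) (hKM : K ⊆ M)
    (hNK : M ∩ closure N ⊆ K) :
    ∃ c : ℝ, 0 ≤ c ∧ ∀ y ∈ M, Real.sqrt (gradSq d M g χ y) ≤ c := by
  have hs : SmoothAlong d M χ := if_smoothAlong_of_contDiff hχ
  have hcont := (if_smoothAlong_continuousOn hM (if_gradSq_smoothAlong hg hs)).mono hKM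
  obtain ⟨C, hC⟩ := hK.exists_bound_of_continuousOn hcont
  refine ⟨Real.sqrt C, Real.sqrt_nonneg _, fun y hy => ?_⟩
  by_cases hyK : y ∈ K
  · exact Real.sqrt_le_sqrt ((le_abs_self _).trans (hC y hyK))
  · have h1 : y ∉ tsupport χ := fun h => hyK (hNK ⟨hy, subset_closure (hsub h)⟩)
    rw [if_gradSq_eq_zero hM hg hs hy (notMem_tsupport_iff_eventuallyEq.1 h1), Real.sqrt_zero]
    exact Real.sqrt_nonneg _

/-- **(G4) L-T3-Gw-4: smoothing of 1-Lipschitz functions.** -/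
theorem t3_smooth_lip (hM : IsMfd d M) (hg : IsMetricOn d M g) {r : V → ℝ}
    (hr : ∀ x ∈ M, ∀ y ∈ M, if_Join M x y → |r x - r y| ≤ rdist M g x y) {ε : ℝ} (hε : 0 < ε) :
    ∃ ρ : V → ℝ, SmoothAlong d M ρ ∧ (∀ x ∈ M, |ρ x - r x| < ε) ∧
      ∀ x ∈ M, gradSq d M g ρ x ≤ (1 + ε) ^ 2 := by
  classical
  obtain ⟨η, hη, hη1⟩ : ∃ η : ℝ, 0 < η ∧ (1 + η) ^ 2 ≤ 1 + ε / 2 := by
    refine ⟨min (ε / 8) 1, lt_min (by linarith) one_pos, ?_⟩
    have h1 := min_le_left (ε / 8) 1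
    have h2 := min_le_right (ε / 8) 1
    have h3 : 0 < min (ε / 8) 1 := lt_min (by linarith) one_pos
    nlinarith
  choose N K hNo hxN hKc hKM hNK hloc using fun x : M => t3_gw_local hM hg hr x.2 hη
  obtain ⟨κ, hκ, k, χ, hχs, -, hχsub, hχ0, hlf, hone, -⟩ := if_exists_pou N hNo
  have hMU : M ⊆ ⋃ i, N i := fun x hx => mem_iUnion.2 ⟨⟨x, hx⟩, hxN ⟨x, hx⟩⟩
  have hχM : ∀ a, SmoothAlong d M (χ a) := fun a => if_smoothAlong_of_contDiff (hχs a)
  choose c hc0 hc using fun a => t3gw_cutoff_bound hM hg (hχs a) (hχsub a) (hKc (k a)) (hKM (k a))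
    (hNK (k a))
  obtain ⟨j, hj⟩ := exists_injective_nat κ
  have hδ : ∀ a, 0 < ε / 4 * (1 / 2 : ℝ) ^ (j a + 1) / (1 + c a) := fun a => by
    have := hc0 a
    positivity
  choose F hFs hFr hFg using fun a => hloc (k a) _ (hδ a)
  have hδc : ∀ a, ε / 4 * (1 / 2 : ℝ) ^ (j a + 1) / (1 + c a) * c a ≤
      ε / 4 * (1 / 2 : ℝ) ^ (j a + 1) := by
    intro a
    have h1 := hc0 a
    rw [div_mul_eq_mul_div, div_le_iff₀ (by linarith)]
    have : 0 ≤ ε / 4 * (1 / 2 : ℝ) ^ (j a + 1) := by positivity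
    nlinarith
  have hδε : ∀ a, ε / 4 * (1 / 2 : ℝ) ^ (j a + 1) / (1 + c a) ≤ ε / 4 := by
    intro a
    have h1 := hc0 a
    rw [div_le_iff₀ (by linarith)]
    have h2 : (1 / 2 : ℝ) ^ (j a + 1) ≤ 1 := pow_le_one₀ (by norm_num) (by norm_num)
    have h3 : 0 ≤ (1 / 2 : ℝ) ^ (j a + 1) := by positivity
    nlinarith
  -- the local structure
  have hL : ∀ x ∈ M, ∃ (O : Set V) (A : Finset κ), IsOpen O ∧ x ∈ O ∧ (∀ a ∈ A, O ⊆ N (k a)) ∧
      (∀ y ∈ O, (∑ᶠ a, χ a y * F a y) = ∑ a ∈ A, χ a y * F a y) ∧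
      ∀ y ∈ M ∩ O, ∑ a ∈ A, χ a y = 1 := by
    intro x hx
    obtain ⟨W, hW, hfin⟩ := hlf x (hMU hx)
    obtain ⟨O, A, hO, hxO, hAN, hA0⟩ := t3gw_locfin hNo hχsub hW hfin
    refine ⟨O, A, hO, hxO, hAN, fun y hy => ?_, fun y hy => ?_⟩
    · refine finsum_eq_sum_of_support_subset _ fun a ha => ?_
      by_contra hne
      apply ha
      show χ a y * F a y = 0
      rw [hA0 y hy a hne, zero_mul]
    · rw [← hone y (hMU hy.1)]
      refine (finsum_eq_sum_of_support_subset _ fun a ha => ?_).symm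
      by_contra hne
      exact ha (hA0 y hy.2 a hne)
  have hFO : ∀ {O : Set V} {a : κ}, IsOpen O → O ⊆ N (k a) → SmoothAlong d (M ∩ O) (F a) := by
    intro O a hO hsub
    have h1 := if_smoothAlong_inter (hFs a) hO
    have e : M ∩ N (k a) ∩ O = M ∩ O := by
      rw [inter_assoc, inter_eq_right.2 hsub]
    rwa [e] at h1
  refine ⟨fun x => ∑ᶠ a, χ a x * F a x, ?_, ?_, ?_⟩
  · refine if_smoothAlong_of_pieces fun x hx => ?_
    obtain ⟨O, A, hO, hxO, hAN, hsum, -⟩ := hL x hx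
    refine ⟨O, hO, hxO, ?_⟩
    exact gs_sm_congr (gs_sm_sum A fun a ha =>
      gs_sm_mul (if_smoothAlong_inter (hχM a) hO) (hFO hO (hAN a ha))) fun y hy => hsum y hy.2
  · intro x hx
    obtain ⟨O, A, hO, hxO, hAN, hsum, h1⟩ := hL x hx
    show |(∑ᶠ a, χ a x * F a x) - r x| < ε
    rw [hsum x hxO]
    have e : ∑ a ∈ A, χ a x * F a x - r x = ∑ a ∈ A, χ a x * (F a x - r x) := by
      have : ∑ a ∈ A, χ a x * (F a x - r x) = ∑ a ∈ A, χ a x * F a x - r x * ∑ a ∈ A, χ a x := by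
        rw [Finset.mul_sum, ← Finset.sum_sub_distrib]
        refine Finset.sum_congr rfl fun a _ => ?_
        ring
      rw [this, h1 x ⟨hx, hxO⟩, mul_one]
    rw [e]
    calc |∑ a ∈ A, χ a x * (F a x - r x)| ≤ ∑ a ∈ A, |χ a x * (F a x - r x)| :=
          Finset.abs_sum_le_sum_abs _ _
      _ ≤ ∑ a ∈ A, χ a x * (ε / 4) := by
          refine Finset.sum_le_sum fun a ha => ?_
          rw [abs_mul, abs_of_nonneg (hχ0 a x)]
          exact mul_le_mul_of_nonneg_left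
            ((hFr a x ⟨hx, hAN a ha hxO⟩).trans (hδε a)) (hχ0 a x)
      _ = ε / 4 := by rw [← Finset.sum_mul, h1 x ⟨hx, hxO⟩, one_mul]
      _ < ε := by linarith
  · intro x hx
    obtain ⟨O, A, hO, hxO, hAN, hsum, h1⟩ := hL x hx
    have hxMO : x ∈ M ∩ O := ⟨hx, hxO⟩
    have hMO := if_mfd_inter hM hO
    have hgO := if_isMetricOn_inter hg hO
    rw [← if_gradSq_inter' g _ hO hxO,
      gs_sq_congr (x := x) (h := g) (fun y (hy : y ∈ M ∩ O) => hsum y hy.2)]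
    have hest := t3gw_local_est hMO hgO A (χ := χ) (F := F) (r₀ := r x) (Λ := (1 + η) ^ 2)
      (δ := fun a => ε / 4 * (1 / 2 : ℝ) ^ (j a + 1) / (1 + c a)) (c := c)
      (fun a _ => if_smoothAlong_inter (hχM a) hO) (fun a ha => hFO hO (hAN a ha)) h1 hxMO
      (fun a _ => hχ0 a x) ?_ (fun a ha => hFr a x ⟨hx, hAN a ha hxO⟩) ?_
    · have h2 : ∑ a ∈ A, ε / 4 * (1 / 2 : ℝ) ^ (j a + 1) / (1 + c a) * c a ≤ ε / 4 := by
        calc _ ≤ ∑ a ∈ A, ε / 4 * (1 / 2 : ℝ) ^ (j a + 1) := Finset.sum_le_sum fun a _ => hδc a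
          _ = ε / 4 * ∑ a ∈ A, (1 / 2 : ℝ) ^ (j a + 1) := by rw [Finset.mul_sum]
          _ ≤ ε / 4 * 1 := mul_le_mul_of_nonneg_left (t3gw_sum_geom hj A) (by linarith)
          _ = ε / 4 := mul_one _
      have h3 : Real.sqrt (gradSq d (M ∩ O) g (fun y => ∑ a ∈ A, χ a y * F a y) x) ≤ 1 + ε := by
        linarith
      exact (Real.sqrt_le_iff.1 h3).2
    · intro a ha
      have e : M ∩ N (k a) ∩ O = M ∩ O := by
        rw [inter_assoc, inter_eq_right.2 (hAN a ha)]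
      have h4 := if_gradSq_inter' (M := M ∩ N (k a)) (d := d) g (F a) hO hxO
      rw [e] at h4
      rw [h4]
      apply Real.sqrt_le_iff.2
      refine ⟨by positivity, ?_⟩
      calc _ ≤ (1 + η) ^ 4 := hFg a x ⟨hx, hAN a ha hxO⟩
        _ = ((1 + η) ^ 2) ^ 2 := by ring
    · intro a _
      rw [if_gradSq_inter' g _ hO hxO]
      exact hc a x hx

/-- the distance from a point is 1-Lipschitz (PROVED from IF). -/
theorem t3_rdist_lip (hM : IsMfd d M) (hg : IsMetricOn d M g) (hc : IsPreconnected M) {o : V}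
    (ho : o ∈ M) : ∀ x ∈ M, ∀ y ∈ M, if_Join M x y →
      |rdist M g o x - rdist M g o y| ≤ rdist M g x y := by
  intro x hx y hy _
  rw [abs_sub_comm]
  exact if_abs_rdist_sub_le hM hc (if_isMetricOn_iff.1 hg).1 ho hx hy

end Claimed.Agent.R315
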