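-- KEEP
import Claimed.Agent.R315.Ct.Defs
import Claimed.Agent.R315.Pack006

/-!
# Row 315, paper T (n = 3): geometric definitions

Sub-captain: helper72.  Language of `Core/Basic.lean` (manifolds = sets in a normed space `V`) and of
`Ct/Defs.lean` (weighted perimeter, local absolute minimisers).

* `T3Def d M S O φ` : `φ` is a regular defining function of `S` in the open piece `M ∩ O`.
* `T3Hyp d M S`     : closed (= compact) connected two-sided embedded hypersurface of `M`.
* `T3Cut M g t S`   : CUT SURFACE: a `T3Hyp 3` with a tube `M ∩ O` in which one side `{φ < 0}` is a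
  local absolute minimiser of the weighted perimeter (no pressure).  This replaces "closed connected
  embedded two-sided stable weighted minimal surface" of T Section 3: it is what T Lemma 3.2
  produces, it implies stationarity and stability, and it makes the cut surfaces BARRIERS for later
  minimisation problems by the lattice inequality alone.
* `T3Fam M g t 𝒮`   : locally finite family of pairwise disjoint cut surfaces.
* `T3Comp Y R`      : `R` is a connected component of `Y` (maximal preconnected subset).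
* `T3Rad M g R o r` : what the weighted bubbles deliver about the radial function `r` of the
  complementary region `R` (T Propositions 4.2, 5.2), constants `l₀ = W₁ = 100`, `W₂ = 60`.
-/

set_option autoImplicit false
set_option linter.unusedSectionVars false
open scoped ContDiff Topology
open MeasureTheory Claims.C0499

namespace Claimed.Agent.R315

variable {V : Type} [NormedAddCommGroup V] [NormedSpace ℝ V]

/-- `φ` is a regular defining function of `S` in `M ∩ O`. -/
structure T3Def (d : ℕ) (M S O : Set V) (φ : V → ℝ) : Prop where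
  opn : IsOpen O
  sub : S ⊆ M ∩ O
  smooth : SmoothAlong d (M ∩ O) φ
  zero : ∀ x ∈ M ∩ O, φ x = 0 ↔ x ∈ S
  reg : ∀ (ψ : E d → V) (U : Set (E d)), IsParam (M ∩ O) ψ U → ∀ u ∈ U, φ (ψ u) = 0 →
    fderiv ℝ (φ ∘ ψ) u ≠ 0

/-- closed connected two-sided embedded hypersurface of the `d`-manifold `M`. -/
def T3Hyp (d : ℕ) (M S : Set V) : Prop :=
  IsCompact S ∧ IsConnected S ∧ ∃ (O : Set V) (φ : V → ℝ), T3Def d M S O φ

/-- relatively open subsets of `M`. -/
def T3RelOpen (M A : Set V) : Prop := ∃ O : Set V, IsOpen O ∧ A = M ∩ O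

/-- `R` is a connected component of `Y`. -/
def T3Comp (Y R : Set V) : Prop :=
  R ⊆ Y ∧ R.Nonempty ∧ IsPreconnected R ∧
    ∀ C ⊆ Y, IsPreconnected C → (C ∩ R).Nonempty → C ⊆ R

/-- the radial function of a complementary region. -/
structure T3Rad (M : Set V) (g : Ten V) (R : Set V) (o : V) (r : V → ℝ) : Prop where
  mem : o ∈ R
  le : ∀ x ∈ R, rdist M g o x ≤ r x
  pe : ∀ F A A' : Set V, IsCompact F → F ⊆ R → T3RelOpen M A → T3RelOpen M A' → Disjoint A A' →
    A ∪ A' = R \ F → o ∈ A → ∀ x ∈ A', ∀ ε > 0, ∃ z ∈ F, rdist M g z x ≤ r x - r z + ε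
  bub : ∀ l : ℝ, 100 ≤ l → ∃ (m : ℕ) (F : Fin m → Set V) (Up Um : Set V),
    (∀ i, T3Hyp 3 M (F i) ∧ F i ⊆ R ∧ (∀ z ∈ F i, l - 100 < r z) ∧
      ∀ z ∈ F i, ∀ z' ∈ F i, rdist M g z z' ≤ 60) ∧
    Pairwise (Function.onFun Disjoint F) ∧ T3RelOpen M Up ∧ T3RelOpen M Um ∧ Disjoint Up Um ∧
    Up ∪ Um = R \ ⋃ i, F i ∧ o ∈ Up ∧ ∀ x ∈ R, l ≤ r x → x ∈ Um

variable [MeasurableSpace V] [BorelSpace V]

/-- cut surface. -/
def T3Cut (M : Set V) (g : Ten V) (t : V → ℝ) (S : Set V) : Prop :=
  IsCompact S ∧ IsConnected S ∧ ∃ (O : Set V) (φ : V → ℝ), T3Def 3 M S O φ ∧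
    CtLAM 3 (M ∩ O) g t (fun _ => 0) {x | x ∈ M ∩ O ∧ φ x < 0}

/-- locally finite family of pairwise disjoint cut surfaces. -/
structure T3Fam (M : Set V) (g : Ten V) (t : V → ℝ) (𝒮 : Set (Set V)) : Prop where
  cut : ∀ S ∈ 𝒮, T3Cut M g t S
  dis : 𝒮.PairwiseDisjoint id
  lf : ∀ x ∈ M, ∃ W ∈ 𝓝 x, {S | S ∈ 𝒮 ∧ (S ∩ W).Nonempty}.Finite

theorem t3Defs_eqns_cite : True := by
  have := @T3Hyp.eq_1
  have := @T3RelOpen.eq_1
  have := @T3Comp.eq_1
  have := @T3Cut.eq_1
  trivial

theorem T3Cut.hyp {M : Set V} {g : Ten V} {t : V → ℝ} {S : Set V} (h : T3Cut M g t S) :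
    T3Hyp 3 M S := by
  obtain ⟨h1, h2, O, φ, h3, _⟩ := h
  exact ⟨h1, h2, O, φ, h3⟩

end Claimed.Agent.R315
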