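-- KEEP
import Claimed.Agent.R315.T3.Defs
import Claimed.Agent.R315.T3.Fin
import Claimed.Agent.R315.Pack004
import Claimed.Agent.R315.Pack003
import Claimed.Agent.R315.Pack002

/-!
# Row 315, paper T (n = 3): bridges smooth ⟹ topological

* `t3g_chart`   straightening: a parametrisation in which a regular defining function is a LINEAR functional (PROVED),
* `t3g_box`     small straightened boxes: connected nonempty sides, short joins to the centre (PROVED),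
* `t3g_wall`    a regular defining function gives a topological wall `TWall` of `↥M` (PROVED),
* `t3g_surf`    a `T3Hyp` is a `TSurf` of `↥M` (PROVED from `t3g_wall`),
* `t3g_lift`    chart balls have the lifting property `TLift`,
* `t3g_locconn` `↥M` is locally connected.
LEAVES: L-T3-G-lift (`t3g_lift`, `t3g_locconn`).
-/

set_option autoImplicit false
set_option linter.unusedSectionVars false
open scoped ContDiff Topology
open Claims.C0499 Set Metric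

namespace Claimed.Agent.R315

variable {V : Type} [NormedAddCommGroup V] [NormedSpace ℝ V]

/-- inverse function theorem with a smooth two-sided inverse (as `if_exists_local_inverse`, PROVED). -/
theorem t3_local_inverse {d : ℕ} {U : Set (E d)} {F : E d → E d} (hU : IsOpen U)
    (hF : ContDiffOn ℝ ∞ F U) {u₀ : E d} (hu : u₀ ∈ U)
    (hd : fderiv ℝ F u₀ = ContinuousLinearMap.id ℝ (E d)) :
    ∃ (σ : E d → E d) (O : Set (E d)), IsOpen O ∧ F u₀ ∈ O ∧ ContDiffOn ℝ ∞ σ O ∧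
      MapsTo σ O U ∧ σ (F u₀) = u₀ ∧ ∀ a ∈ O, F (σ a) = a := by
  have hFa : ContDiffAt ℝ ∞ F u₀ := hF.contDiffAt (hU.mem_nhds hu)
  have hF' : HasFDerivAt F
      ((ContinuousLinearEquiv.refl ℝ (E d) : E d ≃L[ℝ] E d) : E d →L[ℝ] E d) u₀ := by
    have h1 := (hFa.differentiableAt (by simp)).hasFDerivAt
    rw [hd] at h1
    exact h1
  have hs := hFa.hasStrictFDerivAt' hF' (by simp)
  set e := HasStrictFDerivAt.toOpenPartialHomeomorph F hs with he
  have hecoe : (e : E d → E d) = F := HasStrictFDerivAt.toOpenPartialHomeomorph_coe hs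
  have hsrc : u₀ ∈ e.source := HasStrictFDerivAt.mem_toOpenPartialHomeomorph_source hs
  set S : Set (E d) := U ∩ fderiv ℝ F ⁻¹'
    (range (ContinuousLinearEquiv.toContinuousLinearMap : (E d ≃L[ℝ] E d) → E d →L[ℝ] E d))
    with hS
  have hSo : IsOpen S :=
    (hF.continuousOn_fderiv_of_isOpen hU (by simp)).isOpen_inter_preimage hU
      ContinuousLinearEquiv.isOpen
  have hu₀S : u₀ ∈ S := ⟨hu, ContinuousLinearEquiv.refl ℝ (E d), by rw [hd]; rfl⟩
  refine ⟨e.symm, e.target ∩ e.symm ⁻¹' S, e.isOpen_inter_preimage_symm hSo, ?_, ?_, ?_, ?_, ?_⟩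
  · rw [← hecoe]
    exact ⟨e.map_source hsrc, by rw [mem_preimage, e.left_inv hsrc]; exact hu₀S⟩
  · intro a ha
    obtain ⟨f₀', hf₀'⟩ := ha.2.2
    have hUa : e.symm a ∈ U := ha.2.1
    have h1 : ContDiffAt ℝ ∞ F (e.symm a) := hF.contDiffAt (hU.mem_nhds hUa)
    have h2 : HasFDerivAt F (f₀' : E d →L[ℝ] E d) (e.symm a) := by
      have := (h1.differentiableAt (by simp)).hasFDerivAt
      rwa [← hf₀'] at this
    exact (e.contDiffAt_symm ha.1 (hecoe ▸ h2) (hecoe ▸ h1)).contDiffWithinAt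
  · intro a ha
    exact ha.2.1
  · rw [← hecoe]
    exact e.left_inv hsrc
  · intro a ha
    rw [← hecoe]
    exact e.right_inv ha.1

/-- **straightening of a regular defining function** (PROVED): a parametrisation in which `φ` is a nonzero LINEAR functional. -/
theorem t3g_chart [FiniteDimensional ℝ V] {d : ℕ} {M S O : Set V} {φ : V → ℝ} (hM : IsMfd d M)
    (h : T3Def d M S O φ) {p : V} (hp : p ∈ S) :
    ∃ (ψ : E d → V) (r : ℝ) (l : E d →L[ℝ] ℝ), 0 < r ∧ IsParam (M ∩ O) ψ (ball 0 r) ∧ ψ 0 = p ∧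
      l ≠ 0 ∧ ∀ u ∈ ball (0 : E d) r, φ (ψ u) = l u := by
  obtain ⟨ψ₀, U₀, hψ₀, u₀, hu₀, rfl⟩ := if_mfd_inter hM h.opn p (h.sub hp)
  have hU₀ := if_open hψ₀
  set f : E d → ℝ := φ ∘ ψ₀ with hf
  have hfs : ContDiffOn ℝ ∞ f U₀ := h.smooth ψ₀ U₀ hψ₀
  have hf0 : f u₀ = 0 := (h.zero _ (h.sub hp)).2 hp
  set l : E d →L[ℝ] ℝ := fderiv ℝ f u₀ with hl
  have hl0 : l ≠ 0 := h.reg ψ₀ U₀ hψ₀ u₀ hu₀ hf0
  obtain ⟨v, hv⟩ : ∃ v, l v ≠ 0 := by
    by_contra hcon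
    push Not at hcon
    exact hl0 (ContinuousLinearMap.ext hcon)
  set e : E d := (l v)⁻¹ • v with he
  have hle : l e = 1 := by
    rw [he, map_smul, smul_eq_mul, inv_mul_cancel₀ hv]
  set F : E d → E d := fun u => u + (f u - l (u - u₀)) • e with hF
  have hFs : ContDiffOn ℝ ∞ F U₀ := by
    refine contDiffOn_id.add ((hfs.sub ?_).smul contDiffOn_const)
    exact (l.contDiff.comp (contDiff_id.sub contDiff_const)).contDiffOn
  have hfd : HasFDerivAt f l u₀ :=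
    ((hfs.contDiffAt (hU₀.mem_nhds hu₀)).differentiableAt (by simp)).hasFDerivAt
  have hFd : fderiv ℝ F u₀ = ContinuousLinearMap.id ℝ (E d) := by
    have h1 : HasFDerivAt (fun u => l (u - u₀)) l u₀ := by
      have h0 : HasFDerivAt (fun u : E d => u - u₀) (ContinuousLinearMap.id ℝ (E d)) u₀ :=
        (hasFDerivAt_id u₀).sub_const u₀
      have := HasFDerivAt.comp (g := l) (g' := l) u₀ l.hasFDerivAt h0
      rw [ContinuousLinearMap.comp_id] at this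
      exact this
    have h2 : HasFDerivAt F (ContinuousLinearMap.id ℝ (E d) + (l - l).smulRight e) u₀ :=
      (hasFDerivAt_id u₀).add ((hfd.sub h1).smul_const e)
    rw [h2.fderiv, sub_self]
    ext1 x
    simp
  have hFu₀ : F u₀ = u₀ := by simp [hF, hf0]
  have hlF : ∀ u, l (F u - u₀) = f u := by
    intro u
    have : F u - u₀ = (u - u₀) + (f u - l (u - u₀)) • e := by
      simp only [hF]; abel
    rw [this, map_add, map_smul, hle, smul_eq_mul, mul_one]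
    ring
  obtain ⟨σ, Oσ, hOσ, hmem, hσs, hmaps, hσu, hright⟩ := t3_local_inverse hU₀ hFs hu₀ hFd
  rw [hFu₀] at hmem hσu
  obtain ⟨r, hr, hball⟩ := Metric.isOpen_iff.1 hOσ u₀ hmem
  set τ : E d → E d := fun w => σ (w + u₀) with hτ
  have hin : ∀ w ∈ ball (0 : E d) r, w + u₀ ∈ Oσ := fun w hw => hball (by
    rw [mem_ball, dist_eq_norm, add_sub_cancel_right]
    exact mem_ball_zero_iff.1 hw)
  have hτs : ContDiffOn ℝ ∞ τ (ball 0 r) :=
    hσs.comp (contDiff_id.add contDiff_const).contDiffOn hin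
  have hFτ : ∀ w ∈ ball (0 : E d) r, F (τ w) = w + u₀ := fun w hw => hright _ (hin w hw)
  have hτm : MapsTo τ (ball 0 r) U₀ := fun w hw => hmaps (hin w hw)
  have hτi : InjOn τ (ball 0 r) := by
    intro a ha b hb hab
    have := congrArg F hab
    rw [hFτ a ha, hFτ b hb] at this
    exact add_right_cancel this
  have hτimm : ∀ w ∈ ball (0 : E d) r, Function.Injective (fderiv ℝ τ w) := by
    intro w hw
    have h1 : DifferentiableAt ℝ τ w :=
      (hτs.contDiffAt (isOpen_ball.mem_nhds hw)).differentiableAt (by simp)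
    have h2 : DifferentiableAt ℝ F (τ w) :=
      (hFs.contDiffAt (hU₀.mem_nhds (hτm hw))).differentiableAt (by simp)
    have h3 : fderiv ℝ (F ∘ τ) w = ContinuousLinearMap.id ℝ (E d) := by
      have : (F ∘ τ) =ᶠ[𝓝 w] fun a => a + u₀ := by
        filter_upwards [isOpen_ball.mem_nhds hw] with a ha using hFτ a ha
      rw [this.fderiv_eq]
      exact ((hasFDerivAt_id w).add_const u₀).fderiv
    rw [fderiv_comp w h2 h1] at h3
    intro a b hab
    have := congrArg (fderiv ℝ F (τ w)) hab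
    have e1 : ∀ c, fderiv ℝ F (τ w) (fderiv ℝ τ w c) = c := fun c => by
      have := congrArg (fun L : E d →L[ℝ] E d => L c) h3
      simpa using this
    rwa [e1, e1] at this
  refine ⟨ψ₀ ∘ τ, r, l, hr, if_comp hψ₀ isOpen_ball hτs hτi hτimm hτm, ?_, hl0, fun u hu => ?_⟩
  · show ψ₀ (σ (0 + u₀)) = ψ₀ u₀
    rw [zero_add, hσu]
  · show f (τ u) = l u
    rw [← hlF, hFτ u hu, add_sub_cancel_right]


/-- boxes in a straightened chart (PROVED). -/
theorem t3g_box_aux [FiniteDimensional ℝ V] {d : ℕ} {M O : Set V} {φ : V → ℝ} {ψ : E d → V}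
    {r : ℝ} {l : E d →L[ℝ] ℝ} (hO : IsOpen O) (hr : 0 < r)
    (hψ : IsParam (M ∩ O) ψ (ball 0 r)) (hl : l ≠ 0)
    (hφ : ∀ u ∈ ball (0 : E d) r, φ (ψ u) = l u) {W : Set V} (hW : W ∈ 𝓝 (ψ 0)) :
    ∃ s₀ > 0, s₀ ≤ r ∧ ∀ s, 0 < s → s ≤ s₀ → ∃ N : Set V, IsOpen N ∧ ψ 0 ∈ N ∧ N ⊆ W ∩ O ∧
      M ∩ N = ψ '' ball 0 s ∧ IsParam (M ∩ N) ψ (ball 0 s) ∧
      IsPreconnected {x | x ∈ M ∩ N ∧ 0 < φ x} ∧ {x | x ∈ M ∩ N ∧ 0 < φ x}.Nonempty ∧
      IsPreconnected {x | x ∈ M ∩ N ∧ φ x < 0} ∧ {x | x ∈ M ∩ N ∧ φ x < 0}.Nonempty := by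
  have h0 : (0 : E d) ∈ ball (0 : E d) r := mem_ball_self hr
  have hc : ContinuousAt ψ 0 := (if_continuousOn hψ).continuousAt (isOpen_ball.mem_nhds h0)
  have hW' : interior W ∈ 𝓝 (ψ 0) := interior_mem_nhds.2 hW
  obtain ⟨s₁, hs₁, hb₁⟩ := Metric.mem_nhds_iff.1 (hc.preimage_mem_nhds hW')
  refine ⟨min s₁ r, lt_min hs₁ hr, min_le_right _ _, fun s hs hss => ?_⟩
  have hsr : s ≤ r := hss.trans (min_le_right _ _)
  have hbs : ball (0 : E d) s ⊆ ball 0 r := ball_subset_ball hsr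
  have hbW : ψ '' ball 0 s ⊆ interior W := by
    rintro _ ⟨u, hu, rfl⟩
    exact hb₁ (ball_subset_ball (hss.trans (min_le_left _ _)) hu)
  obtain ⟨N₀, hN₀, he⟩ := if_image_open hψ isOpen_ball hbs
  set N : Set V := O ∩ N₀ ∩ interior W with hN
  have hNo : IsOpen N := (hO.inter hN₀).inter isOpen_interior
  have hMN : M ∩ N = ψ '' ball 0 s := by
    apply Subset.antisymm
    · rintro x ⟨hx, ⟨hxO, hxN⟩, -⟩
      rw [he]
      exact ⟨⟨hx, hxO⟩, hxN⟩
    · intro x hx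
      have h1 : x ∈ M ∩ O ∩ N₀ := he ▸ hx
      exact ⟨h1.1.1, ⟨h1.1.2, h1.2⟩, hbW hx⟩
  have h0N : ψ 0 ∈ M ∩ N := hMN ▸ mem_image_of_mem ψ (mem_ball_self hs)
  have hpar : IsParam (M ∩ N) ψ (ball 0 s) :=
    if_param_inter (if_mono (if_param_of_inter hO hψ) isOpen_ball hbs)
      (fun x hx => (hMN ▸ hx : x ∈ M ∩ N).2)
  obtain ⟨v, hv⟩ : ∃ v, 0 < l v := by
    obtain ⟨v, hv⟩ : ∃ v, l v ≠ 0 := by
      by_contra hcon
      push Not at hcon
      exact hl (ContinuousLinearMap.ext hcon)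
    rcases lt_or_gt_of_ne hv with h' | h'
    · exact ⟨-v, by rw [map_neg]; linarith⟩
    · exact ⟨v, h'⟩
  have hv0 : v ≠ 0 := by
    rintro rfl
    simp at hv
  have hnv : 0 < ‖v‖ := norm_pos_iff.2 hv0
  set w : E d := (s / (2 * ‖v‖)) • v with hw
  have hcpos : 0 < s / (2 * ‖v‖) := by positivity
  have hwn : ‖w‖ < s := by
    rw [hw, norm_smul, Real.norm_eq_abs, abs_of_pos hcpos]
    have : s / (2 * ‖v‖) * ‖v‖ = s / 2 := by field_simp
    rw [this]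
    linarith
  have hlw : 0 < l w := by
    rw [hw, map_smul, smul_eq_mul]
    exact mul_pos hcpos hv
  have hcont : ContinuousOn ψ (ball 0 s) := (if_continuousOn hψ).mono hbs
  have eP : {x | x ∈ M ∩ N ∧ 0 < φ x} = ψ '' (ball 0 s ∩ {u | 0 < l u}) := by
    ext x
    constructor
    · rintro ⟨hx, hx0⟩
      rw [hMN] at hx
      obtain ⟨u, hu, rfl⟩ := hx
      exact ⟨u, ⟨hu, by rw [hφ u (hbs hu)] at hx0; exact hx0⟩, rfl⟩
    · rintro ⟨u, ⟨hu, hu0⟩, rfl⟩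
      exact ⟨hMN ▸ mem_image_of_mem ψ hu, by rw [hφ u (hbs hu)]; exact hu0⟩
  have eN : {x | x ∈ M ∩ N ∧ φ x < 0} = ψ '' (ball 0 s ∩ {u | l u < 0}) := by
    ext x
    constructor
    · rintro ⟨hx, hx0⟩
      rw [hMN] at hx
      obtain ⟨u, hu, rfl⟩ := hx
      exact ⟨u, ⟨hu, by rw [hφ u (hbs hu)] at hx0; exact hx0⟩, rfl⟩
    · rintro ⟨u, ⟨hu, hu0⟩, rfl⟩
      exact ⟨hMN ▸ mem_image_of_mem ψ hu, by rw [hφ u (hbs hu)]; exact hu0⟩
  refine ⟨N, hNo, h0N.2, fun x hx => ⟨interior_subset hx.2, hx.1.1⟩, hMN, hpar, ?_, ?_, ?_, ?_⟩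
  · rw [eP]
    exact (((convex_ball (0 : E d) s).inter
      (convex_halfSpace_gt l.isLinear 0)).isPreconnected).image ψ (hcont.mono inter_subset_left)
  · rw [eP]
    exact ⟨_, w, ⟨mem_ball_zero_iff.2 hwn, hlw⟩, rfl⟩
  · rw [eN]
    exact (((convex_ball (0 : E d) s).inter
      (convex_halfSpace_lt l.isLinear 0)).isPreconnected).image ψ (hcont.mono inter_subset_left)
  · rw [eN]
    refine ⟨_, -w, ⟨mem_ball_zero_iff.2 (by rw [norm_neg]; exact hwn), ?_⟩, rfl⟩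
    show l (-w) < 0
    rw [map_neg]
    linarith

/-- **L-T3-Cm-2** (PROVED): small straightened boxes around the points of a hypersurface: connected nonempty sides, and every point is joined to the centre inside the box by a short curve. -/
theorem t3g_box [FiniteDimensional ℝ V] {d : ℕ} {M S O : Set V} {φ : V → ℝ} {g : Ten V}
    (hM : IsMfd d M) (hg : IsMetricOn d M g) (h : T3Def d M S O φ) {p : V} (hp : p ∈ S)
    {W : Set V} (hW : W ∈ 𝓝 p) {ε : ℝ} (hε : 0 < ε) :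
    ∃ N : Set V, IsOpen N ∧ p ∈ N ∧ N ⊆ W ∩ O ∧
      IsPreconnected {x | x ∈ M ∩ N ∧ 0 < φ x} ∧ {x | x ∈ M ∩ N ∧ 0 < φ x}.Nonempty ∧
      IsPreconnected {x | x ∈ M ∩ N ∧ φ x < 0} ∧ {x | x ∈ M ∩ N ∧ φ x < 0}.Nonempty ∧
      ∀ x ∈ M ∩ N, if_Join (M ∩ N) x p ∧ rdist (M ∩ N) g x p ≤ ε := by
  obtain ⟨ψ, r, l, hr, hψ, rfl, hl, hφ⟩ := t3g_chart hM h hp
  obtain ⟨s₀, hs₀, hs₀r, hbox⟩ := t3g_box_aux h.opn hr hψ hl hφ hW
  have hT : IsTenOn d M g := (if_isMetricOn_iff.1 hg).1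
  have hψM := if_param_of_inter h.opn hψ
  have h0 : (0 : E d) ∈ ball (0 : E d) r := mem_ball_self hr
  have hc : ContinuousAt (fun w => ‖if_bil (cm g ψ w)‖) 0 :=
    if_continuousAt_norm (K := E d →L[ℝ] E d →L[ℝ] ℝ)
      ((if_bil_cm_continuousOn hT hψM).continuousAt (isOpen_ball.mem_nhds h0))
  have h1 : ∀ᶠ w in 𝓝 (0 : E d), ‖if_bil (cm g ψ w)‖ < ‖if_bil (cm g ψ 0)‖ + 1 :=
    hc.eventually (gt_mem_nhds (by linarith))
  obtain ⟨s₁, hs₁, hb₁⟩ := Metric.eventually_nhds_iff_ball.1 h1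
  set Kc : ℝ := ‖if_bil (cm g ψ 0)‖ + 1 with hKc
  have hKpos : 0 < Kc := by positivity
  set s : ℝ := min (min s₀ s₁) (ε / Real.sqrt Kc) with hs
  have hsq : 0 < Real.sqrt Kc := Real.sqrt_pos.2 hKpos
  have hspos : 0 < s := lt_min (lt_min hs₀ hs₁) (div_pos hε hsq)
  obtain ⟨N, hN, h0N, hNW, hMN, hpar, c1, c2, c3, c4⟩ := hbox s hspos
    ((min_le_left _ _).trans (min_le_left _ _))
  refine ⟨N, hN, h0N, hNW, c1, c2, c3, c4, fun x hx => ?_⟩
  rw [hMN] at hx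
  obtain ⟨u, hu, rfl⟩ := hx
  have hseg : segment ℝ u 0 ⊆ ball (0 : E d) s :=
    (convex_ball (0 : E d) s).segment_subset hu (mem_ball_self hspos)
  refine ⟨if_join_of_segment hpar hseg, ?_⟩
  have h2 := if_rdist_le_of_segment (if_mfd_inter hM hN) (if_isTenOn_inter hT hN) hpar hseg
    (K := Kc) (fun w hw => (hb₁ w (ball_subset_ball
      ((min_le_left _ _).trans (min_le_right _ _)) (hseg hw))).le)
  refine h2.trans ?_
  rw [zero_sub, norm_neg]
  have h3 : ‖u‖ ≤ ε / Real.sqrt Kc := (mem_ball_zero_iff.1 hu).le.trans (min_le_right _ _)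
  calc Real.sqrt Kc * ‖u‖ ≤ Real.sqrt Kc * (ε / Real.sqrt Kc) :=
        mul_le_mul_of_nonneg_left h3 hsq.le
    _ = ε := by field_simp

/-- a regular defining function gives a topological wall (PROVED). -/
theorem t3g_wall [FiniteDimensional ℝ V] {d : ℕ} {M S O : Set V} {φ : V → ℝ} (hM : IsMfd d M)
    (h : T3Def d M S O φ) :
    TWall (Subtype.val ⁻¹' S : Set ↥M) (Subtype.val ⁻¹' O) (fun x : ↥M => φ x) := by
  have hφc : ContinuousOn φ (M ∩ O) :=
    if_smoothAlong_continuousOn (if_mfd_inter hM h.opn) h.smooth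
  refine ⟨h.opn.preimage continuous_subtype_val, preimage_mono fun x hx => (h.sub hx).2,
    hφc.comp continuous_subtype_val.continuousOn fun x hx => ⟨x.2, hx⟩,
    fun x hx => h.zero x.1 ⟨x.2, hx⟩, fun p hp W hW => ?_⟩
  obtain ⟨W', hW', hWW⟩ := mem_nhds_subtype M p W |>.1 hW
  obtain ⟨ψ, r, l, hr, hψ, hψ0, hl, hφ⟩ := t3g_chart hM h (p := p.1) hp
  obtain ⟨s₀, hs₀, -, hbox⟩ := t3g_box_aux h.opn hr hψ hl hφ (W := W') (by rw [hψ0]; exact hW')
  obtain ⟨N, hN, h0N, hNW, -, -, c1, c2, c3, c4⟩ := hbox s₀ hs₀ le_rfl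
  have eP : Subtype.val '' ((Subtype.val ⁻¹' N : Set ↥M) ∩ {x : ↥M | 0 < φ x}) =
      {x | x ∈ M ∩ N ∧ 0 < φ x} := by
    ext x
    constructor
    · rintro ⟨y, ⟨hy, hy0⟩, rfl⟩
      exact ⟨⟨y.2, hy⟩, hy0⟩
    · rintro ⟨hx, hx0⟩
      exact ⟨⟨x, hx.1⟩, ⟨hx.2, hx0⟩, rfl⟩
  have eN : Subtype.val '' ((Subtype.val ⁻¹' N : Set ↥M) ∩ {x : ↥M | φ x < 0}) =
      {x | x ∈ M ∩ N ∧ φ x < 0} := by
    ext x
    constructor
    · rintro ⟨y, ⟨hy, hy0⟩, rfl⟩
      exact ⟨⟨y.2, hy⟩, hy0⟩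
    · rintro ⟨hx, hx0⟩
      exact ⟨⟨x, hx.1⟩, ⟨hx.2, hx0⟩, rfl⟩
  refine ⟨Subtype.val ⁻¹' N, hN.preimage continuous_subtype_val,
    by show p.1 ∈ N; rw [← hψ0]; exact h0N,
    fun x hx => hWW (hNW hx).1, fun x hx => (hNW hx).2, ?_, ?_, ?_, ?_⟩
  · rw [← Topology.IsInducing.subtypeVal.isPreconnected_image, eP]
    exact c1
  · obtain ⟨x, hx, hx0⟩ := c2
    exact ⟨⟨x, hx.1⟩, hx.2, hx0⟩
  · rw [← Topology.IsInducing.subtypeVal.isPreconnected_image, eN]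
    exact c3
  · obtain ⟨x, hx, hx0⟩ := c4
    exact ⟨⟨x, hx.1⟩, hx.2, hx0⟩

/-- a smooth closed connected two-sided hypersurface is a topological one. -/
theorem t3g_surf [FiniteDimensional ℝ V] {d : ℕ} {M S : Set V} (hM : IsMfd d M)
    (h : T3Hyp d M S) : TSurf (Subtype.val ⁻¹' S : Set ↥M) := by
  obtain ⟨h1, h2, O, φ, h3⟩ := h
  have hSM : S ⊆ M := fun x hx => (h3.sub hx).1
  have himg : Subtype.val '' (Subtype.val ⁻¹' S : Set ↥M) = S := by
    rw [Subtype.image_preimage_coe]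
    exact inter_eq_right.2 hSM
  refine ⟨?_, ?_, _, _, t3g_wall hM h3⟩
  · rw [Topology.IsInducing.subtypeVal.isCompact_iff, himg]
    exact h1
  · refine ⟨?_, ?_⟩
    · obtain ⟨x, hx⟩ := h2.nonempty
      exact ⟨⟨x, hSM hx⟩, hx⟩
    · rw [← Topology.IsInducing.subtypeVal.isPreconnected_image, himg]
      exact h2.isPreconnected

/-- small chart balls around a point of a manifold. -/
theorem t3g_ball {d : ℕ} {M : Set V} (hM : IsMfd d M) (x : ↥M) (W : Set ↥M) (hW : W ∈ 𝓝 x) :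
    ∃ (ψ : E d → V) (u₀ : E d) (ε : ℝ), 0 < ε ∧ IsParam M ψ (ball u₀ ε) ∧ ψ u₀ = x.1 ∧
      (Subtype.val ⁻¹' (ψ '' ball u₀ ε) : Set ↥M) ⊆ W := by
  obtain ⟨ψ, U, hψ, u₀, hu₀, hx⟩ := hM x.1 x.2
  obtain ⟨W', hW', hWW⟩ := (mem_nhds_subtype M x W).1 hW
  have hU := if_open hψ
  have hc : ContinuousAt ψ u₀ := (if_continuousOn hψ).continuousAt (hU.mem_nhds hu₀)
  have h1 : U ∩ ψ ⁻¹' W' ∈ 𝓝 u₀ :=
    Filter.inter_mem (hU.mem_nhds hu₀) (hc.preimage_mem_nhds (hx ▸ hW'))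
  obtain ⟨ε, hε, hb⟩ := Metric.mem_nhds_iff.1 h1
  refine ⟨ψ, u₀, ε, hε, if_mono hψ isOpen_ball (hb.trans inter_subset_left), hx, ?_⟩
  rintro y ⟨a, ha, hay⟩
  exact hWW (show y.1 ∈ W' from hay ▸ (hb ha).2)

/-- chart balls are relatively open. -/
theorem t3g_ball_open {d : ℕ} {M : Set V} {ψ : E d → V} {U : Set (E d)} (hψ : IsParam M ψ U) :
    IsOpen (Subtype.val ⁻¹' (ψ '' U) : Set ↥M) := by
  obtain ⟨O, hO, himg⟩ := hψ.2.2.2.2.1
  have hUe : (Subtype.val ⁻¹' (ψ '' U) : Set ↥M) = Subtype.val ⁻¹' O := by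
    rw [himg]
    ext y
    exact ⟨fun h => h.2, fun h => ⟨y.2, h⟩⟩
  rw [hUe]
  exact hO.preimage continuous_subtype_val

/-- small chart balls have the lifting property.
[`ψ '' ball u ε` is homeomorphic to a convex set: contractible, hence simply connected, locally path
connected: `IsCoveringMap.existsUnique_continuousMap_lifts` for `ℝ → AddCircle 1`.] -/
theorem t3g_lift [FiniteDimensional ℝ V] {d : ℕ} {M : Set V} (hM : IsMfd d M) (x : ↥M)
    (W : Set ↥M) (hW : W ∈ 𝓝 x) : ∃ U : Set ↥M, IsOpen U ∧ x ∈ U ∧ U ⊆ W ∧ TLift U := by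
  classical
  obtain ⟨ψ, u₀, ε, hε, hψ, hx, hsub⟩ := t3g_ball hM x W hW
  refine ⟨Subtype.val ⁻¹' (ψ '' ball u₀ ε), t3g_ball_open hψ, ⟨u₀, mem_ball_self hε, hx⟩, hsub, ?_⟩
  obtain ⟨-, hsm, -, hinj, ⟨O, hO, himg⟩, hinv⟩ := hψ
  intro uc huc
  have hψM : ∀ a : ball u₀ ε, ψ a.1 ∈ M := fun a =>
    (himg ▸ mem_image_of_mem ψ a.2 : ψ a.1 ∈ M ∩ O).1
  have hg : Continuous (fun a : ball u₀ ε => (⟨ψ a.1, hψM a⟩ : ↥M)) :=
    Continuous.subtype_mk (hsm.continuousOn.comp_continuous continuous_subtype_val fun a => a.2) _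
  let f : C(ball u₀ ε, AddCircle (1 : ℝ)) :=
    ⟨fun a => uc ⟨ψ a.1, hψM a⟩, huc.comp_continuous hg fun a => ⟨a.1, a.2, rfl⟩⟩
  have i1 : ContractibleSpace (ball u₀ ε) :=
    (convex_ball u₀ ε).contractibleSpace ⟨u₀, mem_ball_self hε⟩
  have i2 : LocallyPathConnectedSpace (ball u₀ ε) := isOpen_ball.locallyPathConnectedSpace
  obtain ⟨e₀, he₀⟩ := QuotientAddGroup.mk_surjective (f ⟨u₀, mem_ball_self hε⟩)
  obtain ⟨F, ⟨-, hF⟩, -⟩ := (AddCircle.isCoveringMap_coe (1 : ℝ)).existsUnique_continuousMap_lifts f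
    ⟨u₀, mem_ball_self hε⟩ e₀ he₀
  have hmem : ∀ y : ↥M, y ∈ (Subtype.val ⁻¹' (ψ '' ball u₀ ε) : Set ↥M) →
      Function.invFunOn ψ (ball u₀ ε) y.1 ∈ ball u₀ ε := fun y hy => Function.invFunOn_mem hy
  have heq : ∀ y : ↥M, y ∈ (Subtype.val ⁻¹' (ψ '' ball u₀ ε) : Set ↥M) →
      ψ (Function.invFunOn ψ (ball u₀ ε) y.1) = y.1 := fun y hy => Function.invFunOn_eq hy
  refine ⟨fun y => if h : Function.invFunOn ψ (ball u₀ ε) y.1 ∈ ball u₀ ε then F ⟨_, h⟩ else 0,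
    ?_, fun y hy => ?_⟩
  · rw [continuousOn_iff_continuous_domRestrict]
    have hk : Continuous (fun y : (Subtype.val ⁻¹' (ψ '' ball u₀ ε) : Set ↥M) =>
        (⟨Function.invFunOn ψ (ball u₀ ε) y.1.1, hmem y.1 y.2⟩ : ball u₀ ε)) :=
      Continuous.subtype_mk (hinv.comp_continuous
        (continuous_subtype_val.comp continuous_subtype_val) fun y => y.2) _
    refine (F.continuous.comp hk).congr fun y => ?_
    simp only [Set.domRestrict_apply, Function.comp_apply, dif_pos (hmem y.1 y.2)]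
  · simp only [dif_pos (hmem y hy)]
    have h1 := congrFun hF ⟨_, hmem y hy⟩
    simp only [Function.comp_apply] at h1
    rw [h1]
    show uc ⟨ψ (Function.invFunOn ψ (ball u₀ ε) y.1), _⟩ = uc y
    congr 1
    exact Subtype.ext (heq y hy)

/-- manifolds are locally connected. -/
theorem t3g_locconn [FiniteDimensional ℝ V] {d : ℕ} {M : Set V} (hM : IsMfd d M) :
    LocallyConnectedSpace ↥M := by
  rw [locallyConnectedSpace_iff_connected_subsets]
  intro x W hW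
  obtain ⟨ψ, u₀, ε, hε, hψ, hx, hsub⟩ := t3g_ball hM x W hW
  refine ⟨Subtype.val ⁻¹' (ψ '' ball u₀ ε),
    (t3g_ball_open hψ).mem_nhds ⟨u₀, mem_ball_self hε, hx⟩, ?_, hsub⟩
  have hsubM : ψ '' ball u₀ ε ⊆ M := by
    obtain ⟨O, -, himg⟩ := hψ.2.2.2.2.1
    rw [himg]
    exact inter_subset_left
  rw [← Topology.IsInducing.subtypeVal.isPreconnected_image, Subtype.image_preimage_coe,
    inter_eq_right.2 hsubM]
  exact (convex_ball u₀ ε).isPreconnected.image ψ (if_continuousOn hψ)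

end Claimed.Agent.R315
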