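-- KEEP
import Claimed.Agent.R315.T3.Br
import Claimed.Agent.R315.Ct.Reg

/-!
# Row 315, paper T (n = 3), package T3-Col: constrained minimisers and minimal collars

Sub-captain: helper72.

## Constrained minimisers
`T3CMin d X h t p Kpos Kneg A`: `A` has locally finite perimeter, `Kpos ⊆ A ⊆ X \ Kneg`, and `A` minimises `P_ω - ∫ p` among all such sets
which differ from `A` in a compact subset of `X`.
* (C1) `t3_cmin_exists`     direct method (`ct_exists_min`) + passage from total to local energies;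
* (C2) `T3CMin.inter`       restriction to an open piece;
* (C3) `T3CMin.lam`         no constraints ⟹ `CtLAM`;
* (C4) `T3CMin.barrier`     THE COLLAR LEMMA: the constraint `C ⊆ A` is inactive if `C` is `CtLAM` with pressure `0` and `p ≥ 0`
                            (lattice inequality only);
* (C5) `T3CMin.compl`       complements;  (C4') `T3CMin.barrier'` the constraint `A ∩ C = ∅`, `p ≤ 0`;
* (C6) `T3CMin.fill`, `T3CMin.void`   calibrated pieces (`ct_barrier`).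

## Collars
`T3Col d X h t B O φ`: `X` is a manifold with "exterior collars": `B i = {φ i = 0}` compact connected hypersurfaces with pairwise disjoint,
locally finite tubes `X ∩ O i`; the exterior side `{φ i < 0}` is a local absolute minimiser (pressure `0`) in the tube and `{φ i ≤ 0}` is closed in `X`.
`t3Ext` (closed exterior collars), `t3ExtO` (open ones), `t3Int = X \ t3Ext`, `t3Core = X \ t3ExtO`.

ALL LEAVES OF THIS FILE ARE PROVED (sorry-free).
-/

set_option autoImplicit false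
set_option linter.unusedSectionVars false
open scoped ContDiff Topology ENNReal
open MeasureTheory Claims.C0499 Set

namespace Claimed.Agent.R315

variable {V : Type} [NormedAddCommGroup V] [NormedSpace ℝ V]

/-- closed exterior collars of the indices in `I`. -/
def t3ExtI {ι : Type} (X : Set V) (O : ι → Set V) (φ : ι → V → ℝ) (I : Set ι) : Set V :=
  {x | ∃ i ∈ I, x ∈ X ∩ O i ∧ φ i x ≤ 0}

/-- all closed exterior collars. -/
def t3Ext {ι : Type} (X : Set V) (O : ι → Set V) (φ : ι → V → ℝ) : Set V :=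
  {x | ∃ i, x ∈ X ∩ O i ∧ φ i x ≤ 0}

/-- all open exterior collars. -/
def t3ExtO {ι : Type} (X : Set V) (O : ι → Set V) (φ : ι → V → ℝ) : Set V :=
  {x | ∃ i, x ∈ X ∩ O i ∧ φ i x < 0}

/-- the interior of the piece. -/
def t3Int {ι : Type} (X : Set V) (O : ι → Set V) (φ : ι → V → ℝ) : Set V := X \ t3Ext X O φ

/-- the piece with its boundary. -/
def t3Core {ι : Type} (X : Set V) (O : ι → Set V) (φ : ι → V → ℝ) : Set V := X \ t3ExtO X O φ

variable [MeasurableSpace V] [BorelSpace V]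

/-- constrained minimiser. -/
def T3CMin (d : ℕ) (X : Set V) (h : Ten V) (t p : V → ℝ) (Kpos Kneg A : Set V) : Prop :=
  CtLF d X h t A ∧ Kpos ⊆ A ∧ Disjoint A Kneg ∧
    ∀ K G, IsCompact K → K ⊆ X → CtLF d X h t G → Kpos ⊆ G → Disjoint G Kneg →
      symmDiff A G ⊆ K → ctEn d X h t p A K ≤ ctEn d X h t p G K

/-- manifold with minimal exterior collars. -/
structure T3Col (d : ℕ) (X : Set V) (h : Ten V) (t : V → ℝ) {ι : Type} (B O : ι → Set V)
    (φ : ι → V → ℝ) : Prop where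
  geo : CtGeo d X h t
  cpt : ∀ i, IsCompact (B i)
  conn : ∀ i, IsConnected (B i)
  df : ∀ i, T3Def d X (B i) (O i) (φ i)
  lam : ∀ i, CtLAM d (X ∩ O i) h t (fun _ => 0) {x | x ∈ X ∩ O i ∧ φ i x < 0}
  dis : Pairwise fun i j => Disjoint (X ∩ O i) (X ∩ O j)
  clo : ∀ i, ∃ C : Set V, IsClosed C ∧ X ∩ C = {x | x ∈ X ∩ O i ∧ φ i x ≤ 0}
  lf : ∀ x ∈ X, ∃ W ∈ 𝓝 x, {i | (X ∩ O i ∩ W).Nonempty}.Finite

theorem t3Col_eqns_cite : True := by
  have := @t3ExtI.eq_1
  have := @t3Ext.eq_1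
  have := @t3ExtO.eq_1
  have := @t3Int.eq_1
  have := @t3Core.eq_1
  have := @T3CMin.eq_1
  trivial

variable [FiniteDimensional ℝ V]
variable {d : ℕ} {X : Set V} {h : Ten V} {t p : V → ℝ} {Kpos Kneg A : Set V}

/-! ### constrained minimisers -/

/-- perimeter measures of sets which agree off a compact set (PROVED). -/
theorem t3_wper_off (hG : CtGeo d X h t) {A G K : Set V} (hA : MeasurableSet A)
    (hGm : MeasurableSet G) (hK : IsCompact K) (hs : symmDiff A G ⊆ K) :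
    wper d X h t A Kᶜ = wper d X h t G Kᶜ := by
  have hc : (wper d X h t A).restrict Kᶜ = (wper d X h t G).restrict Kᶜ := by
    refine ct_wper_congr hG hA hGm hK.isClosed.isOpen_compl ?_
    have : symmDiff A G ∩ Kᶜ = ∅ := by
      ext x
      simp only [mem_inter_iff, mem_compl_iff, mem_empty_iff_false, iff_false, not_and, not_not]
      exact fun hx => hs hx
    rw [this]
    exact measure_empty
  have := congrArg (fun μ : Measure V => μ univ) hc
  simpa [Measure.restrict_apply MeasurableSet.univ] using this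

/-- difference of two set integrals (PROVED). -/
theorem t3_integral_sub {μ : Measure V} {f : V → ℝ} {A G : Set V} (hA : MeasurableSet A)
    (hGm : MeasurableSet G) (hfA : IntegrableOn f A μ) (hfG : IntegrableOn f G μ) :
    ∫ x in A, f x ∂μ - ∫ x in G, f x ∂μ = ∫ x in A \ G, f x ∂μ - ∫ x in G \ A, f x ∂μ := by
  have e1 := integral_inter_add_sdiff (μ := μ) (f := f) (s := A) hGm hfA
  have e2 := integral_inter_add_sdiff (μ := μ) (f := f) (s := G) hA hfG
  rw [inter_comm G A] at e2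
  linarith

/-- energy of the complement (PROVED). -/
theorem t3_en_compl (hG : CtGeo d X h t) (hp : ContinuousOn p X) {A K : Set V}
    (hA : MeasurableSet A) (hK : IsCompact K) (hKX : K ⊆ X) :
    ctEn d X h t (fun x => -p x) (X \ A) K =
      ctEn d X h t p A K + ∫ x in K, p x ∂(wvol d X h t) := by
  have hKm : MeasurableSet K := hK.isClosed.measurableSet
  have hint := ct_integrableOn hG hp hK hKX
  have e1 : (X \ A) ∩ K = K \ A := by
    ext x
    constructor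
    · rintro ⟨⟨-, h1⟩, h2⟩
      exact ⟨h2, h1⟩
    · rintro ⟨h1, h2⟩
      exact ⟨⟨hKX h1, h2⟩, h1⟩
  have e2 := integral_inter_add_sdiff (μ := (wvol d X h t)) (f := p) (s := K) hA hint
  simp only [ctEn]
  rw [ct_wper_diff hG hA, e1, integral_neg, inter_comm A K]
  linarith

/-- energy in an open piece (PROVED). -/
theorem t3_en_inter (hG : CtGeo d X h t) {A K O : Set V} (hA : MeasurableSet A)
    (hO : IsOpen O) (hK : IsCompact K) (hKO : K ⊆ O) :
    ctEn d (X ∩ O) h t p (A ∩ O) K = ctEn d X h t p A K := by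
  have hKm : MeasurableSet K := hK.isClosed.measurableSet
  have e1 : A ∩ O ∩ K = A ∩ K := by
    rw [inter_assoc, inter_eq_self_of_subset_right hKO]
  simp only [ctEn]
  rw [ct_wper_inter hG hA hO, ct_wvol_inter hG hO, Measure.restrict_apply hKm,
    inter_eq_self_of_subset_left hKO, e1, Measure.restrict_restrict (hA.inter hKm),
    inter_assoc, inter_eq_self_of_subset_left hKO]

/-- **(C1) L-T3-CMin-1: existence.**
[`p₀ = Kc.indicator p` is bounded, measurable (`p` is continuous on the compact set `Kc`), supported in `Kc`: `ct_exists_min` gives a minimiser `A` of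
`ctTot p₀`, `wper A univ ≠ ⊤`.  Let `G` be admissible, `A △ G ⊆ K`.  `wper G` and `wper A` agree on the open set `Kᶜ` (`ct_wper_congr`), so
`wper G univ = wper G K + wper A Kᶜ` is finite; `A \ K = G \ K`; subtracting the common finite terms from `ctTot p₀ A ≤ ctTot p₀ G`:
`wper A K - ∫_{A∩K} p₀ ≤ wper G K - ∫_{G∩K} p₀`.  `A △ G` misses `Kpos ∪ Kneg`, hence lies in `Kc`, where `p₀ = p`:
`∫_{A∩K} p₀ - ∫_{G∩K} p₀ = ∫_{A∩K} p - ∫_{G∩K} p` (all integrals over subsets of the compact `K ⊆ X`, `p` continuous on `X`).] -/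
theorem t3_cmin_exists (hG : CtGeo d X h t) (hp : ContinuousOn p X) (h1 : MeasurableSet Kpos)
    (h2 : MeasurableSet Kneg) {Kc : Set V} (hKc : IsCompact Kc) (hKcX : Kc ⊆ X)
    (hfree : X \ Kc ⊆ Kpos ∪ Kneg) {E₀ : Set V} (hE₀ : CtLF d X h t E₀) (hE₀1 : Kpos ⊆ E₀)
    (hE₀2 : Disjoint E₀ Kneg) (hfin : wper d X h t E₀ univ ≠ ⊤) :
    ∃ A, T3CMin d X h t p Kpos Kneg A ∧ wper d X h t A univ ≠ ⊤ := by
  classical
  set p₀ : V → ℝ := Kc.indicator p with hp₀
  have hKcm := hKc.isClosed.measurableSet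
  have hp₀m : Measurable p₀ := by
    rw [hp₀, ← Set.piecewise_eq_indicator]
    exact ContinuousOn.measurable_piecewise (hp.mono hKcX) continuousOn_const hKcm
  obtain ⟨Cp, hCp⟩ := hKc.exists_bound_of_continuousOn (hp.mono hKcX)
  have hb : ∀ x, |p₀ x| ≤ max Cp 0 := by
    intro x
    by_cases hx : x ∈ Kc
    · rw [hp₀, indicator_of_mem hx]
      exact (hCp x hx).trans (le_max_left _ _)
    · rw [hp₀, indicator_of_notMem hx, abs_zero]
      exact le_max_right _ _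
  obtain ⟨A, hlf, hpos, hneg, hAf, hmin⟩ := ct_exists_min hG hp₀m hKc hKcX
    (fun x hx => indicator_of_notMem hx _) hb h1 h2 hE₀ hE₀1 hE₀2 hfin
  refine ⟨A, ⟨hlf, hpos, hneg, fun K G hK hKX hGlf hG1 hG2 hs => ?_⟩, hAf⟩
  have hKm : MeasurableSet K := hK.isClosed.measurableSet
  set μ := wvol d X h t with hμ
  have hp₀i : Integrable p₀ μ := (ct_integrableOn hG hp hKc hKcX).integrable_indicator hKcm
  have hpK : IntegrableOn p K μ := ct_integrableOn hG hp hK hKX
  have hc' := t3_wper_off hG hlf.meas hGlf.meas hK hs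
  have hA' := measure_add_measure_compl (μ := wper d X h t A) hKm
  have hG' := measure_add_measure_compl (μ := wper d X h t G) hKm
  have hcf : wper d X h t A Kᶜ ≠ ⊤ := ne_top_of_le_ne_top hAf (measure_mono (subset_univ _))
  have fA := hlf.fin K hK hKX
  have fG := hGlf.fin K hK hKX
  have hGf : wper d X h t G univ ≠ ⊤ := by
    rw [← hG', ← hc']
    exact ENNReal.add_ne_top.2 ⟨fG, hcf⟩
  have hT := hmin G hGlf hG1 hG2
  have hT' : (wper d X h t A univ).toReal - ∫ x in A, p₀ x ∂μ ≤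
      (wper d X h t G univ).toReal - ∫ x in G, p₀ x ∂μ := by
    simp only [ctTot] at hT
    lift wper d X h t A univ to NNReal using hAf with a ha
    lift wper d X h t G univ to NNReal using hGf with g hg
    rw [EReal.coe_nnreal_eq_coe_real, EReal.coe_nnreal_eq_coe_real, ← EReal.coe_sub,
      ← EReal.coe_sub, EReal.coe_le_coe_iff] at hT
    simpa using hT
  have eA : (wper d X h t A univ).toReal =
      (wper d X h t A K).toReal + (wper d X h t A Kᶜ).toReal := by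
    rw [← hA', ENNReal.toReal_add fA hcf]
  have eG : (wper d X h t G univ).toReal =
      (wper d X h t G K).toReal + (wper d X h t A Kᶜ).toReal := by
    rw [← hG', ← hc', ENNReal.toReal_add fG hcf]
  -- the two symmetric difference pieces lie in `Kc ∩ K`
  have hAG : A \ G ⊆ Kc ∩ K := by
    intro x hx
    refine ⟨?_, hs (Or.inl hx)⟩
    by_contra hxK
    rcases hfree ⟨hlf.sub hx.1, hxK⟩ with h' | h'
    · exact hx.2 (hG1 h')
    · exact disjoint_left.1 hneg hx.1 h'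
  have hGA : G \ A ⊆ Kc ∩ K := by
    intro x hx
    refine ⟨?_, hs (Or.inr hx)⟩
    by_contra hxK
    rcases hfree ⟨hGlf.sub hx.1, hxK⟩ with h' | h'
    · exact hx.2 (hpos h')
    · exact disjoint_left.1 hG2 hx.1 h'
  have e0 := t3_integral_sub (μ := μ) (f := p₀) hlf.meas hGlf.meas hp₀i.integrableOn
    hp₀i.integrableOn
  have e1 := t3_integral_sub (μ := μ) (f := p) (hlf.meas.inter hKm) (hGlf.meas.inter hKm)
    (hpK.mono_set inter_subset_right) (hpK.mono_set inter_subset_right)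
  have s1 : (A ∩ K) \ (G ∩ K) = A \ G := by
    ext x
    constructor
    · rintro ⟨hx, hx'⟩
      exact ⟨hx.1, fun h' => hx' ⟨h', hx.2⟩⟩
    · intro hx
      exact ⟨⟨hx.1, (hAG hx).2⟩, fun h' => hx.2 h'.1⟩
  have s2 : (G ∩ K) \ (A ∩ K) = G \ A := by
    ext x
    constructor
    · rintro ⟨hx, hx'⟩
      exact ⟨hx.1, fun h' => hx' ⟨h', hx.2⟩⟩
    · intro hx
      exact ⟨⟨hx.1, (hGA hx).2⟩, fun h' => hx.2 h'.1⟩
  rw [s1, s2] at e1
  have c1 : ∫ x in A \ G, p₀ x ∂μ = ∫ x in A \ G, p x ∂μ :=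
    setIntegral_congr_fun (hlf.meas.diff hGlf.meas) fun x hx => indicator_of_mem (hAG hx).1 _
  have c2 : ∫ x in G \ A, p₀ x ∂μ = ∫ x in G \ A, p x ∂μ :=
    setIntegral_congr_fun (hGlf.meas.diff hlf.meas) fun x hx => indicator_of_mem (hGA hx).1 _
  simp only [ctEn]
  linarith

/-- **(C2) L-T3-CMin-2: restriction to an open piece.**
[`G` admissible in `X ∩ O`, `(A ∩ O) △ G ⊆ K ⊆ X ∩ O` compact.  `G' = (A \ O) ∪ G` equals `A` off `K` and `G' ∩ O = G`.  `CtLF d X G'`: on the open sets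
`O` and `Kᶜ` the measure `wper d X G'` is `wper d (X ∩ O) G` (`ct_wper_inter`) resp. `wper d X A` (`ct_wper_congr`).  `G'` is admissible.
`ctEn d X p G' K = ctEn d (X ∩ O) p G K` and the same for `A` (`ct_wper_inter`, `ct_wvol_inter`, `K ⊆ O`).] -/
theorem T3CMin.inter (hG : CtGeo d X h t) (hA : T3CMin d X h t p Kpos Kneg A) {O : Set V}
    (hO : IsOpen O) : T3CMin d (X ∩ O) h t p (Kpos ∩ O) (Kneg ∩ O) (A ∩ O) := by
  obtain ⟨hlf, hpos, hneg, hmin⟩ := hA
  refine ⟨hlf.inter_open hG hO, inter_subset_inter_left O hpos,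
    hneg.mono inter_subset_left inter_subset_left, fun K G hK hKX hGlf hG1 hG2 hs => ?_⟩
  have hKm : MeasurableSet K := hK.isClosed.measurableSet
  have hKO : K ⊆ O := hKX.trans inter_subset_right
  have hKX' : K ⊆ X := hKX.trans inter_subset_left
  set G' : Set V := (A \ O) ∪ G with hG'
  have hG'm : MeasurableSet G' := (hlf.meas.diff hO.measurableSet).union hGlf.meas
  have hG'O : G' ∩ O = G := by
    ext x
    constructor
    · rintro ⟨hx | hx, hxO⟩
      · exact absurd hxO hx.2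
      · exact hx
    · intro hx
      exact ⟨Or.inr hx, (hGlf.sub hx).2⟩
  have hoff : G' \ K = A \ K := by
    ext x
    constructor
    · rintro ⟨hx | hx, hxK⟩
      · exact ⟨hx.1, hxK⟩
      · refine ⟨?_, hxK⟩
        by_contra hxA
        exact hxK (hs (Or.inr ⟨hx, fun h' => hxA h'.1⟩))
    · rintro ⟨hxA, hxK⟩
      refine ⟨?_, hxK⟩
      by_cases hxO : x ∈ O
      · right
        by_contra hxG
        exact hxK (hs (Or.inl ⟨⟨hxA, hxO⟩, hxG⟩))
      · exact Or.inl ⟨hxA, hxO⟩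
  have hG'X : G' ⊆ X := by
    rintro x (hx | hx)
    · exact hlf.sub hx.1
    · exact (hGlf.sub hx).1
  have hper : wper d X h t G' K = wper d (X ∩ O) h t G K := by
    rw [← hG'O, ct_wper_inter hG hG'm hO, Measure.restrict_apply hKm,
      inter_eq_self_of_subset_left hKO]
  have hG'lf : CtLF d X h t G' := ctLF_of_eq_off hG hG'm hG'X hlf hK.isClosed hoff (by
    rw [hper]; exact hGlf.fin K hK hKX)
  have h1 := hmin K G' hK hKX' hG'lf
    (fun x hx => by
      by_cases hxO : x ∈ O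
      · exact Or.inr (hG1 ⟨hx, hxO⟩)
      · exact Or.inl ⟨hpos hx, hxO⟩)
    (disjoint_left.2 fun x hx hx' => by
      rcases hx with hx | hx
      · exact disjoint_left.1 hneg hx.1 hx'
      · exact disjoint_left.1 hG2 hx ⟨hx', (hGlf.sub hx).2⟩)
    (by
      rintro x (⟨hxA, hx⟩ | ⟨hx, hxA⟩)
      · by_contra hxK
        have : x ∈ G' \ K := hoff ▸ ⟨hxA, hxK⟩
        exact hx this.1
      · by_contra hxK
        have : x ∈ A \ K := hoff ▸ (⟨hx, hxK⟩ : x ∈ G' \ K)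
        exact hxA this.1)
  rw [t3_en_inter hG hlf.meas hO hK hKO, ← hG'O, t3_en_inter hG hG'm hO hK hKO]
  exact h1

/-- **(C3)** no constraints. -/
theorem T3CMin.lam (hA : T3CMin d X h t p ∅ ∅ A) : CtLAM d X h t p A :=
  ⟨hA.1, fun K G hK hKX hG hs => hA.2.2.2 K G hK hKX hG (empty_subset _) (disjoint_empty _) hs⟩

/-- **(C4) L-T3-CMin-3: THE COLLAR LEMMA.**
[`G` any competitor, `A △ G ⊆ K`.  `G' = G ∪ C` is admissible and `A △ G' ⊆ K` (`C ⊆ A`).  Lattice (`ct_wper_lattice` at `K`):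
`wper (G ∩ C) K + wper (G ∪ C) K ≤ wper G K + wper C K`; minimality of `C` against `G ∩ C` (`C △ (G ∩ C) = C \ G ⊆ A \ G ⊆ K`): `wper C K ≤ wper (G ∩ C) K`;
all terms finite: `wper G' K ≤ wper G K`.  `∫_{G'∩K} p = ∫_{G∩K} p + ∫_{(C\G)∩K} p ≥ ∫_{G∩K} p`.  So `ctEn A ≤ ctEn G' ≤ ctEn G`.] -/
theorem T3CMin.barrier (hG : CtGeo d X h t) (hp : ContinuousOn p X) (hp0 : ∀ x ∈ X, 0 ≤ p x)
    {C : Set V} (hC : CtLAM d X h t (fun _ => 0) C) (hA : T3CMin d X h t p C ∅ A) :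
    CtLAM d X h t p A := by
  obtain ⟨hlf, hCA, -, hmin⟩ := hA
  refine ⟨hlf, fun K G hK hKX hGlf hs => ?_⟩
  have hKm : MeasurableSet K := hK.isClosed.measurableSet
  have hU := hGlf.union hG hC.lf
  have hI := hGlf.inter hG hC.lf
  have hs' : symmDiff A (G ∪ C) ⊆ K := by
    rintro x (⟨hxA, hx⟩ | ⟨hx, hxA⟩)
    · exact hs (Or.inl ⟨hxA, fun h' => hx (Or.inl h')⟩)
    · rcases hx with hx | hx
      · exact hs (Or.inr ⟨hx, hxA⟩)
      · exact absurd (hCA hx) hxA
  have h1 := hmin K (G ∪ C) hK hKX hU subset_union_right (disjoint_empty _) hs'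
  refine h1.trans ?_
  -- perimeter
  have hs'' : symmDiff C (G ∩ C) ⊆ K := by
    rintro x (⟨hxC, hx⟩ | ⟨hx, hxC⟩)
    · exact hs (Or.inl ⟨hCA hxC, fun h' => hx ⟨h', hxC⟩⟩)
    · exact absurd hx.2 hxC
  have h2 := hC.min K (G ∩ C) hK hKX hI hs''
  simp only [ctEn, integral_zero, sub_zero] at h2
  have h3 : wper d X h t (G ∩ C) K + wper d X h t (G ∪ C) K ≤
      wper d X h t G K + wper d X h t C K := by
    have := ct_wper_lattice hG hGlf.meas hC.lf.meas K
    simpa [Measure.add_apply] using this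
  have fG := hGlf.fin K hK hKX
  have fC := hC.lf.fin K hK hKX
  have fU := hU.fin K hK hKX
  have fI := hI.fin K hK hKX
  have h3' : (wper d X h t (G ∩ C) K).toReal + (wper d X h t (G ∪ C) K).toReal ≤
      (wper d X h t G K).toReal + (wper d X h t C K).toReal := by
    rw [← ENNReal.toReal_add fI fU, ← ENNReal.toReal_add fG fC]
    exact ENNReal.toReal_mono (ENNReal.add_ne_top.2 ⟨fG, fC⟩) h3
  -- volume term
  have hint : IntegrableOn p ((G ∪ C) ∩ K) (wvol d X h t) :=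
    (ct_integrableOn hG hp hK hKX).mono_set inter_subset_right
  have h4 : ∫ x in G ∩ K, p x ∂(wvol d X h t) ≤ ∫ x in (G ∪ C) ∩ K, p x ∂(wvol d X h t) := by
    refine setIntegral_mono_set hint ?_ (LE.le.eventuallyLE
      (inter_subset_inter_left K subset_union_left))
    refine (ae_restrict_iff' (hU.meas.inter hKm)).2 (Filter.Eventually.of_forall fun x hx => ?_)
    exact hp0 x (hKX hx.2)
  simp only [ctEn]
  linarith

/-- **(C5) L-T3-CMin-4: complements.**
[`ct_wper_diff`, `CtLF.diff`; `ctEn (-p) (X \ A) K = ctEn p A K + ∫_{X ∩ K} p`; `(X \ A) △ (X \ G) = A △ G` for subsets of `X`.] -/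
theorem T3CMin.compl (hG : CtGeo d X h t) (hp : ContinuousOn p X) (hK : Kneg ⊆ X)
    (hA : T3CMin d X h t p Kpos Kneg A) :
    T3CMin d X h t (fun x => -p x) Kneg Kpos (X \ A) := by
  obtain ⟨hlf, hpos, hneg, hmin⟩ := hA
  refine ⟨hlf.diff hG, fun x hx => ⟨hK hx, fun h' => disjoint_left.1 hneg h' hx⟩,
    disjoint_left.2 fun x hx hx' => hx.2 (hpos hx'), fun K G hKc hKX hGlf hG1 hG2 hs => ?_⟩
  have h1 := hmin K (X \ G) hKc hKX (hGlf.diff hG)
    (fun x hx => ⟨hlf.sub (hpos hx), fun h' => disjoint_left.1 hG2 h' hx⟩)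
    (disjoint_left.2 fun x hx hx' => hx.2 (hG1 hx')) (by
      rintro x (⟨hxA, hx⟩ | ⟨hx, hxA⟩)
      · have hxG : x ∈ G := by
          by_contra h'
          exact hx ⟨hlf.sub hxA, h'⟩
        exact hs (Or.inr ⟨hxG, fun h' => h'.2 hxA⟩)
      · exact hs (Or.inl ⟨⟨hx.1, hxA⟩, hx.2⟩))
  have e1 := t3_en_compl hG hp hlf.meas hKc hKX
  have e2 := t3_en_compl hG hp (hGlf.diff hG).meas hKc hKX
  rw [Set.sdiff_sdiff_right_self, inter_eq_self_of_subset_right hGlf.sub] at e2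
  rw [e1, e2]
  linarith

/-- **(C4')** the collar lemma on the minus side. -/
theorem T3CMin.barrier' (hG : CtGeo d X h t) (hp : SmoothAlong d X p)
    (hp0 : ∀ x ∈ X, p x ≤ 0) {C : Set V} (hC : CtLAM d X h t (fun _ => 0) C)
    (hA : T3CMin d X h t p ∅ C A) : CtLAM d X h t p A := by
  have hpc := if_smoothAlong_continuousOn hG.mfd hp
  have h1 := hA.compl hG hpc hC.lf.sub
  have h2 := h1.barrier hG (p := fun x => -p x) hpc.neg
    (fun x hx => by have := hp0 x hx; show 0 ≤ -p x; linarith) hC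
  have hp' : SmoothAlong d X (fun x => -p x) := fun ψ U hψ => (hp ψ U hψ).neg
  have h3 := h2.diff hG hp'
  rw [Set.sdiff_sdiff_right_self, inter_eq_self_of_subset_right hA.1.sub] at h3
  simpa using h3

/-- **(C6) L-T3-CMin-5: calibrated pieces are filled.**
[`K` compact with `B ⊆ K ⊆ X` from `hB.cpt`; `G = A ∪ B` is admissible (`CtLF.union`), `A △ G ⊆ B ⊆ K`; `ct_barrier`.] -/
theorem T3CMin.fill (hG : CtGeo d X h t) (hp : ContinuousOn p X)
    (hA : T3CMin d X h t p Kpos Kneg A) {B : Set V} {β : ℝ} (hB : CtCal d X h t B β)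
    (hBK : Disjoint B Kneg) (hpβ : ∀ x ∈ B, β < p x) : vol d X h (B \ A) = 0 := by
  obtain ⟨K, hK, hKX, hBKs⟩ := hB.cpt
  obtain ⟨hlf, hpos, hneg, hmin⟩ := hA
  refine ct_barrier hG hp hlf hB hK hKX hBKs ?_ hpβ
  refine hmin K (A ∪ B) hK hKX (hlf.union hG hB.lf) (hpos.trans subset_union_left)
    (disjoint_union_left.2 ⟨hneg, hBK⟩) ?_
  rintro x (⟨hxA, hx⟩ | ⟨hx, hxA⟩)
  · exact absurd (Or.inl hxA) hx
  · rcases hx with hx | hx
    · exact absurd hx hxA
    · exact hBKs hx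

/-- **(C6')** calibrated pieces are avoided (from (C5), (C6)). -/
theorem T3CMin.void (hG : CtGeo d X h t) (hp : ContinuousOn p X) (hK : Kneg ⊆ X)
    (hA : T3CMin d X h t p Kpos Kneg A) {B : Set V} {β : ℝ} (hB : CtCal d X h t B β)
    (hBK : Disjoint B Kpos) (hpβ : ∀ x ∈ B, p x < -β) : vol d X h (B ∩ A) = 0 := by
  have h1 := (hA.compl hG hp hK).fill hG (p := fun x => -p x) hp.neg hB hBK (fun x hx => by
    have := hpβ x hx; show β < -p x; linarith)
  refine measure_mono_null (fun x hx => ?_) h1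
  exact ⟨hx.1, fun h' => h'.2 hx.2⟩

/-- **L-T3-CMin-6**: relatively open sets which are a.e. contained in `A` lie in `ctIn`, those which are a.e. disjoint from `A` lie in `ctOut`.
[chartwise: `ct_in_iff`, `ct_out_iff`; `vol` of `ψ '' N` vanishes iff `N` is Lebesgue null (`if_vol_image`, positive density).] -/
theorem t3_in_of_ae (hG : CtGeo d X h t) {O : Set V} (hO : IsOpen O) (A : Set V)
    (hA : vol d X h ((X ∩ O) \ A) = 0) : X ∩ O ⊆ ctIn d X A := ct_in_of_null hG hO hA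

theorem t3_out_of_ae (hG : CtGeo d X h t) {O : Set V} (hO : IsOpen O) (A : Set V)
    (hA : vol d X h (X ∩ O ∩ A) = 0) : X ∩ O ⊆ ctOut d X A := ct_out_of_null hG hO hA

/-! ### collars -/

variable {ι : Type} {B O : ι → Set V} {φ : ι → V → ℝ}

/-- **L-T3-Col-A**: the union of the closed collars of any set of indices is closed in `X`.
[locally finite union of relatively closed sets.] -/
theorem T3Col.extI_closed (H : T3Col d X h t B O φ) (I : Set ι) :
    ∃ C : Set V, IsClosed C ∧ X ∩ C = t3ExtI X O φ I := by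
  refine ⟨closure (t3ExtI X O φ I), isClosed_closure, Subset.antisymm ?_ ?_⟩
  · rintro x ⟨hx, hxc⟩
    obtain ⟨W, hW, hfin⟩ := H.lf x hx
    choose C hC hCe using H.clo
    have h1 : x ∈ closure (t3ExtI X O φ I ∩ W) := by
      rw [mem_closure_iff_nhds] at hxc ⊢
      intro U hU
      obtain ⟨y, hyU, hyE⟩ := hxc (U ∩ W) (Filter.inter_mem hU hW)
      exact ⟨y, hyU.1, hyE, hyU.2⟩
    have h2 : t3ExtI X O φ I ∩ W ⊆ ⋃ i ∈ {i | (X ∩ O i ∩ W).Nonempty} ∩ I, C i := by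
      rintro y ⟨⟨i, hi, hy, hφ⟩, hyW⟩
      refine mem_biUnion (⟨⟨y, hy, hyW⟩, hi⟩ : i ∈ {i | (X ∩ O i ∩ W).Nonempty} ∩ I) ?_
      have : y ∈ X ∩ C i := by rw [hCe]; exact ⟨hy, hφ⟩
      exact this.2
    have h3 : IsClosed (⋃ i ∈ {i | (X ∩ O i ∩ W).Nonempty} ∩ I, C i) :=
      (hfin.inter_of_left I).isClosed_biUnion fun i _ => hC i
    have h4 := closure_minimal h2 h3 h1
    obtain ⟨i, hi, hxi⟩ := mem_iUnion₂.1 h4
    have : x ∈ {x | x ∈ X ∩ O i ∧ φ i x ≤ 0} := by rw [← hCe]; exact ⟨hx, hxi⟩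
    exact ⟨i, hi.2, this⟩
  · intro x hx
    obtain ⟨i, -, hxi, -⟩ := id hx
    exact ⟨hxi.1, subset_closure hx⟩

theorem t3Ext_eq_extI (X : Set V) (O : ι → Set V) (φ : ι → V → ℝ) :
    t3Ext X O φ = t3ExtI X O φ univ := by
  ext x
  simp [t3Ext, t3ExtI]

theorem T3Col.int_open (H : T3Col d X h t B O φ) :
    ∃ W : Set V, IsOpen W ∧ X ∩ W = t3Int X O φ := by
  obtain ⟨C, hC, he⟩ := H.extI_closed univ
  refine ⟨Cᶜ, hC.isOpen_compl, ?_⟩
  rw [t3Int, t3Ext_eq_extI, ← he]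
  ext x
  constructor
  · rintro ⟨hx, hxC⟩
    exact ⟨hx, fun h' => hxC h'.2⟩
  · rintro ⟨hx, hxC⟩
    exact ⟨hx, fun h' => hxC ⟨hx, h'⟩⟩

theorem T3Col.extO_open (H : T3Col d X h t B O φ) :
    ∃ W : Set V, IsOpen W ∧ X ∩ W = t3ExtO X O φ := by
  have hc : ∀ i, ContinuousOn (φ i) (X ∩ O i) := fun i =>
    if_smoothAlong_continuousOn (if_mfd_inter H.geo.mfd (H.df i).opn) (H.df i).smooth
  choose u hu hue using fun i => (continuousOn_iff'.1 (hc i)) (Iio 0) isOpen_Iio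
  refine ⟨⋃ i, O i ∩ u i, isOpen_iUnion fun i => (H.df i).opn.inter (hu i), ?_⟩
  ext x
  constructor
  · rintro ⟨hx, hxW⟩
    obtain ⟨i, hxO, hxu⟩ := mem_iUnion.1 hxW
    have : x ∈ φ i ⁻¹' Iio 0 ∩ (X ∩ O i) := by rw [hue]; exact ⟨hxu, hx, hxO⟩
    exact ⟨i, ⟨hx, hxO⟩, this.1⟩
  · rintro ⟨i, hxi, hφ⟩
    have : x ∈ u i ∩ (X ∩ O i) := by rw [← hue]; exact ⟨hφ, hxi⟩
    exact ⟨hxi.1, mem_iUnion.2 ⟨i, hxi.2, this.1⟩⟩

/-- only finitely many tubes meet a compact set. -/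
theorem T3Col.finite_meet (H : T3Col d X h t B O φ) {K : Set V} (hK : IsCompact K)
    (hKX : K ⊆ X) : {i | (X ∩ O i ∩ K).Nonempty}.Finite := by
  choose! W hW hfin using H.lf
  obtain ⟨s, hs, hcov⟩ := hK.elim_nhds_subcover W fun x hx => hW x (hKX hx)
  refine (s.finite_toSet.biUnion fun x hx => hfin x (hKX (hs x hx))).subset ?_
  rintro i ⟨y, hy, hyK⟩
  obtain ⟨x, hx, hyW⟩ := mem_iUnion₂.1 (hcov hyK)
  exact mem_biUnion hx ⟨y, hy, hyW⟩

/-- the hypersurfaces `B i` are null sets.  [`CtDef.sets` + `CtLAM.vol_bd`, or directly in charts.] -/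
theorem T3Col.vol_B (H : T3Col d X h t B O φ) (hd : 2 ≤ d) (i : ι) : vol d X h (B i) = 0 := by
  have hdf := H.df i
  have hG' : CtGeo d (X ∩ O i) h t := H.geo.inter hdf.opn
  have hc : ContinuousOn (φ i) (X ∩ O i) := if_smoothAlong_continuousOn hG'.mfd hdf.smooth
  have h0 := (H.lam i).vol_bd hG' (fun ψ U _ => contDiffOn_const) hd
  obtain ⟨hU, hIO, -, -⟩ := ct_trichotomy hG'.mfd (by omega : 1 ≤ d) {x | x ∈ X ∩ O i ∧ φ i x < 0}
  have hsub : B i ⊆ ctBd d (X ∩ O i) {x | x ∈ X ∩ O i ∧ φ i x < 0} := by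
    intro q hq
    have hqM : q ∈ X ∩ O i := hdf.sub hq
    rw [← hU] at hqM
    rcases hqM with (hq1 | hq1) | hq1
    · exfalso
      obtain ⟨W, hW, hWe⟩ := ct_in_open hG'.mfd {x | x ∈ X ∩ O i ∧ φ i x < 0}
      have hqW : q ∈ W := by
        have : q ∈ (X ∩ O i) ∩ W := by rw [hWe]; exact hq1
        exact this.2
      obtain ⟨N, hN, hqN, hNW, -, ⟨y, hy, hyφ⟩, -, -, -⟩ :=
        t3g_box H.geo.mfd H.geo.met hdf hq (hW.mem_nhds hqW) one_pos
      obtain ⟨u, hu, hue⟩ := (continuousOn_iff'.1 hc) (Ioi 0) isOpen_Ioi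
      have hyM : y ∈ X ∩ O i := ⟨hy.1, (hNW hy.2).2⟩
      have hyu : y ∈ u := by
        have : y ∈ u ∩ (X ∩ O i) := by rw [← hue]; exact ⟨hyφ, hyM⟩
        exact this.1
      have h1 : (X ∩ O i) ∩ (N ∩ u) ⊆ ctOut d (X ∩ O i) {x | x ∈ X ∩ O i ∧ φ i x < 0} := by
        refine ct_out_of_null hG' (hN.inter hu) ?_
        have : (X ∩ O i) ∩ (N ∩ u) ∩ {x | x ∈ X ∩ O i ∧ φ i x < 0} = ∅ := by
          ext x
          simp only [mem_inter_iff, mem_empty_iff_false, iff_false]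
          rintro ⟨⟨hx, -, hxu⟩, -, hxφ⟩
          have : x ∈ φ i ⁻¹' Ioi 0 ∩ (X ∩ O i) := by rw [hue]; exact ⟨hxu, hx⟩
          have h3 : 0 < φ i x := this.1
          linarith
        rw [this]
        exact measure_empty
      have h2 : y ∈ ctIn d (X ∩ O i) {x | x ∈ X ∩ O i ∧ φ i x < 0} := by
        rw [← hWe]; exact ⟨hyM, (hNW hy.2).1⟩
      exact disjoint_left.1 hIO h2 (h1 ⟨hyM, hy.2, hyu⟩)
    · exfalso
      obtain ⟨W, hW, hWe⟩ := ct_out_open hG'.mfd {x | x ∈ X ∩ O i ∧ φ i x < 0}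
      have hqW : q ∈ W := by
        have : q ∈ (X ∩ O i) ∩ W := by rw [hWe]; exact hq1
        exact this.2
      obtain ⟨N, hN, hqN, hNW, -, -, -, ⟨y, hy, hyφ⟩, -⟩ :=
        t3g_box H.geo.mfd H.geo.met hdf hq (hW.mem_nhds hqW) one_pos
      obtain ⟨u, hu, hue⟩ := (continuousOn_iff'.1 hc) (Iio 0) isOpen_Iio
      have hyM : y ∈ X ∩ O i := ⟨hy.1, (hNW hy.2).2⟩
      have hyu : y ∈ u := by
        have : y ∈ u ∩ (X ∩ O i) := by rw [← hue]; exact ⟨hyφ, hyM⟩
        exact this.1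
      have h1 : (X ∩ O i) ∩ (N ∩ u) ⊆ ctIn d (X ∩ O i) {x | x ∈ X ∩ O i ∧ φ i x < 0} := by
        refine ct_in_of_null hG' (hN.inter hu) ?_
        have : ((X ∩ O i) ∩ (N ∩ u)) \ {x | x ∈ X ∩ O i ∧ φ i x < 0} = ∅ := by
          rw [Set.sdiff_eq_empty]
          rintro x ⟨hx, -, hxu⟩
          have : x ∈ φ i ⁻¹' Iio 0 ∩ (X ∩ O i) := by rw [hue]; exact ⟨hxu, hx⟩
          exact ⟨hx, this.1⟩
        rw [this]
        exact measure_empty
      have h2 : y ∈ ctOut d (X ∩ O i) {x | x ∈ X ∩ O i ∧ φ i x < 0} := by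
        rw [← hWe]; exact ⟨hyM, (hNW hy.2).1⟩
      exact disjoint_left.1 hIO (h1 ⟨hyM, hy.2, hyu⟩) h2
    · exact hq1
  have h1 := measure_mono_null hsub h0
  rw [ct_vol_inter H.geo hdf.opn, Measure.restrict_apply' hdf.opn.measurableSet,
    inter_eq_self_of_subset_left (fun x hx => (hdf.sub hx).2)] at h1
  exact h1

/-- the closed exterior collar is a minimiser in the tube.  [`CtLAM.congr`, `T3Col.vol_B`, `ct_vol_inter`.] -/
theorem T3Col.lam_le (H : T3Col d X h t B O φ) (hd : 2 ≤ d) (i : ι) :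
    CtLAM d (X ∩ O i) h t (fun _ => 0) {x | x ∈ X ∩ O i ∧ φ i x ≤ 0} := by
  have hdf := H.df i
  have hG' : CtGeo d (X ∩ O i) h t := H.geo.inter hdf.opn
  obtain ⟨C, hC, hCe⟩ := H.clo i
  refine (H.lam i).congr hG' ?_ (fun x hx => hx.1) ?_
  · rw [← hCe]
    exact (ct_measurableSet H.geo.mfd).inter hC.measurableSet
  · have hB := H.vol_B hd i
    rw [ct_vol_inter H.geo hdf.opn]
    have hB' : (vol d X h).restrict (O i) (B i) = 0 :=
      le_antisymm ((Measure.restrict_le_self _).trans_eq hB) zero_le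
    refine measure_mono_null ?_ hB'
    rintro x (⟨hx1, hx2⟩ | ⟨hx1, hx2⟩)
    · exact absurd ⟨hx1.1, hx1.2.le⟩ hx2
    · refine (hdf.zero x hx1.1).1 (le_antisymm hx1.2 ?_)
      by_contra hlt
      exact hx2 ⟨hx1.1, not_le.1 hlt⟩

/-- shrinking the tubes on the interior side.  [`CtLAM.inter_open`; all other fields are immediate.] -/
theorem T3Col.shrink (H : T3Col d X h t B O φ) {C : Set V} (hC : IsClosed C)
    (hCE : Disjoint C (t3Ext X O φ)) : T3Col d X h t B (fun i => O i \ C) φ := by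
  have hext : ∀ i x, x ∈ X ∩ O i → φ i x ≤ 0 → x ∉ C := fun i x hx hφ hxC =>
    disjoint_left.1 hCE hxC ⟨i, hx, hφ⟩
  have hset : ∀ i, X ∩ (O i \ C) = (X ∩ O i) ∩ Cᶜ := fun i => by
    ext x; simp only [mem_inter_iff, mem_sdiff, mem_compl_iff]; tauto
  have hsub : ∀ i, X ∩ (O i \ C) ⊆ X ∩ O i := fun i x hx => ⟨hx.1, hx.2.1⟩
  refine ⟨H.geo, H.cpt, H.conn, fun i => ?_, fun i => ?_, fun i j hij => ?_, fun i => ?_,
    fun x hx => ?_⟩
  · have hdf := H.df i
    refine ⟨hdf.opn.sdiff hC, fun x hx => ?_, ?_, fun x hx => hdf.zero x (hsub i hx),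
      fun ψ U hψ u hu h0 => ?_⟩
    · have hx' := hdf.sub hx
      exact ⟨hx'.1, hx'.2, hext i x hx' ((hdf.zero x hx').2 hx).le⟩
    · show SmoothAlong d (X ∩ (O i \ C)) (φ i)
      rw [hset]
      exact if_smoothAlong_inter hdf.smooth hC.isOpen_compl
    · refine hdf.reg ψ U ?_ u hu h0
      have hψ' : IsParam ((X ∩ O i) ∩ Cᶜ) ψ U := by rw [← hset]; exact hψ
      exact if_param_of_inter hC.isOpen_compl hψ'
  · have h1 := (H.lam i).inter_open (H.geo.inter (H.df i).opn) hC.isOpen_compl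
    have e : {x | x ∈ X ∩ O i ∧ φ i x < 0} ∩ Cᶜ = {x | x ∈ X ∩ (O i \ C) ∧ φ i x < 0} := by
      ext x
      constructor
      · rintro ⟨⟨hx, hφ⟩, hxC⟩
        exact ⟨⟨hx.1, hx.2, hxC⟩, hφ⟩
      · rintro ⟨hx, hφ⟩
        exact ⟨⟨hsub i hx, hφ⟩, hx.2.2⟩
    rw [e, ← hset] at h1
    exact h1
  · exact (H.dis hij).mono (hsub i) (hsub j)
  · obtain ⟨C', hC', he⟩ := H.clo i
    refine ⟨C', hC', ?_⟩
    rw [he]
    ext x
    constructor
    · rintro ⟨hx, hφ⟩
      exact ⟨⟨hx.1, hx.2, hext i x hx hφ⟩, hφ⟩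
    · rintro ⟨hx, hφ⟩
      exact ⟨hsub i hx, hφ⟩
  · obtain ⟨W, hW, hfin⟩ := H.lf x hx
    refine ⟨W, hW, hfin.subset ?_⟩
    rintro i ⟨y, hy, hyW⟩
    exact ⟨y, hsub i hy, hyW⟩

/-- **L-T3-Col-B**: unions of closed exterior collars have locally finite perimeter, carried by the `B i`.
[Every `x ∈ X` has an open neighbourhood `N` in which `t3ExtI .. I` is empty or equals `{φ i ≤ 0}` for one `i`, `N ⊆ O i`;
`ct_wper_congr`, `ct_wper_inter`, `(H.lam i).lf`; a compact set is covered by finitely many `N`.] -/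
theorem T3Col.lf_ext (H : T3Col d X h t B O φ) (hd : 2 ≤ d) (I : Set ι) :
    CtLF d X h t (t3ExtI X O φ I) ∧ wper d X h t (t3ExtI X O φ I) (⋃ i ∈ I, B i)ᶜ = 0 := by
  obtain ⟨C, hC, hCe⟩ := H.extI_closed I
  have hXm := ct_measurableSet H.geo.mfd
  have hm : MeasurableSet (t3ExtI X O φ I) := by
    rw [← hCe]; exact hXm.inter hC.measurableSet
  have hsub : t3ExtI X O φ I ⊆ X := by
    rintro x ⟨i, -, hx, -⟩
    exact hx.1
  -- off the collars
  have hoff : wper d X h t (t3ExtI X O φ I) Cᶜ = 0 := by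
    have h1 := ct_wper_congr H.geo hm MeasurableSet.empty hC.isOpen_compl (by
      have : symmDiff (t3ExtI X O φ I) ∅ ∩ Cᶜ = ∅ := by
        ext x
        simp only [mem_inter_iff, mem_empty_iff_false, iff_false]
        rintro ⟨hx | hx, hxC⟩
        · have : x ∈ X ∩ C := by rw [hCe]; exact hx.1
          exact hxC this.2
        · exact hx.1
      rw [this]; exact measure_empty)
    have := congrArg (fun μ : Measure V => μ univ) h1
    simpa [Measure.restrict_apply MeasurableSet.univ, ct_wper_empty H.geo] using this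
  -- in a tube
  have htube : ∀ i ∈ I, t3ExtI X O φ I ∩ O i = {x | x ∈ X ∩ O i ∧ φ i x ≤ 0} := by
    intro i hi
    ext x
    constructor
    · rintro ⟨⟨j, -, hxj, hφ⟩, hxi⟩
      by_cases hij : i = j
      · subst hij; exact ⟨hxj, hφ⟩
      · exact absurd hxj (disjoint_left.1 (H.dis hij) ⟨hxj.1, hxi⟩)
    · rintro ⟨hx, hφ⟩
      exact ⟨⟨i, hi, hx, hφ⟩, hx.2⟩
  refine ⟨⟨hm, hsub, fun K hK hKX => ?_⟩, ?_⟩
  · refine (hK.induction_on (p := fun S => wper d X h t (t3ExtI X O φ I) S < ⊤) ?_ ?_ ?_ ?_).ne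
    · simp
    · intro s s' hss hs'
      exact lt_of_le_of_lt (measure_mono hss) hs'
    · intro s s' hs hs'
      exact lt_of_le_of_lt (measure_union_le _ _) (ENNReal.add_lt_top.2 ⟨hs, hs'⟩)
    · intro x hx
      by_cases hxE : x ∈ t3ExtI X O φ I
      · obtain ⟨i, hi, hxi, -⟩ := hxE
        obtain ⟨L, hL, hLn, hLO⟩ :=
          exists_compact_subset (H.df i).opn hxi.2
        refine ⟨K ∩ L, Filter.inter_mem self_mem_nhdsWithin
          (mem_nhdsWithin_of_mem_nhds (mem_interior_iff_mem_nhds.1 hLn)), ?_⟩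
        have h1 := (H.lam_le hd i).lf.fin (K ∩ L) (hK.inter hL)
          (fun y hy => ⟨hKX hy.1, hLO hy.2⟩)
        rw [← htube i hi, ct_wper_inter H.geo hm (H.df i).opn,
          Measure.restrict_apply' (H.df i).opn.measurableSet,
          inter_eq_self_of_subset_left (fun y hy => hLO hy.2)] at h1
        exact lt_top_iff_ne_top.2 h1
      · have hxC : x ∈ Cᶜ := fun hxC => hxE (by rw [← hCe]; exact ⟨hKX hx, hxC⟩)
        refine ⟨Cᶜ, mem_nhdsWithin_of_mem_nhds (hC.isOpen_compl.mem_nhds hxC), ?_⟩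
        show wper d X h t (t3ExtI X O φ I) Cᶜ < ⊤
        rw [hoff]
        exact ENNReal.zero_lt_top
  · have hsplit : (⋃ i ∈ I, B i)ᶜ ⊆ Xᶜ ∪ (X ∩ (⋃ i ∈ I, B i)ᶜ) := by
      intro x hx
      by_cases hxX : x ∈ X
      · exact Or.inr ⟨hxX, hx⟩
      · exact Or.inl hxX
    refine measure_mono_null hsplit (measure_union_null (ct_wper_compl_M H.geo hm) ?_)
    refine measure_null_of_locally_null _ fun x hx => ?_
    by_cases hxE : x ∈ t3ExtI X O φ I
    · obtain ⟨i, hi, hxi, hφ⟩ := hxE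
      have hc : ContinuousOn (φ i) (X ∩ O i) :=
        if_smoothAlong_continuousOn (if_mfd_inter H.geo.mfd (H.df i).opn) (H.df i).smooth
      obtain ⟨u, hu, hue⟩ := (continuousOn_iff'.1 hc) (Iio 0) isOpen_Iio
      have hφ' : φ i x < 0 := by
        refine lt_of_le_of_ne hφ fun h0 => hx.2 ?_
        exact mem_iUnion₂.2 ⟨i, hi, ((H.df i).zero x hxi).1 h0⟩
      have hxu : x ∈ u := by
        have : x ∈ u ∩ (X ∩ O i) := by rw [← hue]; exact ⟨hφ', hxi⟩
        exact this.1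
      have hN : IsOpen (O i ∩ u) := (H.df i).opn.inter hu
      refine ⟨O i ∩ u, mem_nhdsWithin_of_mem_nhds (hN.mem_nhds ⟨hxi.2, hxu⟩), ?_⟩
      have h1 := ct_wper_congr H.geo hm hXm hN (by
        have : symmDiff (t3ExtI X O φ I) X ∩ (O i ∩ u) = ∅ := by
          ext y
          simp only [mem_inter_iff, mem_empty_iff_false, iff_false]
          rintro ⟨hy | hy, hyO, hyu⟩
          · exact hy.2 (hsub hy.1)
          · have : y ∈ φ i ⁻¹' Iio 0 ∩ (X ∩ O i) := by rw [hue]; exact ⟨hyu, hy.1, hyO⟩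
            exact hy.2 ⟨i, hi, ⟨hy.1, hyO⟩, (show φ i y < 0 from this.1).le⟩
        rw [this]; exact measure_empty)
      have := congrArg (fun μ : Measure V => μ univ) h1
      simpa [Measure.restrict_apply MeasurableSet.univ, ct_wper_univ H.geo] using this
    · have hxC : x ∈ Cᶜ := fun hxC => hxE (by rw [← hCe]; exact ⟨hx.1, hxC⟩)
      exact ⟨Cᶜ, mem_nhdsWithin_of_mem_nhds (hC.isOpen_compl.mem_nhds hxC), hoff⟩

/-- adding the closed collars whose interior sides lie in `P` keeps `P` relatively open (PROVED). -/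
theorem T3Col.sep_open (H : T3Col d X h t B O φ) {P : Set V} (hP : T3RelOpen X P) (I : Set ι)
    (hI : ∀ i ∈ I, B i ⊆ ⋃₀ {N | IsOpen N ∧ N ⊆ O i ∧ {x | x ∈ X ∩ N ∧ 0 < φ i x} ⊆ P}) :
    T3RelOpen X (P ∪ t3ExtI X O φ I) := by
  obtain ⟨G, hG, rfl⟩ := hP
  have hc : ∀ i, ContinuousOn (φ i) (X ∩ O i) := fun i =>
    if_smoothAlong_continuousOn (if_mfd_inter H.geo.mfd (H.df i).opn) (H.df i).smooth
  choose w hw hwe using fun i => (continuousOn_iff'.1 (hc i)) (Iio 0) isOpen_Iio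
  refine ⟨G ∪ ⋃ i ∈ I, (⋃₀ {N | IsOpen N ∧ N ⊆ O i ∧ {x | x ∈ X ∩ N ∧ 0 < φ i x} ⊆ X ∩ G} ∪
    (O i ∩ w i)), ?_, ?_⟩
  · refine hG.union (isOpen_biUnion fun i _ => IsOpen.union ?_ ((H.df i).opn.inter (hw i)))
    exact isOpen_sUnion fun N hN => hN.1
  · ext x
    constructor
    · rintro (hx | ⟨i, hi, hxi, hφ⟩)
      · exact ⟨hx.1, Or.inl hx.2⟩
      · refine ⟨hxi.1, Or.inr (mem_iUnion₂.2 ⟨i, hi, ?_⟩)⟩
        rcases hφ.lt_or_eq with hlt | heq
        · right
          have : x ∈ w i ∩ (X ∩ O i) := by rw [← hwe]; exact ⟨hlt, hxi⟩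
          exact ⟨hxi.2, this.1⟩
        · left
          exact hI i hi (((H.df i).zero x hxi).1 heq)
    · rintro ⟨hxX, hx | hx⟩
      · exact Or.inl ⟨hxX, hx⟩
      · obtain ⟨i, hi, hx⟩ := mem_iUnion₂.1 hx
        rcases hx with ⟨N, ⟨-, hNO, hNP⟩, hxN⟩ | ⟨hxO, hxw⟩
        · by_cases hφ : 0 < φ i x
          · exact Or.inl (hNP ⟨⟨hxX, hxN⟩, hφ⟩)
          · exact Or.inr ⟨i, hi, ⟨hxX, hNO hxN⟩, not_lt.1 hφ⟩
        · have : x ∈ φ i ⁻¹' Iio 0 ∩ (X ∩ O i) := by rw [hwe]; exact ⟨hxw, hxX, hxO⟩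
          exact Or.inr ⟨i, hi, ⟨hxX, hxO⟩, (show φ i x < 0 from this.1).le⟩

/-- **L-T3-Col-Sep**: a separation of the interior extends to a separation of `X` (pure topology).
[`t3g_wall` for every `B i`: every `q ∈ B i` has arbitrarily small neighbourhoods `U` in `X` whose interior half `U ∩ {φ i > 0}` is connected and nonempty;
choose `U` disjoint from the compact set `F` and inside the tube: the half lies in `P` or in `P'`.  The sets of `q ∈ B i` of the two kinds are open in `B i`,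
disjoint, and cover the connected set `B i`: every `i` is of kind `P` or of kind `P'`.  Add the closed exterior collars of kind `P` to `P`, the others to `P'`.
Openness at the points of `B i`: `U = (U ∩ {φ i > 0}) ∪ (U ∩ {φ i ≤ 0})`.  Openness at points of the open collars: `T3Col.extO_open`, tubes are disjoint.] -/
theorem t3_col_sep (H : T3Col d X h t B O φ) {F P P' : Set V} (hF : IsCompact F)
    (hFI : F ⊆ t3Int X O φ) (hP : T3RelOpen X P) (hP' : T3RelOpen X P') (hd : Disjoint P P')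
    (hU : P ∪ P' = t3Int X O φ \ F) :
    ∃ Q Q' : Set V, T3RelOpen X Q ∧ T3RelOpen X Q' ∧ Disjoint Q Q' ∧ Q ∪ Q' = X \ F ∧ P ⊆ Q ∧
      P' ⊆ Q' := by
  classical
  -- the interior side of a tube lies in the interior
  have hint : ∀ i x, x ∈ X ∩ O i → 0 < φ i x → x ∈ t3Int X O φ := by
    rintro i x hx hφ
    refine ⟨hx.1, ?_⟩
    rintro ⟨j, hxj, hφj⟩
    by_cases hij : i = j
    · subst hij; linarith
    · exact disjoint_left.1 (H.dis hij) hx hxj
  have hBF : ∀ i, ∀ q ∈ B i, q ∈ Fᶜ := by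
    intro i q hq hqF
    have hq' := (H.df i).sub hq
    exact (hFI hqF).2 ⟨i, hq', (((H.df i).zero q hq').2 hq).le⟩
  set u : ι → Set V := fun i =>
    ⋃₀ {N | IsOpen N ∧ N ⊆ O i ∧ {x | x ∈ X ∩ N ∧ 0 < φ i x} ⊆ P} with hu
  set v : ι → Set V := fun i =>
    ⋃₀ {N | IsOpen N ∧ N ⊆ O i ∧ {x | x ∈ X ∩ N ∧ 0 < φ i x} ⊆ P'} with hv
  have huo : ∀ i, IsOpen (u i) := fun i => isOpen_sUnion fun N hN => hN.1
  have hvo : ∀ i, IsOpen (v i) := fun i => isOpen_sUnion fun N hN => hN.1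
  have hcov : ∀ i, B i ⊆ u i ∪ v i := by
    intro i q hq
    obtain ⟨N, hN, hqN, hNW, hpc, -, -, -, -⟩ :=
      t3g_box H.geo.mfd H.geo.met (H.df i) hq (hF.isClosed.isOpen_compl.mem_nhds (hBF i q hq))
        one_pos
    obtain ⟨G, hG, hGe⟩ := hP
    obtain ⟨G', hG', hGe'⟩ := hP'
    have hsub : {x | x ∈ X ∩ N ∧ 0 < φ i x} ⊆ P ∪ P' := by
      rintro x ⟨hx, hφ⟩
      rw [hU]
      exact ⟨hint i x ⟨hx.1, (hNW hx.2).2⟩ hφ, (hNW hx.2).1⟩
    have h1 := (isPreconnected_iff_subset_of_disjoint.1 hpc) G G' hG hG' (by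
      intro x hx
      rcases hsub hx with hx' | hx'
      · rw [hGe] at hx'; exact Or.inl hx'.2
      · rw [hGe'] at hx'; exact Or.inr hx'.2) (by
      ext x
      simp only [mem_inter_iff, mem_empty_iff_false, iff_false]
      rintro ⟨hx, hxG, hxG'⟩
      have hxP : x ∈ P := by rw [hGe]; exact ⟨hx.1.1, hxG⟩
      have hxP' : x ∈ P' := by rw [hGe']; exact ⟨hx.1.1, hxG'⟩
      exact disjoint_left.1 hd hxP hxP')
    rcases h1 with h1 | h1
    · left
      refine ⟨N, ⟨hN, fun x hx => (hNW hx).2, fun x hx => ?_⟩, hqN⟩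
      rw [hGe]; exact ⟨hx.1.1, h1 hx⟩
    · right
      refine ⟨N, ⟨hN, fun x hx => (hNW hx).2, fun x hx => ?_⟩, hqN⟩
      rw [hGe']; exact ⟨hx.1.1, h1 hx⟩
  have hexcl : ∀ i, B i ∩ (u i ∩ v i) = ∅ := by
    intro i
    ext q
    simp only [mem_inter_iff, mem_empty_iff_false, iff_false]
    rintro ⟨hq, ⟨N, ⟨hN, -, hNP⟩, hqN⟩, ⟨N', ⟨hN', -, hNP'⟩, hqN'⟩⟩
    obtain ⟨N'', -, -, hNW, -, ⟨y, hy, hyφ⟩, -, -, -⟩ :=
      t3g_box H.geo.mfd H.geo.met (H.df i) hq ((hN.inter hN').mem_nhds ⟨hqN, hqN'⟩) one_pos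
    exact disjoint_left.1 hd (hNP ⟨⟨hy.1, (hNW hy.2).1.1⟩, hyφ⟩)
      (hNP' ⟨⟨hy.1, (hNW hy.2).1.2⟩, hyφ⟩)
  have hdich : ∀ i, B i ⊆ u i ∨ B i ⊆ v i := fun i =>
    (isPreconnected_iff_subset_of_disjoint.1 (H.conn i).isPreconnected) (u i) (v i) (huo i) (hvo i)
      (hcov i) (hexcl i)
  set I : Set ι := {i | B i ⊆ u i} with hI
  have hPI : P ⊆ t3Int X O φ := fun x hx => by
    have : x ∈ t3Int X O φ \ F := by rw [← hU]; exact Or.inl hx
    exact this.1
  have hPI' : P' ⊆ t3Int X O φ := fun x hx => by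
    have : x ∈ t3Int X O φ \ F := by rw [← hU]; exact Or.inr hx
    exact this.1
  have hEI : ∀ J : Set ι, ∀ x ∈ t3ExtI X O φ J, x ∉ t3Int X O φ := by
    rintro J x ⟨i, -, hx, hφ⟩ hxI
    exact hxI.2 ⟨i, hx, hφ⟩
  refine ⟨P ∪ t3ExtI X O φ I, P' ∪ t3ExtI X O φ Iᶜ, H.sep_open hP I fun i hi => hi,
    H.sep_open hP' Iᶜ fun i hi => (hdich i).resolve_left hi, ?_, ?_, subset_union_left,
    subset_union_left⟩
  · rw [disjoint_left]
    rintro x (hx | hx) (hx' | hx')
    · exact disjoint_left.1 hd hx hx'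
    · exact hEI _ x hx' (hPI hx)
    · exact hEI _ x hx (hPI' hx')
    · obtain ⟨i, hi, hxi, -⟩ := hx
      obtain ⟨j, hj, hxj, -⟩ := hx'
      by_cases hij : i = j
      · subst hij; exact hj hi
      · exact disjoint_left.1 (H.dis hij) hxi hxj
  · ext x
    constructor
    · rintro ((hx | hx) | (hx | hx))
      · have : x ∈ t3Int X O φ \ F := by rw [← hU]; exact Or.inl hx
        exact ⟨this.1.1, this.2⟩
      · refine ⟨?_, fun hxF => hEI _ x hx (hFI hxF)⟩
        obtain ⟨i, -, hxi, -⟩ := hx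
        exact hxi.1
      · have : x ∈ t3Int X O φ \ F := by rw [← hU]; exact Or.inr hx
        exact ⟨this.1.1, this.2⟩
      · refine ⟨?_, fun hxF => hEI _ x hx (hFI hxF)⟩
        obtain ⟨i, -, hxi, -⟩ := hx
        exact hxi.1
    · rintro ⟨hxX, hxF⟩
      by_cases hxE : x ∈ t3Ext X O φ
      · obtain ⟨i, hxi, hφ⟩ := hxE
        by_cases hi : i ∈ I
        · exact Or.inl (Or.inr ⟨i, hi, hxi, hφ⟩)
        · exact Or.inr (Or.inr ⟨i, hi, hxi, hφ⟩)
      · have : x ∈ P ∪ P' := by rw [hU]; exact ⟨⟨hxX, hxE⟩, hxF⟩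
        rcases this with hx | hx
        · exact Or.inl (Or.inl hx)
        · exact Or.inr (Or.inl hx)

end Claimed.Agent.R315
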