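-- KEEP
import Claimed.Agent.R315.Ct.Reg
import Claimed.Agent.R315.Gs.Calc
import Claimed.Agent.Lib.Ell.Hopf

/-!
# Row 315, paper T (n = 3), package T3-Smp: strong maximum principle for ordered minimisers

Sub-captain: helper72.  EXPORT `t3_smp`: `A₁ ⊆ A₂` a.e., `A_i` local absolute minimisers with pressures
`p₁ ≤ p₂`, `x` a regular boundary point of both `⟹` the two boundaries coincide near `x`.

NO GRAPHS, NO IMPLICIT FUNCTIONS.  Plan:
(S1) `t3_straighten`: a parametrisation `ψ` on `ball 0 r ⊆ E (m+1)`, `ψ 0 = x`, in which `A₁ = {u 0 < 0}` a.e.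
(S2) in this chart `A₂ = {f < 0}` a.e. near `0` (`ct_reg_iff`, `Gmt.GmtReg`), `f` smooth, `df ≠ 0`, `f 0 = 0`; the ordering
   gives `f ≤ 0` on `{u 0 < 0}` (otherwise a small ball lies in `A₁ \ A₂`: positive measure).
(S3) Euler-Lagrange (`CtLAM.el` on the open piece `M ∩ O = ψ '' ball`, defining functions `(u ↦ u 0) ∘ ψ⁻¹`, `f ∘ ψ⁻¹`) read in the
   chart (`t3_wmc_chart`): `H[u 0] = q₁` on `{u 0 = 0}`, `H[f] = q₂` on `{f = 0}`, `q_i = p_i ∘ ψ`, `H = t3wmcC G τ`.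
(S4) `t3_smp_chart`.  STRUCTURE (`t3_wmcC_form`): `H[f] = ∑ A^{ij}(u, df) ∂_i∂_j f + B(u, df)`,
   `A^{ij}(u,ξ) = (G^{ij} - ξ^i ξ^j/|ξ|²)/|ξ|`, `A^{ij} ξ_j = 0`, `B(u, λ ξ) = B(u, ξ)` for `λ > 0`; `A, B` are smooth in `(u, ξ)`, `ξ ≠ 0`.
   Since `f ≤ 0` on `{u 0 ≤ 0}` and `f 0 = 0`: `∂_α f (0) = 0` (`α ≠ 0`), `∂_0 f (0) > 0`.  Shrink the ball: `∂_0 f ≥ δ > 0`.
   `P u = u - (u 0) e₀`, `w u = - f (P u) ≥ 0`, `w 0 = 0`, `w` does not depend on `u 0`.  At `y = P u` put `ξ = df(y)`, `ξ⁰ = ∂_0 f(y) e⁰`: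
   `|ξ - ξ⁰| = |Dw(u)|`;  `A^{i0}(y, ξ⁰) = 0` so `|A^{i0}(y, ξ)| ≤ C |Dw|`;  `|B(y,ξ) - B(y,ξ⁰)| ≤ C |Dw|`;  `B(y, ξ⁰) = H[u 0](y) = q₁(y)`;
   `e(y) = H[f](y) - q₂(y)` is smooth and vanishes on `{f = 0}`, so `|e(y)| ≤ C |f(y)| = C w` (move along `e₀` to the zero of `f`: distance
   `≤ |f(y)|/δ`, mean value theorem).  Hence `∑_{α,β ≠ 0} A^{αβ}(y,ξ) ∂_α∂_β w = -(q₂ - q₁)(y) - e(y) + O(|Dw|) ≤ C w + C |Dw|`:
   `ndOp a b c w ≤ 0` with `a = P A P + e₀ ⊗ e₀` (elliptic: a covector without `e⁰`-component is not parallel to `ξ`),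
   `b = - R Dw/|Dw|²` (bounded; no continuity is needed in `ell_strong_min`), `c = -C`.
   `ell_strong_min` on a small ball: `w = 0`, i.e. `f = 0` on `{u 0 = 0}`; `∂_0 f > 0` gives `f u = 0 ↔ u 0 = 0`.
(S5) `CtDef.sets` identifies the boundaries with the zero sets.

LEAVES: L-T3-Smp-A (`t3_wmc_chart`, `t3_straighten`), L-T3-Smp-B (`t3_wmcC_form`), L-T3-Smp-C (`t3_smp_chart`), L-T3-Smp-D (`t3_smp`).
-/

set_option autoImplicit false
set_option linter.unusedSectionVars false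
open scoped ContDiff Topology
open MeasureTheory Claims.C0499 Set Metric

namespace Claimed.Agent.R315

/-- weighted mean curvature of the level sets of `f`, in coordinates. -/
noncomputable def t3wmcC {d : ℕ} (G : rm_MF d) (τ f : E d → ℝ) (u : E d) : ℝ :=
  rm_dlapC G τ f u / Real.sqrt (gradSqC G f u) -
    gradIpC G f (gradSqC G f) u / (2 * Real.sqrt (gradSqC G f u) ^ 3)

/-- `|ξ|²_G`. -/
noncomputable def t3mcN {d : ℕ} (G : rm_MF d) (u : E d) (ξ : Fin d → ℝ) : ℝ :=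
  ∑ i, ∑ j, (G u)⁻¹ i j * ξ i * ξ j

/-- `ξ^i = G^{ik} ξ_k`. -/
noncomputable def t3mcUp {d : ℕ} (G : rm_MF d) (u : E d) (ξ : Fin d → ℝ) (i : Fin d) : ℝ :=
  ∑ k, (G u)⁻¹ i k * ξ k

/-- principal coefficients `(G^{ij} - ξ^i ξ^j/|ξ|²)/|ξ|`. -/
noncomputable def t3mcA {d : ℕ} (G : rm_MF d) (u : E d) (ξ : Fin d → ℝ) (i j : Fin d) : ℝ :=
  ((G u)⁻¹ i j - t3mcUp G u ξ i * t3mcUp G u ξ j / t3mcN G u ξ) / Real.sqrt (t3mcN G u ξ)

/-- lower order part. -/
noncomputable def t3mcB {d : ℕ} (G : rm_MF d) (τ : E d → ℝ) (u : E d) (ξ : Fin d → ℝ) : ℝ :=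
  (∑ j, (∑ i, pdiff (fun w => Real.sqrt (G w).det * (G w)⁻¹ i j) i u) / Real.sqrt (G u).det * ξ j -
      ∑ i, ∑ j, (G u)⁻¹ i j * pdiff τ i u * ξ j) / Real.sqrt (t3mcN G u ξ) -
    (∑ k, t3mcUp G u ξ k * ∑ i, ∑ j, pdiff (fun w => (G w)⁻¹ i j) k u * ξ i * ξ j) /
      (2 * Real.sqrt (t3mcN G u ξ) ^ 3)

theorem t3Smp_eqns_cite : True := by
  have := @t3wmcC.eq_1
  have := @t3mcN.eq_1
  have := @t3mcUp.eq_1
  have := @t3mcA.eq_1
  have := @t3mcB.eq_1
  trivial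

/-- non-divergence form of the Laplacian. -/
theorem t3smp_lapC {d : ℕ} {G : rm_MF d} {U : Set (E d)} (hG : rm_Met G U) {f : E d → ℝ}
    (hf : ContDiffOn ℝ ∞ f U) {u : E d} (hu : u ∈ U) :
    lapC G f u = ∑ i, ∑ j, (G u)⁻¹ i j * rm_p2 f i j u +
      ∑ j, (∑ i, pdiff (fun w => Real.sqrt (G w).det * (G w)⁻¹ i j) i u) / Real.sqrt (G u).det
        * pdiff f j u := by
  have hU := hG.opn
  have hs0 : Real.sqrt (G u).det ≠ 0 := (Real.sqrt_pos.2 (rm_det_pos hG hu)).ne'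
  have hS : ∀ i j, DifferentiableAt ℝ (fun w => Real.sqrt (G w).det * (G w)⁻¹ i j) u := fun i j =>
    rm_da_mul (rm_da hU (rm_sqrtdet_smooth hG) hu) (rm_da hU (rm_inv_smooth hG i j) hu)
  have hP : ∀ j, DifferentiableAt ℝ (fun w => pdiff f j w) u := fun j =>
    rm_da hU (rm_pdiff_smooth hU hf j) hu
  have e1 : ∀ i, pdiff (fun w => Real.sqrt (G w).det * ∑ j : Fin d, (G w)⁻¹ i j * pdiff f j w) i u
      = ∑ j, (pdiff (fun w => Real.sqrt (G w).det * (G w)⁻¹ i j) i u * pdiff f j u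
          + Real.sqrt (G u).det * (G u)⁻¹ i j * rm_p2 f i j u) := by
    intro i
    have e0 : (fun w => Real.sqrt (G w).det * ∑ j : Fin d, (G w)⁻¹ i j * pdiff f j w)
        = fun w => ∑ j : Fin d, (Real.sqrt (G w).det * (G w)⁻¹ i j) * pdiff f j w := by
      funext w
      rw [Finset.mul_sum]
      exact Finset.sum_congr rfl fun j _ => (mul_assoc _ _ _).symm
    rw [e0, rm_pdiff_sum _ (fun j _ => rm_da_mul (hS i j) (hP j))]
    refine Finset.sum_congr rfl fun j _ => ?_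
    rw [rm_pdiff_mul (hS i j) (hP j)]
    rfl
  unfold lapC
  simp only [e1]
  rw [Finset.mul_sum]
  simp only [Finset.sum_add_distrib, mul_add, Finset.mul_sum]
  rw [add_comm]
  congr 1
  · refine Finset.sum_congr rfl fun i _ => Finset.sum_congr rfl fun j _ => ?_
    field_simp
  · rw [Finset.sum_comm]
    refine Finset.sum_congr rfl fun j _ => ?_
    rw [Finset.sum_div, Finset.sum_mul]
    refine Finset.sum_congr rfl fun i _ => ?_
    field_simp

/-- derivative of `|df|²`. -/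
theorem t3smp_pdiff_sq {d : ℕ} {G : rm_MF d} {U : Set (E d)} (hG : rm_Met G U) {f : E d → ℝ}
    (hf : ContDiffOn ℝ ∞ f U) {u : E d} (hu : u ∈ U) (l : Fin d) :
    pdiff (gradSqC G f) l u = ∑ i, ∑ j, pdiff (fun w => (G w)⁻¹ i j) l u * pdiff f i u * pdiff f j u
      + 2 * ∑ i, t3mcUp G u (fun k => pdiff f k u) i * rm_p2 f l i u := by
  have hU := hG.opn
  have hI : ∀ i j, DifferentiableAt ℝ (fun w => (G w)⁻¹ i j) u := fun i j =>
    rm_da hU (rm_inv_smooth hG i j) hu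
  have hP : ∀ j, DifferentiableAt ℝ (fun w => pdiff f j w) u := fun j =>
    rm_da hU (rm_pdiff_smooth hU hf j) hu
  have e0 : gradSqC G f = fun w => ∑ i : Fin d, ∑ j : Fin d, (G w)⁻¹ i j * pdiff f i w * pdiff f j w := by
    funext w; rfl
  rw [e0, rm_pdiff_sum _ (fun i _ => rm_da_sum _ fun j _ => rm_da_mul (rm_da_mul (hI i j) (hP i)) (hP j))]
  have e1 : ∀ i, pdiff (fun w => ∑ j : Fin d, (G w)⁻¹ i j * pdiff f i w * pdiff f j w) l u
      = ∑ j, (pdiff (fun w => (G w)⁻¹ i j) l u * pdiff f i u * pdiff f j u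
        + (G u)⁻¹ i j * rm_p2 f l i u * pdiff f j u + (G u)⁻¹ i j * pdiff f i u * rm_p2 f l j u) := by
    intro i
    rw [rm_pdiff_sum _ (fun j _ => rm_da_mul (rm_da_mul (hI i j) (hP i)) (hP j))]
    refine Finset.sum_congr rfl fun j _ => ?_
    rw [rm_pdiff_mul (rm_da_mul (hI i j) (hP i)) (hP j), rm_pdiff_mul (hI i j) (hP i)]
    unfold rm_p2
    ring
  simp only [e1, Finset.sum_add_distrib]
  rw [add_assoc]
  congr 1
  have a1 : ∑ i, ∑ j, (G u)⁻¹ i j * rm_p2 f l i u * pdiff f j u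
      = ∑ i, t3mcUp G u (fun k => pdiff f k u) i * rm_p2 f l i u := by
    refine Finset.sum_congr rfl fun i _ => ?_
    unfold t3mcUp
    rw [Finset.sum_mul]
    exact Finset.sum_congr rfl fun j _ => by ring
  have a2 : ∑ i, ∑ j, (G u)⁻¹ i j * pdiff f i u * rm_p2 f l j u
      = ∑ i, t3mcUp G u (fun k => pdiff f k u) i * rm_p2 f l i u := by
    rw [Finset.sum_comm]
    refine Finset.sum_congr rfl fun i _ => ?_
    unfold t3mcUp
    rw [Finset.sum_mul]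
    exact Finset.sum_congr rfl fun j _ => by rw [rm_inv_symm hG hu j i]
  rw [a1, a2]
  ring

/-- **L-T3-Smp-B**: structure of the mean curvature operator.
[`lapC`: product rule; `gradIpC G f (gradSqC G f)`: product rule, symmetry of `G⁻¹` and of the second derivatives.] -/
theorem t3_wmcC_form {d : ℕ} {G : rm_MF d} {U : Set (E d)} (hG : rm_Met G U) {τ f : E d → ℝ}
    (hf : ContDiffOn ℝ ∞ f U) {u : E d} (hu : u ∈ U) :
    t3wmcC G τ f u = ∑ i, ∑ j, t3mcA G u (fun k => pdiff f k u) i j * rm_p2 f i j u +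
      t3mcB G τ u (fun k => pdiff f k u) := by
  have hN : t3mcN G u (fun k => pdiff f k u) = gradSqC G f u := rfl
  have hN0 : 0 ≤ gradSqC G f u := rm_sq_nonneg hG hu f
  obtain ⟨ξ, hξ⟩ : ∃ ξ : Fin d → ℝ, ξ = fun k => pdiff f k u := ⟨_, rfl⟩
  obtain ⟨N, hNd⟩ : ∃ N : ℝ, N = gradSqC G f u := ⟨_, rfl⟩
  obtain ⟨s, hs⟩ : ∃ s : ℝ, s = Real.sqrt N := ⟨_, rfl⟩
  have hss : s * s = N := by rw [hs]; exact Real.mul_self_sqrt (hNd ▸ hN0)
  have hip : gradIpC G f (gradSqC G f) u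
      = ∑ k, t3mcUp G u ξ k * (∑ i, ∑ j, pdiff (fun w => (G w)⁻¹ i j) k u * ξ i * ξ j)
        + 2 * ∑ i, ∑ j, t3mcUp G u ξ i * t3mcUp G u ξ j * rm_p2 f i j u := by
    unfold gradIpC
    simp only [t3smp_pdiff_sq hG hf hu]
    rw [← hξ]
    have b1 : ∀ (c : Fin d → ℝ), ∑ i, ∑ j, (G u)⁻¹ i j * pdiff f i u * c j = ∑ k, t3mcUp G u ξ k * c k := by
      intro c
      rw [Finset.sum_comm]
      refine Finset.sum_congr rfl fun j _ => ?_
      unfold t3mcUp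
      rw [Finset.sum_mul, hξ]
      exact Finset.sum_congr rfl fun i _ => by rw [rm_inv_symm hG hu j i]
    rw [b1]
    simp only [mul_add, Finset.sum_add_distrib]
    congr 1
    · rw [hξ]
    · rw [Finset.mul_sum]
      refine Finset.sum_congr rfl fun i _ => ?_
      rw [Finset.mul_sum, Finset.mul_sum, Finset.mul_sum]
      exact Finset.sum_congr rfl fun j _ => by ring
  unfold t3wmcC rm_dlapC t3mcB
  rw [hip, t3smp_lapC hG hf hu]
  simp only [t3mcA]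
  rw [hN, ← hξ, ← hNd, ← hs]
  have hgi : gradIpC G τ f u = ∑ i, ∑ j, (G u)⁻¹ i j * pdiff τ i u * ξ j := by rw [hξ]; rfl
  rw [hgi]
  have hxi : ∀ j, pdiff f j u = ξ j := fun j => by rw [hξ]
  simp only [hxi]
  obtain ⟨P, hP⟩ : ∃ P : ℝ, P = ∑ i, ∑ j, (G u)⁻¹ i j * rm_p2 f i j u := ⟨_, rfl⟩
  obtain ⟨Q, hQ⟩ : ∃ Q : ℝ, Q = ∑ i, ∑ j, t3mcUp G u ξ i * t3mcUp G u ξ j * rm_p2 f i j u := ⟨_, rfl⟩
  have hA : ∑ i, ∑ j, ((G u)⁻¹ i j - t3mcUp G u ξ i * t3mcUp G u ξ j / N) / s * rm_p2 f i j u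
      = (P - Q / N) / s := by
    rw [hP, hQ, Finset.sum_div, ← Finset.sum_sub_distrib, Finset.sum_div]
    refine Finset.sum_congr rfl fun i _ => ?_
    rw [Finset.sum_div, ← Finset.sum_sub_distrib, Finset.sum_div]
    exact Finset.sum_congr rfl fun j _ => by ring
  rw [hA, ← hP, ← hQ]
  by_cases hs0 : s = 0
  · simp [hs0]
  · have hN1 : N ≠ 0 := by rw [← hss]; exact mul_ne_zero hs0 hs0
    rw [← hss]
    field_simp
    ring

/-! ### helpers for L-T3-Smp-C -/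

/-- the domain of the structure functions. -/
def t3smpOm {d : ℕ} (G : rm_MF d) (U : Set (E d)) : Set (E d × (Fin d → ℝ)) :=
  {p | p.1 ∈ U ∧ 0 < t3mcN G p.1 p.2}

theorem t3smp_fst_smooth {d : ℕ} {U : Set (E d)} {g : E d → ℝ} (hg : ContDiffOn ℝ ∞ g U) :
    ContDiffOn ℝ ∞ (fun p : E d × (Fin d → ℝ) => g p.1) (U ×ˢ univ) :=
  hg.comp contDiffOn_fst (fun _ hp => hp.1)

theorem t3smp_snd_smooth {d : ℕ} (S : Set (E d × (Fin d → ℝ))) (k : Fin d) :
    ContDiffOn ℝ ∞ (fun p : E d × (Fin d → ℝ) => p.2 k) S :=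
  ((contDiff_apply ℝ ℝ k).comp contDiff_snd).contDiffOn

theorem t3smp_N_smooth {d : ℕ} {G : rm_MF d} {U : Set (E d)} (hG : rm_Met G U) :
    ContDiffOn ℝ ∞ (fun p : E d × (Fin d → ℝ) => t3mcN G p.1 p.2) (U ×ˢ univ) := by
  unfold t3mcN
  refine ContDiffOn.sum fun i _ => ContDiffOn.sum fun j _ => ?_
  exact ((t3smp_fst_smooth (rm_inv_smooth hG i j)).mul (t3smp_snd_smooth _ i)).mul (t3smp_snd_smooth _ j)

theorem t3smp_Up_smooth {d : ℕ} {G : rm_MF d} {U : Set (E d)} (hG : rm_Met G U) (i : Fin d) :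
    ContDiffOn ℝ ∞ (fun p : E d × (Fin d → ℝ) => t3mcUp G p.1 p.2 i) (U ×ˢ univ) := by
  unfold t3mcUp
  refine ContDiffOn.sum fun k _ => ?_
  exact (t3smp_fst_smooth (rm_inv_smooth hG i k)).mul (t3smp_snd_smooth _ k)

theorem t3smp_Om_sub {d : ℕ} (G : rm_MF d) (U : Set (E d)) : t3smpOm G U ⊆ U ×ˢ univ :=
  fun _ hp => ⟨hp.1, mem_univ _⟩

theorem t3smp_Om_open {d : ℕ} {G : rm_MF d} {U : Set (E d)} (hG : rm_Met G U) :
    IsOpen (t3smpOm G U) := by
  have h1 := (t3smp_N_smooth hG).continuousOn.isOpen_inter_preimage (hG.opn.prod isOpen_univ)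
    (isOpen_Ioi (a := (0 : ℝ)))
  have e : t3smpOm G U = U ×ˢ univ ∩ (fun p : E d × (Fin d → ℝ) => t3mcN G p.1 p.2) ⁻¹' Ioi 0 := by
    ext p
    constructor
    · intro hp
      exact ⟨⟨hp.1, mem_univ _⟩, hp.2⟩
    · intro hp
      exact ⟨hp.1.1, hp.2⟩
  rw [e]
  exact h1

theorem t3smp_A_smooth {d : ℕ} {G : rm_MF d} {U : Set (E d)} (hG : rm_Met G U) (i j : Fin d) :
    ContDiffOn ℝ ∞ (fun p : E d × (Fin d → ℝ) => t3mcA G p.1 p.2 i j) (t3smpOm G U) := by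
  have hs := t3smp_Om_sub G U
  have hN := (t3smp_N_smooth hG).mono hs
  have hN0 : ∀ p ∈ t3smpOm G U, t3mcN G p.1 p.2 ≠ 0 := fun p hp => hp.2.ne'
  unfold t3mcA
  refine ContDiffOn.div ?_ (hN.sqrt hN0) (fun p hp => (Real.sqrt_pos.2 hp.2).ne')
  refine ((t3smp_fst_smooth (rm_inv_smooth hG i j)).mono hs).sub ?_
  exact ((((t3smp_Up_smooth hG i).mul (t3smp_Up_smooth hG j)).mono hs).div hN hN0)

theorem t3smp_B_smooth {d : ℕ} {G : rm_MF d} {U : Set (E d)} (hG : rm_Met G U) {τ : E d → ℝ}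
    (hτ : ContDiffOn ℝ ∞ τ U) :
    ContDiffOn ℝ ∞ (fun p : E d × (Fin d → ℝ) => t3mcB G τ p.1 p.2) (t3smpOm G U) := by
  have hU := hG.opn
  have hs := t3smp_Om_sub G U
  have hN := (t3smp_N_smooth hG).mono hs
  have hN0 : ∀ p ∈ t3smpOm G U, t3mcN G p.1 p.2 ≠ 0 := fun p hp => hp.2.ne'
  have hsq := hN.sqrt hN0
  have hsq0 : ∀ p ∈ t3smpOm G U, Real.sqrt (t3mcN G p.1 p.2) ≠ 0 :=
    fun p hp => (Real.sqrt_pos.2 hp.2).ne'
  unfold t3mcB
  refine ContDiffOn.sub (ContDiffOn.div (ContDiffOn.sub ?_ ?_) hsq hsq0) (ContDiffOn.div ?_ ?_ ?_)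
  · refine ContDiffOn.sum fun j _ => ?_
    refine ContDiffOn.mul ?_ (t3smp_snd_smooth _ j)
    have h1 : ContDiffOn ℝ ∞ (fun u => (∑ i, pdiff (fun w => Real.sqrt (G w).det * (G w)⁻¹ i j) i u)
        / Real.sqrt (G u).det) U := by
      refine ContDiffOn.div (ContDiffOn.sum fun i _ => ?_) (rm_sqrtdet_smooth hG)
        (fun u hu => (Real.sqrt_pos.2 (rm_det_pos hG hu)).ne')
      exact rm_pdiff_smooth hU ((rm_sqrtdet_smooth hG).mul (rm_inv_smooth hG i j)) i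
    exact (t3smp_fst_smooth h1).mono hs
  · refine ContDiffOn.sum fun i _ => ContDiffOn.sum fun j _ => ?_
    exact ((((t3smp_fst_smooth (rm_inv_smooth hG i j)).mul
      (t3smp_fst_smooth (rm_pdiff_smooth hU hτ i))).mul (t3smp_snd_smooth _ j))).mono hs
  · refine ContDiffOn.sum fun k _ => ?_
    refine ((t3smp_Up_smooth hG k).mono hs).mul ?_
    refine ContDiffOn.sum fun i _ => ContDiffOn.sum fun j _ => ?_
    exact ((((t3smp_fst_smooth (rm_pdiff_smooth hU (rm_inv_smooth hG i j) k)).mul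
      (t3smp_snd_smooth _ i)).mul (t3smp_snd_smooth _ j))).mono hs
  · exact contDiffOn_const.mul (hsq.pow 3)
  · intro p hp
    have := hsq0 p hp
    positivity

/-- Lipschitz bounds on convex subsets of a compact subset of the domain of a `C¹` function. -/
theorem t3smp_lip {X : Type} [NormedAddCommGroup X] [NormedSpace ℝ X] {Ω K : Set X} {g : X → ℝ}
    (hΩ : IsOpen Ω) (hg : ContDiffOn ℝ 1 g Ω) (hK : IsCompact K) (hKΩ : K ⊆ Ω) :
    ∃ C : ℝ, 0 ≤ C ∧ ∀ s ⊆ K, Convex ℝ s → ∀ x ∈ s, ∀ y ∈ s, |g x - g y| ≤ C * ‖x - y‖ := by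
  have hc : ContinuousOn (fderiv ℝ g) Ω := hg.continuousOn_fderiv_of_isOpen hΩ le_rfl
  obtain ⟨C, hC⟩ := hK.exists_bound_of_continuousOn (hc.mono hKΩ)
  refine ⟨max C 0, le_max_right _ _, fun s hs hconv x hx y hy => ?_⟩
  have h1 := Convex.norm_image_sub_le_of_norm_fderiv_le (𝕜 := ℝ) (f := g) (C := max C 0) (s := s)
    (fun z hz => (hg.differentiableOn (by norm_num)).differentiableAt (hΩ.mem_nhds (hKΩ (hs hz))))
    (fun z hz => (hC z (hs hz)).trans (le_max_left _ _)) hconv hy hx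
  rwa [Real.norm_eq_abs] at h1

theorem t3smp_Up_e0 {m : ℕ} (G : rm_MF (m + 1)) (y : E (m + 1)) (c : ℝ) (i : Fin (m + 1)) :
    t3mcUp G y (Pi.single 0 c) i = (G y)⁻¹ i 0 * c := by
  unfold t3mcUp
  rw [Finset.sum_eq_single 0]
  · simp
  · intro k _ hk
    simp [Pi.single_eq_of_ne hk]
  · simp

theorem t3smp_N_e0 {m : ℕ} (G : rm_MF (m + 1)) (y : E (m + 1)) (c : ℝ) :
    t3mcN G y (Pi.single 0 c) = (G y)⁻¹ 0 0 * c * c := by
  unfold t3mcN
  rw [Finset.sum_eq_single 0]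
  · rw [Finset.sum_eq_single 0]
    · simp
    · intro k _ hk
      simp [Pi.single_eq_of_ne hk]
    · simp
  · intro k _ hk
    simp [Pi.single_eq_of_ne hk]
  · simp

theorem t3smp_inv00_pos {m : ℕ} {G : rm_MF (m + 1)} {U : Set (E (m + 1))} (hG : rm_Met G U)
    {y : E (m + 1)} (hy : y ∈ U) : 0 < (G y)⁻¹ 0 0 := (rm_inv_pos hG hy).diag_pos

theorem t3smp_N_e0_pos {m : ℕ} {G : rm_MF (m + 1)} {U : Set (E (m + 1))} (hG : rm_Met G U)
    {y : E (m + 1)} (hy : y ∈ U) {c : ℝ} (hc : c ≠ 0) : 0 < t3mcN G y (Pi.single 0 c) := by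
  rw [t3smp_N_e0, mul_assoc]
  exact mul_pos (t3smp_inv00_pos hG hy) (mul_self_pos.2 hc)

theorem t3smp_A_symm {d : ℕ} {G : rm_MF d} {U : Set (E d)} (hG : rm_Met G U) {y : E d} (hy : y ∈ U)
    (ξ : Fin d → ℝ) (i j : Fin d) : t3mcA G y ξ i j = t3mcA G y ξ j i := by
  unfold t3mcA
  rw [rm_inv_symm hG hy i j, mul_comm (t3mcUp G y ξ i)]

theorem t3smp_A_e0 {m : ℕ} {G : rm_MF (m + 1)} {U : Set (E (m + 1))} (hG : rm_Met G U)
    {y : E (m + 1)} (hy : y ∈ U) {c : ℝ} (hc : c ≠ 0) (i : Fin (m + 1)) :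
    t3mcA G y (Pi.single 0 c) i 0 = 0 := by
  unfold t3mcA
  rw [t3smp_Up_e0, t3smp_Up_e0, t3smp_N_e0]
  have h0 := (t3smp_inv00_pos hG hy).ne'
  have : (G y)⁻¹ i 0 - (G y)⁻¹ i 0 * c * ((G y)⁻¹ 0 0 * c) / ((G y)⁻¹ 0 0 * c * c) = 0 := by
    field_simp
    ring
  rw [this, zero_div]

theorem t3smp_B_hom {d : ℕ} (G : rm_MF d) (τ : E d → ℝ) (y : E d) (ξ : Fin d → ℝ) {lam : ℝ}
    (hl : 0 < lam) : t3mcB G τ y (fun k => lam * ξ k) = t3mcB G τ y ξ := by
  have hN : t3mcN G y (fun k => lam * ξ k) = lam ^ 2 * t3mcN G y ξ := by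
    unfold t3mcN
    rw [Finset.mul_sum]
    refine Finset.sum_congr rfl fun i _ => ?_
    rw [Finset.mul_sum]
    exact Finset.sum_congr rfl fun j _ => by ring
  have hUp : ∀ k, t3mcUp G y (fun k => lam * ξ k) k = lam * t3mcUp G y ξ k := by
    intro k
    unfold t3mcUp
    rw [Finset.mul_sum]
    exact Finset.sum_congr rfl fun j _ => by ring
  have hs : Real.sqrt (t3mcN G y (fun k => lam * ξ k)) = lam * Real.sqrt (t3mcN G y ξ) := by
    rw [hN, Real.sqrt_mul (by positivity), Real.sqrt_sq hl.le]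
  unfold t3mcB
  rw [hs]
  simp only [hUp]
  have e1 : (∑ j, (∑ i, pdiff (fun w => Real.sqrt (G w).det * (G w)⁻¹ i j) i y) / Real.sqrt (G y).det
        * (lam * ξ j) - ∑ i, ∑ j, (G y)⁻¹ i j * pdiff τ i y * (lam * ξ j))
      = lam * (∑ j, (∑ i, pdiff (fun w => Real.sqrt (G w).det * (G w)⁻¹ i j) i y) / Real.sqrt (G y).det
        * ξ j - ∑ i, ∑ j, (G y)⁻¹ i j * pdiff τ i y * ξ j) := by
    rw [mul_sub, Finset.mul_sum, Finset.mul_sum]
    congr 1
    · exact Finset.sum_congr rfl fun j _ => by ring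
    · refine Finset.sum_congr rfl fun i _ => ?_
      rw [Finset.mul_sum]
      exact Finset.sum_congr rfl fun j _ => by ring
  have e2 : (∑ k, lam * t3mcUp G y ξ k * ∑ i, ∑ j, pdiff (fun w => (G w)⁻¹ i j) k y * (lam * ξ i)
        * (lam * ξ j))
      = lam ^ 3 * ∑ k, t3mcUp G y ξ k * ∑ i, ∑ j, pdiff (fun w => (G w)⁻¹ i j) k y * ξ i * ξ j := by
    rw [Finset.mul_sum]
    refine Finset.sum_congr rfl fun k _ => ?_
    have : ∑ i, ∑ j, pdiff (fun w => (G w)⁻¹ i j) k y * (lam * ξ i) * (lam * ξ j)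
        = lam ^ 2 * ∑ i, ∑ j, pdiff (fun w => (G w)⁻¹ i j) k y * ξ i * ξ j := by
      rw [Finset.mul_sum]
      refine Finset.sum_congr rfl fun i _ => ?_
      rw [Finset.mul_sum]
      exact Finset.sum_congr rfl fun j _ => by ring
    rw [this]
    ring
  rw [e1, e2]
  have hl0 := hl.ne'
  congr 1
  · rw [mul_div_mul_left _ _ hl0]
  · rw [mul_pow, ← mul_assoc 2, mul_comm 2 (lam ^ 3), mul_assoc (lam ^ 3), mul_div_mul_left _ _ (pow_ne_zero 3 hl0)]

theorem t3smp_pdiff_coord {d : ℕ} (a k : Fin d) (y : E d) :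
    pdiff (fun w : E d => w a) k y = if k = a then 1 else 0 := by
  unfold pdiff
  have h : (fun w : E d => w a) = (EuclideanSpace.proj a : E d →L[ℝ] ℝ) := rfl
  rw [h, ContinuousLinearMap.fderiv]
  simp [eq_comm]

theorem t3smp_wmc_coord {m : ℕ} {G : rm_MF (m + 1)} {U : Set (E (m + 1))} (hG : rm_Met G U)
    (τ : E (m + 1) → ℝ) {y : E (m + 1)} (hy : y ∈ U) :
    t3wmcC G τ (fun w => w 0) y = t3mcB G τ y (Pi.single 0 1) := by
  have hf : ContDiffOn ℝ ∞ (fun w : E (m + 1) => w 0) U :=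
    (EuclideanSpace.proj 0 : E (m + 1) →L[ℝ] ℝ).contDiff.contDiffOn
  rw [t3_wmcC_form hG hf hy]
  have h2 : ∀ i j, rm_p2 (fun w : E (m + 1) => w 0) i j y = 0 := by
    intro i j
    unfold rm_p2
    simp only [t3smp_pdiff_coord]
    exact rm_pdiff_const _
  have h1 : (fun k => pdiff (fun w : E (m + 1) => w 0) k y) = Pi.single 0 1 := by
    funext k
    rw [t3smp_pdiff_coord]
    by_cases hk : k = 0
    · subst hk; simp
    · simp [hk]
  simp only [h2, mul_zero, Finset.sum_const_zero, zero_add]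
  rw [h1]

theorem t3smp_dot {d : ℕ} (M : Matrix (Fin d) (Fin d) ℝ) (a b : Fin d → ℝ) :
    a ⬝ᵥ M.mulVec b = ∑ i, ∑ j, M i j * a i * b j := by
  simp only [dotProduct, Matrix.mulVec, Finset.mul_sum]
  exact Finset.sum_congr rfl fun i _ => Finset.sum_congr rfl fun j _ => by ring

/-- the principal part is nonnegative, and positive in directions which are visibly not parallel to `ξ`. -/
theorem t3smp_A_quad {d : ℕ} {G : rm_MF d} {U : Set (E d)} (hG : rm_Met G U) {y : E d} (hy : y ∈ U)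
    {ξ : Fin d → ℝ} (hN : 0 < t3mcN G y ξ) (ζ : Fin d → ℝ) :
    0 ≤ ∑ i, ∑ j, t3mcA G y ξ i j * ζ j * ζ i ∧
      ((∃ α, ξ α = 0 ∧ ζ α ≠ 0) → 0 < ∑ i, ∑ j, t3mcA G y ξ i j * ζ j * ζ i) := by
  obtain ⟨N, hNd⟩ : ∃ N : ℝ, N = t3mcN G y ξ := ⟨_, rfl⟩
  obtain ⟨c, hc⟩ : ∃ c : ℝ, c = ∑ i, t3mcUp G y ξ i * ζ i := ⟨_, rfl⟩
  obtain ⟨S, hS⟩ : ∃ S : ℝ, S = ∑ i, ∑ j, (G y)⁻¹ i j * ζ i * ζ j := ⟨_, rfl⟩
  rw [← hNd] at hN
  have hs : 0 < Real.sqrt N := Real.sqrt_pos.2 hN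
  have hQ : ∑ i, ∑ j, t3mcA G y ξ i j * ζ j * ζ i = (S - c ^ 2 / N) / Real.sqrt N := by
    unfold t3mcA
    rw [← hNd]
    have e1 : c ^ 2 = ∑ i, ∑ j, t3mcUp G y ξ i * t3mcUp G y ξ j * ζ j * ζ i := by
      rw [sq, hc, Finset.sum_mul_sum]
      exact Finset.sum_congr rfl fun i _ => Finset.sum_congr rfl fun j _ => by ring
    rw [e1, hS, Finset.sum_div, ← Finset.sum_sub_distrib, Finset.sum_div]
    refine Finset.sum_congr rfl fun i _ => ?_
    rw [Finset.sum_div, ← Finset.sum_sub_distrib, Finset.sum_div]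
    exact Finset.sum_congr rfl fun j _ => by ring
  have hc1 : c = ∑ i, ∑ j, (G y)⁻¹ i j * ζ i * ξ j := by
    rw [hc]
    refine Finset.sum_congr rfl fun i _ => ?_
    unfold t3mcUp
    rw [Finset.sum_mul]
    exact Finset.sum_congr rfl fun j _ => by ring
  have hc2 : c = ∑ i, ∑ j, (G y)⁻¹ i j * ξ i * ζ j := by
    rw [hc1, Finset.sum_comm]
    exact Finset.sum_congr rfl fun i _ => Finset.sum_congr rfl fun j _ => by
      rw [rm_inv_symm hG hy j i]; ring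
  have hv : (fun i => N * ζ i - c * ξ i) ⬝ᵥ ((G y)⁻¹).mulVec (fun i => N * ζ i - c * ξ i)
      = N * (N * S - c ^ 2) := by
    rw [t3smp_dot]
    have : N * (N * S - c ^ 2) = N ^ 2 * (∑ i, ∑ j, (G y)⁻¹ i j * ζ i * ζ j)
        - N * c * (∑ i, ∑ j, (G y)⁻¹ i j * ζ i * ξ j) - N * c * (∑ i, ∑ j, (G y)⁻¹ i j * ξ i * ζ j)
        + c ^ 2 * (∑ i, ∑ j, (G y)⁻¹ i j * ξ i * ξ j) := by
      have hN' : (∑ i, ∑ j, (G y)⁻¹ i j * ξ i * ξ j) = N := hNd.symm
      rw [← hS, ← hc1, ← hc2, hN']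
      ring
    rw [this]
    simp only [Finset.mul_sum, ← Finset.sum_sub_distrib, ← Finset.sum_add_distrib]
    exact Finset.sum_congr rfl fun i _ => Finset.sum_congr rfl fun j _ => by ring
  constructor
  · rw [hQ]
    have h1 := (rm_inv_pos hG hy).posSemidef.dotProduct_mulVec_nonneg (fun i => N * ζ i - c * ξ i)
    simp only [star_trivial] at h1
    rw [hv] at h1
    have h2 : 0 ≤ N * S - c ^ 2 := nonneg_of_mul_nonneg_right h1 hN
    apply div_nonneg _ hs.le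
    rw [sub_nonneg, div_le_iff₀ hN]
    linarith
  · rintro ⟨α, hα, hζ⟩
    rw [hQ]
    have hne : (fun i => N * ζ i - c * ξ i) ≠ 0 := by
      intro h0
      have := congrFun h0 α
      simp only [hα, mul_zero, sub_zero, Pi.zero_apply] at this
      exact (mul_ne_zero hN.ne' hζ) this
    have h1 := (rm_inv_pos hG hy).dotProduct_mulVec_pos hne
    simp only [star_trivial] at h1
    rw [hv] at h1
    have h2 : 0 < N * S - c ^ 2 := (mul_pos_iff_of_pos_left hN).1 h1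
    apply div_pos _ hs
    rw [sub_pos, div_lt_iff₀ hN]
    linarith


/-- the operator of a matrix. -/
noncomputable def t3smpOp {d : ℕ} (M : Fin d → Fin d → ℝ) : E d →L[ℝ] E d :=
  ∑ i, ∑ j, M i j • (EuclideanSpace.proj j : E d →L[ℝ] ℝ).smulRight (eb i)

theorem t3smpOp_apply {d : ℕ} (M : Fin d → Fin d → ℝ) (ζ : E d) :
    t3smpOp M ζ = ∑ i, ∑ j, (M i j * ζ j) • eb i := by
  simp [t3smpOp, smul_smul]

theorem t3smpOp_inner {d : ℕ} (M : Fin d → Fin d → ℝ) (ζ η : E d) :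
    inner ℝ (t3smpOp M ζ) η = ∑ i, ∑ j, M i j * ζ j * η i := by
  rw [t3smpOp_apply, sum_inner]
  refine Finset.sum_congr rfl fun i _ => ?_
  rw [sum_inner]
  refine Finset.sum_congr rfl fun j _ => ?_
  rw [inner_smul_left, EuclideanSpace.inner_single_left]
  simp

theorem t3smpOp_tr {d : ℕ} (M : Fin d → Fin d → ℝ) (H : E d →L[ℝ] E d →L[ℝ] ℝ) :
    Lib.Ell.ellTr (t3smpOp M) H = ∑ i, ∑ j, M i j * H (eb i) (eb j) := by
  rw [Lib.Ell.ellTr_eq_sum (EuclideanSpace.basisFun (Fin d) ℝ), Finset.sum_comm]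
  refine Finset.sum_congr rfl fun k _ => ?_
  rw [EuclideanSpace.basisFun_apply, t3smpOp_apply]
  simp only [map_sum, sum_apply, map_smul, smul_apply, smul_eq_mul]
  refine Finset.sum_congr rfl fun i _ => ?_
  rw [Finset.sum_eq_single k]
  · simp
  · intro j _ hj
    simp [hj]
  · simp

theorem t3smp_d2 {d : ℕ} {U : Set (E d)} (hU : IsOpen U) {g : E d → ℝ} (hg : ContDiffOn ℝ ∞ g U)
    {u : E d} (hu : u ∈ U) (a b : Fin d) : Lib.Ell.ellD2 g u (eb a) (eb b) = rm_p2 g a b u := by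
  have hc : ContDiffAt ℝ 2 g u := (rm_cda hU hg hu).of_le rm_two_le
  have h1 : DifferentiableAt ℝ (fderiv ℝ g) u :=
    (hc.fderiv_right (m := 1) (by norm_num)).differentiableAt (by norm_num)
  unfold rm_p2 pdiff Lib.Ell.ellD2
  have := (h1.hasFDerivAt.clm_apply (hasFDerivAt_const (eb b) u)).fderiv
  rw [this]; simp

/-- the projection onto `{u 0 = 0}`. -/
noncomputable def t3smpP (m : ℕ) : E (m + 1) →L[ℝ] E (m + 1) :=
  ContinuousLinearMap.id ℝ _ - (EuclideanSpace.proj 0 : E (m + 1) →L[ℝ] ℝ).smulRight (eb 0)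

theorem t3smpP_apply {m : ℕ} (u : E (m + 1)) : t3smpP m u = u - u 0 • eb 0 := by
  simp [t3smpP]

theorem t3smpP_zero {m : ℕ} (u : E (m + 1)) : (t3smpP m u) 0 = 0 := by
  simp [t3smpP_apply]

theorem t3smpP_ne {m : ℕ} (u : E (m + 1)) {k : Fin (m + 1)} (hk : k ≠ 0) : (t3smpP m u) k = u k := by
  simp [t3smpP_apply, hk]

theorem t3smpP_norm_le {m : ℕ} (u : E (m + 1)) : ‖t3smpP m u‖ ≤ ‖u‖ := by
  rw [EuclideanSpace.norm_eq, EuclideanSpace.norm_eq]
  refine Real.sqrt_le_sqrt (Finset.sum_le_sum fun k _ => ?_)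
  by_cases hk : k = 0
  · subst hk
    rw [t3smpP_zero]
    rw [norm_zero]
    have : (0 : ℝ) ^ 2 = 0 := by norm_num
    rw [this]
    positivity
  · rw [t3smpP_ne u hk]

theorem t3smpP_eb0 {m : ℕ} : t3smpP m (eb 0) = 0 := by
  simp [t3smpP_apply]

theorem t3smpP_eb {m : ℕ} {k : Fin (m + 1)} (hk : k ≠ 0) : t3smpP m (eb k) = eb k := by
  simp [t3smpP_apply, hk]

theorem t3smpP_of_zero {m : ℕ} {u : E (m + 1)} (hu : u 0 = 0) : t3smpP m u = u := by
  simp [t3smpP_apply, hu]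

theorem t3smp_pdiff_P {m : ℕ} {g : E (m + 1) → ℝ} {u : E (m + 1)}
    (hg : DifferentiableAt ℝ g (t3smpP m u)) (k : Fin (m + 1)) :
    pdiff (fun z => g (t3smpP m z)) k u = if k = 0 then 0 else pdiff g k (t3smpP m u) := by
  unfold pdiff
  have h1 : HasFDerivAt (fun z => g (t3smpP m z)) ((fderiv ℝ g (t3smpP m u)).comp (t3smpP m)) u :=
    hg.hasFDerivAt.comp u (t3smpP m).hasFDerivAt
  rw [h1.fderiv]
  split_ifs with hk
  · subst hk
    simp [t3smpP_eb0]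
  · simp [t3smpP_eb hk]

theorem t3smp_p2_P {m : ℕ} {U : Set (E (m + 1))} (hU : IsOpen U) {g : E (m + 1) → ℝ}
    (hg : ContDiffOn ℝ ∞ g U) {u : E (m + 1)} (hu : t3smpP m u ∈ U) (i j : Fin (m + 1)) :
    rm_p2 (fun z => g (t3smpP m z)) i j u
      = if i = 0 ∨ j = 0 then 0 else rm_p2 g i j (t3smpP m u) := by
  have hV : IsOpen ((t3smpP m) ⁻¹' U) := hU.preimage (t3smpP m).continuous
  unfold rm_p2
  have e1 : pdiff (fun w => pdiff (fun z => g (t3smpP m z)) j w) i u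
      = pdiff (fun w => if j = 0 then 0 else pdiff g j (t3smpP m w)) i u :=
    rm_pdiff_congr_on hV hu fun w hw => t3smp_pdiff_P (rm_da hU hg hw) j
  rw [e1]
  by_cases hj : j = 0
  · simp only [hj, if_true, or_true]
    exact rm_pdiff_const _
  · simp only [hj, if_false, or_false]
    exact t3smp_pdiff_P (g := fun w => pdiff g j w) (rm_da hU (rm_pdiff_smooth hU hg j) hu) i

theorem t3smp_p2_neg {d : ℕ} (f : E d → ℝ) (i j : Fin d) (y : E d) :
    rm_p2 (fun x => - f x) i j y = - rm_p2 f i j y := by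
  unfold rm_p2
  simp only [rm_pdiff_neg]

theorem t3smp_line_deriv {m : ℕ} {U : Set (E (m + 1))} (hU : IsOpen U) {f : E (m + 1) → ℝ}
    (hf : ContDiffOn ℝ ∞ f U) (a v : E (m + 1)) {s : ℝ} (hs : a + s • v ∈ U) :
    HasDerivAt (fun s : ℝ => f (a + s • v)) (fderiv ℝ f (a + s • v) v) s := by
  have h1 : HasDerivAt (fun s : ℝ => a + s • v) v s := by
    have := ((hasDerivAt_id s).smul_const v).const_add a
    simpa using this
  exact (rm_da hU hf hs).hasFDerivAt.comp_hasDerivAt s h1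

/-- monotonicity along `e₀`. -/
theorem t3smp_line {m : ℕ} {U K : Set (E (m + 1))} (hU : IsOpen U) {f : E (m + 1) → ℝ}
    (hf : ContDiffOn ℝ ∞ f U) (hK : Convex ℝ K) (hKU : K ⊆ U) {δ : ℝ}
    (hδ : ∀ y ∈ K, δ ≤ pdiff f 0 y) {a : E (m + 1)} {t : ℝ} (ht : 0 ≤ t) (ha : a ∈ K)
    (hb : a + t • eb 0 ∈ K) : δ * t ≤ f (a + t • eb 0) - f a := by
  have hseg : ∀ s ∈ Icc (0 : ℝ) t, a + s • eb 0 ∈ K := by
    intro s hs
    rcases ht.eq_or_lt with h0 | h0
    · have : s = 0 := le_antisymm (h0 ▸ hs.2) hs.1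
      simpa [this] using ha
    · have := hK.add_smul_mem ha hb (t := s / t) ⟨div_nonneg hs.1 ht, (div_le_one h0).2 hs.2⟩
      rwa [smul_smul, div_mul_cancel₀ _ h0.ne'] at this
  have hd : ∀ s ∈ Icc (0 : ℝ) t, HasDerivAt (fun s : ℝ => f (a + s • eb 0))
      (pdiff f 0 (a + s • eb 0)) s := fun s hs => t3smp_line_deriv hU hf a (eb 0) (hKU (hseg s hs))
  have h1 := Convex.mul_sub_le_image_sub_of_le_deriv (convex_Icc (0 : ℝ) t)
    (f := fun s : ℝ => f (a + s • eb 0)) (C := δ)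
    (fun s hs => (hd s hs).continuousAt.continuousWithinAt)
    (fun s hs => (hd s (interior_subset hs)).differentiableAt.differentiableWithinAt)
    (fun s hs => by
      rw [(hd s (interior_subset hs)).deriv]
      exact hδ _ (hseg s (interior_subset hs)))
    0 ⟨le_rfl, ht⟩ t ⟨ht, le_rfl⟩ ht
  simpa using h1

/-- a zero of `f` at distance `≤ |f y|/δ` in the direction `e₀`. -/
theorem t3smp_zero_near {m : ℕ} {U K : Set (E (m + 1))} (hU : IsOpen U) {f : E (m + 1) → ℝ}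
    (hf : ContDiffOn ℝ ∞ f U) (hK : Convex ℝ K) (hKU : K ⊆ U) {δ : ℝ} (hδ0 : 0 < δ)
    (hδ : ∀ y ∈ K, δ ≤ pdiff f 0 y) {y : E (m + 1)} (hy : y ∈ K) (hfy : f y ≤ 0)
    (hb : y + (- f y / δ) • eb 0 ∈ K) :
    ∃ s ∈ Icc (0 : ℝ) (- f y / δ), y + s • eb 0 ∈ K ∧ f (y + s • eb 0) = 0 := by
  have hT : 0 ≤ - f y / δ := div_nonneg (by linarith) hδ0.le
  have hseg : ∀ s ∈ Icc (0 : ℝ) (- f y / δ), y + s • eb 0 ∈ K := by
    intro s hs
    rcases hT.eq_or_lt with h0 | h0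
    · have : s = 0 := le_antisymm (h0 ▸ hs.2) hs.1
      simpa [this] using hy
    · have := hK.add_smul_mem hy hb (t := s / (- f y / δ))
        ⟨div_nonneg hs.1 hT, (div_le_one h0).2 hs.2⟩
      rwa [smul_smul, div_mul_cancel₀ _ h0.ne'] at this
  have h1 := t3smp_line hU hf hK hKU hδ hT hy hb
  rw [mul_div_cancel₀ _ hδ0.ne'] at h1
  have hc : ContinuousOn (fun s : ℝ => f (y + s • eb 0)) (Icc 0 (- f y / δ)) := fun s hs =>
    (t3smp_line_deriv hU hf y (eb 0) (hKU (hseg s hs))).continuousAt.continuousWithinAt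
  have h2 := intermediate_value_Icc hT hc
  have h3 : (0 : ℝ) ∈ Icc (f (y + (0 : ℝ) • eb 0)) (f (y + (- f y / δ) • eb 0)) := by
    constructor
    · simpa using hfy
    · linarith
  obtain ⟨s, hs, hs0⟩ := h2 h3
  exact ⟨s, hs, hseg s hs, hs0⟩

/-- the ordering passes to the closed half ball. -/
theorem t3smp_ord_closed {m : ℕ} {r : ℝ} {f : E (m + 1) → ℝ}
    (hf : ContDiffOn ℝ ∞ f (ball (0 : E (m + 1)) r))
    (hord : ∀ u ∈ ball (0 : E (m + 1)) r, u 0 < 0 → f u ≤ 0) {y : E (m + 1)}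
    (hy : y ∈ ball (0 : E (m + 1)) r) (hy0 : y 0 = 0) : f y ≤ 0 := by
  have hc : ContinuousAt (fun s : ℝ => f (y + s • eb 0)) 0 :=
    (t3smp_line_deriv isOpen_ball hf y (eb 0) (s := 0) (by simpa using hy)).continuousAt
  have hm : ContinuousAt (fun s : ℝ => y + s • (eb 0 : E (m + 1))) 0 := by fun_prop
  have h1 : ∀ᶠ s : ℝ in 𝓝 0, y + s • (eb 0 : E (m + 1)) ∈ ball (0 : E (m + 1)) r :=
    hm.eventually (isOpen_ball.mem_nhds (by simpa using hy))
  have h2 : Filter.Tendsto (fun s : ℝ => f (y + s • eb 0)) (𝓝[<] 0) (𝓝 (f y)) := by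
    have := hc.tendsto.mono_left (nhdsWithin_le_nhds (s := Iio (0 : ℝ)))
    simpa using this
  refine le_of_tendsto h2 ?_
  filter_upwards [nhdsWithin_le_nhds h1, self_mem_nhdsWithin] with s hs hs0
  refine hord _ hs ?_
  simpa [hy0] using hs0

/-- the derivative at the touching point. -/
theorem t3smp_d0_pos {m : ℕ} {r : ℝ} (hr : 0 < r) {f : E (m + 1) → ℝ}
    (hf : ContDiffOn ℝ ∞ f (ball (0 : E (m + 1)) r)) (hdf : fderiv ℝ f 0 ≠ 0) (h0 : f 0 = 0)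
    (hord : ∀ u ∈ ball (0 : E (m + 1)) r, u 0 < 0 → f u ≤ 0) : 0 < pdiff f 0 0 := by
  have key : ∀ v : E (m + 1), v 0 < 0 → fderiv ℝ f 0 v ≤ 0 := by
    intro v hv
    have hd : HasDerivAt (fun s : ℝ => - f (0 + s • v)) (- fderiv ℝ f (0 + (0 : ℝ) • v) v) 0 :=
      (t3smp_line_deriv isOpen_ball hf 0 v (s := 0) (by simpa using hr)).neg
    have hm : ContinuousAt (fun s : ℝ => (0 : E (m + 1)) + s • v) 0 := by fun_prop
    have h1 : ∀ᶠ s : ℝ in 𝓝 0, (0 : E (m + 1)) + s • v ∈ ball (0 : E (m + 1)) r :=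
      hm.eventually (isOpen_ball.mem_nhds (by simpa using hr))
    obtain ⟨ε, hε, hball⟩ := Metric.eventually_nhds_iff_ball.1 h1
    have h2 := Lib.Ell.ell_deriv_nonneg_of_right_min hε hd (fun t ht htε => by
      have h3 : (0 : E (m + 1)) + t • v ∈ ball (0 : E (m + 1)) r := hball t (by
        rw [mem_ball, Real.dist_eq, sub_zero, abs_of_pos ht]; exact htε)
      have h4 := hord _ h3 (by simpa using mul_neg_of_pos_of_neg ht hv)
      simp only [zero_smul, add_zero, h0, neg_zero]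
      linarith)
    simp only [zero_smul, add_zero] at h2
    linarith
  have hp0 : 0 ≤ pdiff f 0 0 := by
    have := key (- eb 0) (by simp)
    rw [map_neg] at this
    unfold pdiff
    linarith
  rcases hp0.eq_or_lt with h | h
  · exfalso
    apply hdf
    have hk : ∀ k : Fin (m + 1), fderiv ℝ f 0 (eb k) = 0 := by
      intro k
      by_cases hk : k = 0
      · subst hk; exact h.symm
      · have a1 := key (eb k - eb 0) (by simp [hk])
        have a2 := key (- eb k - eb 0) (by simp [hk])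
        rw [map_sub] at a1 a2
        rw [map_neg] at a2
        have : fderiv ℝ f 0 (eb 0) = 0 := h.symm
        linarith
    ext v
    have hv : v = ∑ k, v k • eb k := by
      have := (EuclideanSpace.basisFun (Fin (m + 1)) ℝ).sum_repr v
      simpa using this.symm
    rw [hv, map_sum]
    simp [hk]
  · exact h

theorem t3smp_N_pos {d : ℕ} {G : rm_MF d} {U : Set (E d)} (hG : rm_Met G U) {y : E d} (hy : y ∈ U)
    {η : Fin d → ℝ} (hη : η ≠ 0) : 0 < t3mcN G y η := by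
  have := (rm_inv_pos hG hy).dotProduct_mulVec_pos hη
  simp only [star_trivial] at this
  rw [t3smp_dot] at this
  exact this

theorem t3smpOp_symm {d : ℕ} {M : Fin d → Fin d → ℝ} (hM : ∀ i j, M i j = M j i) (ξ η : E d) :
    inner ℝ (t3smpOp M ξ) η = inner ℝ ξ (t3smpOp M η) := by
  rw [real_inner_comm (t3smpOp M η) ξ, t3smpOp_inner, t3smpOp_inner, Finset.sum_comm]
  exact Finset.sum_congr rfl fun i _ => Finset.sum_congr rfl fun j _ => by rw [hM j i]; ring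

theorem t3smpOp_continuousOn {d : ℕ} {X : Type} [TopologicalSpace X] {S : Set X}
    {M : X → Fin d → Fin d → ℝ} (hM : ∀ i j, ContinuousOn (fun x => M x i j) S) :
    ContinuousOn (fun x => t3smpOp (M x)) S := by
  unfold t3smpOp
  refine continuousOn_finsetSum _ fun i _ => continuousOn_finsetSum _ fun j _ => ?_
  exact (hM i j).smul continuousOn_const

theorem t3smp_A0_cont {m : ℕ} {G : rm_MF (m + 1)} {B U : Set (E (m + 1))} (hG : rm_Met G B)
    {f : E (m + 1) → ℝ} (hf : ContDiffOn ℝ ∞ f B) (hPU : ∀ u ∈ U, t3smpP m u ∈ B)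
    (hc0 : ∀ u ∈ U, pdiff f 0 (t3smpP m u) ≠ 0) (i j : Fin (m + 1)) :
    ContinuousOn (fun u => t3mcA G (t3smpP m u) (Pi.single 0 (pdiff f 0 (t3smpP m u))) i j) U := by
  have h1 : ContinuousOn (fun u : E (m + 1) => ((t3smpP m u, Pi.single 0 (pdiff f 0 (t3smpP m u)))
      : E (m + 1) × (Fin (m + 1) → ℝ))) U := by
    refine (t3smpP m).continuous.continuousOn.prodMk ?_
    refine (continuous_single (0 : Fin (m + 1))).comp_continuousOn ?_
    exact (rm_pdiff_smooth hG.opn hf 0).continuousOn.comp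
      (t3smpP m).continuous.continuousOn (fun u hu => hPU u hu)
  have h2 : MapsTo (fun u : E (m + 1) => ((t3smpP m u, Pi.single 0 (pdiff f 0 (t3smpP m u)))
      : E (m + 1) × (Fin (m + 1) → ℝ))) U (t3smpOm G B) := fun u hu =>
    ⟨hPU u hu, t3smp_N_e0_pos hG (hPU u hu) (hc0 u hu)⟩
  have h3 := (t3smp_A_smooth hG i j).continuousOn
  have h4 := h3.comp h1 h2
  exact h4

/-- the strong minimum principle for `w = - f ∘ P`. -/
theorem t3smp_core {m : ℕ} {G : rm_MF (m + 1)} {r : ℝ} (hG : rm_Met G (ball (0 : E (m + 1)) r))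
    {f : E (m + 1) → ℝ} (hf : ContDiffOn ℝ ∞ f (ball 0 r)) {r₂ δ L C : ℝ} (hr₂ : 0 < r₂)
    (hr₂r : r₂ ≤ r) (hδ : 0 < δ)
    (hd0 : ∀ y ∈ ball (0 : E (m + 1)) r₂, δ ≤ pdiff f 0 y)
    (hneg : ∀ y ∈ ball (0 : E (m + 1)) r₂, y 0 = 0 → f y ≤ 0) (h0 : f 0 = 0)
    (hmain : ∀ y ∈ ball (0 : E (m + 1)) r₂, y 0 = 0 →
      -(∑ i, ∑ j, t3mcA G y (Pi.single 0 (pdiff f 0 y)) i j * rm_p2 f i j y)
        ≤ C * (- f y) + L * ∑ k : Fin (m + 1), |if k = 0 then 0 else pdiff f k y|) :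
    ∀ y ∈ ball (0 : E (m + 1)) r₂, y 0 = 0 → f y = 0 := by
  obtain ⟨U, hUd⟩ : ∃ U : Set (E (m + 1)), U = ball (0 : E (m + 1)) r₂ := ⟨_, rfl⟩
  rw [← hUd] at hd0 hneg hmain ⊢
  have hUo : IsOpen U := hUd ▸ isOpen_ball
  have hUc : IsPreconnected U := hUd ▸ (convex_ball (0 : E (m + 1)) r₂).isPreconnected
  have hPU : ∀ u ∈ U, t3smpP m u ∈ U := fun u hu => by
    rw [hUd, mem_ball_zero_iff] at hu ⊢
    exact (t3smpP_norm_le u).trans_lt hu
  have hUB : U ⊆ ball (0 : E (m + 1)) r := hUd ▸ ball_subset_ball hr₂r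
  have hfn : ContDiffOn ℝ ∞ (fun x => - f x) (ball (0 : E (m + 1)) r) := hf.neg
  obtain ⟨w, hwd⟩ : ∃ w : E (m + 1) → ℝ, w = fun z => (fun x => - f x) (t3smpP m z) := ⟨_, rfl⟩
  have hw : ContDiffOn ℝ ∞ w U := by
    rw [hwd]
    exact hfn.comp (t3smpP m).contDiff.contDiffOn (fun u hu => hUB (hPU u hu))
  obtain ⟨A0, hA0⟩ : ∃ A0 : E (m + 1) → Fin (m + 1) → Fin (m + 1) → ℝ, A0 = fun u i j =>
    t3mcA G (t3smpP m u) (Pi.single 0 (pdiff f 0 (t3smpP m u))) i j := ⟨_, rfl⟩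
  obtain ⟨σ, hσ⟩ : ∃ σ : ℝ → ℝ, σ = fun x => if 0 ≤ x then 1 else -1 := ⟨_, rfl⟩
  have hσ1 : ∀ x, σ x * x = |x| := by
    intro x
    rw [hσ]
    by_cases hx : 0 ≤ x
    · simp [hx, abs_of_nonneg hx]
    · simp [hx, abs_of_neg (not_le.1 hx)]
  have hσ2 : ∀ x, |σ x| ≤ 1 := by
    intro x
    rw [hσ]
    by_cases hx : 0 ≤ x <;> simp [hx]
  have hc0 : ∀ u ∈ U, pdiff f 0 (t3smpP m u) ≠ 0 := fun u hu =>
    (lt_of_lt_of_le hδ (hd0 _ (hPU u hu))).ne'
  have hA0s : ∀ u ∈ U, ∀ i j, A0 u i j = A0 u j i := fun u hu i j => by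
    rw [hA0]; exact t3smp_A_symm hG (hUB (hPU u hu)) _ i j
  have hA00 : ∀ u ∈ U, ∀ i, A0 u i 0 = 0 := fun u hu i => by
    rw [hA0]; exact t3smp_A_e0 hG (hUB (hPU u hu)) (hc0 u hu) i
  have hA0c : ∀ i j, ContinuousOn (fun u => A0 u i j) U := by
    intro i j
    rw [hA0]
    exact t3smp_A0_cont hG hf (fun u hu => hUB (hPU u hu)) hc0 i j
  obtain ⟨Am, hAm⟩ : ∃ Am : E (m + 1) → Fin (m + 1) → Fin (m + 1) → ℝ, Am = fun u i j =>
    A0 u i j + if i = 0 ∧ j = 0 then 1 else 0 := ⟨_, rfl⟩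
  have hquad : ∀ u (ζ : E (m + 1)), inner ℝ (t3smpOp (Am u) ζ) ζ
      = ∑ i, ∑ j, A0 u i j * ζ j * ζ i + ζ 0 * ζ 0 := by
    intro u ζ
    rw [t3smpOp_inner, hAm]
    simp only [add_mul, Finset.sum_add_distrib]
    congr 1
    rw [Finset.sum_eq_single 0]
    · rw [Finset.sum_eq_single 0]
      · simp
      · intro j _ hj
        simp [hj]
      · simp
    · intro i _ hi
      simp [hi]
    · simp
  have hloc0 := Lib.Ell.ell_loc_of_continuousOn hUo (a := fun u => t3smpOp (Am u))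
    (b := fun _ => 0) (c := fun _ => 0)
    (t3smpOp_continuousOn fun i j => by
      rw [hAm]
      exact (hA0c i j).add continuousOn_const) continuousOn_const continuousOn_const
    (fun u hu ξ η => t3smpOp_symm (fun i j => by
      rw [hAm]
      simp only [hA0s u hu i j, and_comm]) ξ η)
    (fun u hu ζ hζ => by
      rw [hquad]
      have hq := t3smp_A_quad hG (hUB (hPU u hu)) (t3smp_N_e0_pos hG (hUB (hPU u hu)) (hc0 u hu))
        (fun k => ζ k)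
      have hA0u : ∀ i j, A0 u i j
          = t3mcA G (t3smpP m u) (Pi.single 0 (pdiff f 0 (t3smpP m u))) i j := fun i j => by rw [hA0]
      simp only [← hA0u] at hq
      by_cases hα : ∃ α : Fin (m + 1), α ≠ 0 ∧ ζ α ≠ 0
      · obtain ⟨α, hα0, hαζ⟩ := hα
        have := hq.2 ⟨α, by simp [hα0], hαζ⟩
        nlinarith [mul_self_nonneg (ζ 0)]
      · push Not at hα
        have hz0 : ζ 0 ≠ 0 := by
          intro hz
          apply hζ
          ext k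
          by_cases hk : k = 0
          · subst hk; simpa using hz
          · simpa using hα k hk
        have := hq.1
        have h2 := mul_self_pos.2 hz0
        linarith)
  have key := Lib.Ell.ell_strong_min hUo hUc (a := fun u => t3smpOp (Am u))
    (b := fun u => (-L) • ∑ k, σ (pdiff w k u) • eb k) (c := fun _ => -C) (v := w)
    (fun x hx => by
      obtain ⟨ρ, hρ, lam, hlam, Lam, K, hE, -, -⟩ := hloc0 x hx
      refine ⟨ρ, hρ, lam, hlam, Lam, |L| * (m + 1) + |C|, hE, ?_, ?_⟩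
      · intro z _
        rw [norm_smul, norm_neg, Real.norm_eq_abs]
        have h1 : ‖∑ k, σ (pdiff w k z) • (eb k : E (m + 1))‖ ≤ (m + 1 : ℝ) := by
          refine (norm_sum_le _ _).trans ?_
          have : ∀ k ∈ (Finset.univ : Finset (Fin (m + 1))),
              ‖σ (pdiff w k z) • (eb k : E (m + 1))‖ ≤ 1 := by
            intro k _
            rw [norm_smul, Real.norm_eq_abs]
            simpa using hσ2 _
          refine (Finset.sum_le_sum this).trans ?_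
          simp
        have := mul_le_mul_of_nonneg_left h1 (abs_nonneg L)
        linarith [abs_nonneg C]
      · intro z _
        rw [norm_neg, Real.norm_eq_abs]
        have : 0 ≤ |L| * (m + 1 : ℝ) := by positivity
        linarith)
    (hw.of_le rm_two_le)
    (fun u hu => by
      have hy := hPU u hu
      have hyB := hUB hy
      have T1 : Lib.Ell.ellTr (t3smpOp (Am u)) (Lib.Ell.ellD2 w u)
          = -(∑ i, ∑ j, t3mcA G (t3smpP m u) (Pi.single 0 (pdiff f 0 (t3smpP m u))) i j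
            * rm_p2 f i j (t3smpP m u)) := by
        rw [t3smpOp_tr, ← Finset.sum_neg_distrib]
        refine Finset.sum_congr rfl fun i _ => ?_
        rw [← Finset.sum_neg_distrib]
        refine Finset.sum_congr rfl fun j _ => ?_
        rw [t3smp_d2 hUo hw hu, hwd, t3smp_p2_P isOpen_ball hfn hyB, t3smp_p2_neg, hAm]
        have hA0u : t3mcA G (t3smpP m u) (Pi.single 0 (pdiff f 0 (t3smpP m u))) i j = A0 u i j := by
          rw [hA0]
        rw [hA0u]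
        by_cases hi : i = 0
        · subst hi
          rw [hA0s u hu, hA00 u hu]
          simp
        · by_cases hj : j = 0
          · subst hj
            rw [hA00 u hu]
            simp
          · simp [hi, hj]
      have hp : ∀ k, pdiff w k u = if k = 0 then 0 else - pdiff f k (t3smpP m u) := by
        intro k
        rw [hwd, t3smp_pdiff_P (rm_da isOpen_ball hfn hyB), rm_pdiff_neg]
      have T2 : fderiv ℝ w u ((-L) • ∑ k, σ (pdiff w k u) • eb k)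
          = - (L * ∑ k : Fin (m + 1), |if k = 0 then 0 else pdiff f k (t3smpP m u)|) := by
        rw [map_smul, map_sum, smul_eq_mul, neg_mul]
        congr 2
        refine Finset.sum_congr rfl fun k _ => ?_
        rw [map_smul, smul_eq_mul]
        have : fderiv ℝ w u (eb k) = pdiff w k u := rfl
        rw [this, hσ1, hp]
        by_cases hk : k = 0
        · simp [hk]
        · simp [hk]
      have T3 : w u = - f (t3smpP m u) := by rw [hwd]
      unfold Lib.Ell.ndOp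
      rw [T1, T2, T3]
      have := hmain _ hy (t3smpP_zero u)
      linarith)
    (fun u hu => by
      rw [hwd]
      have := hneg _ (hPU u hu) (t3smpP_zero u)
      simp only
      linarith)
    (x₀ := 0) (by rw [hUd]; exact mem_ball_self hr₂) (by rw [hwd]; simp [h0])
  intro y hy hy0
  have := key y hy
  rw [hwd] at this
  simp only [t3smpP_of_zero hy0] at this
  linarith

/-- the full structure function. -/
noncomputable def t3smpF {d : ℕ} (G : rm_MF d) (τ f : E d → ℝ) (p : E d × (Fin d → ℝ)) : ℝ :=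
  ∑ i, ∑ j, t3mcA G p.1 p.2 i j * rm_p2 f i j p.1 + t3mcB G τ p.1 p.2

theorem t3smpF_smooth {d : ℕ} {G : rm_MF d} {U : Set (E d)} (hG : rm_Met G U) {τ f : E d → ℝ}
    (hτ : ContDiffOn ℝ ∞ τ U) (hf : ContDiffOn ℝ ∞ f U) :
    ContDiffOn ℝ ∞ (t3smpF G τ f) (t3smpOm G U) := by
  unfold t3smpF
  refine ContDiffOn.add (ContDiffOn.sum fun i _ => ContDiffOn.sum fun j _ => ?_)
    (t3smp_B_smooth hG hτ)
  exact (t3smp_A_smooth hG i j).mul
    ((t3smp_fst_smooth (rm_p2_smooth hG.opn hf i j)).mono (t3smp_Om_sub G U))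

theorem t3smp_fderiv_eq_zero {d : ℕ} {f : E d → ℝ} {u : E d} (h : ∀ k, pdiff f k u = 0) :
    fderiv ℝ f u = 0 := by
  ext v
  have hv : v = ∑ k, v k • eb k := by
    have := (EuclideanSpace.basisFun (Fin d) ℝ).sum_repr v
    simpa using this.symm
  have hk : ∀ k : Fin d, fderiv ℝ f u (eb k) = 0 := h
  rw [hv, map_sum]
  simp [hk]

theorem t3smp_sq_pos {d : ℕ} {G : rm_MF d} {U : Set (E d)} (hG : rm_Met G U) {f : E d → ℝ}
    {u : E d} (hu : u ∈ U) (hdf : fderiv ℝ f u ≠ 0) : 0 < gradSqC G f u := by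
  refine lt_of_le_of_ne (rm_sq_nonneg hG hu f) fun h => hdf ?_
  exact t3smp_fderiv_eq_zero ((rm_sq_eq_zero hG hu f).1 h.symm)

theorem t3smp_wmc_smooth {d : ℕ} {G : rm_MF d} {U : Set (E d)} (hG : rm_Met G U) {τ f : E d → ℝ}
    (hτ : ContDiffOn ℝ ∞ τ U) (hf : ContDiffOn ℝ ∞ f U) (hdf : ∀ u ∈ U, fderiv ℝ f u ≠ 0) :
    ContDiffOn ℝ ∞ (fun u => t3wmcC G τ f u) U := by
  have hsq : ContDiffOn ℝ ∞ (gradSqC G f) U := by
    have : gradSqC G f = fun w => gradIpC G f f w := by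
      funext w; exact if_gradSqC_eq G f w
    rw [this]
    exact rm_gradIpC_smooth hG hf hf
  have hpos : ∀ u ∈ U, gradSqC G f u ≠ 0 := fun u hu => (t3smp_sq_pos hG hu (hdf u hu)).ne'
  have hs : ContDiffOn ℝ ∞ (fun u => Real.sqrt (gradSqC G f u)) U := hsq.sqrt hpos
  have hs0 : ∀ u ∈ U, Real.sqrt (gradSqC G f u) ≠ 0 := fun u hu =>
    (Real.sqrt_pos.2 (t3smp_sq_pos hG hu (hdf u hu))).ne'
  unfold t3wmcC rm_dlapC
  refine ContDiffOn.sub (ContDiffOn.div ((rm_lapC_smooth hG hf).sub (rm_gradIpC_smooth hG hτ hf)) hs hs0)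
    (ContDiffOn.div (rm_gradIpC_smooth hG hf hsq) (contDiffOn_const.mul (hs.pow 3)) ?_)
  intro u hu
  have := hs0 u hu
  positivity

/-- **L-T3-Smp-C**: the strong maximum principle in a straightened chart (plan (S4)). -/
theorem t3_smp_chart {m : ℕ} {G : rm_MF (m + 1)} {r : ℝ} (hr : 0 < r)
    (hG : rm_Met G (ball (0 : E (m + 1)) r)) {τ q₁ q₂ f : E (m + 1) → ℝ}
    (hτ : ContDiffOn ℝ ∞ τ (ball 0 r)) (hq₁ : ContDiffOn ℝ ∞ q₁ (ball 0 r))
    (hq₂ : ContDiffOn ℝ ∞ q₂ (ball 0 r)) (hf : ContDiffOn ℝ ∞ f (ball 0 r))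
    (hdf : ∀ u ∈ ball (0 : E (m + 1)) r, fderiv ℝ f u ≠ 0) (h0 : f 0 = 0)
    (hord : ∀ u ∈ ball (0 : E (m + 1)) r, u 0 < 0 → f u ≤ 0)
    (hq : ∀ u ∈ ball (0 : E (m + 1)) r, q₁ u ≤ q₂ u)
    (he₁ : ∀ u ∈ ball (0 : E (m + 1)) r, u 0 = 0 → t3wmcC G τ (fun w => w 0) u = q₁ u)
    (he₂ : ∀ u ∈ ball (0 : E (m + 1)) r, f u = 0 → t3wmcC G τ f u = q₂ u) :
    ∃ r' > 0, r' ≤ r ∧ ∀ u ∈ ball (0 : E (m + 1)) r', f u = 0 ↔ u 0 = 0 := by
  have hB : IsOpen (ball (0 : E (m + 1)) r) := isOpen_ball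
  have h0B : (0 : E (m + 1)) ∈ ball (0 : E (m + 1)) r := mem_ball_self hr
  have hp0 : 0 < pdiff f 0 0 := t3smp_d0_pos hr hf (hdf 0 h0B) h0 hord
  obtain ⟨δ, hδd⟩ : ∃ δ : ℝ, δ = pdiff f 0 0 / 2 := ⟨_, rfl⟩
  have hδ : 0 < δ := by rw [hδd]; positivity
  have hone : (1 : WithTop ℕ∞) ≤ ∞ := by
    have : ((1 : ℕ∞) : WithTop ℕ∞) ≤ ((⊤ : ℕ∞) : WithTop ℕ∞) := by exact_mod_cast le_top
    exact this
  -- the radius `r₁`
  have hc0 : ContinuousOn (fun w => pdiff f 0 w) (ball (0 : E (m + 1)) r) :=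
    (rm_pdiff_smooth hB hf 0).continuousOn
  have hev : ∀ᶠ y in 𝓝 (0 : E (m + 1)), y ∈ ball (0 : E (m + 1)) r ∧ δ < pdiff f 0 y := by
    have h1 := (hc0.continuousAt (hB.mem_nhds h0B)).eventually
      (lt_mem_nhds (a := δ) (by rw [hδd]; linarith))
    exact Filter.Eventually.and (hB.mem_nhds h0B) h1
  obtain ⟨ρ, hρ, hρb⟩ := Metric.eventually_nhds_iff_ball.1 hev
  obtain ⟨r₁, hr₁d⟩ : ∃ r₁ : ℝ, r₁ = ρ / 2 := ⟨_, rfl⟩
  have hr₁ : 0 < r₁ := by rw [hr₁d]; positivity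
  have hK₁ : ∀ y ∈ closedBall (0 : E (m + 1)) r₁, y ∈ ball (0 : E (m + 1)) r ∧ δ < pdiff f 0 y :=
    fun y hy => hρb y (closedBall_subset_ball (by rw [hr₁d]; linarith) hy)
  have hK₁B : closedBall (0 : E (m + 1)) r₁ ⊆ ball (0 : E (m + 1)) r := fun y hy => (hK₁ y hy).1
  have hK₁c : IsCompact (closedBall (0 : E (m + 1)) r₁) := isCompact_closedBall 0 r₁
  -- bound of the gradient
  have hξc : ContinuousOn (fun y => (fun k => pdiff f k y : Fin (m + 1) → ℝ))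
      (ball (0 : E (m + 1)) r) := continuousOn_pi.2 fun k => (rm_pdiff_smooth hB hf k).continuousOn
  obtain ⟨Kf, hKf⟩ := hK₁c.exists_bound_of_continuousOn (hξc.mono hK₁B)
  obtain ⟨lo, hlo⟩ : ∃ lo : Fin (m + 1) → ℝ, lo = fun k => if k = 0 then δ else -Kf := ⟨_, rfl⟩
  obtain ⟨hi, hhi⟩ : ∃ hi : Fin (m + 1) → ℝ, hi = fun _ => Kf := ⟨_, rfl⟩
  have hK₂c : IsCompact (Icc lo hi) := isCompact_Icc
  have hsub : closedBall (0 : E (m + 1)) r₁ ×ˢ Icc lo hi ⊆ t3smpOm G (ball (0 : E (m + 1)) r) := by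
    intro p hp
    refine ⟨hK₁B hp.1, t3smp_N_pos hG (hK₁B hp.1) fun h => ?_⟩
    have h1 := hp.2.1 0
    rw [h, hlo] at h1
    simp only [if_true, Pi.zero_apply] at h1
    linarith
  obtain ⟨L, hL0, hL⟩ := t3smp_lip (t3smp_Om_open hG) ((t3smpF_smooth hG hτ hf).of_le hone)
    (hK₁c.prod hK₂c) hsub
  obtain ⟨Ce, hCe0, hCe⟩ := t3smp_lip hB (((t3smp_wmc_smooth hG hτ hf hdf).sub hq₂).of_le hone)
    hK₁c hK₁B
  -- the radius `r₂`
  have hfc : ContinuousAt f 0 := hf.continuousOn.continuousAt (hB.mem_nhds h0B)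
  have hev2 : ∀ᶠ y in 𝓝 (0 : E (m + 1)), |f y| < δ * r₁ / 2 := by
    have h1 : ContinuousAt (fun y => |f y|) 0 := hfc.abs
    refine h1.eventually (gt_mem_nhds ?_)
    simp only [h0, abs_zero]
    positivity
  obtain ⟨ρ₂, hρ₂, hρ₂b⟩ := Metric.eventually_nhds_iff_ball.1 hev2
  obtain ⟨r₂, hr₂d⟩ : ∃ r₂ : ℝ, r₂ = min ρ₂ (r₁ / 2) := ⟨_, rfl⟩
  have hr₂ : 0 < r₂ := by rw [hr₂d]; exact lt_min hρ₂ (by positivity)
  have hr₂ρ : r₂ ≤ ρ₂ := by rw [hr₂d]; exact min_le_left _ _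
  have hr₂r₁ : r₂ ≤ r₁ / 2 := by rw [hr₂d]; exact min_le_right _ _
  have hUK : ball (0 : E (m + 1)) r₂ ⊆ closedBall (0 : E (m + 1)) r₁ := fun y hy =>
    ball_subset_closedBall (ball_subset_ball (by linarith) hy)
  have hr₂r : r₂ ≤ r := by
    by_contra hcon
    push Not at hcon
    have h1 : (r • eb 0 : E (m + 1)) ∈ ball (0 : E (m + 1)) r₂ := by
      rw [mem_ball_zero_iff, norm_smul, Real.norm_eq_abs, abs_of_pos hr]
      simpa using hcon
    have h2 := hK₁B (hUK h1)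
    rw [mem_ball_zero_iff, norm_smul, Real.norm_eq_abs, abs_of_pos hr] at h2
    simp at h2
  have hδK : ∀ y ∈ closedBall (0 : E (m + 1)) r₁, δ ≤ pdiff f 0 y := fun y hy => (hK₁ y hy).2.le
  have hneg : ∀ y ∈ ball (0 : E (m + 1)) r₂, y 0 = 0 → f y ≤ 0 := fun y hy hy0 =>
    t3smp_ord_closed hf hord (hK₁B (hUK hy)) hy0
  have hmain : ∀ y ∈ ball (0 : E (m + 1)) r₂, y 0 = 0 →
      -(∑ i, ∑ j, t3mcA G y (Pi.single 0 (pdiff f 0 y)) i j * rm_p2 f i j y)
        ≤ Ce / δ * (- f y) + L * ∑ k : Fin (m + 1), |if k = 0 then 0 else pdiff f k y| := by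
    intro y hy hy0
    have hyK := hUK hy
    have hyB := hK₁B hyK
    have hfy := hneg y hy hy0
    -- the error term
    have hE : |t3wmcC G τ f y - q₂ y| ≤ Ce / δ * (- f y) := by
      have hT : - f y / δ < r₁ / 2 := by
        rw [div_lt_iff₀ hδ]
        have := hρ₂b y (ball_subset_ball hr₂ρ hy)
        rw [abs_of_nonpos hfy] at this
        linarith
      have hT0 : 0 ≤ - f y / δ := div_nonneg (by linarith) hδ.le
      have hb : y + (- f y / δ) • eb 0 ∈ closedBall (0 : E (m + 1)) r₁ := by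
        rw [mem_closedBall_zero_iff]
        refine (norm_add_le _ _).trans ?_
        rw [norm_smul, Real.norm_eq_abs, abs_of_nonneg hT0]
        have h1 : ‖y‖ < r₂ := mem_ball_zero_iff.1 hy
        have h2 : ‖(eb 0 : E (m + 1))‖ = 1 := by simp
        rw [h2]
        linarith
      obtain ⟨s, hs, hsK, hs0⟩ := t3smp_zero_near hB hf (convex_closedBall 0 r₁) hK₁B hδ hδK hyK
        hfy hb
      have h1 := hCe _ subset_rfl (convex_closedBall 0 r₁) y hyK _ hsK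
      simp only [he₂ _ (hK₁B hsK) hs0, sub_self, sub_zero] at h1
      refine h1.trans ?_
      have h2 : ‖y - (y + s • (eb 0 : E (m + 1)))‖ = s := by
        rw [sub_add_cancel_left, norm_neg, norm_smul, Real.norm_eq_abs, abs_of_nonneg hs.1]
        simp
      rw [h2, div_mul_eq_mul_div, mul_div_assoc]
      exact mul_le_mul_of_nonneg_left hs.2 hCe0
    -- the gradient term
    obtain ⟨ξ, hξ⟩ : ∃ ξ : Fin (m + 1) → ℝ, ξ = fun k => pdiff f k y := ⟨_, rfl⟩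
    obtain ⟨ξ0, hξ0⟩ : ∃ ξ0 : Fin (m + 1) → ℝ, ξ0 = Pi.single 0 (pdiff f 0 y) := ⟨_, rfl⟩
    have hnξ : ‖ξ‖ ≤ Kf := by rw [hξ]; exact hKf y hyK
    have hKf0 : 0 ≤ Kf := (norm_nonneg _).trans hnξ
    have hξk : ∀ k, |ξ k| ≤ Kf := fun k => (norm_le_pi_norm ξ k).trans hnξ
    have hξ00 : ξ 0 = pdiff f 0 y := by rw [hξ]
    have hξm : ξ ∈ Icc lo hi := by
      constructor
      · intro k
        rw [hlo]
        by_cases hk : k = 0
        · subst hk
          simp only [if_true]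
          rw [hξ00]
          exact hδK y hyK
        · simp only [hk, if_false]
          exact (abs_le.1 (hξk k)).1
      · intro k
        rw [hhi]
        exact (abs_le.1 (hξk k)).2
    have hξ0m : ξ0 ∈ Icc lo hi := by
      constructor
      · intro k
        rw [hlo, hξ0]
        by_cases hk : k = 0
        · subst hk
          simp only [if_true, Pi.single_eq_same]
          exact hδK y hyK
        · simp only [hk, if_false, Pi.single_eq_of_ne hk]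
          linarith
      · intro k
        rw [hhi, hξ0]
        by_cases hk : k = 0
        · subst hk
          simp only [Pi.single_eq_same]
          rw [← hξ00]
          exact (abs_le.1 (hξk 0)).2
        · simp only [Pi.single_eq_of_ne hk]
          exact hKf0
    have hLip := hL ({y} ×ˢ Icc lo hi)
      (prod_mono (singleton_subset_iff.2 hyK) subset_rfl)
      ((convex_singleton y).prod (convex_Icc lo hi)) (y, ξ) ⟨rfl, hξm⟩ (y, ξ0) ⟨rfl, hξ0m⟩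
    have hnorm : ‖((y, ξ) : E (m + 1) × (Fin (m + 1) → ℝ)) - (y, ξ0)‖
        ≤ ∑ k : Fin (m + 1), |if k = 0 then 0 else pdiff f k y| := by
      have hS0 : 0 ≤ ∑ k : Fin (m + 1), |if k = 0 then 0 else pdiff f k y| :=
        Finset.sum_nonneg fun k _ => abs_nonneg _
      rw [Prod.mk_sub_mk, sub_self, Prod.norm_def, norm_zero]
      refine max_le hS0 ?_
      refine (pi_norm_le_iff_of_nonneg hS0).2 fun k => ?_
      have h1 : (ξ - ξ0) k = if k = 0 then 0 else pdiff f k y := by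
        rw [Pi.sub_apply, hξ, hξ0]
        by_cases hk : k = 0
        · subst hk
          simp
        · simp [hk]
      simp only
      rw [h1, Real.norm_eq_abs]
      exact Finset.single_le_sum (f := fun k : Fin (m + 1) => |if k = 0 then 0 else pdiff f k y|)
        (fun k _ => abs_nonneg _) (Finset.mem_univ k)
    have hF1 : t3smpF G τ f (y, ξ) = t3wmcC G τ f y := by
      rw [t3_wmcC_form hG hf hyB, hξ]
      rfl
    have hc0y : 0 < pdiff f 0 y := lt_of_lt_of_le hδ (hδK y hyK)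
    have hBq : t3mcB G τ y ξ0 = q₁ y := by
      have h1 : ξ0 = fun k => pdiff f 0 y * (Pi.single 0 1 : Fin (m + 1) → ℝ) k := by
        rw [hξ0]
        funext k
        by_cases hk : k = 0
        · subst hk
          simp
        · simp [hk]
      rw [h1, t3smp_B_hom G τ y _ hc0y, ← t3smp_wmc_coord hG τ hyB, he₁ y hyB hy0]
    have hF2 : t3smpF G τ f (y, ξ0)
        = ∑ i, ∑ j, t3mcA G y (Pi.single 0 (pdiff f 0 y)) i j * rm_p2 f i j y + q₁ y := by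
      unfold t3smpF
      simp only
      rw [hBq, hξ0]
    rw [hF1, hF2] at hLip
    have h3 := mul_le_mul_of_nonneg_left hnorm hL0
    have h4 := (abs_le.1 (hLip.trans h3)).2
    have h5 := (abs_le.1 hE).1
    have h6 := hq y hyB
    linarith
  have hzero := t3smp_core hG hf hr₂ hr₂r hδ (fun y hy => hδK y (hUK hy)) hneg h0 hmain
  refine ⟨r₂, hr₂, hr₂r, fun u hu => ?_⟩
  have hPu : t3smpP m u ∈ ball (0 : E (m + 1)) r₂ := by
    rw [mem_ball_zero_iff] at hu ⊢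
    exact (t3smpP_norm_le u).trans_lt hu
  have hfP : f (t3smpP m u) = 0 := hzero _ hPu (t3smpP_zero u)
  constructor
  · intro hfu
    by_contra hne
    rcases lt_or_gt_of_ne hne with hlt | hgt
    · have e1 : u + (- u 0) • eb 0 = t3smpP m u := by
        rw [t3smpP_apply, neg_smul, sub_eq_add_neg]
      have h1 := t3smp_line hB hf (convex_closedBall 0 r₁) hK₁B hδK (a := u) (t := - u 0)
        (by linarith) (hUK hu) (by rw [e1]; exact hUK hPu)
      rw [e1, hfP, hfu] at h1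
      nlinarith
    · have e1 : t3smpP m u + (u 0) • eb 0 = u := by
        rw [t3smpP_apply, sub_add_cancel]
      have h1 := t3smp_line hB hf (convex_closedBall 0 r₁) hK₁B hδK (a := t3smpP m u) (t := u 0)
        hgt.le (hUK hPu) (by rw [e1]; exact hUK hu)
      rw [e1, hfP, hfu] at h1
      nlinarith
  · intro hu0
    rw [← t3smpP_of_zero hu0]
    exact hfP


/-! ### helpers for L-T3-Smp-A -/

/-- a linear map whose `0`-th coordinate is `l`. -/
noncomputable def t3smpT {m : ℕ} (l : E (m + 1) →L[ℝ] ℝ) (k : Fin (m + 1)) :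
    E (m + 1) →L[ℝ] E (m + 1) :=
  ((EuclideanSpace.equiv (Fin (m + 1)) ℝ).symm : (Fin (m + 1) → ℝ) →L[ℝ] E (m + 1)).comp
    (ContinuousLinearMap.pi fun j => if j = 0 then l else
      if j = k then (EuclideanSpace.proj 0 : E (m + 1) →L[ℝ] ℝ) else EuclideanSpace.proj j)

theorem t3smpT_apply {m : ℕ} (l : E (m + 1) →L[ℝ] ℝ) (k : Fin (m + 1)) (v : E (m + 1))
    (j : Fin (m + 1)) : (t3smpT l k v) j = if j = 0 then l v else if j = k then v 0 else v j := by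
  have : (t3smpT l k v) j = (if j = 0 then l else
      if j = k then (EuclideanSpace.proj 0 : E (m + 1) →L[ℝ] ℝ) else EuclideanSpace.proj j) v := rfl
  rw [this]
  split_ifs <;> rfl

theorem t3smpT_inj {m : ℕ} {l : E (m + 1) →L[ℝ] ℝ} {k : Fin (m + 1)} (hk : l (eb k) ≠ 0) :
    Function.Injective (t3smpT l k) := by
  rw [injective_iff_map_eq_zero]
  intro v hv
  have hc : ∀ j, (if j = 0 then l v else if j = k then v 0 else v j) = 0 := fun j => by
    rw [← t3smpT_apply, hv]; rfl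
  have h1 : ∀ j, j ≠ k → v j = 0 := by
    intro j hj
    by_cases hj0 : j = 0
    · subst hj0
      have := hc k
      simpa [Ne.symm hj] using this
    · have := hc j
      simpa [hj0, hj] using this
  have h2 : v = v k • eb k := by
    ext j
    by_cases hj : j = k
    · subst hj; simp
    · simp [h1 j hj, hj]
  have h3 : l v = 0 := by simpa using hc 0
  rw [h2, map_smul, smul_eq_mul] at h3
  have h4 : v k = 0 := (mul_eq_zero.1 h3).resolve_right hk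
  rw [h2, h4, zero_smul]

/-- inverse function theorem with a smooth two-sided inverse. -/
theorem t3smp_local_inverse {d : ℕ} {U : Set (E d)} {F : E d → E d} (hU : IsOpen U)
    (hF : ContDiffOn ℝ ∞ F U) {u₀ : E d} (hu : u₀ ∈ U)
    (hd : fderiv ℝ F u₀ = ContinuousLinearMap.id ℝ (E d)) :
    ∃ (σ : E d → E d) (O : Set (E d)), IsOpen O ∧ F u₀ ∈ O ∧ ContDiffOn ℝ ∞ σ O ∧
      MapsTo σ O U ∧ σ (F u₀) = u₀ ∧ ∀ a ∈ O, F (σ a) = a := by
  have hFa : ContDiffAt ℝ ∞ F u₀ := hF.contDiffAt (hU.mem_nhds hu)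
  have hF' : HasFDerivAt F
      ((ContinuousLinearEquiv.refl ℝ (E d) : E d ≃L[ℝ] E d) : E d →L[ℝ] E d) u₀ := by
    have h1 := (hFa.differentiableAt (by simp)).hasFDerivAt
    rw [hd] at h1
    exact h1
  have hs := hFa.hasStrictFDerivAt' hF' (by simp)
  set e := HasStrictFDerivAt.toOpenPartialHomeomorph F hs with he
  have hecoe : (e : E d → E d) = F := HasStrictFDerivAt.toOpenPartialHomeomorph_coe hs
  have hsrc : u₀ ∈ e.source := HasStrictFDerivAt.mem_toOpenPartialHomeomorph_source hs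
  set S : Set (E d) := U ∩ fderiv ℝ F ⁻¹'
    (range (ContinuousLinearEquiv.toContinuousLinearMap : (E d ≃L[ℝ] E d) → E d →L[ℝ] E d))
    with hS
  have hSo : IsOpen S :=
    (hF.continuousOn_fderiv_of_isOpen hU (by simp)).isOpen_inter_preimage hU
      ContinuousLinearEquiv.isOpen
  have hu₀S : u₀ ∈ S := ⟨hu, ContinuousLinearEquiv.refl ℝ (E d), by rw [hd]; rfl⟩
  refine ⟨e.symm, e.target ∩ e.symm ⁻¹' S, e.isOpen_inter_preimage_symm hSo, ?_, ?_, ?_, ?_, ?_⟩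
  · rw [← hecoe]
    exact ⟨e.map_source hsrc, by rw [mem_preimage, e.left_inv hsrc]; exact hu₀S⟩
  · intro a ha
    obtain ⟨f₀', hf₀'⟩ := ha.2.2
    have hUa : e.symm a ∈ U := ha.2.1
    have h1 : ContDiffAt ℝ ∞ F (e.symm a) := hF.contDiffAt (hU.mem_nhds hUa)
    have h2 : HasFDerivAt F (f₀' : E d →L[ℝ] E d) (e.symm a) := by
      have := (h1.differentiableAt (by simp)).hasFDerivAt
      rwa [← hf₀'] at this
    exact (e.contDiffAt_symm ha.1 (hecoe ▸ h2) (hecoe ▸ h1)).contDiffWithinAt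
  · intro a ha
    exact ha.2.1
  · rw [← hecoe]
    exact e.left_inv hsrc
  · intro a ha
    rw [← hecoe]
    exact e.right_inv ha.1

/-- straightening of a regular function in the model space: `φ ∘ τ` is the `0`-th coordinate. -/
theorem t3smp_flat {m : ℕ} {U : Set (E (m + 1))} (hU : IsOpen U) {φ : E (m + 1) → ℝ}
    (hφ : ContDiffOn ℝ ∞ φ U) {u₀ : E (m + 1)} (hu₀ : u₀ ∈ U) (h0 : φ u₀ = 0)
    (hd : fderiv ℝ φ u₀ ≠ 0) :
    ∃ (τ Φ : E (m + 1) → E (m + 1)) (r : ℝ), 0 < r ∧ ContDiffOn ℝ ∞ τ (ball 0 r) ∧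
      InjOn τ (ball 0 r) ∧ (∀ w ∈ ball (0 : E (m + 1)) r, Function.Injective (fderiv ℝ τ w)) ∧
      MapsTo τ (ball 0 r) U ∧ τ 0 = u₀ ∧ (∀ w ∈ ball (0 : E (m + 1)) r, φ (τ w) = w 0) ∧
      DifferentiableOn ℝ Φ U ∧ ∀ w ∈ ball (0 : E (m + 1)) r, Φ (τ w) = w := by
  obtain ⟨l, hl⟩ : ∃ l : E (m + 1) →L[ℝ] ℝ, l = fderiv ℝ φ u₀ := ⟨_, rfl⟩
  obtain ⟨k, hk⟩ : ∃ k, l (eb k) ≠ 0 := by
    by_contra hcon
    push Not at hcon
    exact hd (t3smp_fderiv_eq_zero fun k => by rw [← hcon k, hl]; rfl)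
  obtain ⟨T, hT⟩ : ∃ T : E (m + 1) ≃L[ℝ] E (m + 1), T = if_equiv (t3smpT l k) (t3smpT_inj hk) :=
    ⟨_, rfl⟩
  have hT0 : ∀ v, (T v) 0 = l v := by
    intro v
    have : T v = t3smpT l k v := by rw [hT]; rfl
    rw [this, t3smpT_apply]
    simp
  have hlR : ∀ w, l (T.symm w) = w 0 := fun w => by rw [← hT0, T.apply_symm_apply]
  obtain ⟨e, he⟩ : ∃ e : E (m + 1), e = T.symm (eb 0) := ⟨_, rfl⟩
  have hle : l e = 1 := by rw [he, hlR]; simp
  obtain ⟨F, hF⟩ : ∃ F : E (m + 1) → E (m + 1), F = fun u => u + (φ u - l (u - u₀)) • e := ⟨_, rfl⟩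
  have hFs : ContDiffOn ℝ ∞ F U := by
    rw [hF]
    refine contDiffOn_id.add ((hφ.sub ?_).smul contDiffOn_const)
    exact (l.contDiff.comp (contDiff_id.sub contDiff_const)).contDiffOn
  have hfd : HasFDerivAt φ l u₀ := by
    rw [hl]
    exact ((hφ.contDiffAt (hU.mem_nhds hu₀)).differentiableAt (by simp)).hasFDerivAt
  have hFd : fderiv ℝ F u₀ = ContinuousLinearMap.id ℝ (E (m + 1)) := by
    have h1 : HasFDerivAt (fun u => l (u - u₀)) l u₀ := by
      have h0 : HasFDerivAt (fun u : E (m + 1) => u - u₀) (ContinuousLinearMap.id ℝ (E (m + 1))) u₀ :=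
        (hasFDerivAt_id u₀).sub_const u₀
      have := HasFDerivAt.comp (g := l) (g' := l) u₀ l.hasFDerivAt h0
      rw [ContinuousLinearMap.comp_id] at this
      exact this
    have h2 : HasFDerivAt F (ContinuousLinearMap.id ℝ (E (m + 1)) + (l - l).smulRight e) u₀ := by
      rw [hF]
      exact (hasFDerivAt_id u₀).add ((hfd.sub h1).smul_const e)
    rw [h2.fderiv, sub_self]
    ext1 x
    simp
  have hFu₀ : F u₀ = u₀ := by simp [hF, h0]
  have hlF : ∀ u, l (F u - u₀) = φ u := by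
    intro u
    have : F u - u₀ = (u - u₀) + (φ u - l (u - u₀)) • e := by
      simp only [hF]; abel
    rw [this, map_add, map_smul, hle, smul_eq_mul, mul_one]
    ring
  obtain ⟨σ, Oσ, hOσ, hmem, hσs, hmaps, hσu, hright⟩ := t3smp_local_inverse hU hFs hu₀ hFd
  rw [hFu₀] at hmem hσu
  have hcont : Continuous fun w : E (m + 1) => T.symm w + u₀ := by fun_prop
  have hpre : IsOpen ((fun w : E (m + 1) => T.symm w + u₀) ⁻¹' Oσ) := hOσ.preimage hcont
  obtain ⟨r, hr, hball⟩ := Metric.isOpen_iff.1 hpre 0 (by simpa using hmem)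
  obtain ⟨τ, hτ⟩ : ∃ τ : E (m + 1) → E (m + 1), τ = fun w => σ (T.symm w + u₀) := ⟨_, rfl⟩
  have hin : ∀ w ∈ ball (0 : E (m + 1)) r, T.symm w + u₀ ∈ Oσ := fun w hw => hball hw
  have hτs : ContDiffOn ℝ ∞ τ (ball 0 r) := by
    rw [hτ]
    exact hσs.comp ((T.symm : E (m + 1) →L[ℝ] E (m + 1)).contDiff.add contDiff_const).contDiffOn hin
  have hFτ : ∀ w ∈ ball (0 : E (m + 1)) r, F (τ w) = T.symm w + u₀ := fun w hw => by
    rw [hτ]; exact hright _ (hin w hw)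
  have hτm : MapsTo τ (ball 0 r) U := fun w hw => by
    rw [hτ]; exact hmaps (hin w hw)
  obtain ⟨Φ, hΦ⟩ : ∃ Φ : E (m + 1) → E (m + 1), Φ = fun u => T (F u - u₀) := ⟨_, rfl⟩
  have hΦd : DifferentiableOn ℝ Φ U := by
    rw [hΦ]
    exact (T : E (m + 1) →L[ℝ] E (m + 1)).differentiable.comp_differentiableOn
      ((hFs.differentiableOn (by simp)).sub_const u₀)
  have hΦτ : ∀ w ∈ ball (0 : E (m + 1)) r, Φ (τ w) = w := fun w hw => by
    rw [hΦ]
    simp only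
    rw [hFτ w hw, add_sub_cancel_right, T.apply_symm_apply]
  have hτi : InjOn τ (ball 0 r) := by
    intro a ha b hb hab
    have := congrArg Φ hab
    rwa [hΦτ a ha, hΦτ b hb] at this
  have hτimm : ∀ w ∈ ball (0 : E (m + 1)) r, Function.Injective (fderiv ℝ τ w) := by
    intro w hw
    have h1 : DifferentiableAt ℝ τ w :=
      (hτs.contDiffAt (isOpen_ball.mem_nhds hw)).differentiableAt (by simp)
    have h2 : DifferentiableAt ℝ Φ (τ w) := hΦd.differentiableAt (hU.mem_nhds (hτm hw))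
    have h3 : fderiv ℝ (Φ ∘ τ) w = ContinuousLinearMap.id ℝ (E (m + 1)) := by
      have : (Φ ∘ τ) =ᶠ[𝓝 w] fun a => a := by
        filter_upwards [isOpen_ball.mem_nhds hw] with a ha using hΦτ a ha
      rw [this.fderiv_eq]
      exact (hasFDerivAt_id w).fderiv
    rw [fderiv_comp w h2 h1] at h3
    intro a b hab
    have := congrArg (fderiv ℝ Φ (τ w)) hab
    have e1 : ∀ c, fderiv ℝ Φ (τ w) (fderiv ℝ τ w c) = c := fun c => by
      have := congrArg (fun L : E (m + 1) →L[ℝ] E (m + 1) => L c) h3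
      simpa using this
    rwa [e1, e1] at this
  refine ⟨τ, Φ, r, hr, hτs, hτi, hτimm, hτm, ?_, fun w hw => ?_, hΦd, hΦτ⟩
  · rw [hτ]
    simp [hσu]
  · rw [← hlF, hFτ w hw, add_sub_cancel_right, hlR]

variable {V : Type} [NormedAddCommGroup V] [NormedSpace ℝ V] [FiniteDimensional ℝ V]
variable {d : ℕ} {M : Set V} {h : Ten V} {t : V → ℝ}

/-- **L-T3-Smp-A**: the weighted mean curvature in a parametrisation.
[`gs_wlap_eq`, `gs_sq_eq`, `gs_ip_eq` (with `if_gradSq_smoothAlong`); `gradSq φ ∘ ψ = gradSqC ..` on the open set `U`.] -/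
theorem t3_wmc_chart (hG : CtGeo d M h t) {φ : V → ℝ} (hφ : SmoothAlong d M φ) {ψ : E d → V}
    {U : Set (E d)} (hψ : IsParam M ψ U) {u : E d} (hu : u ∈ U) :
    wmc d M h t φ (ψ u) = t3wmcC (cm h ψ) (fun w => t (ψ w)) (fun w => φ (ψ w)) u := by
  unfold wmc t3wmcC gradN
  rw [gs_wlap_eq hG.met hG.drift hφ hψ hu, gs_sq_eq hG.met hφ hψ hu,
    gs_ip_eq hG.met hφ (if_gradSq_smoothAlong hG.met hφ) hψ hu]
  have e : gradIpC (cm h ψ) (fun w => φ (ψ w)) (fun w => gradSq d M h φ (ψ w)) u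
      = gradIpC (cm h ψ) (fun w => φ (ψ w)) (gradSqC (cm h ψ) (fun w => φ (ψ w))) u := by
    unfold gradIpC
    refine Finset.sum_congr rfl fun i _ => Finset.sum_congr rfl fun j _ => ?_
    rw [rm_pdiff_congr_on (if_open hψ) hu fun w hw => gs_sq_eq hG.met hφ hψ hw]
  rw [e]

/-- **L-T3-Smp-A**: straightening of a regular boundary point.
[`CtReg` gives `(ψ₀, U₀, u₀)` and `φ` smooth near `u₀`, `φ u₀ = 0`, `dφ ≠ 0`, `A = {φ < 0}` a.e.  Choose a linear isomorphism `T` of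
`E (m+1)` with `(T v) 0 = dφ(u₀) v`; `Φ u = T (u - u₀) + (φ u - dφ(u₀)(u - u₀)) e₀` has `dΦ(u₀) = T`, `(Φ u) 0 = φ u`;
`if_exists_local_inverse`; `ψ = ψ₀ ∘ Φ⁻¹` on a small ball; diffeomorphisms preserve null sets.] -/
theorem t3_straighten {m : ℕ} {A : Set V} {x : V} (hx : CtReg (m + 1) M A x) :
    ∃ (ψ : E (m + 1) → V) (r : ℝ), 0 < r ∧ IsParam M ψ (ball 0 r) ∧ ψ 0 = x ∧
      (ctPre ψ (ball 0 r) A : Set (E (m + 1))) =ᵐ[volume]
        ({u | u ∈ ball (0 : E (m + 1)) r ∧ u 0 < 0} : Set (E (m + 1))) := by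
  obtain ⟨ψ₀, U₀, u₀, hψ₀, hu₀, rfl, r₀, hr₀, φ, hφ, hφ0, hdφ, hae⟩ := hx
  have hU : IsOpen (U₀ ∩ ball u₀ r₀) := (if_open hψ₀).inter isOpen_ball
  obtain ⟨τ, Φ, r, hr, hτs, hτi, hτimm, hτm, hτ0, hφτ, hΦd, hΦτ⟩ := t3smp_flat hU
    (hφ.mono inter_subset_right) ⟨hu₀, mem_ball_self hr₀⟩ hφ0 (hdφ u₀ (mem_ball_self hr₀))
  refine ⟨ψ₀ ∘ τ, r, hr, if_comp hψ₀ isOpen_ball hτs hτi hτimm (fun w hw => (hτm hw).1),
    by simp [hτ0], ?_⟩
  have hnull : ∀ N : Set (E (m + 1)), volume N = 0 →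
      volume {w | w ∈ ball (0 : E (m + 1)) r ∧ τ w ∈ N} = 0 := by
    intro N hN
    have h1 : {w | w ∈ ball (0 : E (m + 1)) r ∧ τ w ∈ N} ⊆ Φ '' (N ∩ (U₀ ∩ ball u₀ r₀)) := by
      rintro w ⟨hw, hwN⟩
      exact ⟨τ w, ⟨hwN, hτm hw⟩, hΦτ w hw⟩
    refine measure_mono_null h1 ?_
    exact addHaar_image_eq_zero_of_differentiableOn_of_addHaar_eq_zero volume
      (hΦd.mono inter_subset_right) (measure_mono_null inter_subset_left hN)
  rw [ae_eq_set] at hae ⊢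
  constructor
  · refine measure_mono_null ?_ (hnull _ hae.1)
    rintro w ⟨⟨hwA, hw⟩, hw2⟩
    refine ⟨hw, ⟨⟨hwA, (hτm hw).1⟩, (hτm hw).2⟩, fun h3 => hw2 ⟨hw, ?_⟩⟩
    rw [← hφτ w hw]
    exact h3.2
  · refine measure_mono_null ?_ (hnull _ hae.2)
    rintro w ⟨⟨hw, hw0⟩, hw2⟩
    refine ⟨hw, ⟨(hτm hw).2, ?_⟩, fun h3 => hw2 ⟨h3.1.1, hw⟩⟩
    rw [hφτ w hw]
    exact hw0


omit [FiniteDimensional ℝ V] in
theorem t3wmcC_congr {d : ℕ} (G : rm_MF d) (τ : E d → ℝ) {f g : E d → ℝ} {u : E d}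
    (hfg : f =ᶠ[𝓝 u] g) : t3wmcC G τ f u = t3wmcC G τ g u := by
  have h1 : ∀ᶠ w in 𝓝 u, ∀ j, pdiff f j w = pdiff g j w :=
    Filter.eventually_all.2 (rm_pdiff_eventuallyEq hfg)
  have h2 : gradSqC G f =ᶠ[𝓝 u] gradSqC G g := by
    filter_upwards [h1] with w hw
    unfold gradSqC
    simp only [hw]
  unfold t3wmcC rm_dlapC
  rw [rm_lap_congr hfg, rm_ip_congr (Filter.EventuallyEq.refl _ τ) hfg, h2.eq_of_nhds,
    rm_ip_congr hfg h2]

variable [MeasurableSpace V] [BorelSpace V]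

/-- **L-T3-Smp-D: strong maximum principle for ordered minimisers** (plan (S1)-(S5)). -/
theorem t3_smp {m : ℕ} (hG : CtGeo (m + 1) M h t) {p₁ p₂ : V → ℝ}
    (hp₁ : SmoothAlong (m + 1) M p₁) (hp₂ : SmoothAlong (m + 1) M p₂)
    (hpp : ∀ x ∈ M, p₁ x ≤ p₂ x) {A₁ A₂ : Set V} (h₁ : CtLAM (m + 1) M h t p₁ A₁)
    (h₂ : CtLAM (m + 1) M h t p₂ A₂) (hsub : vol (m + 1) M h (A₁ \ A₂) = 0) {x : V}
    (hx₁ : CtReg (m + 1) M A₁ x) (hx₂ : CtReg (m + 1) M A₂ x) :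
    ∃ O : Set V, IsOpen O ∧ x ∈ O ∧ ctBd (m + 1) M A₁ ∩ O = ctBd (m + 1) M A₂ ∩ O := by
  obtain ⟨ψ, r, hr, hψ, hψ0, hae₁⟩ := t3_straighten hx₁
  have h0r : (0 : E (m + 1)) ∈ ball (0 : E (m + 1)) r := mem_ball_self hr
  rw [← hψ0] at hx₂
  obtain ⟨r₂, hr₂, f, hf, hf0, hdf, hae₂⟩ := (ct_reg_iff hψ A₂ h0r).1 hx₂
  obtain ⟨ρ, hρd⟩ : ∃ ρ : ℝ, ρ = min r r₂ := ⟨_, rfl⟩
  have hρ : 0 < ρ := by rw [hρd]; exact lt_min hr hr₂
  have hρr : ball (0 : E (m + 1)) ρ ⊆ ball (0 : E (m + 1)) r :=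
    ball_subset_ball (by rw [hρd]; exact min_le_left _ _)
  have hρr₂ : ball (0 : E (m + 1)) ρ ⊆ ball (0 : E (m + 1)) r₂ :=
    ball_subset_ball (by rw [hρd]; exact min_le_right _ _)
  have hψρ : IsParam M ψ (ball 0 ρ) := if_mono hψ isOpen_ball hρr
  obtain ⟨O, hO, hOU⟩ := if_image hψρ
  have hψO : IsParam (M ∩ O) ψ (ball 0 ρ) := if_param_inter hψρ (by rw [hOU]; exact inter_subset_right)
  have hae₁' : (ctPre ψ (ball 0 ρ) A₁ : Set (E (m + 1))) =ᵐ[volume]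
      ({u | u ∈ ball (0 : E (m + 1)) ρ ∧ u 0 < 0} : Set (E (m + 1))) := by
    have h3 := hae₁.inter (Filter.EventuallyEq.refl _ (ball (0 : E (m + 1)) ρ))
    have e1 : ctPre ψ (ball 0 r) A₁ ∩ ball (0 : E (m + 1)) ρ = ctPre ψ (ball 0 ρ) A₁ := by
      ext u
      constructor
      · rintro ⟨⟨a, -⟩, b⟩
        exact ⟨a, b⟩
      · rintro ⟨a, b⟩
        exact ⟨⟨a, hρr b⟩, b⟩
    have e2 : {u | u ∈ ball (0 : E (m + 1)) r ∧ u 0 < 0} ∩ ball (0 : E (m + 1)) ρ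
        = {u | u ∈ ball (0 : E (m + 1)) ρ ∧ u 0 < 0} := by
      ext u
      constructor
      · rintro ⟨⟨-, a⟩, b⟩
        exact ⟨b, a⟩
      · rintro ⟨b, a⟩
        exact ⟨⟨hρr b, a⟩, b⟩
    rwa [e1, e2] at h3
  have hae₂' : (ctPre ψ (ball 0 ρ) A₂ : Set (E (m + 1))) =ᵐ[volume]
      ({u | u ∈ ball (0 : E (m + 1)) ρ ∧ f u < 0} : Set (E (m + 1))) := by
    have h3 := hae₂.inter (Filter.EventuallyEq.refl _ (ball (0 : E (m + 1)) ρ))
    have e1 : ctPre ψ (ball 0 r) A₂ ∩ ball (0 : E (m + 1)) r₂ ∩ ball (0 : E (m + 1)) ρ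
        = ctPre ψ (ball 0 ρ) A₂ := by
      ext u
      constructor
      · rintro ⟨⟨⟨a, -⟩, -⟩, b⟩
        exact ⟨a, b⟩
      · rintro ⟨a, b⟩
        exact ⟨⟨⟨a, hρr b⟩, hρr₂ b⟩, b⟩
    have e2 : {u | u ∈ ball (0 : E (m + 1)) r₂ ∧ f u < 0} ∩ ball (0 : E (m + 1)) ρ
        = {u | u ∈ ball (0 : E (m + 1)) ρ ∧ f u < 0} := by
      ext u
      constructor
      · rintro ⟨⟨-, a⟩, b⟩
        exact ⟨b, a⟩
      · rintro ⟨b, a⟩
        exact ⟨⟨hρr₂ b, a⟩, b⟩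
    rwa [e1, e2] at h3
  have hfρ : ContDiffOn ℝ ∞ f (ball (0 : E (m + 1)) ρ) := hf.mono hρr₂
  have hc0 : ContDiffOn ℝ ∞ (fun w : E (m + 1) => w 0) (ball (0 : E (m + 1)) ρ) :=
    (EuclideanSpace.proj 0 : E (m + 1) →L[ℝ] ℝ).contDiff.contDiffOn
  have hD₁ := ct_def_of_chart hG (A := A₁) hψρ hO hOU hc0 (fun u _ hcon => by
    have h3 : fderiv ℝ (fun w : E (m + 1) => w 0) u (eb 0) = 1 := by
      have := t3smp_pdiff_coord (0 : Fin (m + 1)) 0 u
      simpa [pdiff] using this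
    rw [hcon] at h3
    simp at h3) hae₁'
  have hD₂ := ct_def_of_chart hG (A := A₂) hψρ hO hOU hfρ (fun u hu => hdf u (hρr₂ hu)) hae₂'
  have hinv : ∀ u ∈ ball (0 : E (m + 1)) ρ, Function.invFunOn ψ (ball 0 ρ) (ψ u) = u :=
    fun u hu => if_leftInv hψρ hu
  have hmemO : ∀ u ∈ ball (0 : E (m + 1)) ρ, ψ u ∈ M ∩ O := fun u hu =>
    hOU ▸ mem_image_of_mem ψ hu
  -- the ordering
  have hord : ∀ u ∈ ball (0 : E (m + 1)) ρ, u 0 < 0 → f u ≤ 0 := by
    intro u hu hu0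
    by_contra hcon
    push Not at hcon
    have hW1 : IsOpen (ball (0 : E (m + 1)) ρ ∩ f ⁻¹' Ioi 0) :=
      hfρ.continuousOn.isOpen_inter_preimage isOpen_ball isOpen_Ioi
    have hW2 : IsOpen {w : E (m + 1) | w 0 < 0} :=
      isOpen_lt (EuclideanSpace.proj 0 : E (m + 1) →L[ℝ] ℝ).continuous continuous_const
    have hWpos := (hW1.inter hW2).measure_pos volume ⟨u, ⟨hu, hcon⟩, hu0⟩
    have hN := ct_vol_null_pre hG hψρ hsub
    rw [ae_eq_set] at hae₁' hae₂'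
    have hsubW : ball (0 : E (m + 1)) ρ ∩ f ⁻¹' Ioi 0 ∩ {w : E (m + 1) | w 0 < 0} ⊆
        ({u | u ∈ ball (0 : E (m + 1)) ρ ∧ u 0 < 0} \ ctPre ψ (ball 0 ρ) A₁) ∪
        (ctPre ψ (ball 0 ρ) A₂ \ {u | u ∈ ball (0 : E (m + 1)) ρ ∧ f u < 0}) ∪
        (ball (0 : E (m + 1)) ρ ∩ ψ ⁻¹' (A₁ \ A₂)) := by
      rintro w ⟨⟨hw, hfw⟩, hw0⟩
      by_cases ha₁ : ψ w ∈ A₁
      · by_cases ha₂ : ψ w ∈ A₂
        · exact Or.inl (Or.inr ⟨⟨ha₂, hw⟩, fun h3 => lt_asymm h3.2 hfw⟩)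
        · exact Or.inr ⟨hw, ha₁, ha₂⟩
      · exact Or.inl (Or.inl ⟨⟨hw, hw0⟩, fun h3 => ha₁ h3.1⟩)
    have hnull := measure_mono_null hsubW
      (measure_union_null (measure_union_null hae₁'.2 hae₂'.1) hN)
    exact hWpos.ne' hnull
  -- Euler-Lagrange
  have he₁ : ∀ u ∈ ball (0 : E (m + 1)) ρ, u 0 = 0 →
      t3wmcC (cm h ψ) (fun w => t (ψ w)) (fun w => w 0) u = p₁ (ψ u) := by
    intro u hu hu0
    have h3 := CtLAM.el (hG.inter hO) (if_smoothAlong_inter hp₁ hO) (h₁.inter_open hG hO) hD₁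
      (hmemO u hu) (by simp only [Function.comp_apply]; rw [hinv u hu]; exact hu0)
    rw [t3_wmc_chart (hG.inter hO) hD₁.smooth hψO hu] at h3
    rw [← h3]
    refine t3wmcC_congr _ _ ?_
    filter_upwards [isOpen_ball.mem_nhds hu] with w hw
    simp only [Function.comp_apply]
    rw [hinv w hw]
  have he₂ : ∀ u ∈ ball (0 : E (m + 1)) ρ, f u = 0 →
      t3wmcC (cm h ψ) (fun w => t (ψ w)) f u = p₂ (ψ u) := by
    intro u hu hu0
    have h3 := CtLAM.el (hG.inter hO) (if_smoothAlong_inter hp₂ hO) (h₂.inter_open hG hO) hD₂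
      (hmemO u hu) (by simp only [Function.comp_apply]; rw [hinv u hu]; exact hu0)
    rw [t3_wmc_chart (hG.inter hO) hD₂.smooth hψO hu] at h3
    rw [← h3]
    refine t3wmcC_congr _ _ ?_
    filter_upwards [isOpen_ball.mem_nhds hu] with w hw
    simp only [Function.comp_apply]
    rw [hinv w hw]
  obtain ⟨r', hr', hr'ρ, hiff⟩ := t3_smp_chart hρ (gs_met hG.met hψρ) (τ := fun w => t (ψ w))
    (q₁ := fun w => p₁ (ψ w)) (q₂ := fun w => p₂ (ψ w)) (f := f) (hG.drift ψ _ hψρ)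
    (hp₁ ψ _ hψρ) (hp₂ ψ _ hψρ) hfρ (fun u hu => hdf u (hρr₂ hu)) hf0 hord
    (fun u hu => hpp _ (hmemO u hu).1) he₁ he₂
  have hr'sub : ball (0 : E (m + 1)) r' ⊆ ball (0 : E (m + 1)) ρ := ball_subset_ball hr'ρ
  obtain ⟨O', hO', hO'U⟩ := if_image_open hψρ isOpen_ball hr'sub
  have hb₁ := (ct_wall_inter_def hG hO hD₁).2.1
  have hb₂ := (ct_wall_inter_def hG hO hD₂).2.1
  refine ⟨O ∩ O', hO.inter hO', ?_, ?_⟩
  · rw [← hψ0]
    have h3 : ψ 0 ∈ M ∩ O' := hO'U ▸ mem_image_of_mem ψ (mem_ball_self hr')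
    exact ⟨(hmemO 0 (mem_ball_self hρ)).2, h3.2⟩
  · rw [← inter_assoc, ← inter_assoc, hb₁, hb₂]
    ext y
    constructor
    · rintro ⟨⟨hyM, hy0⟩, hyO'⟩
      have h3 : y ∈ ψ '' ball (0 : E (m + 1)) r' := hO'U ▸ ⟨hyM.1, hyO'⟩
      obtain ⟨u, hu, rfl⟩ := h3
      refine ⟨⟨hyM, ?_⟩, hyO'⟩
      simp only [Function.comp_apply] at hy0 ⊢
      rw [hinv u (hr'sub hu)] at hy0 ⊢
      exact (hiff u hu).2 hy0
    · rintro ⟨⟨hyM, hy0⟩, hyO'⟩
      have h3 : y ∈ ψ '' ball (0 : E (m + 1)) r' := hO'U ▸ ⟨hyM.1, hyO'⟩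
      obtain ⟨u, hu, rfl⟩ := h3
      refine ⟨⟨hyM, ?_⟩, hyO'⟩
      simp only [Function.comp_apply] at hy0 ⊢
      rw [hinv u (hr'sub hu)] at hy0 ⊢
      exact (hiff u hu).1 hy0

end Claimed.Agent.R315
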