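-- KEEP
import Claimed.Agent.R315.T3.Br
import Claimed.Agent.R315.Ct.Var
import Claimed.Agent.R315.Gs.Aap

/-!
# Row 315, paper T (n = 3), package T3-Tame: what the wall of a minimiser inherits

Sub-captain: helper72.
* `t3_tame`     (= B8 + Allegretto-Piepenbrink): if `D(h,t) + p² - 2|dp| ≥ c + γ` along the wall `S` of a local absolute
                minimiser with pressure `p`, then `S` carries a drift `U` with `D(h|S, U) > c`.
* `t3_no_curve` a compact nonempty `1`-manifold carries no drift with `D ≥ c > 0`.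
* `t3_struct`   a compact boundary (ambient dimension `≤ 7`) is a finite disjoint union of `T3Hyp`s, each relatively
                open in the wall.
LEAVES: L-T3-Tame, L-T3-NoCurve, L-T3-Struct.
-/

set_option autoImplicit false
set_option linter.unusedSectionVars false
open scoped ContDiff Topology
open MeasureTheory Claims.C0499 Set

namespace Claimed.Agent.R315

variable {V : Type} [NormedAddCommGroup V] [NormedSpace ℝ V] [FiniteDimensional ℝ V]

/-- the scalar curvature of a `1`-manifold vanishes. -/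
theorem t3_scal_one {Γ : Set V} {h : Ten V} (hΓ : IsMfd 1 Γ) (hh : IsMetricOn 1 Γ h) {x : V}
    (hx : x ∈ Γ) : scal 1 Γ h x = 0 := by
  obtain ⟨ψ, U, hp, u, hu, rfl⟩ := hΓ x hx
  rw [if_scal_eq hh hp hu]
  unfold scalarCoord ricciCoord riemannCoord
  simp

/-- **L-T3-NoCurve.**
[`U` is continuous on the compact set `Γ` (`if_smoothAlong_continuousOn`): maximum at `x₀`.  `gs_wlap_min` for `f = -U`, drift `0`:
`lap U x₀ ≤ 0`; `gradSq ≥ 0` (`gs_sq_nonneg`); `scal 1 Γ h = 0`: in `scalarCoord` for `d = 1` all indices are equal and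
`riemannCoord G u 0 0 0 0 = 0` by antisymmetry of the formula (`if_scal_eq`, `Fin.sum_univ_one`/`Subsingleton`).] -/
theorem t3_no_curve {Γ : Set V} {h : Ten V} {U : V → ℝ} (hΓ : IsMfd 1 Γ)
    (hh : IsMetricOn 1 Γ h) (hU : SmoothAlong 1 Γ U) (hc : IsCompact Γ) (hne : Γ.Nonempty)
    {c : ℝ} (hc0 : 0 < c) : ¬ ∀ x ∈ Γ, c ≤ Dsc 1 Γ h U x := by
  intro hall
  obtain ⟨x₀, hx₀, hmax⟩ := hc.exists_isMaxOn hne (if_smoothAlong_continuousOn hΓ hU)
  have hf : SmoothAlong 1 Γ (fun y => (-1 : ℝ) * U y) := gs_sm_smul (-1) hU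
  have h1 : 0 ≤ wlap 1 Γ h (fun _ => (0 : ℝ)) (fun y => (-1 : ℝ) * U y) x₀ :=
    gs_wlap_min hΓ hh (gs_sm_const 0) hf hx₀
      ⟨univ, Filter.univ_mem, fun y hy => by
        have := hmax hy.1
        simp only [mem_ofPred_eq] at this
        linarith⟩
  unfold wlap at h1
  rw [gs_lap_smul hΓ hh (-1) hU hx₀, gs_ip_const_left hΓ hh 0 hf hx₀] at h1
  have h2 := gs_sq_nonneg hΓ hh hU hx₀
  have h3 := hall x₀ hx₀
  unfold Dsc at h3
  rw [t3_scal_one hΓ hh hx₀] at h3
  linarith

variable [MeasurableSpace V] [BorelSpace V]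
variable {d : ℕ} {X : Set V} {h : Ten V} {t p : V → ℝ}

/-- the gap on the wall. -/
theorem t3_tame_gap (hG : CtGeo (d + 1) X h t) (hd : 1 ≤ d) (hd7 : d + 1 ≤ 7)
    (hp : SmoothAlong (d + 1) X p) {A : Set V} (hA : CtLAM (d + 1) X h t p A) {c γ : ℝ}
    (hQ : ∀ x ∈ ctWall (d + 1) X A,
      c + γ ≤ Dsc (d + 1) X h t x + p x ^ 2 - 2 * gradN (d + 1) X h p x) :
    GsGap d (ctWall (d + 1) X A) h t 2 (fun x => Dsc d (ctWall (d + 1) X A) h t x - c) γ := by
  set S : Set V := ctWall (d + 1) X A with hS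
  have hGS : CtGeo d S h t := ct_wall_geo hG A
  have hGs : GsGeo d S h t := hGS.gs
  have hSX : S ⊆ X := (ct_wall_subset_bd A).trans (ct_bd_subset A)
  intro φ hφ
  obtain ⟨φ', hφ's, -, hφ'e⟩ := gs_extend hGS.mfd hφ
  obtain ⟨hφs, K, hK, hKS, hφ0⟩ := hφ
  have hφt : IsTestOn d S φ := ⟨hφs, K, hK, hKS, hφ0⟩
  obtain ⟨χ, O, ⟨hχs, K', hK', hK'X, hχ0⟩, -, hO, hKO, hχ1⟩ :=
    gs_exists_cutoff hG.mfd hK (hKS.trans hSX)
  set η : V → ℝ := fun x => χ x * φ' x with hη
  have hηs : SmoothAlong (d + 1) X η := gs_sm_mul hχs (if_smoothAlong_of_contDiff hφ's)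
  have hηφ : ∀ x ∈ S, η x = φ x := by
    intro x hx
    by_cases hxK : x ∈ K
    · rw [hη]
      show χ x * φ' x = φ x
      rw [hχ1 x (hKO hxK), one_mul, hφ'e x hx]
    · show χ x * φ' x = φ x
      rw [hφ'e x hx, hφ0 x hx hxK, mul_zero]
  have hsing : ctSing (d + 1) X A = ∅ := hA.sing_empty hG hp (by omega) hd7
  have hst := ct_stab hG hd hp hA hηs hK' hK'X (by rw [hsing]; exact disjoint_empty _)
    (fun x hx hxK => by
      show χ x * φ' x = 0
      rw [hχ0 x hx hxK, zero_mul])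
  rw [hA.wper_eq hG hp hd] at hst
  -- the left side
  have hcont : ContinuousOn (fun x => (Dsc (d + 1) X h t x + p x ^ 2 - 2 * gradN (d + 1) X h p x)
      * η x ^ 2) S := by
    have c1 := if_smoothAlong_continuousOn hG.mfd (gs_Dsc_sm hG.met hG.drift)
    have c2 := if_smoothAlong_continuousOn hG.mfd hp
    have c3 := if_smoothAlong_continuousOn hG.mfd (if_gradSq_smoothAlong hG.met hp)
    have c4 := if_smoothAlong_continuousOn hG.mfd hηs
    have c5 : ContinuousOn (gradN (d + 1) X h p) X := c3.sqrt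
    exact (((c1.add (c2.pow 2)).sub (continuousOn_const.mul c5)).mul (c4.pow 2)).mono hSX
  have hint1 : Integrable (fun x => (Dsc (d + 1) X h t x + p x ^ 2 - 2 * gradN (d + 1) X h p x)
      * η x ^ 2) (wvol d S h t) :=
    gs_integrable hGs hcont ⟨K, hK, hKS, fun x hx hxK => by
      show _ * η x ^ 2 = 0
      rw [hηφ x hx, hφ0 x hx hxK]; ring⟩
  have hint2 : Integrable (fun x => φ x * φ x) (wvol d S h t) := gs_N_integrable hGs hφs hφt
  have hlow : (c + γ) * gsN d S h t φ φ ≤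
      ∫ x, (Dsc (d + 1) X h t x + p x ^ 2 - 2 * gradN (d + 1) X h p x) * η x ^ 2
        ∂(wvol d S h t) := by
    unfold gsN
    rw [← integral_const_mul]
    refine integral_mono_ae (hint2.const_mul _) hint1 ?_
    filter_upwards [gs_ae_mem hGs] with x hx
    show (c + γ) * (φ x * φ x) ≤ _ * η x ^ 2
    rw [hηφ x hx]
    have := hQ x hx
    nlinarith [mul_self_nonneg (φ x)]
  have hint3 := gs_B_integrable (C := 2) hGs (gs_Dsc_sm hGS.met hGS.drift) hφs hφt
  have hup : ∫ x, (2 * gradSq d S h η x + Dsc d S h t x * η x ^ 2) ∂(wvol d S h t) =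
      ∫ x, (2 * gradIp d S h φ φ x + Dsc d S h t x * (φ x * φ x)) ∂(wvol d S h t) := by
    refine integral_congr_ae ?_
    filter_upwards [gs_ae_mem hGs] with x hx
    rw [gs_sq_congr (f' := φ) hηφ, hηφ x hx]
    show 2 * gradIp d S h φ φ x + _ = _
    ring
  have hB : gsB d S h t 2 (fun x => Dsc d S h t x - c) φ φ =
      (∫ x, (2 * gradIp d S h φ φ x + Dsc d S h t x * (φ x * φ x)) ∂(wvol d S h t)) -
        c * gsN d S h t φ φ := by
    unfold gsB gsN
    rw [← integral_const_mul, ← integral_sub hint3 (hint2.const_mul c)]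
    refine integral_congr_ae (Filter.Eventually.of_forall fun x => ?_)
    show _ = _
    ring
  rw [hB, ← hup]
  linarith

/-- **L-T3-Tame.**
[`S = ctWall (d+1) X A`, `CtGeo d S h t` (`ct_wall_geo`), `GsGeo` with `if_isVol_vol`.  CLAIM `GsGap d S h t 2 (Dsc d S h t - c) γ`.
Let `φ` be a test function on `S` with support `K ⊆ S` compact.  `gs_extend` (for `S`): ambient smooth `φ'` with `φ' = φ` on `S`;
`gs_exists_cutoff` (for `X`, `K`): test function `χ` on `X`, `χ = 1` near `K`; `η = χ φ'` is smooth along `X`, vanishes on `X` outside a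
compact subset of `X`, and `η = φ` on `S`.  `ctSing = ∅` (`CtLAM.sing_empty`).  `ct_stab` and `CtLAM.wper_eq` (`wper = wvol d S h t`):
`∫_S (D_X + p² - 2|dp|) φ² ≤ ∫_S (2 |dφ|²_S + D_S φ²)`; the left side is `≥ (c + γ) ∫_S φ²` (`wvol` lives on `S`; integrability:
`gs_integrable`; `gradSq d S h η = gradSq d S h φ` by `gs_sq_congr`).  Then `gs_aap_drift` with `C = 2`, `Vs = c`; `U = t - log z`.] -/
theorem t3_tame (hG : CtGeo (d + 1) X h t) (hd : 1 ≤ d) (hd7 : d + 1 ≤ 7)
    (hp : SmoothAlong (d + 1) X p) {A : Set V} (hA : CtLAM (d + 1) X h t p A) {c γ : ℝ}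
    (hγ : 0 < γ)
    (hQ : ∀ x ∈ ctWall (d + 1) X A,
      c + γ ≤ Dsc (d + 1) X h t x + p x ^ 2 - 2 * gradN (d + 1) X h p x) :
    ∃ U : V → ℝ, SmoothAlong d (ctWall (d + 1) X A) U ∧
      ∀ x ∈ ctWall (d + 1) X A, c < Dsc d (ctWall (d + 1) X A) h U x := by
  have hGS : CtGeo d (ctWall (d + 1) X A) h t := ct_wall_geo hG A
  obtain ⟨z, hz, hpos, hlt⟩ := gs_aap_drift (C := 2) (Vs := fun _ => c) hGS.gs (gs_sm_const c)
    (by norm_num) (by norm_num) hγ (t3_tame_gap hG hd hd7 hp hA hQ)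
  exact ⟨fun y => t y - 2 / 2 * Real.log (z y),
    gs_sm_sub hGS.drift (gs_sm_smul _ (gs_sm_log hz hpos)), hlt⟩

/-- a relatively open and closed compact connected part of the boundary is a `T3Hyp`. -/
theorem t3_struct_hyp (hG : CtGeo (d + 1) X h t) {A : Set V} (hA : MeasurableSet A)
    (hbw : ctBd (d + 1) X A = ctWall (d + 1) X A) (hc : IsCompact (ctBd (d + 1) X A))
    {F O' : Set V} (hO' : IsOpen O') (hF : F = ctBd (d + 1) X A ∩ O') (hFc : IsCompact F)
    (hFconn : IsConnected F) : T3Hyp (d + 1) X F := by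
  set S : Set V := ctBd (d + 1) X A with hS
  have hFS : F ⊆ S := by rw [hF]; exact inter_subset_left
  obtain ⟨O, φ, hO, hFO, hφ, -⟩ := ct_def_near hG hA hFc (hFS.trans hbw.le)
  have hcl : IsClosed (S ∩ O'ᶜ) := hc.isClosed.inter hO'.isClosed_compl
  set O₂ : Set V := O ∩ (S ∩ O'ᶜ)ᶜ with hO₂
  have hO₂o : IsOpen O₂ := hO.inter hcl.isOpen_compl
  have hO₂' : IsOpen (S ∩ O'ᶜ)ᶜ := hcl.isOpen_compl
  have hX₂ : X ∩ O₂ = (X ∩ O) ∩ (S ∩ O'ᶜ)ᶜ := by rw [hO₂, inter_assoc]
  have hzero := (ct_wall_inter_def hG hO hφ).2.1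
  refine ⟨hFc, hFconn, O₂, φ, hO₂o, ?_, ?_, ?_, ?_⟩
  · intro x hx
    refine ⟨ct_bd_subset A (hFS hx), hFO hx, fun hx' => hx'.2 ?_⟩
    rw [hF] at hx
    exact hx.2
  · rw [hX₂]
    exact if_smoothAlong_inter hφ.smooth hO₂'
  · rintro x ⟨hxX, hxO, hx2⟩
    constructor
    · intro h0
      have h1 : x ∈ S ∩ O := by rw [hzero]; exact ⟨⟨hxX, hxO⟩, h0⟩
      rw [hF]
      refine ⟨h1.1, ?_⟩
      by_contra hn
      exact hx2 ⟨h1.1, hn⟩
    · intro hxF
      have h1 : x ∈ S ∩ O := ⟨hFS hxF, hxO⟩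
      rw [hzero] at h1
      exact h1.2
  · intro ψ U hψ u hu h0 hfd
    rw [hX₂] at hψ
    have hψ' : IsParam (X ∩ O) ψ U := if_param_of_inter hO₂' hψ
    have h1 := hφ.reg (ψ u) (if_mem hψ' hu)
    rw [gs_sq_eq (if_isMetricOn_inter hG.met hO) hφ.smooth hψ' hu] at h1
    have h2 : gradSqC (cm h ψ) (fun w => φ (ψ w)) u = 0 := by
      unfold gradSqC pdiff
      have e : fderiv ℝ (fun w => φ (ψ w)) u = 0 := hfd
      simp [e]
    rw [h2] at h1
    exact lt_irrefl _ h1

/-- **L-T3-Struct.**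
[`S = ctBd = ctWall` (`CtLAM.sing_empty`, definition of `ctSing`) is a compact `d`-manifold (`ct_wall_geo`); `↥S` is compact and locally
connected (`t3g_locconn`): finitely many components, all open and closed.  For a component `F`: `ct_def_near` with `K = F` gives `O, φ`
with `CtDef (X ∩ O) (A ∩ O) φ`; `CtDef.sets` and `ct_bd_inter`: the zero set of `φ` in `X ∩ O` is `S ∩ O`.  Replace `O` by
`O \ (S \ F)` (`S \ F` is compact).  `T3Def.reg`: `gradSq > 0` excludes `fderiv (φ ∘ ψ) u = 0` (`if_gradSq_eq`).] -/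
theorem t3_struct (hG : CtGeo (d + 1) X h t) (hd : 1 ≤ d) (hd7 : d + 1 ≤ 7)
    (hp : SmoothAlong (d + 1) X p) {A : Set V} (hA : CtLAM (d + 1) X h t p A)
    (hc : IsCompact (ctBd (d + 1) X A)) :
    ∃ (n : ℕ) (F : Fin n → Set V),
      (∀ j, T3Hyp (d + 1) X (F j) ∧ ∃ O : Set V, IsOpen O ∧ F j = ctWall (d + 1) X A ∩ O) ∧
      Pairwise (Function.onFun Disjoint F) ∧ ⋃ j, F j = ctBd (d + 1) X A := by
  have hsing : ctSing (d + 1) X A = ∅ := hA.sing_empty hG hp (by omega) hd7
  have hbw : ctBd (d + 1) X A = ctWall (d + 1) X A := by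
    refine Subset.antisymm (fun x hx => ?_) (ct_wall_subset_bd A)
    by_contra hn
    have : x ∈ ctSing (d + 1) X A := ⟨hx, hn⟩
    rw [hsing] at this
    exact this
  set S : Set V := ctBd (d + 1) X A with hS
  have hSm : IsMfd d S := by rw [hbw]; exact (ct_wall_geo hG A).mfd
  -- components are relatively open
  have hopen : ∀ x ∈ S, ∃ O' : Set V, IsOpen O' ∧ S ∩ O' = connectedComponentIn S x := by
    intro x hx
    obtain ⟨O', h1, -, h2⟩ := ct_component_open hSm isOpen_univ (x := x) ⟨hx, mem_univ _⟩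
    rw [inter_univ] at h2
    exact ⟨O', h1, h2⟩
  choose! Oc hOc1 hOc2 using hopen
  obtain ⟨T, hTS, hTcov⟩ := hc.elim_finite_subcover_image (b := S) (c := Oc) hOc1
    (fun x hx => mem_biUnion hx (by
      have : x ∈ S ∩ Oc x := by rw [hOc2 x hx]; exact mem_connectedComponentIn hx
      exact this.2))
  obtain ⟨hTfin, hTcov⟩ := hTcov
  have hfin : (connectedComponentIn S '' T).Finite := hTfin.image _
  obtain ⟨n, f, hf⟩ := hfin.fin_embedding
  have hrep : ∀ j, ∃ x ∈ T, connectedComponentIn S x = f j := by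
    intro j
    have : f j ∈ connectedComponentIn S '' T := by rw [← hf]; exact mem_range_self j
    exact this
  refine ⟨n, f, fun j => ?_, ?_, ?_⟩
  · obtain ⟨x, hxT, hx⟩ := hrep j
    have hxS := hTS hxT
    have hFe : f j = S ∩ Oc x := by rw [hOc2 x hxS, hx]
    -- closedness: the complement in `S` is covered by the other components
    have hcl : IsCompact (f j) := by
      have hcomp : f j = S ∩ (⋃ y ∈ S \ f j, Oc y)ᶜ := by
        apply Subset.antisymm
        · intro z hz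
          have hzS : z ∈ S := by rw [hFe] at hz; exact hz.1
          refine ⟨hzS, fun hz' => ?_⟩
          simp only [mem_iUnion] at hz'
          obtain ⟨y, hy, hzy⟩ := hz'
          have h1 : z ∈ connectedComponentIn S y := by rw [← hOc2 y hy.1]; exact ⟨hzS, hzy⟩
          have h2 : z ∈ connectedComponentIn S x := by rw [hx]; exact hz
          have h3 : connectedComponentIn S y = connectedComponentIn S x := by
            rw [connectedComponentIn_eq h1, connectedComponentIn_eq h2]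
          apply hy.2
          rw [← hx, ← h3]
          exact mem_connectedComponentIn hy.1
        · rintro z ⟨hzS, hz⟩
          by_contra hn
          apply hz
          simp only [mem_iUnion]
          refine ⟨z, ⟨hzS, hn⟩, ?_⟩
          have : z ∈ S ∩ Oc z := by rw [hOc2 z hzS]; exact mem_connectedComponentIn hzS
          exact this.2
      rw [hcomp]
      refine hc.inter_right (IsOpen.isClosed_compl ?_)
      exact isOpen_biUnion fun y hy => hOc1 y hy.1
    have hconn : IsConnected (f j) := by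
      rw [← hx]; exact isConnected_connectedComponentIn_iff.2 hxS
    exact ⟨t3_struct_hyp hG hA.lf.meas hbw hc (hOc1 x hxS) hFe hcl hconn, Oc x, hOc1 x hxS,
      by rw [← hbw]; exact hFe⟩
  · intro i j hij
    obtain ⟨x, hxT, hx⟩ := hrep i
    obtain ⟨y, hyT, hy⟩ := hrep j
    show Disjoint (f i) (f j)
    rw [Set.disjoint_left]
    intro z hzi hzj
    apply hij
    apply f.injective
    rw [← hx] at hzi ⊢
    rw [← hy] at hzj ⊢
    rw [connectedComponentIn_eq hzi, connectedComponentIn_eq hzj]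
  · apply Subset.antisymm
    · refine iUnion_subset fun j => ?_
      obtain ⟨x, hxT, hx⟩ := hrep j
      rw [← hx]
      exact connectedComponentIn_subset S x
    · intro z hz
      have := hTcov hz
      simp only [mem_iUnion] at this
      obtain ⟨x, hxT, hzx⟩ := this
      have h1 : connectedComponentIn S x ∈ range f := by rw [hf]; exact mem_image_of_mem _ hxT
      obtain ⟨j, hj⟩ := h1
      refine mem_iUnion.2 ⟨j, ?_⟩
      rw [hj, ← hOc2 x (hTS hxT)]
      exact ⟨hz, hzx⟩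

end Claimed.Agent.R315
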