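-- KEEP
import Claimed.Agent.R315.T3.Col
import Claimed.Agent.R315.T3.Tame
import Claimed.Agent.R315.T3.Smp

/-!
# Row 315, paper T (n = 3), package T3-Bub: the weighted bubble theorem (T Proposition 4.2, all dimensions `2 ≤ d+1 ≤ 7`)

Sub-captain: helper72.  NO doubling, NO Sard, NO blow-up of the pressure.

SETTING `T3Band`: `X` a manifold with minimal exterior collars (`T3Col`), `ρ` smooth, `|dρ| ≤ 2`, levels `a < m₁ ≤ m₂ < b`, `κ > 0` with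
`2π/√κ < m₁ - a`, `2π/√κ < b - m₂`; the core of the band `{a-1 ≤ ρ ≤ b+1}` is compact; every tube lies in `{ρ ≤ m₂}` ("type +") or in `{m₁ ≤ ρ}` ("type -").

PRESSURE `p = P ∘ ρ`, `P` smooth, antitone, BOUNDED: `P = T` on `(-∞,a]`, `P = 0` on `[m₁,m₂]`, `P = -T` on `[b,∞)`, `4|P'| ≤ P² + κ` (`t3_profile`:
`P = √κ tan θ`, `|θ'| ≤ √κ/4`).  So `p² - 2|dp| ≥ -κ` EVERYWHERE, `p ≥ 0` on tubes of type +, `p ≤ 0` on tubes of type -.  `T` is chosen AFTER a finite cover of the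
compact end zones `{a-1 ≤ ρ ≤ a-1/2}`, `{b+1/2 ≤ ρ ≤ b+1}` of the core by calibrated pieces (`ct_cal_exists`, qualitative) inside `{ρ < a}`, `{ρ > b}`: `T > max β`.

CONSTRAINTS `Kpos = {ρ ≤ a-1} ∪ closed exterior collars of type +`, `Kneg = {ρ ≥ b+1} ∪ closed exterior collars of type -`.
STEPS: (B1) `t3_profile`; (B2) `T3Band.competitor`; (B3) `T3Band.ends`; (B4) `T3Band.lam_free`, `T3Band.lam_tube`; (B5) `T3Band.bd_compact` (strong maximum principle at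
the `B i`); (B6) `t3_bubble` = assembly with `t3_struct`, `t3_tame`.
-/

set_option autoImplicit false
set_option linter.unusedSectionVars false
open scoped ContDiff Topology ENNReal
open MeasureTheory Claims.C0499 Set

namespace Claimed.Agent.R315

/-- a smooth monotone step of height `c` on `[a,b]` with slope at most `k`, provided `c < k (b-a)`. -/
theorem t3pf_step {a b c k : ℝ} (hab : a < b) (hc : 0 ≤ c) (hk : c < k * (b - a)) :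
    ∃ F : ℝ → ℝ, ContDiff ℝ ∞ F ∧ (∀ s, s ≤ a → F s = 0 ∧ deriv F s = 0) ∧
      (∀ s, b ≤ s → F s = c ∧ deriv F s = 0) ∧ ∀ s, 0 ≤ deriv F s ∧ deriv F s ≤ k := by
  have hk0 : 0 < k := by
    by_contra h
    push Not at h
    have : k * (b - a) ≤ 0 := mul_nonpos_of_nonpos_of_nonneg h (by linarith)
    linarith
  -- choose δ
  obtain ⟨δ, hδ0, hδ1, hδ2⟩ : ∃ δ : ℝ, 0 < δ ∧ 2 * δ < b - a ∧ c ≤ k * (b - a - 2 * δ) := by
    refine ⟨min ((b - a) / 4) ((k * (b - a) - c) / (2 * k)), lt_min (by linarith) (by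
      apply div_pos <;> linarith), ?_, ?_⟩
    · have := min_le_left ((b - a) / 4) ((k * (b - a) - c) / (2 * k))
      linarith
    · have h := min_le_right ((b - a) / 4) ((k * (b - a) - c) / (2 * k))
      have h2 : k * (2 * ((k * (b - a) - c) / (2 * k))) = k * (b - a) - c := by
        field_simp
      have h3 : k * (2 * min ((b - a) / 4) ((k * (b - a) - c) / (2 * k)))
          ≤ k * (2 * ((k * (b - a) - c) / (2 * k))) :=
        mul_le_mul_of_nonneg_left (by linarith) hk0.le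
      rw [h2] at h3
      nlinarith
  set χ : ℝ → ℝ := fun s => Real.smoothTransition ((s - a) / δ) * Real.smoothTransition ((b - s) / δ)
    with hχdef
  have hχ : ContDiff ℝ ∞ χ :=
    (Real.smoothTransition.contDiff.comp ((contDiff_id.sub contDiff_const).div_const _)).mul
      (Real.smoothTransition.contDiff.comp ((contDiff_const.sub contDiff_id).div_const _))
  have hχ0 : ∀ s, 0 ≤ χ s := fun s =>
    mul_nonneg (Real.smoothTransition.nonneg _) (Real.smoothTransition.nonneg _)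
  have hχ1 : ∀ s, χ s ≤ 1 := fun s =>
    mul_le_one₀ (Real.smoothTransition.le_one _) (Real.smoothTransition.nonneg _)
      (Real.smoothTransition.le_one _)
  have hχa : ∀ s, s ≤ a → χ s = 0 := fun s hs => by
    show Real.smoothTransition ((s - a) / δ) * _ = 0
    rw [Real.smoothTransition.zero_of_nonpos (div_nonpos_of_nonpos_of_nonneg (by linarith) hδ0.le),
      zero_mul]
  have hχb : ∀ s, b ≤ s → χ s = 0 := fun s hs => by
    show _ * Real.smoothTransition ((b - s) / δ) = 0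
    rw [Real.smoothTransition.zero_of_nonpos (x := (b - s) / δ)
      (div_nonpos_of_nonpos_of_nonneg (by linarith) hδ0.le), mul_zero]
  have hχm : ∀ s, a + δ ≤ s → s ≤ b - δ → χ s = 1 := fun s h1 h2 => by
    show Real.smoothTransition ((s - a) / δ) * Real.smoothTransition ((b - s) / δ) = 1
    rw [Real.smoothTransition.one_of_one_le ((one_le_div hδ0).2 (by linarith)),
      Real.smoothTransition.one_of_one_le ((one_le_div hδ0).2 (by linarith)), mul_one]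
  have hint : ∀ x y, IntervalIntegrable χ volume x y := fun x y => hχ.continuous.intervalIntegrable _ _
  set G : ℝ → ℝ := fun r => ∫ s in a..r, χ s with hGdef
  have hd : ∀ r, HasDerivAt G (χ r) r := fun r =>
    intervalIntegral.integral_hasDerivAt_right (hint _ _)
      (hχ.continuous.stronglyMeasurableAtFilter _ _) hχ.continuous.continuousAt
  have hdG : deriv G = χ := funext fun r => (hd r).deriv
  have hG : ContDiff ℝ ∞ G :=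
    contDiff_infty_iff_deriv.2 ⟨fun r => (hd r).differentiableAt, by rw [hdG]; exact hχ⟩
  have hGa : ∀ r, r ≤ a → G r = 0 := fun r hr => by
    have : ∫ s in a..r, χ s = ∫ s in a..r, (0 : ℝ) := by
      refine intervalIntegral.integral_congr fun s hs => hχa s ?_
      rw [uIcc_of_ge hr] at hs
      exact hs.2
    show ∫ s in a..r, χ s = 0
    rw [this]
    simp
  have hGb : ∀ r, b ≤ r → G r = G b := fun r hr => by
    have h1 : ∫ s in a..r, χ s = (∫ s in a..b, χ s) + ∫ s in b..r, χ s :=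
      (intervalIntegral.integral_add_adjacent_intervals (hint _ _) (hint _ _)).symm
    have h2 : ∫ s in b..r, χ s = ∫ s in b..r, (0 : ℝ) := by
      refine intervalIntegral.integral_congr fun s hs => hχb s ?_
      rw [uIcc_of_le hr] at hs
      exact hs.1
    show ∫ s in a..r, χ s = ∫ s in a..b, χ s
    rw [h1, h2]
    simp
  have hI : b - a - 2 * δ ≤ G b := by
    have h1 : ∫ s in a..b, χ s = (∫ s in a..(a + δ), χ s) + ((∫ s in (a + δ)..(b - δ), χ s)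
        + ∫ s in (b - δ)..b, χ s) := by
      rw [intervalIntegral.integral_add_adjacent_intervals (hint _ _) (hint _ _),
        intervalIntegral.integral_add_adjacent_intervals (hint _ _) (hint _ _)]
    have h2 : ∫ s in (a + δ)..(b - δ), χ s = ∫ s in (a + δ)..(b - δ), (1 : ℝ) := by
      refine intervalIntegral.integral_congr fun s hs => ?_
      rw [uIcc_of_le (by linarith)] at hs
      exact hχm s hs.1 hs.2
    have h3 : 0 ≤ ∫ s in a..(a + δ), χ s :=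
      intervalIntegral.integral_nonneg (by linarith) fun s _ => hχ0 s
    have h4 : 0 ≤ ∫ s in (b - δ)..b, χ s :=
      intervalIntegral.integral_nonneg (by linarith) fun s _ => hχ0 s
    show _ ≤ ∫ s in a..b, χ s
    rw [h1, h2]
    simp only [intervalIntegral.integral_const, smul_eq_mul, mul_one]
    linarith
  have hI0 : 0 < G b := by linarith
  have hcI : c / G b ≤ k := by
    rw [div_le_iff₀ hI0]
    exact hδ2.trans (mul_le_mul_of_nonneg_left hI hk0.le)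
  have hcI0 : 0 ≤ c / G b := div_nonneg hc hI0.le
  have hdF : deriv (fun r => c / G b * G r) = fun r => c / G b * χ r := by
    funext r
    rw [deriv_const_mul _ (hd r).differentiableAt, hdG]
  refine ⟨fun r => c / G b * G r, contDiff_const.mul hG, fun s hs => ?_, fun s hs => ?_, fun s => ?_⟩
  · rw [hdF]
    exact ⟨by show c / G b * G s = 0; rw [hGa s hs, mul_zero],
      by show c / G b * χ s = 0; rw [hχa s hs, mul_zero]⟩
  · rw [hdF]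
    exact ⟨by show c / G b * G s = c; rw [hGb s hs, div_mul_cancel₀ _ hI0.ne'],
      by show c / G b * χ s = 0; rw [hχb s hs, mul_zero]⟩
  · rw [hdF]
    refine ⟨mul_nonneg hcI0 (hχ0 s), ?_⟩
    calc c / G b * χ s ≤ c / G b * 1 := mul_le_mul_of_nonneg_left (hχ1 s) hcI0
      _ ≤ k := by rw [mul_one]; exact hcI

/-- **(B1) L-T3-Profile** (one real variable).
[`θ_T = arctan (T/√κ) < π/2`.  `χ₀` smooth, `0 ≤ χ₀ ≤ 1`, `χ₀ = 0` off `[a, m₁]`, `χ₀ = 1` on `[a+δ, m₁-δ]`, `m₁ - a - 2δ ≥ 2π/√κ`; `λ = (4 θ_T/√κ)/∫ χ₀ ∈ (0,1]`; the same (`χ₁`, `λ₁`) on `[m₂, b]`;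
`θ s = θ_T - (√κ/4) ∫_{-∞}^s (λ χ₀ + λ₁ χ₁)`; `P = √κ tan θ`, `P' = (κ + P²) θ'/√κ`.] -/
theorem t3_profile {κ T a m₁ m₂ b : ℝ} (hκ : 0 < κ) (hT : 0 < T)
    (h1 : 2 * Real.pi / Real.sqrt κ < m₁ - a) (h12 : m₁ ≤ m₂)
    (h2 : 2 * Real.pi / Real.sqrt κ < b - m₂) :
    ∃ P : ℝ → ℝ, ContDiff ℝ ∞ P ∧ Antitone P ∧ (∀ s ≤ a, P s = T) ∧
      (∀ s, m₁ ≤ s → s ≤ m₂ → P s = 0) ∧ (∀ s, b ≤ s → P s = -T) ∧
      ∀ s, 4 * |deriv P s| ≤ P s ^ 2 + κ := by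
  set q : ℝ := Real.sqrt κ with hq
  have hq0 : 0 < q := Real.sqrt_pos.2 hκ
  have hqq : q * q = κ := Real.mul_self_sqrt hκ.le
  set θT : ℝ := Real.arctan (T / q) with hθT
  have hθ0 : 0 < θT := Real.arctan_pos.2 (div_pos hT hq0)
  have hθ1 : θT < Real.pi / 2 := Real.arctan_lt_pi_div_two _
  have hpos : 0 < 2 * Real.pi / q := div_pos (by positivity) hq0
  have key : ∀ L : ℝ, 2 * Real.pi / q < L → θT < q / 4 * L := fun L hL => by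
    have : q / 4 * (2 * Real.pi / q) = Real.pi / 2 := by field_simp; norm_num
    have h3 : q / 4 * (2 * Real.pi / q) < q / 4 * L := mul_lt_mul_of_pos_left hL (by positivity)
    linarith
  obtain ⟨F₁, hF₁, hF₁a, hF₁b, hF₁d⟩ := t3pf_step (a := a) (b := m₁) (c := θT) (k := q / 4)
    (by linarith) hθ0.le (key _ h1)
  obtain ⟨F₂, hF₂, hF₂a, hF₂b, hF₂d⟩ := t3pf_step (a := m₂) (b := b) (c := θT) (k := q / 4)
    (by linarith) hθ0.le (key _ h2)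
  set θ : ℝ → ℝ := fun s => θT - F₁ s - F₂ s with hθdef
  have hθ : ContDiff ℝ ∞ θ := (contDiff_const.sub hF₁).sub hF₂
  have hD₁ : Differentiable ℝ F₁ := hF₁.differentiable (by simp)
  have hD₂ : Differentiable ℝ F₂ := hF₂.differentiable (by simp)
  have hθd : ∀ s, HasDerivAt θ (-(deriv F₁ s + deriv F₂ s)) s := fun s => by
    have := (((hasDerivAt_const s θT).sub (hD₁ s).hasDerivAt).sub (hD₂ s).hasDerivAt)
    have e : -(deriv F₁ s + deriv F₂ s) = 0 - deriv F₁ s - deriv F₂ s := by ring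
    rw [e]
    exact this
  have hθd0 : ∀ s, 0 ≤ deriv F₁ s + deriv F₂ s := fun s => add_nonneg (hF₁d s).1 (hF₂d s).1
  have hθd1 : ∀ s, deriv F₁ s + deriv F₂ s ≤ q / 4 := fun s => by
    rcases le_total s m₂ with h | h
    · rw [(hF₂a s h).2, add_zero]; exact (hF₁d s).2
    · rw [(hF₁b s (h12.trans h)).2, zero_add]; exact (hF₂d s).2
  have hθanti : Antitone θ := antitone_of_deriv_nonpos (hθ.differentiable (by simp)) fun s => by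
    rw [(hθd s).deriv]
    linarith [hθd0 s]
  have hθa : ∀ s, s ≤ a → θ s = θT := fun s hs => by
    show θT - F₁ s - F₂ s = θT
    rw [(hF₁a s hs).1, (hF₂a s (by linarith)).1]
    ring
  have hθm : ∀ s, m₁ ≤ s → s ≤ m₂ → θ s = 0 := fun s hs hs' => by
    show θT - F₁ s - F₂ s = 0
    rw [(hF₁b s hs).1, (hF₂a s hs').1]
    ring
  have hθb : ∀ s, b ≤ s → θ s = -θT := fun s hs => by
    show θT - F₁ s - F₂ s = -θT
    rw [(hF₁b s (by linarith)).1, (hF₂b s hs).1]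
    ring
  have hθle : ∀ s, θ s ≤ θT := fun s => by
    have := hθanti (min_le_left s a)
    rwa [hθa _ (min_le_right s a)] at this
  have hθge : ∀ s, -θT ≤ θ s := fun s => by
    have := hθanti (le_max_left s b)
    rwa [hθb _ (le_max_right s b)] at this
  have hcos : ∀ s, 0 < Real.cos (θ s) := fun s =>
    Real.cos_pos_of_mem_Ioo ⟨by linarith [hθge s], by linarith [hθle s]⟩
  have htanT : Real.tan θT = T / q := Real.tan_arctan _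
  have hPd : ∀ s, HasDerivAt (fun s => q * Real.tan (θ s))
      (q * (1 / Real.cos (θ s) ^ 2 * -(deriv F₁ s + deriv F₂ s))) s := fun s =>
    ((Real.hasDerivAt_tan (hcos s).ne').comp s (hθd s)).const_mul q
  have hsec : ∀ s, 1 / Real.cos (θ s) ^ 2 = 1 + Real.tan (θ s) ^ 2 := fun s => by
    rw [← Real.inv_one_add_tan_sq (hcos s).ne']
    simp
  refine ⟨fun s => q * Real.tan (θ s), ?_, ?_, fun s hs => ?_, fun s hs hs' => ?_, fun s hs => ?_,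
    fun s => ?_⟩
  · refine contDiff_const.mul (contDiff_iff_contDiffAt.2 fun s => ?_)
    exact (Real.contDiffAt_tan.2 (hcos s).ne').comp s hθ.contDiffAt
  · refine antitone_of_deriv_nonpos (fun s => (hPd s).differentiableAt) fun s => ?_
    rw [(hPd s).deriv]
    have : 0 ≤ 1 / Real.cos (θ s) ^ 2 := by positivity
    have h3 := mul_nonneg this (hθd0 s)
    have h4 := mul_nonneg hq0.le h3
    nlinarith
  · show q * Real.tan (θ s) = T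
    rw [hθa s hs, htanT]
    field_simp
  · show q * Real.tan (θ s) = 0
    rw [hθm s hs hs', Real.tan_zero, mul_zero]
  · show q * Real.tan (θ s) = -T
    rw [hθb s hs, Real.tan_neg, htanT]
    field_simp
  · rw [(hPd s).deriv, hsec s]
    show _ ≤ (q * Real.tan (θ s)) ^ 2 + κ
    have h3 : |q * ((1 + Real.tan (θ s) ^ 2) * -(deriv F₁ s + deriv F₂ s))|
        = q * ((1 + Real.tan (θ s) ^ 2) * (deriv F₁ s + deriv F₂ s)) := by
      rw [mul_neg, mul_neg, abs_neg, abs_of_nonneg]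
      exact mul_nonneg hq0.le (mul_nonneg (by positivity) (hθd0 s))
    rw [h3]
    have h4 : (1 + Real.tan (θ s) ^ 2) * (deriv F₁ s + deriv F₂ s)
        ≤ (1 + Real.tan (θ s) ^ 2) * (q / 4) :=
      mul_le_mul_of_nonneg_left (hθd1 s) (by positivity)
    have h5 := mul_le_mul_of_nonneg_left h4 hq0.le
    have h6 : q * ((1 + Real.tan (θ s) ^ 2) * (q / 4)) * 4 = (q * Real.tan (θ s)) ^ 2 + κ := by
      rw [← hqq]; ring
    linarith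

variable {V : Type} [NormedAddCommGroup V] [NormedSpace ℝ V] [MeasurableSpace V] [BorelSpace V]

/-- the setting of the bubble theorem (ambient dimension `n`). -/
structure T3Band (n : ℕ) (X : Set V) (h : Ten V) (t : V → ℝ) {ι : Type} (B O : ι → Set V)
    (φ : ι → V → ℝ) (ρ : V → ℝ) (a m₁ m₂ b κ : ℝ) : Prop where
  col : T3Col n X h t B O φ
  smooth : SmoothAlong n X ρ
  grad : ∀ x ∈ X, gradSq n X h ρ x ≤ 4
  kpos : 0 < κ
  left : 2 * Real.pi / Real.sqrt κ < m₁ - a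
  mid : m₁ ≤ m₂
  right : 2 * Real.pi / Real.sqrt κ < b - m₂
  cpt : IsCompact {x | x ∈ t3Core X O φ ∧ a - 1 ≤ ρ x ∧ ρ x ≤ b + 1}
  typ : ∀ i, (∀ x ∈ X ∩ O i, ρ x ≤ m₂) ∨ ∀ x ∈ X ∩ O i, m₁ ≤ ρ x

/-- indices of type +. -/
def t3Plus {ι : Type} (X : Set V) (O : ι → Set V) (ρ : V → ℝ) (m₂ : ℝ) : Set ι :=
  {i | ∀ x ∈ X ∩ O i, ρ x ≤ m₂}

/-- the plus constraint. -/
def t3Kpos {ι : Type} (X : Set V) (O : ι → Set V) (φ : ι → V → ℝ) (ρ : V → ℝ) (a m₂ : ℝ) :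
    Set V :=
  {x | x ∈ X ∧ ρ x ≤ a - 1} ∪ t3ExtI X O φ (t3Plus X O ρ m₂)

/-- the minus constraint. -/
def t3Kneg {ι : Type} (X : Set V) (O : ι → Set V) (φ : ι → V → ℝ) (ρ : V → ℝ) (b m₂ : ℝ) :
    Set V :=
  {x | x ∈ X ∧ b + 1 ≤ ρ x} ∪ t3ExtI X O φ (t3Plus X O ρ m₂)ᶜ

theorem t3Bub_eqns_cite : True := by
  have := @t3Plus.eq_1
  have := @t3Kpos.eq_1
  have := @t3Kneg.eq_1
  trivial

variable [FiniteDimensional ℝ V]
variable {n : ℕ} {X : Set V} {h : Ten V} {t : V → ℝ} {ι : Type} {B O : ι → Set V}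
  {φ : ι → V → ℝ} {ρ : V → ℝ} {a m₁ m₂ b κ : ℝ}

/-- points of the constraints lie in `X`. -/
theorem t3b_kpos_sub : t3Kpos X O φ ρ a m₂ ⊆ X := by
  rintro x (hx | ⟨i, -, hx, -⟩)
  · exact hx.1
  · exact hx.1

theorem t3b_kneg_sub : t3Kneg X O φ ρ b m₂ ⊆ X := by
  rintro x (hx | ⟨i, -, hx, -⟩)
  · exact hx.1
  · exact hx.1

/-- basic facts on the two families of collars. -/
theorem T3Band.aux (H : T3Band n X h t B O φ ρ a m₁ m₂ b κ) :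
    a < m₁ ∧ m₂ < b ∧ (∀ x ∈ t3ExtI X O φ (t3Plus X O ρ m₂), x ∈ X ∧ ρ x ≤ m₂) ∧
      (∀ x ∈ t3ExtI X O φ (t3Plus X O ρ m₂)ᶜ, x ∈ X ∧ m₁ ≤ ρ x) ∧
      Disjoint (t3ExtI X O φ (t3Plus X O ρ m₂)) (t3ExtI X O φ (t3Plus X O ρ m₂)ᶜ) := by
  have hpos : 0 < 2 * Real.pi / Real.sqrt κ :=
    div_pos (by positivity) (Real.sqrt_pos.2 H.kpos)
  refine ⟨by linarith [H.left], by linarith [H.right], ?_, ?_, ?_⟩
  · rintro x ⟨i, hi, hx, -⟩
    exact ⟨hx.1, hi x hx⟩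
  · rintro x ⟨i, hi, hx, -⟩
    exact ⟨hx.1, (H.typ i).resolve_left hi x hx⟩
  · rw [disjoint_left]
    rintro x ⟨i, hi, hx, -⟩ ⟨j, hj, hx', -⟩
    by_cases hij : i = j
    · subst hij; exact hj hi
    · exact disjoint_left.1 (H.col.dis hij) hx hx'

/-- every point of `X` outside the compact core of the band has an open neighbourhood whose trace lies in one of the constraints. -/
theorem T3Band.nhd (H : T3Band n X h t B O φ ρ a m₁ m₂ b κ) {x : V} (hx : x ∈ X)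
    (hxK : x ∉ {x | x ∈ t3Core X O φ ∧ a - 1 ≤ ρ x ∧ ρ x ≤ b + 1}) :
    ∃ N : Set V, IsOpen N ∧ x ∈ N ∧
      (X ∩ N ⊆ t3Kpos X O φ ρ a m₂ ∨ X ∩ N ⊆ t3Kneg X O φ ρ b m₂) := by
  have hG := H.col.geo
  by_cases h1 : x ∈ t3ExtO X O φ
  · obtain ⟨i, hxi, hφ⟩ := h1
    have hc : ContinuousOn (φ i) (X ∩ O i) :=
      if_smoothAlong_continuousOn (if_mfd_inter hG.mfd (H.col.df i).opn) (H.col.df i).smooth
    obtain ⟨u, hu, hue⟩ := (continuousOn_iff'.1 hc) (Iio 0) isOpen_Iio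
    have hxu : x ∈ u := by
      have : x ∈ u ∩ (X ∩ O i) := by rw [← hue]; exact ⟨hφ, hxi⟩
      exact this.1
    have hsub : ∀ y ∈ X ∩ (O i ∩ u), y ∈ X ∩ O i ∧ φ i y ≤ 0 := by
      rintro y ⟨hy, hyO, hyu⟩
      have : y ∈ φ i ⁻¹' Iio 0 ∩ (X ∩ O i) := by rw [hue]; exact ⟨hyu, hy, hyO⟩
      exact ⟨⟨hy, hyO⟩, (show φ i y < 0 from this.1).le⟩
    refine ⟨O i ∩ u, (H.col.df i).opn.inter hu, ⟨hxi.2, hxu⟩, ?_⟩
    by_cases hi : i ∈ t3Plus X O ρ m₂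
    · exact Or.inl fun y hy => Or.inr ⟨i, hi, hsub y hy⟩
    · exact Or.inr fun y hy => Or.inr ⟨i, hi, hsub y hy⟩
  · by_cases h2 : ρ x < a - 1
    · obtain ⟨N, hN, hNe⟩ := ct_exists_open_lt hG H.smooth (a - 1)
      have hxN : x ∈ X ∩ N := by rw [hNe]; exact ⟨hx, h2⟩
      refine ⟨N, hN, hxN.2, Or.inl fun y hy => Or.inl ?_⟩
      have : y ∈ {x | x ∈ X ∧ ρ x < a - 1} := hNe ▸ hy
      exact ⟨this.1, this.2.le⟩
    · have h3 : b + 1 < ρ x := by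
        by_contra h3
        exact hxK ⟨⟨hx, h1⟩, not_lt.1 h2, not_lt.1 h3⟩
      obtain ⟨N, hN, hNe⟩ := ct_exists_open_gt hG H.smooth (b + 1)
      have hxN : x ∈ X ∩ N := by rw [hNe]; exact ⟨hx, h3⟩
      refine ⟨N, hN, hxN.2, Or.inr fun y hy => Or.inl ?_⟩
      have : y ∈ {x | x ∈ X ∧ b + 1 < ρ x} := hNe ▸ hy
      exact ⟨this.1, this.2.le⟩

/-- **(B2) L-T3-Competitor.**
[`C₊ = t3ExtI .. (t3Plus ..)`, `C₋ = t3ExtI .. (t3Plus ..)ᶜ` (`CtLF`: `T3Col.lf_ext`), `A₁ = X \ C₋`, `A₂ = C₊`; `A₁ △ A₂ = t3Int`, whose part in the slab `{a-1 < ρ < b+1}` lies in the compact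
set `H.cpt`.  `ct_glue_level`: for a.e. `τ ∈ (a-1, b+1)` the set `E₀ = ctGlue ρ τ A₁ A₂ = ({ρ < τ} \ C₋) ∪ (C₊ \ {ρ < τ})` is `CtLF`.  Constraints: `C₋ ⊆ {m₁ ≤ ρ}`, `C₊ ⊆ {ρ ≤ m₂}`, `C₊ ∩ C₋ = ∅`.
Every point of `X` outside the compact set `Kc` of `H.cpt` has an open neighbourhood `N` with `E₀ ∩ N = X ∩ N` or `E₀ ∩ N = ∅` (open collars; `{ρ < a-1}`; `{ρ > b+1}`), so `wper E₀ N = 0`
(`ct_wper_congr`, `ct_wper_empty`, `ct_wper_diff`); Lindelöf: `wper E₀ Kcᶜ = 0`; `wper E₀ Kc ≠ ⊤`.  Measurability of the constraints: relatively closed subsets of the measurable set `X`.] -/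
theorem T3Band.competitor (H : T3Band n X h t B O φ ρ a m₁ m₂ b κ) (hn : 2 ≤ n) :
    MeasurableSet (t3Kpos X O φ ρ a m₂) ∧ MeasurableSet (t3Kneg X O φ ρ b m₂) ∧
    ∃ E₀, CtLF n X h t E₀ ∧ t3Kpos X O φ ρ a m₂ ⊆ E₀ ∧ Disjoint E₀ (t3Kneg X O φ ρ b m₂) ∧
      wper n X h t E₀ univ ≠ ⊤ := by
  have hG := H.col.geo
  have hXm := ct_measurableSet hG.mfd
  obtain ⟨ham, hmb, hCp, hCm, hCd⟩ := H.aux
  have hlfp := (H.col.lf_ext hn (t3Plus X O ρ m₂)).1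
  have hlfm := (H.col.lf_ext hn (t3Plus X O ρ m₂)ᶜ).1
  have hm1 : MeasurableSet {x | x ∈ X ∧ ρ x ≤ a - 1} := by
    obtain ⟨N, hN, hNe⟩ := ct_exists_open_gt hG H.smooth (a - 1)
    have e : {x | x ∈ X ∧ ρ x ≤ a - 1} = X \ (X ∩ N) := by
      rw [hNe]
      ext x
      constructor
      · rintro ⟨hx, h1⟩
        exact ⟨hx, fun h2 => absurd h2.2 (not_lt.2 h1)⟩
      · rintro ⟨hx, h1⟩
        exact ⟨hx, not_lt.1 fun h2 => h1 ⟨hx, h2⟩⟩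
    rw [e]
    exact hXm.diff (hXm.inter hN.measurableSet)
  have hm2 : MeasurableSet {x | x ∈ X ∧ b + 1 ≤ ρ x} := by
    obtain ⟨N, hN, hNe⟩ := ct_exists_open_lt hG H.smooth (b + 1)
    have e : {x | x ∈ X ∧ b + 1 ≤ ρ x} = X \ (X ∩ N) := by
      rw [hNe]
      ext x
      constructor
      · rintro ⟨hx, h1⟩
        exact ⟨hx, fun h2 => absurd h2.2 (not_lt.2 h1)⟩
      · rintro ⟨hx, h1⟩
        exact ⟨hx, not_lt.1 fun h2 => h1 ⟨hx, h2⟩⟩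
    rw [e]
    exact hXm.diff (hXm.inter hN.measurableSet)
  refine ⟨hm1.union hlfp.meas, hm2.union hlfm.meas, ?_⟩
  have hKX : {x | x ∈ t3Core X O φ ∧ a - 1 ≤ ρ x ∧ ρ x ≤ b + 1} ⊆ X := fun x hx => hx.1.1
  have hD : symmDiff (X \ t3ExtI X O φ (t3Plus X O ρ m₂)ᶜ) (t3ExtI X O φ (t3Plus X O ρ m₂))
      ∩ {x | a - 1 < ρ x ∧ ρ x < b + 1} ⊆ {x | x ∈ t3Core X O φ ∧ a - 1 ≤ ρ x ∧ ρ x ≤ b + 1} := by
    rintro x ⟨hx, h1, h2⟩
    refine ⟨?_, h1.le, h2.le⟩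
    rcases hx with ⟨⟨hxX, hxm⟩, hxp⟩ | ⟨hxp, hx⟩
    · refine ⟨hxX, ?_⟩
      rintro ⟨i, hxi, hφ⟩
      by_cases hi : i ∈ t3Plus X O ρ m₂
      · exact hxp ⟨i, hi, hxi, hφ.le⟩
      · exact hxm ⟨i, hi, hxi, hφ.le⟩
    · exfalso
      have hxm : x ∈ t3ExtI X O φ (t3Plus X O ρ m₂)ᶜ := by
        by_contra hxm
        exact hx ⟨(hCp x hxp).1, hxm⟩
      exact disjoint_left.1 hCd hxp hxm
  have hae := ct_glue_level hG H.smooth (hlfm.diff hG) hlfp (a := a - 1) (b := b + 1) H.cpt hKX hD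
  obtain ⟨τ, hτ, hlf⟩ : ∃ τ ∈ Ioo (a - 1) (b + 1), CtLF n X h t
      (ctGlue ρ τ (X \ t3ExtI X O φ (t3Plus X O ρ m₂)ᶜ) (t3ExtI X O φ (t3Plus X O ρ m₂))) := by
    by_contra hcon
    push Not at hcon
    have hnull : volume (Ioo (a - 1) (b + 1)) = 0 := by
      refine measure_mono_null (fun τ hτ => ?_) (ae_iff.1 hae)
      exact fun himp => hcon τ hτ (himp hτ).1
    rw [Real.volume_Ioo, ENNReal.ofReal_eq_zero] at hnull
    linarith [H.mid]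
  have hpos : t3Kpos X O φ ρ a m₂ ⊆
      ctGlue ρ τ (X \ t3ExtI X O φ (t3Plus X O ρ m₂)ᶜ) (t3ExtI X O φ (t3Plus X O ρ m₂)) := by
    rintro x (⟨hx, h1⟩ | hx)
    · refine Or.inl ⟨⟨hx, fun hxm => ?_⟩, ?_⟩
      · have := (hCm x hxm).2
        linarith
      · show ρ x < τ
        linarith [hτ.1]
    · by_cases h1 : ρ x < τ
      · exact Or.inl ⟨⟨(hCp x hx).1, fun hxm => disjoint_left.1 hCd hx hxm⟩, h1⟩
      · exact Or.inr ⟨hx, h1⟩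
  have hneg : Disjoint
      (ctGlue ρ τ (X \ t3ExtI X O φ (t3Plus X O ρ m₂)ᶜ) (t3ExtI X O φ (t3Plus X O ρ m₂)))
      (t3Kneg X O φ ρ b m₂) := by
    rw [disjoint_left]
    rintro x (⟨⟨hx, hxm⟩, h1⟩ | ⟨hxp, h1⟩) (⟨-, h2⟩ | h2)
    · have h1' : ρ x < τ := h1
      linarith [hτ.2]
    · exact hxm h2
    · have := (hCp x hxp).2
      linarith
    · exact disjoint_left.1 hCd hxp h2
  refine ⟨_, hlf, hpos, hneg, ?_⟩
  obtain ⟨-, -, hd2, hd3⟩ := ct_trichotomy hG.mfd (by omega)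
    (ctGlue ρ τ (X \ t3ExtI X O φ (t3Plus X O ρ m₂)ᶜ) (t3ExtI X O φ (t3Plus X O ρ m₂)))
  have hbd : ctBd n X
      (ctGlue ρ τ (X \ t3ExtI X O φ (t3Plus X O ρ m₂)ᶜ) (t3ExtI X O φ (t3Plus X O ρ m₂)))
      ⊆ {x | x ∈ t3Core X O φ ∧ a - 1 ≤ ρ x ∧ ρ x ≤ b + 1} := by
    intro x hx
    by_contra hxK
    obtain ⟨N, hN, hxN, hNK⟩ := H.nhd (ct_bd_subset _ hx) hxK
    rcases hNK with hNK | hNK
    · refine disjoint_left.1 hd2 (t3_in_of_ae hG hN _ ?_ ⟨ct_bd_subset _ hx, hxN⟩) hx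
      rw [Set.sdiff_eq_empty.2 (hNK.trans hpos)]
      exact measure_empty
    · refine disjoint_left.1 hd3 (t3_out_of_ae hG hN _ ?_ ⟨ct_bd_subset _ hx, hxN⟩) hx
      have : X ∩ N ∩ ctGlue ρ τ (X \ t3ExtI X O φ (t3Plus X O ρ m₂)ᶜ) (t3ExtI X O φ (t3Plus X O ρ m₂))
          = ∅ := by
        rw [eq_empty_iff_forall_notMem]
        rintro y ⟨hy, hyE⟩
        exact disjoint_left.1 hneg hyE (hNK hy)
      rw [this]
      exact measure_empty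
  have h0 : wper n X h t
      (ctGlue ρ τ (X \ t3ExtI X O φ (t3Plus X O ρ m₂)ᶜ) (t3ExtI X O φ (t3Plus X O ρ m₂)))
      {x | x ∈ t3Core X O φ ∧ a - 1 ≤ ρ x ∧ ρ x ≤ b + 1}ᶜ = 0 :=
    measure_mono_null (compl_subset_compl.2 hbd) (ct_wper_compl_bd hG hlf.meas)
  rw [← measure_add_measure_compl H.cpt.isClosed.measurableSet, h0, add_zero]
  exact hlf.fin _ H.cpt hKX

/-- outside the compact core of the band everything is constrained (elementary). -/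
theorem T3Band.free (H : T3Band n X h t B O φ ρ a m₁ m₂ b κ) :
    X \ {x | x ∈ t3Core X O φ ∧ a - 1 ≤ ρ x ∧ ρ x ≤ b + 1} ⊆
      t3Kpos X O φ ρ a m₂ ∪ t3Kneg X O φ ρ b m₂ := by
  rintro x ⟨hx, hxK⟩
  obtain ⟨N, -, hxN, hNK⟩ := H.nhd hx hxK
  rcases hNK with hNK | hNK
  · exact Or.inl (hNK ⟨hx, hxN⟩)
  · exact Or.inr (hNK ⟨hx, hxN⟩)

/-- **(B3) L-T3-Ends**: for a large constant pressure at the ends the boundary stays in the band.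
[`Z₊ = {x ∈ core | a-1 ≤ ρ ≤ a-1/2}` is compact; `O_a` open with `X ∩ O_a = {ρ < a}` (`ct_exists_open_lt`); `ct_cal_exists` at every point of `Z₊` inside `O_a`; finite subcover; the same for `Z₋` inside `{ρ > b}`
(apply `ct_exists_open_lt` to `-ρ`); `T₀ = max` of all `|β|`.  The pieces in `{ρ < a}` miss `Kneg ⊆ {m₁ ≤ ρ}`: `T3CMin.fill`, `t3_in_of_ae`.  `{ρ < a-1}` and the open collars of type + are relatively open subsets of
`Kpos ⊆ A`: `t3_in_of_ae`.  Minus side: `T3CMin.void`, `t3_out_of_ae`.  `ct_trichotomy`.] -/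
theorem T3Band.ends (H : T3Band n X h t B O φ ρ a m₁ m₂ b κ) (hn : 2 ≤ n) :
    ∃ T₀ : ℝ, 0 < T₀ ∧ ∀ (p : V → ℝ) (A : Set V), ContinuousOn p X →
      (∀ x ∈ X, ρ x ≤ a → T₀ < p x) → (∀ x ∈ X, b ≤ ρ x → p x < -T₀) →
      T3CMin n X h t p (t3Kpos X O φ ρ a m₂) (t3Kneg X O φ ρ b m₂) A →
      ctBd n X A ⊆ {x | x ∈ t3Core X O φ ∧ a - 1 / 2 ≤ ρ x ∧ ρ x ≤ b + 1 / 2} ∧
      (∀ x ∈ t3Int X O φ, ρ x < a - 1 / 2 → x ∈ ctIn n X A) ∧
      ∀ x ∈ t3Int X O φ, b + 1 / 2 < ρ x → x ∈ ctOut n X A := by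
  classical
  have hG := H.col.geo
  obtain ⟨ham, hmb, hCp, hCm, hCd⟩ := H.aux
  have hρc : ContinuousOn ρ X := if_smoothAlong_continuousOn hG.mfd H.smooth
  have hKX : {x | x ∈ t3Core X O φ ∧ a - 1 ≤ ρ x ∧ ρ x ≤ b + 1} ⊆ X := fun x hx => hx.1.1
  -- the two end zones
  have hZp : IsCompact ({x | x ∈ t3Core X O φ ∧ a - 1 ≤ ρ x ∧ ρ x ≤ b + 1} ∩ ρ ⁻¹' Iic (a - 1 / 2)) :=
    H.cpt.of_isClosed_subset
      ((hρc.mono hKX).preimage_isClosed_of_isClosed H.cpt.isClosed isClosed_Iic) inter_subset_left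
  have hZm : IsCompact ({x | x ∈ t3Core X O φ ∧ a - 1 ≤ ρ x ∧ ρ x ≤ b + 1} ∩ ρ ⁻¹' Ici (b + 1 / 2)) :=
    H.cpt.of_isClosed_subset
      ((hρc.mono hKX).preimage_isClosed_of_isClosed H.cpt.isClosed isClosed_Ici) inter_subset_left
  obtain ⟨Oa, hOa, hOae⟩ := ct_exists_open_lt hG H.smooth a
  obtain ⟨Ob, hOb, hObe⟩ := ct_exists_open_gt hG H.smooth b
  have hcalp : ∀ x ∈ {x | x ∈ t3Core X O φ ∧ a - 1 ≤ ρ x ∧ ρ x ≤ b + 1} ∩ ρ ⁻¹' Iic (a - 1 / 2),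
      ∃ (O' : Set V) (β : ℝ), IsOpen O' ∧ x ∈ O' ∧ O' ⊆ Oa ∧ CtCal n X h t (X ∩ O') β := by
    rintro x ⟨hx, hx2⟩
    have hx2' : ρ x ≤ a - 1 / 2 := hx2
    have : x ∈ X ∩ Oa := by rw [hOae]; exact ⟨hKX hx, by linarith⟩
    exact ct_cal_exists hG (hKX hx) hOa this.2
  have hcalm : ∀ x ∈ {x | x ∈ t3Core X O φ ∧ a - 1 ≤ ρ x ∧ ρ x ≤ b + 1} ∩ ρ ⁻¹' Ici (b + 1 / 2),
      ∃ (O' : Set V) (β : ℝ), IsOpen O' ∧ x ∈ O' ∧ O' ⊆ Ob ∧ CtCal n X h t (X ∩ O') β := by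
    rintro x ⟨hx, hx2⟩
    have hx2' : b + 1 / 2 ≤ ρ x := hx2
    have : x ∈ X ∩ Ob := by rw [hObe]; exact ⟨hKX hx, by linarith⟩
    exact ct_cal_exists hG (hKX hx) hOb this.2
  choose! Op βp hOp hxOp hOpa hcp using hcalp
  choose! Om βm hOm hxOm hOmb hcm using hcalm
  obtain ⟨sp, hsp, hcovp⟩ := hZp.elim_nhds_subcover Op fun x hx => (hOp x hx).mem_nhds (hxOp x hx)
  obtain ⟨sm, hsm, hcovm⟩ := hZm.elim_nhds_subcover Om fun x hx => (hOm x hx).mem_nhds (hxOm x hx)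
  refine ⟨1 + ∑ x ∈ sp, |βp x| + ∑ x ∈ sm, |βm x|, by positivity, ?_⟩
  intro p A hp hpa hpb hA
  have hβp : ∀ x ∈ sp, βp x ≤ 1 + ∑ x ∈ sp, |βp x| + ∑ x ∈ sm, |βm x| := fun x hx => by
    have h1 := Finset.single_le_sum (f := fun x => |βp x|) (fun i _ => abs_nonneg _) hx
    have h2 : 0 ≤ ∑ x ∈ sm, |βm x| := Finset.sum_nonneg fun i _ => abs_nonneg _
    have h3 := le_abs_self (βp x)
    linarith
  have hβm : ∀ x ∈ sm, βm x ≤ 1 + ∑ x ∈ sp, |βp x| + ∑ x ∈ sm, |βm x| := fun x hx => by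
    have h1 := Finset.single_le_sum (f := fun x => |βm x|) (fun i _ => abs_nonneg _) hx
    have h2 : 0 ≤ ∑ x ∈ sp, |βp x| := Finset.sum_nonneg fun i _ => abs_nonneg _
    have h3 := le_abs_self (βm x)
    linarith
  obtain ⟨hlf, hposA, hnegA, -⟩ := id hA
  have hKnegρ : ∀ x ∈ t3Kneg X O φ ρ b m₂, m₁ ≤ ρ x := by
    rintro x (hx | hx)
    · have := hx.2; linarith [H.mid]
    · exact (hCm x hx).2
  have hKposρ : ∀ x ∈ t3Kpos X O φ ρ a m₂, ρ x ≤ m₂ := by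
    rintro x (hx | hx)
    · have := hx.2; linarith [H.mid]
    · exact (hCp x hx).2
  -- the zones are filled / avoided
  have hinZ : ∀ x ∈ {x | x ∈ t3Core X O φ ∧ a - 1 ≤ ρ x ∧ ρ x ≤ b + 1} ∩ ρ ⁻¹' Iic (a - 1 / 2),
      x ∈ ctIn n X A := by
    intro x hx
    obtain ⟨y, hy, hxy⟩ := mem_iUnion₂.1 (hcovp hx)
    have hyZ := hsp y hy
    have hsub : ∀ z ∈ X ∩ Op y, ρ z < a := fun z hz => by
      have : z ∈ {x | x ∈ X ∧ ρ x < a} := hOae ▸ ⟨hz.1, hOpa y hyZ hz.2⟩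
      exact this.2
    have h0 := hA.fill hG hp (hcp y hyZ) (disjoint_left.2 fun z hz hzK => by
      have := hKnegρ z hzK
      have := hsub z hz
      linarith) (fun z hz => lt_of_le_of_lt (hβp y hy) (hpa z hz.1 (hsub z hz).le))
    exact t3_in_of_ae hG (hOp y hyZ) A h0 ⟨hKX hx.1, hxy⟩
  have houtZ : ∀ x ∈ {x | x ∈ t3Core X O φ ∧ a - 1 ≤ ρ x ∧ ρ x ≤ b + 1} ∩ ρ ⁻¹' Ici (b + 1 / 2),
      x ∈ ctOut n X A := by
    intro x hx
    obtain ⟨y, hy, hxy⟩ := mem_iUnion₂.1 (hcovm hx)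
    have hyZ := hsm y hy
    have hsub : ∀ z ∈ X ∩ Om y, b < ρ z := fun z hz => by
      have : z ∈ {x | x ∈ X ∧ b < ρ x} := hObe ▸ ⟨hz.1, hOmb y hyZ hz.2⟩
      exact this.2
    have h0 := hA.void hG hp t3b_kneg_sub (hcm y hyZ) (disjoint_left.2 fun z hz hzK => by
      have := hKposρ z hzK
      have := hsub z hz
      linarith) (fun z hz => by
        have h1 := hpb z hz.1 (hsub z hz).le
        have h2 := hβm y hy
        linarith)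
    exact t3_out_of_ae hG (hOm y hyZ) A h0 ⟨hKX hx.1, hxy⟩
  -- outside the compact core
  have hoff : ∀ x ∈ X, x ∉ {x | x ∈ t3Core X O φ ∧ a - 1 ≤ ρ x ∧ ρ x ≤ b + 1} →
      (x ∈ ctIn n X A ∧ ρ x ≤ m₂) ∨ (x ∈ ctOut n X A ∧ m₁ ≤ ρ x) := by
    intro x hx hxK
    obtain ⟨N, hN, hxN, hNK⟩ := H.nhd hx hxK
    rcases hNK with hNK | hNK
    · refine Or.inl ⟨t3_in_of_ae hG hN A ?_ ⟨hx, hxN⟩, hKposρ x (hNK ⟨hx, hxN⟩)⟩
      rw [Set.sdiff_eq_empty.2 (hNK.trans hposA)]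
      exact measure_empty
    · refine Or.inr ⟨t3_out_of_ae hG hN A ?_ ⟨hx, hxN⟩, hKnegρ x (hNK ⟨hx, hxN⟩)⟩
      have : X ∩ N ∩ A = ∅ := by
        rw [eq_empty_iff_forall_notMem]
        rintro y ⟨hy, hyA⟩
        exact disjoint_left.1 hnegA hyA (hNK hy)
      rw [this]
      exact measure_empty
  have hlow : ∀ x ∈ X, ρ x < a - 1 / 2 → x ∈ ctIn n X A := by
    intro x hx h1
    by_cases hxK : x ∈ {x | x ∈ t3Core X O φ ∧ a - 1 ≤ ρ x ∧ ρ x ≤ b + 1}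
    · exact hinZ x ⟨hxK, h1.le⟩
    · rcases hoff x hx hxK with h2 | h2
      · exact h2.1
      · have := h2.2; linarith
  have hhigh : ∀ x ∈ X, b + 1 / 2 < ρ x → x ∈ ctOut n X A := by
    intro x hx h1
    by_cases hxK : x ∈ {x | x ∈ t3Core X O φ ∧ a - 1 ≤ ρ x ∧ ρ x ≤ b + 1}
    · exact houtZ x ⟨hxK, h1.le⟩
    · rcases hoff x hx hxK with h2 | h2
      · have := h2.2; linarith
      · exact h2.1
  obtain ⟨-, -, hd2, hd3⟩ := ct_trichotomy hG.mfd (by omega) A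
  refine ⟨fun x hx => ?_, fun x hx h1 => hlow x hx.1 h1, fun x hx h1 => hhigh x hx.1 h1⟩
  have hxX := ct_bd_subset A hx
  have h1 : a - 1 / 2 ≤ ρ x := by
    by_contra h1
    exact disjoint_left.1 hd2 (hlow x hxX (not_le.1 h1)) hx
  have h2 : ρ x ≤ b + 1 / 2 := by
    by_contra h2
    exact disjoint_left.1 hd3 (hhigh x hxX (not_le.1 h2)) hx
  refine ⟨?_, h1, h2⟩
  by_contra hcore
  rcases hoff x hxX (fun hK => hcore hK.1) with h3 | h3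
  · exact disjoint_left.1 hd2 h3.1 hx
  · exact disjoint_left.1 hd3 h3.1 hx

/-- **(B4) L-T3-LamFree**: the constrained minimiser is a local absolute minimiser in the free region.
[`T3CMin.inter`; both constraints miss `W`; `T3CMin.lam`.] -/
theorem T3Band.lam_free (H : T3Band n X h t B O φ ρ a m₁ m₂ b κ) {p : V → ℝ} {A W : Set V}
    (hA : T3CMin n X h t p (t3Kpos X O φ ρ a m₂) (t3Kneg X O φ ρ b m₂) A) (hW : IsOpen W)
    (hXW : X ∩ W = {x | x ∈ t3Int X O φ ∧ a - 1 < ρ x ∧ ρ x < b + 1}) :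
    CtLAM n (X ∩ W) h t p (A ∩ W) := by
  have h1 := hA.inter H.col.geo hW
  have e1 : t3Kpos X O φ ρ a m₂ ∩ W = ∅ := by
    rw [eq_empty_iff_forall_notMem]
    rintro x ⟨hx, hxW⟩
    have hx2 : x ∈ {x | x ∈ t3Int X O φ ∧ a - 1 < ρ x ∧ ρ x < b + 1} := hXW ▸ ⟨t3b_kpos_sub hx, hxW⟩
    rcases hx with hx | ⟨i, -, hx, hφ⟩
    · exact absurd hx.2 (not_le.2 hx2.2.1)
    · exact hx2.1.2 ⟨i, hx, hφ⟩
  have e2 : t3Kneg X O φ ρ b m₂ ∩ W = ∅ := by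
    rw [eq_empty_iff_forall_notMem]
    rintro x ⟨hx, hxW⟩
    have hx2 : x ∈ {x | x ∈ t3Int X O φ ∧ a - 1 < ρ x ∧ ρ x < b + 1} := hXW ▸ ⟨t3b_kneg_sub hx, hxW⟩
    rcases hx with hx | ⟨i, -, hx, hφ⟩
    · exact absurd hx.2 (not_le.2 hx2.2.2)
    · exact hx2.1.2 ⟨i, hx, hφ⟩
  rw [e1, e2] at h1
  exact h1.lam

/-- **(B4) L-T3-LamTube**: ... and in the part of every tube inside the band.
[`T3CMin.inter` with `O i ∩ W`.  Type +: `Kpos ∩ (O i ∩ W) = {φ i ≤ 0} ∩ W`, `Kneg ∩ (O i ∩ W) = ∅` (tubes are disjoint), `p ≥ 0` on the tube; `T3Col.lam_le` + `CtLAM.inter_open`; `T3CMin.barrier`.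
Type -: `T3CMin.barrier'`.] -/
theorem T3Band.lam_tube (H : T3Band n X h t B O φ ρ a m₁ m₂ b κ) (hn : 2 ≤ n) {p : V → ℝ}
    {A W : Set V} (hp : SmoothAlong n X p) (hp1 : ∀ x ∈ X, ρ x ≤ m₂ → 0 ≤ p x)
    (hp2 : ∀ x ∈ X, m₁ ≤ ρ x → p x ≤ 0)
    (hA : T3CMin n X h t p (t3Kpos X O φ ρ a m₂) (t3Kneg X O φ ρ b m₂) A) (hW : IsOpen W)
    (hXW : X ∩ W = {x | x ∈ X ∧ a - 1 < ρ x ∧ ρ x < b + 1}) (i : ι) :
    CtLAM n (X ∩ (O i ∩ W)) h t p (A ∩ (O i ∩ W)) := by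
  have hOi := (H.col.df i).opn
  have hOW : IsOpen (O i ∩ W) := hOi.inter hW
  have h1 := hA.inter H.col.geo hOW
  have hG' : CtGeo n (X ∩ (O i ∩ W)) h t := H.col.geo.inter hOW
  have hp' : SmoothAlong n (X ∩ (O i ∩ W)) p := if_smoothAlong_inter hp hOW
  have hC : CtLAM n (X ∩ (O i ∩ W)) h t (fun _ => 0) ({x | x ∈ X ∩ O i ∧ φ i x ≤ 0} ∩ W) := by
    have := (H.col.lam_le hn i).inter_open (H.col.geo.inter hOi) hW
    rwa [inter_assoc] at this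
  have hband : ∀ x ∈ X, x ∈ W → a - 1 < ρ x ∧ ρ x < b + 1 := fun x hx hxW => by
    have : x ∈ {x | x ∈ X ∧ a - 1 < ρ x ∧ ρ x < b + 1} := hXW ▸ ⟨hx, hxW⟩
    exact this.2
  have huniq : ∀ j x, x ∈ X ∩ O j → x ∈ O i → j = i := fun j x hxj hxi => by
    by_contra hne
    exact disjoint_left.1 (H.col.dis hne) hxj ⟨hxj.1, hxi⟩
  -- the collars of the indices in `I`, cut by the tube
  have hcut : ∀ I : Set ι, i ∈ I →
      t3ExtI X O φ I ∩ (O i ∩ W) = {x | x ∈ X ∩ O i ∧ φ i x ≤ 0} ∩ W := by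
    intro I hi
    ext x
    constructor
    · rintro ⟨⟨j, -, hxj, hφ⟩, hxi, hxW⟩
      obtain rfl := huniq j x hxj hxi
      exact ⟨⟨hxj, hφ⟩, hxW⟩
    · rintro ⟨⟨hx, hφ⟩, hxW⟩
      exact ⟨⟨i, hi, hx, hφ⟩, hx.2, hxW⟩
  have hcut' : ∀ I : Set ι, i ∉ I → t3ExtI X O φ I ∩ (O i ∩ W) = ∅ := by
    intro I hi
    rw [eq_empty_iff_forall_notMem]
    rintro x ⟨⟨j, hj, hxj, -⟩, hxi, -⟩
    obtain rfl := huniq j x hxj hxi
    exact hi hj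
  have hlow : {x | x ∈ X ∧ ρ x ≤ a - 1} ∩ (O i ∩ W) = ∅ := by
    rw [eq_empty_iff_forall_notMem]
    rintro x ⟨hx, -, hxW⟩
    exact absurd hx.2 (not_le.2 (hband x hx.1 hxW).1)
  have hhigh : {x | x ∈ X ∧ b + 1 ≤ ρ x} ∩ (O i ∩ W) = ∅ := by
    rw [eq_empty_iff_forall_notMem]
    rintro x ⟨hx, -, hxW⟩
    exact absurd hx.2 (not_le.2 (hband x hx.1 hxW).2)
  by_cases hi : i ∈ t3Plus X O ρ m₂
  · have e1 : t3Kpos X O φ ρ a m₂ ∩ (O i ∩ W) = {x | x ∈ X ∩ O i ∧ φ i x ≤ 0} ∩ W := by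
      rw [t3Kpos, union_inter_distrib_right, hlow, empty_union, hcut _ hi]
    have e2 : t3Kneg X O φ ρ b m₂ ∩ (O i ∩ W) = ∅ := by
      rw [t3Kneg, union_inter_distrib_right, hhigh, empty_union, hcut' _ (fun h' : i ∈ (t3Plus X O ρ m₂)ᶜ => h' hi)]
    rw [e1, e2] at h1
    exact h1.barrier hG' (if_smoothAlong_continuousOn hG'.mfd hp')
      (fun x hx => hp1 x hx.1 (hi x ⟨hx.1, hx.2.1⟩)) hC
  · have hty : ∀ x ∈ X ∩ O i, m₁ ≤ ρ x := (H.typ i).resolve_left hi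
    have e1 : t3Kpos X O φ ρ a m₂ ∩ (O i ∩ W) = ∅ := by
      rw [t3Kpos, union_inter_distrib_right, hlow, empty_union, hcut' _ hi]
    have e2 : t3Kneg X O φ ρ b m₂ ∩ (O i ∩ W) = {x | x ∈ X ∩ O i ∧ φ i x ≤ 0} ∩ W := by
      rw [t3Kneg, union_inter_distrib_right, hhigh, empty_union, hcut _ (show i ∈ (t3Plus X O ρ m₂)ᶜ from hi)]
    rw [e1, e2] at h1
    exact h1.barrier' hG' hp' (fun x hx => hp2 x hx.1 (hty x ⟨hx.1, hx.2.1⟩)) hC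

/-- boundary points of minimisers are regular in low dimensions. -/
theorem t3b_reg {m : ℕ} {Y : Set V} (hG : CtGeo (m + 1) Y h t) (hm : 1 ≤ m) (hm7 : m + 1 ≤ 7) {p : V → ℝ}
    (hp : SmoothAlong (m + 1) Y p) {A : Set V} (hA : CtLAM (m + 1) Y h t p A) {q : V}
    (hq : q ∈ ctBd (m + 1) Y A) : CtReg (m + 1) Y A q := by
  by_contra hreg
  have h1 : q ∈ ctSing (m + 1) Y A := ⟨hq, hreg⟩
  rw [hA.sing_empty hG hp (by omega) hm7] at h1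
  exact h1

/-- a minimiser which touches a minimal collar from one side coincides with it near the point of contact. -/
theorem t3b_touch {m : ℕ} {Y : Set V} (hG : CtGeo (m + 1) Y h t) (hm : 1 ≤ m) (hm7 : m + 1 ≤ 7)
    {p : V → ℝ} (hp : SmoothAlong (m + 1) Y p) {A C : Set V} (hA : CtLAM (m + 1) Y h t p A)
    (hC : CtLAM (m + 1) Y h t (fun _ => 0) C) {q : V} (hqA : q ∈ ctBd (m + 1) Y A)
    (hqC : q ∈ ctBd (m + 1) Y C)
    (hcase : ((∀ x ∈ Y, 0 ≤ p x) ∧ C ⊆ A) ∨ ((∀ x ∈ Y, p x ≤ 0) ∧ Disjoint A C)) :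
    ∃ N : Set V, IsOpen N ∧ q ∈ N ∧ ctBd (m + 1) Y A ∩ N = ctBd (m + 1) Y C ∩ N := by
  rcases hcase with ⟨hp0, hCA⟩ | ⟨hp0, hAC⟩
  · obtain ⟨N, hN, hqN, he⟩ := t3_smp hG (gs_sm_const 0) hp hp0 hC hA
      (by rw [Set.sdiff_eq_empty.2 hCA]; exact measure_empty)
      (t3b_reg hG hm hm7 (gs_sm_const 0) hC hqC) (t3b_reg hG hm hm7 hp hA hqA)
    exact ⟨N, hN, hqN, he.symm⟩
  · have hC' : CtLAM (m + 1) Y h t (fun _ => -(0 : ℝ)) (Y \ C) := hC.diff hG (gs_sm_const 0)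
    have hqC' : q ∈ ctBd (m + 1) Y (Y \ C) := by rw [ct_bd_diff hG.mfd]; exact hqC
    obtain ⟨N, hN, hqN, he⟩ := t3_smp hG hp (gs_sm_const (-(0 : ℝ)))
      (fun x hx => by have := hp0 x hx; simpa using this) hA hC'
      (by
        have : A \ (Y \ C) = ∅ := by
          rw [Set.sdiff_eq_empty]
          exact fun x hx => ⟨hA.lf.sub hx, fun hxC => disjoint_left.1 hAC hx hxC⟩
        rw [this]; exact measure_empty)
      (t3b_reg hG hm hm7 hp hA hqA) (t3b_reg hG hm hm7 (gs_sm_const (-(0 : ℝ))) hC' hqC')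
    rw [ct_bd_diff hG.mfd] at he
    exact ⟨N, hN, hqN, he⟩

/-- **(B5) L-T3-BdCompact**: the part of the boundary in the interior of the piece is compact.
[`Γ ⊆` the compact set `H.cpt`; it suffices that `Γ` is closed in `X`.  `ctBd` is closed in `X` (`ct_trichotomy`, `ct_in_open`, `ct_out_open`).  Let `q ∈ B i`.  If `q ∉ ctBd A` a neighbourhood misses `ctBd A`.  If `q ∈ ctBd A` then
`a-1 < ρ q < b+1`; in `Y = X ∩ (O i ∩ W)`: `C = {φ i < 0}` (type +) is `CtLAM 0`, `A ∩ ..` is `CtLAM p`, `0 ≤ p`, `C ⊆ A`; `q` is a regular point of both (`CtLAM.sing_empty`, `ct_bd_inter`; `CtDef.sets` for `C`): `t3_smp` gives a neighbourhood `N` with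
`ctBd A ∩ N = B i ∩ N`.  (Type -: `t3_smp` for `A ⊆ Y \ closed collar`, pressures `p ≤ 0`.)  So no point of `B i` is a limit of points of `Γ`.] -/
theorem T3Band.bd_compact {m : ℕ} (H : T3Band (m + 1) X h t B O φ ρ a m₁ m₂ b κ) (hm : 1 ≤ m)
    (hm7 : m + 1 ≤ 7) {p : V → ℝ} {A : Set V} (hp : SmoothAlong (m + 1) X p)
    (hp1 : ∀ x ∈ X, ρ x ≤ m₂ → 0 ≤ p x) (hp2 : ∀ x ∈ X, m₁ ≤ ρ x → p x ≤ 0)
    (hA : T3CMin (m + 1) X h t p (t3Kpos X O φ ρ a m₂) (t3Kneg X O φ ρ b m₂) A)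
    (hbd : ctBd (m + 1) X A ⊆ {x | x ∈ t3Core X O φ ∧ a - 1 / 2 ≤ ρ x ∧ ρ x ≤ b + 1 / 2}) :
    IsCompact (ctBd (m + 1) X A ∩ t3Int X O φ) := by
  have hn : 2 ≤ m + 1 := by omega
  have hG := H.col.geo
  obtain ⟨hcov, hd1, hd2, hd3⟩ := ct_trichotomy hG.mfd (by omega) A
  obtain ⟨Oi, hOi, hOie⟩ := ct_in_open hG.mfd A
  obtain ⟨Oo, hOo, hOoe⟩ := ct_out_open hG.mfd A
  have hΓK : ctBd (m + 1) X A ∩ t3Int X O φ ⊆ {x | x ∈ t3Core X O φ ∧ a - 1 ≤ ρ x ∧ ρ x ≤ b + 1} :=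
    fun x hx => ⟨(hbd hx.1).1, by linarith [(hbd hx.1).2.1], by linarith [(hbd hx.1).2.2]⟩
  refine H.cpt.of_isClosed_subset ?_ hΓK
  rw [← closure_subset_iff_isClosed]
  intro q hq
  have hqK := (closure_minimal hΓK H.cpt.isClosed) hq
  have hqX : q ∈ X := hqK.1.1
  have hqbd : q ∈ ctBd (m + 1) X A := by
    by_contra hqn
    have h1 : q ∈ ctIn (m + 1) X A ∪ ctOut (m + 1) X A ∪ ctBd (m + 1) X A := by rw [hcov]; exact hqX
    have hqO : q ∈ Oi ∪ Oo := by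
      rcases h1 with (h' | h') | h'
      · have : q ∈ X ∩ Oi := by rw [hOie]; exact h'
        exact Or.inl this.2
      · have : q ∈ X ∩ Oo := by rw [hOoe]; exact h'
        exact Or.inr this.2
      · exact absurd h' hqn
    obtain ⟨z, hzO, hzΓ⟩ := mem_closure_iff.1 hq (Oi ∪ Oo) (hOi.union hOo) hqO
    have hzX := ct_bd_subset A hzΓ.1
    rcases hzO with h' | h'
    · have : z ∈ ctIn (m + 1) X A := by rw [← hOie]; exact ⟨hzX, h'⟩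
      exact disjoint_left.1 hd2 this hzΓ.1
    · have : z ∈ ctOut (m + 1) X A := by rw [← hOoe]; exact ⟨hzX, h'⟩
      exact disjoint_left.1 hd3 this hzΓ.1
  refine ⟨hqbd, hqX, ?_⟩
  rintro ⟨i, hqi, hφq⟩
  have hφ0 : φ i q = 0 := by
    by_contra hne
    exact hqK.1.2 ⟨i, hqi, lt_of_le_of_ne hφq hne⟩
  have hdf := H.col.df i
  have hG1 : CtGeo (m + 1) (X ∩ O i) h t := hG.inter hdf.opn
  -- the band
  obtain ⟨W₂, hW₂, hW₂e⟩ := ct_exists_open_gt hG H.smooth (a - 1)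
  obtain ⟨W₃, hW₃, hW₃e⟩ := ct_exists_open_lt hG H.smooth (b + 1)
  obtain ⟨W, hWd⟩ : ∃ W, W = W₂ ∩ W₃ := ⟨_, rfl⟩
  have hW : IsOpen W := hWd ▸ hW₂.inter hW₃
  have hXW : X ∩ W = {x | x ∈ X ∧ a - 1 < ρ x ∧ ρ x < b + 1} := by
    ext x
    constructor
    · rintro ⟨hx, hxW⟩
      rw [hWd] at hxW
      have h2 : x ∈ {x | x ∈ X ∧ a - 1 < ρ x} := hW₂e ▸ ⟨hx, hxW.1⟩
      have h3 : x ∈ {x | x ∈ X ∧ ρ x < b + 1} := hW₃e ▸ ⟨hx, hxW.2⟩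
      exact ⟨hx, h2.2, h3.2⟩
    · rintro ⟨hx, h2, h3⟩
      have h2' : x ∈ X ∩ W₂ := hW₂e.symm ▸ (⟨hx, h2⟩ : x ∈ {x | x ∈ X ∧ a - 1 < ρ x})
      have h3' : x ∈ X ∩ W₃ := hW₃e.symm ▸ (⟨hx, h3⟩ : x ∈ {x | x ∈ X ∧ ρ x < b + 1})
      exact ⟨hx, hWd ▸ ⟨h2'.2, h3'.2⟩⟩
  have hqW : q ∈ W := by
    have : q ∈ X ∩ W := by
      rw [hXW]
      exact ⟨hqX, by linarith [(hbd hqbd).2.1], by linarith [(hbd hqbd).2.2]⟩
    exact this.2
  -- the regular part of the tube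
  obtain ⟨O₂, hO₂, hO₂e⟩ := ct_exists_open_gt hG1 (if_gradSq_smoothAlong hG1.met hdf.smooth) 0
  have hqO₂ : q ∈ O₂ := by
    have : q ∈ X ∩ O i ∩ O₂ := by
      rw [hO₂e]
      refine ⟨hqi, ?_⟩
      obtain ⟨ψ, U, hψ, u, hu, rfl⟩ := hG1.mfd q hqi
      rw [ct_fderiv_ne hG1 hdf.smooth hψ hu]
      exact hdf.reg ψ U hψ u hu hφ0
    exact this.2
  have hQ : IsOpen (W ∩ O₂) := hW.inter hO₂
  have hR : IsOpen (O i ∩ (W ∩ O₂)) := hdf.opn.inter hQ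
  have eY : X ∩ O i ∩ (W ∩ O₂) = X ∩ (O i ∩ (W ∩ O₂)) := inter_assoc _ _ _
  have hGY : CtGeo (m + 1) (X ∩ (O i ∩ (W ∩ O₂))) h t := hG.inter hR
  have hpY : SmoothAlong (m + 1) (X ∩ (O i ∩ (W ∩ O₂))) p := if_smoothAlong_inter hp hR
  have hlamA : CtLAM (m + 1) (X ∩ (O i ∩ (W ∩ O₂))) h t p (A ∩ (O i ∩ (W ∩ O₂))) := by
    have h1 := (H.lam_tube hn hp hp1 hp2 hA hW hXW i).inter_open (hG.inter (hdf.opn.inter hW)) hO₂
    simp only [inter_assoc] at h1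
    exact h1
  have hlamC : CtLAM (m + 1) (X ∩ (O i ∩ (W ∩ O₂))) h t (fun _ => 0)
      ({x | x ∈ X ∩ O i ∧ φ i x < 0} ∩ (W ∩ O₂)) := by
    have h1 := (H.col.lam i).inter_open hG1 hQ
    rwa [eY] at h1
  have hCD : CtDef (m + 1) (X ∩ (O i ∩ (W ∩ O₂))) h ({x | x ∈ X ∩ O i ∧ φ i x < 0} ∩ (W ∩ O₂)) (φ i) := by
    refine ⟨?_, fun x hx => ?_, ?_⟩
    · rw [← eY]
      exact if_smoothAlong_inter hdf.smooth hQ
    · have hx' : x ∈ X ∩ O i ∩ (W ∩ O₂) := eY.symm ▸ hx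
      rw [← eY, if_gradSq_inter hG1.mfd hG1.met hQ hdf.smooth hx']
      have : x ∈ {x | x ∈ X ∩ O i ∧ 0 < gradSq (m + 1) (X ∩ O i) h (φ i) x} := by
        rw [← hO₂e]; exact ⟨hx'.1, hx'.2.2⟩
      exact this.2
    · have e : ({x | x ∈ X ∩ O i ∧ φ i x < 0} ∩ (W ∩ O₂))
          = {x | x ∈ X ∩ (O i ∩ (W ∩ O₂)) ∧ φ i x < 0} := by
        ext x
        constructor
        · rintro ⟨⟨h1, h2⟩, h3⟩
          exact ⟨⟨h1.1, h1.2, h3⟩, h2⟩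
        · rintro ⟨⟨h1, h3, h4⟩, h2⟩
          exact ⟨⟨⟨h1, h3⟩, h2⟩, h4⟩
      rw [e, symmDiff_self]
      exact measure_empty
  have hbdC := (hCD.sets hGY).1
  have hbdA := (ct_bd_inter hG.mfd A hR).1
  have hqR : q ∈ O i ∩ (W ∩ O₂) := ⟨hqi.2, hqW, hqO₂⟩
  obtain ⟨N, hN, hqN, hNe⟩ := t3b_touch hGY hm hm7 hpY hlamA hlamC
    (by rw [hbdA]; exact ⟨hqbd, hqR⟩) (by rw [hbdC]; exact ⟨⟨hqX, hqR⟩, hφ0⟩) (by
      by_cases hi : i ∈ t3Plus X O ρ m₂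
      · refine Or.inl ⟨fun x hx => hp1 x hx.1 (hi x ⟨hx.1, hx.2.1⟩), ?_⟩
        rintro x ⟨⟨hx, hφ⟩, hxQ⟩
        exact ⟨hA.2.1 (Or.inr ⟨i, hi, hx, hφ.le⟩), hx.2, hxQ⟩
      · refine Or.inr ⟨fun x hx => hp2 x hx.1 ((H.typ i).resolve_left hi x ⟨hx.1, hx.2.1⟩), ?_⟩
        rw [disjoint_left]
        rintro x ⟨hxA, -⟩ ⟨⟨hx, hφ⟩, -⟩
        exact disjoint_left.1 hA.2.2.1 hxA (Or.inr ⟨i, hi, hx, hφ.le⟩))
  obtain ⟨z, ⟨hzN, hzR⟩, hzΓ⟩ := mem_closure_iff.1 hq (N ∩ (O i ∩ (W ∩ O₂))) (hN.inter hR) ⟨hqN, hqR⟩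
  have h1 : z ∈ ctBd (m + 1) (X ∩ (O i ∩ (W ∩ O₂))) (A ∩ (O i ∩ (W ∩ O₂))) ∩ N := by
    rw [hbdA]; exact ⟨⟨hzΓ.1, hzR⟩, hzN⟩
  rw [hNe, hbdC] at h1
  exact hzΓ.2.2 ⟨i, ⟨h1.1.1.1, h1.1.1.2.1⟩, h1.1.2.le⟩

/-- chain rule for the pressure.  [`gs_sq_comp`: `gradSq (P ∘ ρ) = P'(ρ)² gradSq ρ ≤ 4 P'(ρ)²`.] -/
theorem T3Band.pressure (H : T3Band n X h t B O φ ρ a m₁ m₂ b κ) {P : ℝ → ℝ}
    (hP : ContDiff ℝ ∞ P) (hP' : ∀ s, 4 * |deriv P s| ≤ P s ^ 2 + κ) :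
    SmoothAlong n X (fun x => P (ρ x)) ∧
      ∀ x ∈ X, -κ ≤ P (ρ x) ^ 2 - 2 * gradN n X h (fun y => P (ρ y)) x := by
  refine ⟨gs_sm_comp' hP H.smooth, fun x hx => ?_⟩
  have h1 : gradSq n X h (fun y => P (ρ y)) x = deriv P (ρ x) ^ 2 * gradSq n X h ρ x :=
    gs_sq_comp H.col.geo.mfd H.col.geo.met isOpen_univ hP.contDiffOn H.smooth (fun _ _ => mem_univ _) hx
  have h2 : gradN n X h (fun y => P (ρ y)) x ≤ 2 * |deriv P (ρ x)| := by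
    unfold gradN
    rw [h1]
    have h3 : deriv P (ρ x) ^ 2 * gradSq n X h ρ x ≤ (2 * |deriv P (ρ x)|) ^ 2 := by
      rw [mul_pow, sq_abs]
      have := H.grad x hx
      nlinarith [sq_nonneg (deriv P (ρ x))]
    exact (Real.sqrt_le_sqrt h3).trans (by rw [Real.sqrt_sq (by positivity)])
  have := hP' (ρ x)
  linarith

/-- **(B6) L-T3-Bubble: THE WEIGHTED BUBBLE THEOREM.**
[`T₀` from `ends`; `P` from `t3_profile` with `T = T₀ + 1`; `p = P ∘ ρ` (`pressure`); `competitor`, `free`, `t3_cmin_exists`: `A`; `ends`, `bd_compact`: `Γ = ctBd A ∩ t3Int` compact, contained in the free region `X ∩ W`;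
`lam_free`; `ct_bd_inter`: `ctBd (X ∩ W) (A ∩ W) = Γ`; `t3_struct`, `t3_tame` in `X ∩ W` (`if_Dsc_inter`, `if_gradSq_inter`); `F j = wall ∩ O_j`: `if_Dsc_inter` again, `ct_wall_geo` + `CtGeo.inter`.  `T3Hyp (X ∩ W) ⟹ T3Hyp X`
(`(X ∩ W) ∩ O = X ∩ (W ∩ O)`).  `Up = ctIn A ∩ t3Int`, `Um = ctOut A ∩ t3Int`.] -/
theorem t3_bubble {m : ℕ} (H : T3Band (m + 1) X h t B O φ ρ a m₁ m₂ b κ) (hm : 1 ≤ m)
    (hm7 : m + 1 ≤ 7) {c γ : ℝ} (hγ : 0 < γ)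
    (hD : ∀ x ∈ t3Int X O φ, a - 1 ≤ ρ x → ρ x ≤ b + 1 → c + κ + γ ≤ Dsc (m + 1) X h t x) :
    ∃ (k : ℕ) (F : Fin k → Set V) (Up Um : Set V),
      (∀ j, T3Hyp (m + 1) X (F j) ∧ F j ⊆ t3Int X O φ ∧ (∀ x ∈ F j, a - 1 < ρ x ∧ ρ x < b + 1) ∧
        ∃ U : V → ℝ, CtGeo m (F j) h U ∧ ∀ x ∈ F j, c < Dsc m (F j) h U x) ∧
      Pairwise (Function.onFun Disjoint F) ∧ T3RelOpen X Up ∧ T3RelOpen X Um ∧ Disjoint Up Um ∧
      Up ∪ Um = t3Int X O φ \ ⋃ j, F j ∧ (∀ x ∈ t3Int X O φ, ρ x ≤ a - 1 → x ∈ Up) ∧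
      ∀ x ∈ t3Int X O φ, b + 1 ≤ ρ x → x ∈ Um := by
  have hn : 2 ≤ m + 1 := by omega
  have hG := H.col.geo
  obtain ⟨T₀, hT₀, hends⟩ := H.ends hn
  obtain ⟨P, hP, hPanti, hPa, hPm, hPb, hP'⟩ := t3_profile (T := T₀ + 1) H.kpos (by linarith) H.left H.mid
    H.right
  obtain ⟨hps, hpk⟩ := H.pressure hP hP'
  have hpc : ContinuousOn (fun x => P (ρ x)) X := if_smoothAlong_continuousOn hG.mfd hps
  obtain ⟨hK1, hK2, E₀, hE₀, hE₀1, hE₀2, hfin⟩ := H.competitor hn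
  obtain ⟨A, hA, -⟩ := t3_cmin_exists hG hpc hK1 hK2 H.cpt (fun x hx => hx.1.1) H.free hE₀ hE₀1 hE₀2 hfin
  obtain ⟨hbd, hin, hout⟩ := hends (fun x => P (ρ x)) A hpc
    (fun x _ hx => by show T₀ < P (ρ x); rw [hPa _ hx]; linarith)
    (fun x _ hx => by show P (ρ x) < -T₀; rw [hPb _ hx]; linarith) hA
  have hp1 : ∀ x ∈ X, ρ x ≤ m₂ → 0 ≤ P (ρ x) := fun x _ hx => by
    rw [← hPm m₂ H.mid le_rfl]; exact hPanti hx
  have hp2 : ∀ x ∈ X, m₁ ≤ ρ x → P (ρ x) ≤ 0 := fun x _ hx => by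
    rw [← hPm m₁ le_rfl H.mid]; exact hPanti hx
  have hΓ := H.bd_compact hm hm7 hps hp1 hp2 hA hbd
  -- the free region
  obtain ⟨W₁, hW₁, hW₁e⟩ := H.col.int_open
  obtain ⟨W₂, hW₂, hW₂e⟩ := ct_exists_open_gt hG H.smooth (a - 1)
  obtain ⟨W₃, hW₃, hW₃e⟩ := ct_exists_open_lt hG H.smooth (b + 1)
  obtain ⟨W, hWd⟩ : ∃ W, W = W₁ ∩ (W₂ ∩ W₃) := ⟨_, rfl⟩
  have hW : IsOpen W := hWd ▸ hW₁.inter (hW₂.inter hW₃)
  have hXW : X ∩ W = {x | x ∈ t3Int X O φ ∧ a - 1 < ρ x ∧ ρ x < b + 1} := by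
    ext x
    constructor
    · rintro ⟨hx, hxW⟩
      rw [hWd] at hxW
      have h1 : x ∈ t3Int X O φ := hW₁e ▸ ⟨hx, hxW.1⟩
      have h2 : x ∈ {x | x ∈ X ∧ a - 1 < ρ x} := hW₂e ▸ ⟨hx, hxW.2.1⟩
      have h3 : x ∈ {x | x ∈ X ∧ ρ x < b + 1} := hW₃e ▸ ⟨hx, hxW.2.2⟩
      exact ⟨h1, h2.2, h3.2⟩
    · rintro ⟨h1, h2, h3⟩
      have hx : x ∈ X := h1.1
      have h1' : x ∈ X ∩ W₁ := hW₁e.symm ▸ h1
      have h2' : x ∈ X ∩ W₂ := hW₂e.symm ▸ (⟨hx, h2⟩ : x ∈ {x | x ∈ X ∧ a - 1 < ρ x})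
      have h3' : x ∈ X ∩ W₃ := hW₃e.symm ▸ (⟨hx, h3⟩ : x ∈ {x | x ∈ X ∧ ρ x < b + 1})
      exact ⟨hx, hWd ▸ ⟨h1'.2, h2'.2, h3'.2⟩⟩
  have hmemW : ∀ x ∈ X ∩ W, x ∈ t3Int X O φ ∧ a - 1 < ρ x ∧ ρ x < b + 1 := fun x hx => by
    have : x ∈ {x | x ∈ t3Int X O φ ∧ a - 1 < ρ x ∧ ρ x < b + 1} := hXW ▸ hx
    exact this
  have hlam := H.lam_free hA hW hXW
  have hG' : CtGeo (m + 1) (X ∩ W) h t := hG.inter hW
  have hps' : SmoothAlong (m + 1) (X ∩ W) (fun x => P (ρ x)) := if_smoothAlong_inter hps hW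
  have hbi := ct_bd_inter hG.mfd A hW
  have hbdΓ : ctBd (m + 1) (X ∩ W) (A ∩ W) = ctBd (m + 1) X A ∩ t3Int X O φ := by
    rw [hbi.1]
    ext x
    constructor
    · rintro ⟨hx, hxW⟩
      exact ⟨hx, (hmemW x ⟨ct_bd_subset A hx, hxW⟩).1⟩
    · rintro ⟨hx, hxI⟩
      have h1 := hbd hx
      have : x ∈ X ∩ W := by
        rw [hXW]
        exact ⟨hxI, by linarith [h1.2.1], by linarith [h1.2.2]⟩
      exact ⟨hx, this.2⟩
  obtain ⟨k, F, hF, hFd, hFU⟩ := t3_struct hG' hm hm7 hps' hlam (hbdΓ ▸ hΓ)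
  obtain ⟨U, hU, hDU⟩ := t3_tame hG' hm hm7 hps' hlam (c := c) (γ := γ) hγ (fun x hx => by
    have hxW : x ∈ X ∩ W := ct_bd_subset _ (ct_wall_subset_bd _ hx)
    obtain ⟨hxI, h1, h2⟩ := hmemW x hxW
    have e1 : Dsc (m + 1) (X ∩ W) h t x = Dsc (m + 1) X h t x :=
      if_Dsc_inter hG.mfd hG.met hW hG.drift hxW
    have e2 : gradN (m + 1) (X ∩ W) h (fun x => P (ρ x)) x = gradN (m + 1) X h (fun x => P (ρ x)) x := by
      unfold gradN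
      rw [if_gradSq_inter hG.mfd hG.met hW hps hxW]
    rw [e1, e2]
    have h3 := hD x hxI h1.le h2.le
    have h4 := hpk x hxW.1
    linarith)
  have hwg := ct_wall_geo hG' (A ∩ W)
  have hFsub : ∀ j, F j ⊆ X ∩ W := fun j x hx => by
    have : x ∈ ctBd (m + 1) (X ∩ W) (A ∩ W) := hFU ▸ mem_iUnion.2 ⟨j, hx⟩
    exact ct_bd_subset _ this
  obtain ⟨hcov, hd1, hd2, hd3⟩ := ct_trichotomy hG.mfd (by omega) A
  obtain ⟨Oi, hOi, hOie⟩ := ct_in_open hG.mfd A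
  obtain ⟨Oo, hOo, hOoe⟩ := ct_out_open hG.mfd A
  refine ⟨k, F, ctIn (m + 1) X A ∩ t3Int X O φ, ctOut (m + 1) X A ∩ t3Int X O φ, fun j => ?_, hFd,
    ⟨Oi ∩ W₁, hOi.inter hW₁, ?_⟩, ⟨Oo ∩ W₁, hOo.inter hW₁, ?_⟩,
    hd1.mono inter_subset_left inter_subset_left, ?_,
    fun x hx hρ => ⟨hin x hx (by linarith), hx⟩, fun x hx hρ => ⟨hout x hx (by linarith), hx⟩⟩
  · obtain ⟨⟨hc1, hc2, O', φ', hdf⟩, Oj, hOj, hFj⟩ := hF j
    refine ⟨⟨hc1, hc2, W ∩ O', φ', ?_⟩, fun x hx => (hmemW x (hFsub j hx)).1,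
      fun x hx => (hmemW x (hFsub j hx)).2, U, ?_, ?_⟩
    · have e : X ∩ (W ∩ O') = X ∩ W ∩ O' := (inter_assoc _ _ _).symm
      exact ⟨hW.inter hdf.opn, by rw [e]; exact hdf.sub, by rw [e]; exact hdf.smooth,
        by rw [e]; exact hdf.zero, by rw [e]; exact hdf.reg⟩
    · rw [hFj]
      have := hwg.inter hOj
      exact ⟨this.mfd, this.met, if_smoothAlong_inter hU hOj⟩
    · intro x hx
      rw [hFj] at hx ⊢
      rw [if_Dsc_inter hwg.mfd hwg.met hOj hU hx]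
      exact hDU x hx.1
  · rw [← hOie, ← hW₁e]
    ext x
    simp only [mem_inter_iff]
    tauto
  · rw [← hOoe, ← hW₁e]
    ext x
    simp only [mem_inter_iff]
    tauto
  · rw [hFU, hbdΓ]
    ext x
    constructor
    · rintro (⟨hx, hxI⟩ | ⟨hx, hxI⟩)
      · exact ⟨hxI, fun h' => disjoint_left.1 hd2 hx h'.1⟩
      · exact ⟨hxI, fun h' => disjoint_left.1 hd3 hx h'.1⟩
    · rintro ⟨hxI, hx⟩
      have : x ∈ ctIn (m + 1) X A ∪ ctOut (m + 1) X A ∪ ctBd (m + 1) X A := hcov.symm ▸ hxI.1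
      rcases this with (h' | h') | h'
      · exact Or.inl ⟨h', hxI⟩
      · exact Or.inr ⟨h', hxI⟩
      · exact absurd ⟨h', hxI⟩ hx

end Claimed.Agent.R315
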