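-- KEEP
import Claimed.Agent.R315.T3.Defs
import Claimed.Agent.R315.Ct.Reg
import Claimed.Agent.R315.Pack002
import Claimed.Agent.R315.Pack004
import Claimed.Agent.R315.Pack009

/-!
# Row 315, paper T (n = 3), package T3-Li: local isometries given by a linear projection

Sub-captain: helper72.  The cut manifold `X ⊆ V × ℝ` and its `ℤ`-cover `Y ⊆ (V × ℝ) × ℝ` are sets which
are LOCALLY GRAPHS over the base; all data on them are pull-backs by the linear map `π = fst`.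

* `t3pT π g`       pull-back of the tensor `g` by the continuous linear map `π : V' →L V`;
* `T3Li d X M π`   every point of `X` has a parametrisation `ψ` of `X` such that `π ∘ ψ` is a
                   parametrisation of `M`  (`π : X → M` is a local diffeomorphism);
* `T3Iso d X M π`  moreover `π : X → M` is bijective.

BASIC FACT (`T3Li.cm`): `cm (t3pT π g) ψ u = cm g (π ∘ ψ) u` because `fderiv (π ∘ ψ) u = π ∘ fderiv ψ u`.
So every scalar quantity (computed by `pv` from coordinate matrices, invariant: `if_*_eq`, `gs_*_eq`)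
has the same value at `z` and at `π z`, curves project to curves of the same length, and for a
`T3Iso` the parametrisations of `X` are exactly the maps `ψ` with `π ∘ ψ` a parametrisation of `M`
and values in `X`, so that the measures `vol`, `wvol`, `wper` correspond (uniqueness:
`ct_wper_unique`; `IsVol`: `ct_vol_spec` and uniqueness on images of a countable atlas).

ALL LEAVES OF THIS FILE ARE PROVED (sorry-free).
-/

set_option autoImplicit false
set_option linter.unusedSectionVars false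
open scoped ContDiff Topology
open MeasureTheory Claims.C0499 Set

namespace Claimed.Agent.R315

variable {V V' : Type} [NormedAddCommGroup V] [NormedSpace ℝ V] [NormedAddCommGroup V']
  [NormedSpace ℝ V']

/-- pull-back of a tensor by a continuous linear map. -/
noncomputable def t3pT (π : V' →L[ℝ] V) (g : Ten V) : Ten V' :=
  fun z => (g (π z)).bilinearComp π π

/-- `π : X → M` is a local diffeomorphism. -/
structure T3Li (d : ℕ) (X : Set V') (M : Set V) (π : V' →L[ℝ] V) : Prop where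
  chart : ∀ z ∈ X, ∃ (ψ : E d → V') (U : Set (E d)), IsParam X ψ U ∧ z ∈ ψ '' U ∧
    IsParam M (π ∘ ψ) U

/-- `π : X → M` is a diffeomorphism. -/
structure T3Iso (d : ℕ) (X : Set V') (M : Set V) (π : V' →L[ℝ] V) : Prop extends
    T3Li d X M π where
  inj : InjOn π X
  surj : π '' X = M

theorem t3Li_eqns_cite : True := by
  have := @t3pT.eq_1
  trivial

variable {d : ℕ} {X : Set V'} {M : Set V} {π : V' →L[ℝ] V} {g : Ten V} {t f k p : V → ℝ}

theorem T3Li.mfd (h : T3Li d X M π) : IsMfd d X := fun z hz => by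
  obtain ⟨ψ, U, h1, h2, -⟩ := h.chart z hz
  exact ⟨ψ, U, h1, h2⟩

theorem T3Li.maps (h : T3Li d X M π) {z : V'} (hz : z ∈ X) : π z ∈ M := by
  obtain ⟨ψ, U, -, ⟨u, hu, rfl⟩, h3⟩ := h.chart z hz
  exact if_image_subset h3 ⟨u, hu, rfl⟩

theorem t3pT_apply (π : V' →L[ℝ] V) (g : Ten V) (z a b : V') :
    t3pT π g z a b = g (π z) (π a) (π b) := rfl

/-! ### L-T3-Li-A -/

/-- coordinate matrices. -/
theorem t3li_cm (π : V' →L[ℝ] V) (g : Ten V) {ψ : E d → V'} {u : E d}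
    (hψ : DifferentiableAt ℝ ψ u) : cm (t3pT π g) ψ u = cm g (π ∘ ψ) u := by
  have h1 : fderiv ℝ (π ∘ ψ) u = π.comp (fderiv ℝ ψ u) :=
    (π.hasFDerivAt.comp u hψ.hasFDerivAt).fderiv
  ext i j
  show _ = g (π (ψ u)) (fderiv ℝ (π ∘ ψ) u (eb i)) (fderiv ℝ (π ∘ ψ) u (eb j))
  rw [h1]
  rfl

/-- a `T3Li` is a local isometry in the sense of `If/Iso.lean` (PROVED). -/
theorem T3Li.locIso [FiniteDimensional ℝ V] [FiniteDimensional ℝ V'] (h : T3Li d X M π)
    (g : Ten V) : if_LocIso d X (t3pT π g) M g π :=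
  if_locIso_pullL π g h.chart

/-- EVERY parametrisation of `X` projects, locally, to a parametrisation of `M`.
[`(ψ₀, U₀)` from `chart` at `ψ u`; on `U' = ` a small ball in `if_trDom ψ U ψ₀ U₀`:
`π ∘ ψ = (π ∘ ψ₀) ∘ if_tr ψ₀ U₀ ψ`, a parametrisation composed with a diffeomorphism onto an open
set (inverse function theorem: `if_exists_local_inverse`, `if_tr_*` of `IfParam.lean`).] -/
theorem T3Li.param [FiniteDimensional ℝ V] [FiniteDimensional ℝ V'] (h : T3Li d X M π)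
    {ψ : E d → V'} {U : Set (E d)} (hψ : IsParam X ψ U) {u : E d} (hu : u ∈ U) :
    ∃ U' : Set (E d), IsOpen U' ∧ u ∈ U' ∧ U' ⊆ U ∧ IsParam X ψ U' ∧ IsParam M (π ∘ ψ) U' := by
  obtain ⟨ψ₀, U₀, h0, ⟨u₀, hu₀, he⟩, h0'⟩ := h.chart (ψ u) (if_mem hψ hu)
  have hT : IsOpen (if_trDom ψ U ψ₀ U₀) := if_isOpen_trDom hψ h0
  refine ⟨if_trDom ψ U ψ₀ U₀, hT, if_mem_trDom hu hu₀ he.symm, if_trDom_subset,
    if_mono hψ hT if_trDom_subset, ?_⟩
  have h1 : IsParam M ((π ∘ ψ₀) ∘ if_tr ψ₀ U₀ ψ) (if_trDom ψ U ψ₀ U₀) := by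
    refine if_comp h0' hT (if_tr_contDiffOn hψ h0) ?_ (fun w hw => if_fderiv_tr_injective hψ h0 hw)
      (fun w hw => if_tr_mem hw)
    intro a ha b hb hab
    have h2 : ψ a = ψ b := by rw [← if_tr_spec ha, ← if_tr_spec hb, hab]
    exact if_injOn hψ ha.1 hb.1 h2
  refine if_congr h1 fun w hw => ?_
  show π (ψ w) = π (ψ₀ (if_tr ψ₀ U₀ ψ w))
  rw [if_tr_spec hw]

theorem T3Li.smooth [FiniteDimensional ℝ V] [FiniteDimensional ℝ V'] (h : T3Li d X M π)
    (hf : SmoothAlong d M f) : SmoothAlong d X (fun z => f (π z)) :=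
  (h.locIso (fun _ => 0)).smooth hf

theorem T3Li.metric [FiniteDimensional ℝ V] [FiniteDimensional ℝ V'] (h : T3Li d X M π)
    (hg : IsMetricOn d M g) : IsMetricOn d X (t3pT π g) :=
  (h.locIso g).metric hg

theorem T3Li.geo [FiniteDimensional ℝ V] [FiniteDimensional ℝ V'] (h : T3Li d X M π)
    (hG : CtGeo d M g t) : CtGeo d X (t3pT π g) (fun z => t (π z)) :=
  ⟨h.mfd, h.metric hG.met, h.smooth hG.drift⟩

/-- open pieces. -/
theorem T3Li.inter [FiniteDimensional ℝ V] [FiniteDimensional ℝ V'] (h : T3Li d X M π)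
    {W : Set V'} (hW : IsOpen W) : T3Li d (X ∩ W) M π := by
  refine ⟨fun z hz => ?_⟩
  obtain ⟨ψ, U, h1, ⟨u, hu, rfl⟩, h2⟩ := h.chart z hz.1
  have h3 := if_param_restrict hW h1
  exact ⟨ψ, U ∩ ψ ⁻¹' W, h3, ⟨u, ⟨hu, hz.2⟩, rfl⟩, if_mono h2 (if_open h3) inter_subset_left⟩

theorem T3Li.inter_pre [FiniteDimensional ℝ V] [FiniteDimensional ℝ V'] (h : T3Li d X M π)
    {O : Set V} (hO : IsOpen O) : T3Li d (X ∩ π ⁻¹' O) (M ∩ O) π := by
  refine ⟨fun z hz => ?_⟩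
  obtain ⟨ψ, U, h1, ⟨u, hu, rfl⟩, h2⟩ := h.chart z hz.1
  exact ⟨ψ, U ∩ ψ ⁻¹' (π ⁻¹' O), if_param_restrict (hO.preimage π.continuous) h1,
    ⟨u, ⟨hu, hz.2⟩, rfl⟩, if_param_restrict hO h2⟩

/-- composition. -/
theorem T3Li.comp {V'' : Type} [NormedAddCommGroup V''] [NormedSpace ℝ V'']
    [FiniteDimensional ℝ V] [FiniteDimensional ℝ V'] [FiniteDimensional ℝ V''] {Y : Set V''}
    {π' : V'' →L[ℝ] V'} (h' : T3Li d Y X π') (h : T3Li d X M π) : T3Li d Y M (π.comp π') := by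
  refine ⟨fun z hz => ?_⟩
  obtain ⟨ψ, U, h1, ⟨u, hu, rfl⟩, h2⟩ := h'.chart z hz
  obtain ⟨U', hU', huU', hsub, -, h3⟩ := h.param h2 hu
  exact ⟨ψ, U', if_mono h1 hU' hsub, ⟨u, huU', rfl⟩, h3⟩

/-! ### L-T3-Li-B: values of the scalar quantities
[take `(ψ, U')` from `T3Li.param`, evaluate both sides with `if_gradIp_eq`, `if_lap_eq`, `if_scal_eq`,
`if_Dsc_eq`, and use `t3li_cm` on the open set `U'` (the coordinate operators only depend on the germ
of the coordinate matrix: rewrite with `Filter.EventuallyEq` / `funext` on `U'`; see `gs_pv_congr`).] -/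

section vals
variable [FiniteDimensional ℝ V] [FiniteDimensional ℝ V']

theorem T3Li.gradIp (h : T3Li d X M π) (hg : IsMetricOn d M g) (hf : SmoothAlong d M f)
    (hk : SmoothAlong d M k) {z : V'} (hz : z ∈ X) :
    gradIp d X (t3pT π g) (fun y => f (π y)) (fun y => k (π y)) z = gradIp d M g f k (π z) :=
  ((h.locIso g).gradIp hg hf hk hz).symm

theorem T3Li.gradSq (h : T3Li d X M π) (hg : IsMetricOn d M g) (hf : SmoothAlong d M f)
    {z : V'} (hz : z ∈ X) :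
    gradSq d X (t3pT π g) (fun y => f (π y)) z = gradSq d M g f (π z) :=
  h.gradIp hg hf hf hz

theorem T3Li.lap (h : T3Li d X M π) (hg : IsMetricOn d M g) (hf : SmoothAlong d M f)
    {z : V'} (hz : z ∈ X) :
    lap d X (t3pT π g) (fun y => f (π y)) z = lap d M g f (π z) :=
  ((h.locIso g).lap hg hf hz).symm

theorem T3Li.scal (h : T3Li d X M π) (hg : IsMetricOn d M g) {z : V'} (hz : z ∈ X) :
    scal d X (t3pT π g) z = scal d M g (π z) :=
  ((h.locIso g).scal hg hz).symm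

theorem T3Li.Dsc (h : T3Li d X M π) (hg : IsMetricOn d M g) (ht : SmoothAlong d M t)
    {z : V'} (hz : z ∈ X) :
    Dsc d X (t3pT π g) (fun y => t (π y)) z = Dsc d M g t (π z) := by
  unfold Claimed.Agent.R315.Dsc
  rw [h.scal hg hz, h.lap hg ht hz, h.gradSq hg ht hz]

end vals

/-! ### L-T3-Li-C: curves, distances, openness -/

/-- curves project to curves of the same length.
[`c` admissible in `X` ⟹ `π ∘ c` admissible in `M`, `deriv (π ∘ c) = π (deriv c)`, same speed.] -/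
theorem T3Li.rdist_le (h : T3Li d X M π) (g : Ten V) {z z' : V'} (hj : if_Join X z z') :
    rdist M g (π z) (π z') ≤ rdist X (t3pT π g) z z' :=
  if_rdist_map_le π g (fun _ hz => h.maps hz) hj

/-- `π` is an open map `X → M`. -/
theorem T3Li.image_open [FiniteDimensional ℝ V] [FiniteDimensional ℝ V'] (h : T3Li d X M π)
    {W : Set V'} (hW : IsOpen W) : ∃ O : Set V, IsOpen O ∧ π '' (X ∩ W) = M ∩ O := by
  refine ⟨⋃₀ {O | IsOpen O ∧ M ∩ O ⊆ π '' (X ∩ W)}, isOpen_sUnion fun O hO => hO.1,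
    Subset.antisymm ?_ ?_⟩
  · rintro _ ⟨z, hz, rfl⟩
    obtain ⟨ψ, U, h1, ⟨u, hu, rfl⟩, h2⟩ := (h.inter hW).chart z hz
    obtain ⟨O, hO, he⟩ := if_image h2
    have hm : π (ψ u) ∈ M ∩ O := by rw [← he]; exact ⟨u, hu, rfl⟩
    refine ⟨hm.1, O, ⟨hO, ?_⟩, hm.2⟩
    rw [← he]
    rintro _ ⟨w, hw, rfl⟩
    exact ⟨ψ w, if_mem h1 hw, rfl⟩
  · rintro x ⟨hxM, O, ⟨-, hO⟩, hxO⟩
    exact hO ⟨hxM, hxO⟩

/-- an injective piece is a `T3Iso` onto its image. -/
theorem T3Li.iso_of_injOn [FiniteDimensional ℝ V] [FiniteDimensional ℝ V'] (h : T3Li d X M π)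
    {W : Set V'} (hW : IsOpen W) {O : Set V} (hO : IsOpen O) (hinj : InjOn π (X ∩ W))
    (himg : π '' (X ∩ W) = M ∩ O) : T3Iso d (X ∩ W) (M ∩ O) π := by
  refine ⟨⟨fun z hz => ?_⟩, hinj, himg⟩
  obtain ⟨ψ, U, h1, hm, h2⟩ := (h.inter hW).chart z hz
  refine ⟨ψ, U, h1, hm, if_param_inter h2 ?_⟩
  rintro _ ⟨w, hw, rfl⟩
  have : π (ψ w) ∈ M ∩ O := by rw [← himg]; exact ⟨ψ w, if_mem h1 hw, rfl⟩
  exact this.2

/-- the inverse of a `T3Iso` is continuous. -/
theorem T3Iso.continuousOn_inv [FiniteDimensional ℝ V] [FiniteDimensional ℝ V']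
    (h : T3Iso d X M π) : ContinuousOn (Function.invFunOn π X) M := by
  intro x hx
  rw [← h.surj] at hx
  obtain ⟨z, hz, rfl⟩ := hx
  obtain ⟨ψ, U, h1, ⟨u, hu, rfl⟩, h2⟩ := h.chart z hz
  obtain ⟨O, hO, he⟩ := if_image h2
  have hm : π (ψ u) ∈ M ∩ O := by rw [← he]; exact ⟨u, hu, rfl⟩
  rw [← continuousWithinAt_inter (hO.mem_nhds hm.2), ← he]
  have hc : ContinuousOn (ψ ∘ Function.invFunOn (π ∘ ψ) U) ((π ∘ ψ) '' U) :=
    (if_continuousOn h1).comp (if_contInv h2) fun y hy => if_inv_mem hy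
  refine (hc.congr ?_) _ ⟨u, hu, rfl⟩
  rintro _ ⟨w, hw, rfl⟩
  show Function.invFunOn π X (π (ψ w)) = ψ (Function.invFunOn (π ∘ ψ) U ((π ∘ ψ) w))
  rw [if_leftInv h2 hw, h.inj.leftInvOn_invFunOn (if_mem h1 hw)]

/-- local injectivity near a compact set on which `π` is injective.
[Otherwise there are `a_n ≠ b_n` in `X`, `π a_n = π b_n`, with distance to `K` tending to `0`;
subsequences converge to `a, b ∈ K`, `π a = π b`, so `a = b`; but `π` is injective on the chart image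
around `a`, which is a neighbourhood of `a` in `X`.] -/
theorem T3Li.injOn_nhd [FiniteDimensional ℝ V] [FiniteDimensional ℝ V'] (h : T3Li d X M π)
    {K : Set V'} (hK : IsCompact K) (hKX : K ⊆ X) (hinj : InjOn π K) :
    ∃ W : Set V', IsOpen W ∧ K ⊆ W ∧ InjOn π (X ∩ W) := by
  have hKs : IsCompact ((↑) ⁻¹' K : Set X) :=
    Topology.IsEmbedding.subtypeVal.isCompact_preimage' hK (by simpa using hKX)
  obtain ⟨T, hT, hsT, hTinj⟩ := Set.InjOn.exists_isOpen_superset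
    (f := fun z : X => π z.1) (s := ((↑) ⁻¹' K : Set X))
    (fun a ha b hb hab => Subtype.ext (hinj ha hb hab)) hKs
    (fun x _ => (π.continuous.comp continuous_subtype_val).continuousAt) (fun x _ => by
      obtain ⟨ψ, U, h1, hm, h2⟩ := h.chart x.1 x.2
      obtain ⟨O, hO, he⟩ := if_image h1
      have hxO : x.1 ∈ X ∩ O := by rw [← he]; exact hm
      refine ⟨(↑) ⁻¹' O, (hO.preimage continuous_subtype_val).mem_nhds hxO.2, ?_⟩
      intro a ha b hb hab
      have ha' : a.1 ∈ ψ '' U := by rw [he]; exact ⟨a.2, ha⟩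
      have hb' : b.1 ∈ ψ '' U := by rw [he]; exact ⟨b.2, hb⟩
      obtain ⟨u, hu, hua⟩ := ha'
      obtain ⟨w, hw, hwb⟩ := hb'
      have : (π ∘ ψ) u = (π ∘ ψ) w := by
        show π (ψ u) = π (ψ w)
        rw [hua, hwb]; exact hab
      have huw := if_injOn h2 hu hw this
      exact Subtype.ext (by rw [← hua, ← hwb, huw]))
  obtain ⟨W, hW, rfl⟩ := isOpen_induced_iff.1 hT
  refine ⟨W, hW, fun x hx => hsT (show (⟨x, hKX hx⟩ : X) ∈ ((↑) ⁻¹' K : Set X) from hx), ?_⟩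
  intro a ha b hb hab
  have := hTinj (x₁ := ⟨a, ha.1⟩) (x₂ := ⟨b, hb.1⟩) ha.2 hb.2 hab
  exact congrArg Subtype.val this

/-! ### L-T3-Li-D: the graph criterion -/

/-- **graph criterion**: a subset of `V × ℝ` which is locally the graph of a smooth function over an
open piece of `M` is a manifold and `fst` is a local diffeomorphism.
[`ψ` a parametrisation of `M ∩ O` around `z.1`; `ψ' u = (ψ u, f (ψ u))` is smooth, immersive, injective;
image `= X ∩ (W ∩ fst⁻¹ O_ψ)`; inverse `= ψ⁻¹ ∘ fst`.] -/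
theorem t3li_of_graph [FiniteDimensional ℝ V] (hM : IsMfd d M) {X : Set (V × ℝ)}
    (hloc : ∀ z ∈ X, ∃ (W : Set (V × ℝ)) (O : Set V) (f : V → ℝ), IsOpen W ∧ z ∈ W ∧ IsOpen O ∧
      SmoothAlong d (M ∩ O) f ∧ X ∩ W = {y | y.1 ∈ M ∩ O ∧ y.2 = f y.1} ∩ W) :
    T3Li d X M (ContinuousLinearMap.fst ℝ V ℝ) := by
  refine ⟨fun z hz => ?_⟩
  obtain ⟨W, O, f, hW, hzW, hO, hf, he⟩ := hloc z hz
  have hzg : z ∈ {y : V × ℝ | y.1 ∈ M ∩ O ∧ y.2 = f y.1} ∩ W := by rw [← he]; exact ⟨hz, hzW⟩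
  obtain ⟨ψ, U, hψ, u₀, hu₀, hu₀z⟩ := if_mfd_inter hM hO z.1 hzg.1.1
  set ψ' : E d → V × ℝ := fun u => (ψ u, f (ψ u)) with hψ'
  have hfs : ContDiffOn ℝ ∞ (f ∘ ψ) U := hf ψ U hψ
  have hs : ContDiffOn ℝ ∞ ψ' U := (if_smooth hψ).prodMk hfs
  have hU' : IsOpen (U ∩ ψ' ⁻¹' W) := hs.continuousOn.isOpen_inter_preimage (if_open hψ) hW
  have hinj : InjOn ψ' (U ∩ ψ' ⁻¹' W) := fun a ha b hb hab =>
    if_injOn hψ ha.1 hb.1 (congrArg Prod.fst hab)
  obtain ⟨O₁, hO₁, hO₁e⟩ := if_image hψ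
  have himg : ψ' '' (U ∩ ψ' ⁻¹' W) = X ∩ (W ∩ Prod.fst ⁻¹' O₁) := by
    ext y
    constructor
    · rintro ⟨u, ⟨hu, huW⟩, rfl⟩
      have h1 : ψ u ∈ (M ∩ O) ∩ O₁ := by rw [← hO₁e]; exact ⟨u, hu, rfl⟩
      have h2 : ψ' u ∈ X ∩ W := by rw [he]; exact ⟨⟨h1.1, rfl⟩, huW⟩
      exact ⟨h2.1, huW, h1.2⟩
    · rintro ⟨hyX, hyW, hyO⟩
      have h1 : y ∈ {y : V × ℝ | y.1 ∈ M ∩ O ∧ y.2 = f y.1} ∩ W := by rw [← he]; exact ⟨hyX, hyW⟩
      have h2 : y.1 ∈ ψ '' U := by rw [hO₁e]; exact ⟨h1.1.1, hyO⟩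
      obtain ⟨u, hu, huy⟩ := h2
      have h3 : ψ' u = y := by
        refine Prod.ext huy ?_
        show f (ψ u) = y.2
        rw [huy, h1.1.2]
      exact ⟨u, ⟨hu, by rw [mem_preimage, h3]; exact hyW⟩, h3⟩
  refine ⟨ψ', U ∩ ψ' ⁻¹' W, ⟨hU', hs.mono inter_subset_left, fun u hu => ?_, hinj,
    ⟨_, hW.inter (hO₁.preimage continuous_fst), himg⟩, ?_⟩, ⟨u₀, ⟨hu₀, ?_⟩, ?_⟩, ?_⟩
  · have h1 : HasFDerivAt ψ' ((fderiv ℝ ψ u).prod (fderiv ℝ (f ∘ ψ) u)) u :=
      (if_differentiableAt hψ hu.1).hasFDerivAt.prodMk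
        ((hfs.contDiffAt ((if_open hψ).mem_nhds hu.1)).differentiableAt (by simp)).hasFDerivAt
    rw [h1.fderiv]
    intro a b hab
    exact if_imm hψ hu.1 (congrArg Prod.fst hab)
  · have hc : ContinuousOn (Function.invFunOn ψ U ∘ Prod.fst) (ψ' '' (U ∩ ψ' ⁻¹' W)) := by
      refine (if_contInv hψ).comp continuous_fst.continuousOn ?_
      rintro _ ⟨u, hu, rfl⟩
      exact ⟨u, hu.1, rfl⟩
    refine hc.congr ?_
    rintro _ ⟨u, hu, rfl⟩
    show Function.invFunOn ψ' (U ∩ ψ' ⁻¹' W) (ψ' u) = Function.invFunOn ψ U (ψ u)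
    rw [hinj.leftInvOn_invFunOn hu, if_leftInv hψ hu.1]
  · have : ψ' u₀ = z := by
      refine Prod.ext hu₀z ?_
      show f (ψ u₀) = z.2
      rw [hu₀z, hzg.1.2]
    rw [mem_preimage, this]; exact hzW
  · refine Prod.ext hu₀z ?_
    show f (ψ u₀) = z.2
    rw [hu₀z, hzg.1.2]
  · exact if_congr (if_mono (if_param_of_inter hO hψ) hU' inter_subset_left) fun u _ => rfl

/-! ### L-T3-Li-E: measures and minimisers under a `T3Iso` -/

section meas
variable [FiniteDimensional ℝ V] [FiniteDimensional ℝ V'] [MeasurableSpace V] [BorelSpace V]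
  [MeasurableSpace V'] [BorelSpace V']

/-- parametrisations correspond. -/
theorem T3Iso.param_iff (h : T3Iso d X M π) {ψ : E d → V'} {U : Set (E d)}
    (hU : ∀ u ∈ U, ψ u ∈ X) (hs : ContDiffOn ℝ ∞ ψ U) :
    IsParam X ψ U ↔ IsParam M (π ∘ ψ) U := by
  constructor
  · intro hψ
    have hinj : InjOn (π ∘ ψ) U := fun a ha b hb hab =>
      if_injOn hψ ha hb (h.inj (hU a ha) (hU b hb) hab)
    refine ⟨if_open hψ, π.contDiff.comp_contDiffOn hs, fun u hu => ?_, hinj, ?_, ?_⟩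
    · obtain ⟨U', -, huU', -, -, h2⟩ := h.toT3Li.param hψ hu
      exact if_imm h2 huU'
    · obtain ⟨O₁, hO₁, he⟩ := if_image hψ
      obtain ⟨O₂, hO₂, he₂⟩ := h.toT3Li.image_open hO₁
      exact ⟨O₂, hO₂, by rw [image_comp, he, he₂]⟩
    · have hc : ContinuousOn (Function.invFunOn ψ U ∘ Function.invFunOn π X) ((π ∘ ψ) '' U) := by
        refine (if_contInv hψ).comp (h.continuousOn_inv.mono ?_) ?_
        · rintro _ ⟨u, hu, rfl⟩
          exact h.toT3Li.maps (hU u hu)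
        · rintro _ ⟨u, hu, rfl⟩
          show Function.invFunOn π X (π (ψ u)) ∈ ψ '' U
          rw [h.inj.leftInvOn_invFunOn (hU u hu)]
          exact ⟨u, hu, rfl⟩
      refine hc.congr ?_
      rintro _ ⟨u, hu, rfl⟩
      show Function.invFunOn (π ∘ ψ) U ((π ∘ ψ) u) =
        Function.invFunOn ψ U (Function.invFunOn π X (π (ψ u)))
      rw [hinj.leftInvOn_invFunOn hu, h.inj.leftInvOn_invFunOn (hU u hu), if_leftInv hψ hu]
  · intro hψ
    have hinj : InjOn ψ U := fun a ha b hb hab =>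
      if_injOn hψ ha hb (congrArg π hab)
    refine ⟨if_open hψ, hs, fun u hu => ?_, hinj, ?_, ?_⟩
    · have hd : DifferentiableAt ℝ ψ u :=
        (hs.contDiffAt ((if_open hψ).mem_nhds hu)).differentiableAt (by simp)
      have h1 : fderiv ℝ (π ∘ ψ) u = π.comp (fderiv ℝ ψ u) :=
        (π.hasFDerivAt.comp u hd.hasFDerivAt).fderiv
      have h2 := if_imm hψ hu
      rw [h1] at h2
      intro a b hab
      exact h2 (congrArg π hab)
    · obtain ⟨O, hO, he⟩ := if_image hψ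
      refine ⟨π ⁻¹' O, hO.preimage π.continuous, ?_⟩
      ext z
      constructor
      · rintro ⟨u, hu, rfl⟩
        have : π (ψ u) ∈ M ∩ O := by rw [← he]; exact ⟨u, hu, rfl⟩
        exact ⟨hU u hu, this.2⟩
      · rintro ⟨hz, hzO⟩
        have : π z ∈ (π ∘ ψ) '' U := by rw [he]; exact ⟨h.toT3Li.maps hz, hzO⟩
        obtain ⟨u, hu, huz⟩ := this
        exact ⟨u, hu, h.inj (hU u hu) hz huz⟩
    · have hc : ContinuousOn (Function.invFunOn (π ∘ ψ) U ∘ π) (ψ '' U) := by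
        refine (if_contInv hψ).comp π.continuous.continuousOn ?_
        rintro _ ⟨u, hu, rfl⟩
        exact ⟨u, hu, rfl⟩
      refine hc.congr ?_
      rintro _ ⟨u, hu, rfl⟩
      show Function.invFunOn ψ U (ψ u) = Function.invFunOn (π ∘ ψ) U ((π ∘ ψ) u)
      rw [hinj.leftInvOn_invFunOn hu, if_leftInv hψ hu]

/-- parametrisations of `M` lift (PROVED). -/
theorem T3Iso.lift (h : T3Iso d X M π) {ψ : E d → V} {U : Set (E d)} (hψ : IsParam M ψ U) :
    IsParam X (Function.invFunOn π X ∘ ψ) U ∧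
      ∀ u ∈ U, π (Function.invFunOn π X (ψ u)) = ψ u := by
  have hmem : ∀ u ∈ U, ψ u ∈ π '' X := fun u hu => by rw [h.surj]; exact if_mem hψ hu
  have hr : ∀ u ∈ U, π (Function.invFunOn π X (ψ u)) = ψ u := fun u hu =>
    Function.invFunOn_eq (hmem u hu)
  refine ⟨?_, hr⟩
  have hX : ∀ u ∈ U, (Function.invFunOn π X ∘ ψ) u ∈ X := fun u hu =>
    Function.invFunOn_mem (hmem u hu)
  have hs : ContDiffOn ℝ ∞ (Function.invFunOn π X ∘ ψ) U := by
    intro u hu
    obtain ⟨ψ₀, U₀, h1, ⟨u₀, hu₀, he⟩, h2⟩ := h.chart _ (hX u hu)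
    have he' : ψ u = (π ∘ ψ₀) u₀ := by
      show ψ u = π (ψ₀ u₀)
      rw [he]; exact (hr u hu).symm
    have hT := if_mem_trDom hu hu₀ he'
    have hev : Function.invFunOn π X ∘ ψ =ᶠ[𝓝 u] ψ₀ ∘ if_tr (π ∘ ψ₀) U₀ ψ := by
      filter_upwards [(if_isOpen_trDom hψ h2).mem_nhds hT] with w hw
      have h3 : (π ∘ ψ₀) (if_tr (π ∘ ψ₀) U₀ ψ w) = ψ w := if_tr_spec hw
      show Function.invFunOn π X (ψ w) = ψ₀ (if_tr (π ∘ ψ₀) U₀ ψ w)
      rw [← h3]
      exact h.inj.leftInvOn_invFunOn (if_mem h1 (if_tr_mem hw))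
    have h4 : ContDiffAt ℝ ∞ (ψ₀ ∘ if_tr (π ∘ ψ₀) U₀ ψ) u :=
      (if_contDiffAt h1 (if_tr_mem hT)).comp u (if_tr_contDiffAt hψ h2 hT)
    exact (h4.congr_of_eventuallyEq hev).contDiffWithinAt
  rw [h.param_iff hX hs]
  exact if_congr hψ fun u hu => hr u hu

/-- transport of measures: it suffices to compare on parametrised pieces (PROVED). -/
theorem T3Iso.map_eq (h : T3Iso d X M π) (hM : IsMfd d M) {μ : Measure V'} {ν : Measure V}
    (hμ : μ Xᶜ = 0) (hν : ν Mᶜ = 0)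
    (H : ∀ (ψ : E d → V') (U : Set (E d)), IsParam X ψ U → IsParam M (π ∘ ψ) U → ∀ B ⊆ U,
      MeasurableSet B → μ (ψ '' B) = ν ((π ∘ ψ) '' B)) : Measure.map π μ = ν := by
  have hπ : Measurable π := π.continuous.measurable
  have hMm : MeasurableSet M := if_measurableSet hM
  refine if_measure_ext_charts hM ?_ hν fun ψ U hψ B hB hBm => ?_
  · rw [Measure.map_apply hπ hMm.compl]
    refine measure_mono_null (fun z hz hzX => hz (h.toT3Li.maps hzX)) hμ
  · obtain ⟨h1, hr⟩ := h.lift hψ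
    have h2 : IsParam M (π ∘ (Function.invFunOn π X ∘ ψ)) U := if_congr hψ fun u hu => hr u hu
    rw [Measure.map_apply hπ (if_measurableSet_image hψ hBm hB), ← measure_inter_conull hμ]
    have e1 : π ⁻¹' (ψ '' B) ∩ X = (Function.invFunOn π X ∘ ψ) '' B := by
      ext z
      constructor
      · rintro ⟨⟨u, hu, huz⟩, hzX⟩
        refine ⟨u, hu, ?_⟩
        show Function.invFunOn π X (ψ u) = z
        rw [huz]; exact h.inj.leftInvOn_invFunOn hzX
      · rintro ⟨u, hu, rfl⟩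
        exact ⟨⟨u, hu, (hr u (hB hu)).symm⟩, if_mem h1 (hB hu)⟩
    have e2 : (π ∘ (Function.invFunOn π X ∘ ψ)) '' B = ψ '' B :=
      image_congr fun u hu => hr u (hB hu)
    rw [e1, H _ U h1 h2 B hB hBm, e2]

theorem T3Iso.apply_of_map (h : T3Iso d X M π) {μ : Measure V'} {ν : Measure V}
    (hμ : μ Xᶜ = 0) (hmap : Measure.map π μ = ν) {A : Set V} (hA : MeasurableSet A) :
    μ (X ∩ π ⁻¹' A) = ν A := by
  rw [← hmap, Measure.map_apply π.continuous.measurable hA, inter_comm, measure_inter_conull hμ]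

theorem T3Iso.map_vol (h : T3Iso d X M π) (hG : CtGeo d M g t) :
    Measure.map π (vol d X (t3pT π g)) = vol d M g := by
  refine h.map_eq hG.mfd (if_vol_compl h.toT3Li.mfd _) (if_vol_compl hG.mfd _)
    fun ψ U hψ hψ' B hB hBm => ?_
  rw [if_vol_image h.toT3Li.mfd _ hψ hB hBm, if_vol_image hG.mfd _ hψ' hB hBm]
  refine setLIntegral_congr_fun hBm fun u hu => ?_
  rw [t3li_cm π g (if_differentiableAt hψ (hB hu))]

theorem T3Iso.map_wvol (h : T3Iso d X M π) (hG : CtGeo d M g t) :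
    Measure.map π (wvol d X (t3pT π g) (fun z => t (π z))) = wvol d M g t := by
  have hG' := h.toT3Li.geo hG
  refine h.map_eq hG.mfd (ct_wvol_compl hG') (ct_wvol_compl hG) fun ψ U hψ hψ' B hB hBm => ?_
  rw [ct_wvol_chart hG' hψ hB hBm, ct_wvol_chart hG hψ' hB hBm]
  refine setLIntegral_congr_fun hBm fun u hu => ?_
  simp only [ctRho]
  rw [t3li_cm π g (if_differentiableAt hψ (hB hu))]
  rfl

theorem T3Iso.map_wper (h : T3Iso d X M π) (hG : CtGeo d M g t) {A : Set V}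
    (hA : MeasurableSet A) :
    Measure.map π (wper d X (t3pT π g) (fun z => t (π z)) (X ∩ π ⁻¹' A)) = wper d M g t A := by
  have hG' := h.toT3Li.geo hG
  have hXm : MeasurableSet X := if_measurableSet h.toT3Li.mfd
  have hA' : MeasurableSet (X ∩ π ⁻¹' A) := hXm.inter (π.continuous.measurable hA)
  refine h.map_eq hG.mfd (ct_wper_compl_M hG' hA') (ct_wper_compl_M hG hA)
    fun ψ U hψ hψ' B hB hBm => ?_
  rw [ct_wper_chart hG' hψ hA' hB hBm, ct_wper_chart hG hψ' hA hB hBm]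
  have e1 : ctPre ψ U (X ∩ π ⁻¹' A) = ctPre (π ∘ ψ) U A := by
    ext u
    constructor
    · rintro ⟨hu1, hu2⟩
      exact ⟨hu1.2, hu2⟩
    · rintro ⟨hu1, hu2⟩
      exact ⟨⟨if_mem hψ hu2, hu1⟩, hu2⟩
  rw [e1]
  refine Gmt.gmtPerM_congr_int _ (if_open hψ) (fun u hu ξ => ?_) hB
  simp only [ctA]
  rw [t3li_cm π g (if_differentiableAt hψ hu)]
  rfl

theorem T3Iso.vol (h : T3Iso d X M π) (hG : CtGeo d M g t) {A : Set V} (hA : MeasurableSet A) :
    vol d X (t3pT π g) (X ∩ π ⁻¹' A) = vol d M g A :=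
  h.apply_of_map (if_vol_compl h.toT3Li.mfd _) (h.map_vol hG) hA

theorem T3Iso.wvol (h : T3Iso d X M π) (hG : CtGeo d M g t) {A : Set V} (hA : MeasurableSet A) :
    wvol d X (t3pT π g) (fun z => t (π z)) (X ∩ π ⁻¹' A) = wvol d M g t A :=
  h.apply_of_map (ct_wvol_compl (h.toT3Li.geo hG)) (h.map_wvol hG) hA

theorem T3Iso.wper (h : T3Iso d X M π) (hG : CtGeo d M g t) {A : Set V} (hA : MeasurableSet A)
    {B : Set V} (hB : MeasurableSet B) :
    wper d X (t3pT π g) (fun z => t (π z)) (X ∩ π ⁻¹' A) (X ∩ π ⁻¹' B) = wper d M g t A B :=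
  h.apply_of_map (ct_wper_compl_M (h.toT3Li.geo hG)
    ((if_measurableSet h.toT3Li.mfd).inter (π.continuous.measurable hA))) (h.map_wper hG hA) hB

/-- transport of integrals; no measurability of the integrand is needed (PROVED). -/
theorem T3Iso.integral_of_map (h : T3Iso d X M π) {μ : Measure V'} {ν : Measure V}
    (hμ : μ Xᶜ = 0) (hmap : Measure.map π μ = ν) (G : V → ℝ) :
    ∫ z, G (π z) ∂μ = ∫ x, G x ∂ν := by
  have hXm : MeasurableSet X := if_measurableSet h.toT3Li.mfd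
  have he : MeasurableEmbedding (X.domRestrict π) :=
    ContinuousOn.measurableEmbedding hXm π.continuous.continuousOn h.inj
  have h1 : (Measure.comap ((↑) : X → V') μ).map (↑) = μ := by
    rw [map_comap_subtype_coe hXm]
    exact Measure.restrict_eq_self_of_ae_mem (by
      rw [ae_iff]; exact hμ)
  have h2 : (Measure.comap ((↑) : X → V') μ).map (X.domRestrict π) = ν := by
    rw [← hmap]
    conv_rhs => rw [← h1]
    rw [Measure.map_map π.continuous.measurable measurable_subtype_coe]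
    rfl
  rw [← h2, he.integral_map]
  conv_lhs => rw [← h1]
  rw [(MeasurableEmbedding.subtype_coe hXm).integral_map]
  rfl

theorem T3Iso.setIntegral_of_map (h : T3Iso d X M π) {μ : Measure V'} {ν : Measure V}
    (hμ : μ Xᶜ = 0) (hmap : Measure.map π μ = ν) (G : V → ℝ) {S : Set V} (hS : MeasurableSet S) :
    ∫ z in X ∩ π ⁻¹' S, G (π z) ∂μ = ∫ x in S, G x ∂ν := by
  have hXm : MeasurableSet X := if_measurableSet h.toT3Li.mfd
  rw [← integral_indicator hS, ← h.integral_of_map hμ hmap,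
    ← integral_indicator (hXm.inter (π.continuous.measurable hS))]
  refine integral_congr_ae ?_
  have hae : ∀ᵐ z ∂μ, z ∈ X := by rw [ae_iff]; exact hμ
  filter_upwards [hae] with z hz
  by_cases hzS : π z ∈ S
  · rw [indicator_of_mem (show z ∈ X ∩ π ⁻¹' S from ⟨hz, hzS⟩), indicator_of_mem hzS]
  · rw [indicator_of_notMem (fun h' : z ∈ X ∩ π ⁻¹' S => hzS h'.2), indicator_of_notMem hzS]

/-- preimages and images (PROVED). -/
theorem T3Iso.pre_image (h : T3Iso d X M π) {B : Set V'} (hB : B ⊆ X) :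
    X ∩ π ⁻¹' (π '' B) = B := by
  ext z
  constructor
  · rintro ⟨hz, b, hb, hbz⟩
    rw [← h.inj (hB hb) hz hbz]; exact hb
  · intro hz
    exact ⟨hB hz, z, hz, rfl⟩

theorem T3Iso.image_pre (h : T3Iso d X M π) {A : Set V} (hA : A ⊆ M) :
    π '' (X ∩ π ⁻¹' A) = A := by
  ext x
  constructor
  · rintro ⟨z, hz, rfl⟩
    exact hz.2
  · intro hx
    have : x ∈ π '' X := by rw [h.surj]; exact hA hx
    obtain ⟨z, hz, rfl⟩ := this
    exact ⟨z, ⟨hz, hx⟩, rfl⟩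

theorem T3Iso.compact_pre (h : T3Iso d X M π) {K : Set V} (hK : IsCompact K) (hKM : K ⊆ M) :
    IsCompact (X ∩ π ⁻¹' K) := by
  have : X ∩ π ⁻¹' K = Function.invFunOn π X '' K := by
    ext z
    constructor
    · rintro ⟨hz, hzK⟩
      exact ⟨π z, hzK, h.inj.leftInvOn_invFunOn hz⟩
    · rintro ⟨x, hx, rfl⟩
      have hx' : x ∈ π '' X := by rw [h.surj]; exact hKM hx
      refine ⟨Function.invFunOn_mem hx', ?_⟩
      rw [mem_preimage, Function.invFunOn_eq hx']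
      exact hx
  rw [this]
  exact hK.image_of_continuousOn (h.continuousOn_inv.mono hKM)

theorem T3Iso.measurable_image (h : T3Iso d X M π) {B : Set V'} (hB : MeasurableSet B)
    (hBX : B ⊆ X) : MeasurableSet (π '' B) :=
  hB.image_of_continuousOn_injOn π.continuous.continuousOn (h.inj.mono hBX)

theorem T3Iso.lf (h : T3Iso d X M π) (hG : CtGeo d M g t) {A : Set V} (hAM : A ⊆ M) :
    CtLF d M g t A ↔ CtLF d X (t3pT π g) (fun z => t (π z)) (X ∩ π ⁻¹' A) := by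
  have hXm : MeasurableSet X := if_measurableSet h.toT3Li.mfd
  constructor
  · intro hA
    refine ⟨hXm.inter (π.continuous.measurable hA.meas), inter_subset_left, fun K hK hKX => ?_⟩
    rw [← h.pre_image hKX, h.wper hG hA.meas (hK.image π.continuous).isClosed.measurableSet]
    refine hA.fin _ (hK.image π.continuous) ?_
    rintro _ ⟨z, hz, rfl⟩
    exact h.toT3Li.maps (hKX hz)
  · intro hA
    have hAm : MeasurableSet A := by
      rw [← h.image_pre hAM]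
      exact h.measurable_image hA.meas inter_subset_left
    refine ⟨hAm, hAM, fun K hK hKM => ?_⟩
    rw [← h.wper hG hAm hK.isClosed.measurableSet]
    exact hA.fin _ (h.compact_pre hK hKM) inter_subset_left

/-- energies correspond (PROVED). -/
theorem T3Iso.en (h : T3Iso d X M π) (hG : CtGeo d M g t) {A K : Set V} (hA : MeasurableSet A)
    (hK : MeasurableSet K) :
    ctEn d X (t3pT π g) (fun z => t (π z)) (fun z => p (π z)) (X ∩ π ⁻¹' A) (X ∩ π ⁻¹' K) =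
      ctEn d M g t p A K := by
  have e : X ∩ π ⁻¹' A ∩ (X ∩ π ⁻¹' K) = X ∩ π ⁻¹' (A ∩ K) := by
    ext z; simp only [mem_inter_iff, mem_preimage]; tauto
  simp only [ctEn]
  rw [h.wper hG hA hK, e, h.setIntegral_of_map (ct_wvol_compl (h.toT3Li.geo hG)) (h.map_wvol hG) p
    (hA.inter hK)]

/-- **minimisers correspond.** -/
theorem T3Iso.lam (h : T3Iso d X M π) (hG : CtGeo d M g t) {A : Set V} (hAM : A ⊆ M) :
    CtLAM d M g t p A ↔
      CtLAM d X (t3pT π g) (fun z => t (π z)) (fun z => p (π z)) (X ∩ π ⁻¹' A) := by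
  constructor
  · intro hA
    refine ⟨(h.lf hG hAM).1 hA.lf, fun K B hK hKX hB hs => ?_⟩
    have hBM : π '' B ⊆ M := by
      rintro _ ⟨z, hz, rfl⟩
      exact h.toT3Li.maps (hB.sub hz)
    have hKM : π '' K ⊆ M := by
      rintro _ ⟨z, hz, rfl⟩
      exact h.toT3Li.maps (hKX hz)
    have hB' : CtLF d M g t (π '' B) := by
      rw [h.lf hG hBM, h.pre_image hB.sub]; exact hB
    have hKc := hK.image π.continuous
    have h1 := hA.min (π '' K) (π '' B) hKc hKM hB' (by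
      rintro x (⟨hxA, hxB⟩ | ⟨hxB, hxA⟩)
      · have : x ∈ π '' X := by rw [h.surj]; exact hAM hxA
        obtain ⟨z, hz, rfl⟩ := this
        exact ⟨z, hs (Or.inl ⟨⟨hz, hxA⟩, fun hzB => hxB ⟨z, hzB, rfl⟩⟩), rfl⟩
      · obtain ⟨z, hz, rfl⟩ := hxB
        exact ⟨z, hs (Or.inr ⟨hz, fun hzA => hxA hzA.2⟩), rfl⟩)
    rw [← h.en hG hA.lf.meas hKc.isClosed.measurableSet,
      ← h.en hG hB'.meas hKc.isClosed.measurableSet, h.pre_image hKX, h.pre_image hB.sub] at h1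
    exact h1
  · intro hA
    have hlf := (h.lf hG hAM).2 hA.lf
    refine ⟨hlf, fun K B hK hKM hB hs => ?_⟩
    have h1 := hA.min (X ∩ π ⁻¹' K) (X ∩ π ⁻¹' B) (h.compact_pre hK hKM) inter_subset_left
      ((h.lf hG hB.sub).1 hB) (by
      rintro z (⟨hzA, hzB⟩ | ⟨hzB, hzA⟩)
      · exact ⟨hzA.1, hs (Or.inl ⟨hzA.2, fun hb => hzB ⟨hzA.1, hb⟩⟩)⟩
      · exact ⟨hzB.1, hs (Or.inr ⟨hzB.2, fun ha => hzA ⟨hzB.1, ha⟩⟩)⟩)
    rw [h.en hG hlf.meas hK.isClosed.measurableSet, h.en hG hB.meas hK.isClosed.measurableSet] at h1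
    exact h1

end meas

/-! ### L-T3-Li-F: hypersurfaces -/

section hyp
variable [FiniteDimensional ℝ V] [FiniteDimensional ℝ V']

/-- regularity of a function at a point does not depend on the parametrisation (PROVED). -/
theorem t3_reg_chart {f : V → ℝ} {ψ ψ' : E d → V} {U U' : Set (E d)} (hψ : IsParam M ψ U)
    (hψ' : IsParam M ψ' U') {u u' : E d} (hu : u ∈ U) (hu' : u' ∈ U') (he : ψ u = ψ' u')
    (hd : DifferentiableAt ℝ (f ∘ ψ') u') (h0 : fderiv ℝ (f ∘ ψ') u' ≠ 0) :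
    fderiv ℝ (f ∘ ψ) u ≠ 0 := by
  intro hz
  apply h0
  have hT := if_mem_trDom hu hu' he
  have hT' := if_mem_trDom hu' hu he.symm
  have e := if_tr_eq hψ' hu' he
  have e' := if_tr_eq hψ hu he.symm
  have h1 : fderiv ℝ (f ∘ ψ) u = (fderiv ℝ (f ∘ ψ') u').comp (fderiv ℝ (if_tr ψ' U' ψ) u) := by
    rw [(if_comp_eventuallyEq f hψ hψ' hT).fderiv_eq]
    have := fderiv_comp u (g := f ∘ ψ') (f := if_tr ψ' U' ψ) (by rw [e]; exact hd)
      (if_tr_differentiableAt hψ hψ' hT)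
    rw [this, e]
  have h2 := if_fderiv_tr_comp hψ' hψ hT'
  rw [e'] at h2
  have h3 : fderiv ℝ (f ∘ ψ') u' =
      ((fderiv ℝ (f ∘ ψ') u').comp (fderiv ℝ (if_tr ψ' U' ψ) u)).comp
        (fderiv ℝ (if_tr ψ U ψ') u') := by
    rw [ContinuousLinearMap.comp_assoc, h2, ContinuousLinearMap.comp_id]
  rw [h3, ← h1, hz, ContinuousLinearMap.zero_comp]

/-- defining functions pull back. -/
theorem T3Li.def_up (h : T3Li d X M π) {S O : Set V} {φ : V → ℝ} (hS : T3Def d M S O φ)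
    {W : Set V'} (hW : IsOpen W) :
    T3Def d X (X ∩ W ∩ π ⁻¹' S) (W ∩ π ⁻¹' O) (fun z => φ (π z)) := by
  have hset : X ∩ (W ∩ π ⁻¹' O) = X ∩ π ⁻¹' O ∩ W := by
    ext x; simp only [mem_inter_iff, mem_preimage]; tauto
  have hli : T3Li d (X ∩ (W ∩ π ⁻¹' O)) (M ∩ O) π := by
    rw [hset]; exact (h.inter_pre hS.opn).inter hW
  refine ⟨hW.inter (hS.opn.preimage π.continuous), ?_, hli.smooth hS.smooth, fun x hx => ?_,
    fun ψ U hψ u hu h0 => ?_⟩
  · rintro x ⟨⟨hx, hxW⟩, hxS⟩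
    exact ⟨hx, hxW, (hS.sub hxS).2⟩
  · rw [hS.zero (π x) ⟨h.maps hx.1, hx.2.2⟩]
    exact ⟨fun hs => ⟨⟨hx.1, hx.2.1⟩, hs⟩, fun hs => hs.2⟩
  · obtain ⟨U', -, huU', -, -, h2⟩ := hli.param hψ hu
    exact hS.reg (π ∘ ψ) U' h2 u huU' h0

/-- defining functions descend along an injective piece. -/
theorem T3Li.def_down (h : T3Li d X M π) {S W : Set V'} {φ : V' → ℝ} (hS : T3Def d X S W φ)
    (hinj : InjOn π (X ∩ W)) :
    ∃ (O : Set V) (φ' : V → ℝ), T3Def d M (π '' S) O φ' ∧ π '' (X ∩ W) = M ∩ O ∧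
      ∀ z ∈ X ∩ W, φ' (π z) = φ z := by
  obtain ⟨O, hO, himg⟩ := h.image_open hS.opn
  have hiso := h.iso_of_injOn hS.opn hO hinj himg
  have hφ : ∀ z ∈ X ∩ W, (φ ∘ Function.invFunOn π (X ∩ W)) (π z) = φ z := fun z hz => by
    show φ (Function.invFunOn π (X ∩ W) (π z)) = φ z
    rw [hinj.leftInvOn_invFunOn hz]
  refine ⟨O, φ ∘ Function.invFunOn π (X ∩ W), ⟨hO, ?_, ?_, fun x hx => ?_,
    fun ψ U hψ u hu h0 => ?_⟩, himg, hφ⟩
  · rw [← himg]
    exact image_mono hS.sub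
  · refine if_smoothAlong_of_atlas fun x hx => ?_
    rw [← himg] at hx
    obtain ⟨z, hz, rfl⟩ := hx
    obtain ⟨ψ, U, h1, ⟨u, hu, rfl⟩, h2⟩ := hiso.chart z hz
    refine ⟨π ∘ ψ, U, h2, ⟨u, hu, rfl⟩, (hS.smooth ψ U h1).congr fun w hw => ?_⟩
    exact hφ (ψ w) (if_mem h1 hw)
  · rw [← himg] at hx
    obtain ⟨z, hz, rfl⟩ := hx
    rw [hφ z hz, hS.zero z hz]
    constructor
    · intro hs; exact ⟨z, hs, rfl⟩
    · rintro ⟨s, hs, hsz⟩
      rw [← hinj (hS.sub hs) hz hsz]; exact hs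
  · have hx : ψ u ∈ M ∩ O := if_mem hψ hu
    rw [← himg] at hx
    obtain ⟨z, hz, hzu⟩ := hx
    obtain ⟨ψ₀, U₀, h1, ⟨u₀, hu₀, rfl⟩, h2⟩ := hiso.chart z hz
    have hev : (φ ∘ Function.invFunOn π (X ∩ W)) ∘ (π ∘ ψ₀) =ᶠ[𝓝 u₀] φ ∘ ψ₀ := by
      filter_upwards [(if_open h1).mem_nhds hu₀] with w hw
      exact hφ (ψ₀ w) (if_mem h1 hw)
    have hd0 : DifferentiableAt ℝ (φ ∘ ψ₀) u₀ := if_smoothAlong_differentiableAt hS.smooth h1 hu₀
    refine t3_reg_chart hψ h2 hu hu₀ hzu.symm (hev.differentiableAt_iff.2 hd0) ?_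
    rw [hev.fderiv_eq]
    refine hS.reg ψ₀ U₀ h1 u₀ hu₀ ?_
    rw [← hφ _ hz, hzu]
    exact h0

/-- closed hypersurfaces descend along an injective piece. -/
theorem T3Li.hyp_down (h : T3Li d X M π) {S W : Set V'} (hW : IsOpen W) (hSW : S ⊆ W)
    (hinj : InjOn π (X ∩ W)) (hS : T3Hyp d X S) : T3Hyp d M (π '' S) := by
  obtain ⟨hc, hconn, O, φ, hdf⟩ := hS
  have hdf' : T3Def d X S (O ∩ W) φ := by
    have hset : X ∩ (O ∩ W) = X ∩ O ∩ W := (inter_assoc _ _ _).symm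
    refine ⟨hdf.opn.inter hW, fun x hx => ⟨(hdf.sub hx).1, (hdf.sub hx).2, hSW hx⟩, ?_,
      fun x hx => hdf.zero x ⟨hx.1, hx.2.1⟩, fun ψ U hψ u hu h0 => ?_⟩
    · rw [hset]; exact if_smoothAlong_inter hdf.smooth hW
    · refine hdf.reg ψ U ?_ u hu h0
      rw [hset] at hψ
      exact if_param_of_inter hW hψ
  obtain ⟨O', φ', h1, -, -⟩ := h.def_down hdf' (hinj.mono (fun x hx => (⟨hx.1, hx.2.2⟩ : x ∈ X ∩ W)))
  exact ⟨hc.image π.continuous, hconn.image π π.continuous.continuousOn, O', φ', h1⟩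

/-- closed hypersurfaces lift along a bijective piece. -/
theorem T3Li.hyp_up (h : T3Li d X M π) {W : Set V'} (hW : IsOpen W) (hinj : InjOn π (X ∩ W))
    {S : Set V} (hSW : S ⊆ π '' (X ∩ W)) (hS : T3Hyp d M S) : T3Hyp d X (X ∩ W ∩ π ⁻¹' S) := by
  obtain ⟨hc, hconn, O, φ, hdf⟩ := hS
  obtain ⟨O', hO', himg⟩ := h.image_open hW
  have hiso := h.iso_of_injOn hW hO' hinj himg
  have hci := hiso.continuousOn_inv
  have hSO : S ⊆ M ∩ O' := by rw [← himg]; exact hSW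
  have he : X ∩ W ∩ π ⁻¹' S = Function.invFunOn π (X ∩ W) '' S := by
    ext z
    constructor
    · rintro ⟨hz, hzS⟩
      exact ⟨π z, hzS, hinj.leftInvOn_invFunOn hz⟩
    · rintro ⟨x, hx, rfl⟩
      have hx' := hSW hx
      refine ⟨Function.invFunOn_mem hx', ?_⟩
      rw [mem_preimage, Function.invFunOn_eq hx']
      exact hx
  refine ⟨?_, ?_, _, _, h.def_up hdf hW⟩
  · rw [he]; exact hc.image_of_continuousOn (hci.mono hSO)
  · rw [he]; exact hconn.image _ (hci.mono hSO)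

end hyp

end Claimed.Agent.R315
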