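-- KEEP
import Claimed.Agent.R315.T3.Bub
import Claimed.Agent.R315.T3.Gw

/-!
# Row 315, paper T (n = 3), package T3-Two: surfaces with positive drift curvature are small (T Prop. 2.5, Lemma 2.6)

Sub-captain: helper72.  NO geodesics, NO Gauss-Bonnet, NO conformal change: the bubble theorem in dimension `2`.
* `t3_col_empty`, `t3_rdist_sub` : trivialities;
* `t3_two`       `(S,k,U)` connected surface, `D(k,U) ≥ c > κ`, closed ball of radius `R > 4 + 4π/√κ` about `x₀` compact ⟹ `S` lies in the open ball;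
* `t3_cut_tame`  a cut surface is a surface with a drift `U`, `D(g|S, U) > 5/8`;
* `t3_cut_idiam` cut surfaces have intrinsic diameter `< 21`.
LEAVES: L-T3-Two-A (`t3_col_empty`, `t3_rdist_sub`), L-T3-Two-B (`t3_two`), L-T3-Two-C (`t3_cut_tame`), L-T3-Two-D (`t3_cut_idiam`).
-/

set_option autoImplicit false
set_option linter.unusedSectionVars false
open scoped ContDiff Topology
open MeasureTheory Claims.C0499 Set

namespace Claimed.Agent.R315

variable {V : Type} [NormedAddCommGroup V] [NormedSpace ℝ V] [FiniteDimensional ℝ V]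

/-- distances in a subset are larger.  [the curves of `S` are curves of `M`: `if_le_rdist`, `if_rdist_le'`.] -/
theorem t3_rdist_sub {S M : Set V} (g : Ten V) (hSM : S ⊆ M) {x y : V} (hj : if_Join S x y) :
    rdist M g x y ≤ rdist S g x y := by
  refine if_le_rdist hj fun c hc hx hy => ?_
  exact if_rdist_le' ⟨hc.1, fun t ht => hSM (hc.2 t ht)⟩ g hx hy

variable [MeasurableSpace V] [BorelSpace V]

/-- no collars. -/
theorem t3_col_empty {d : ℕ} {X : Set V} {h : Ten V} {t : V → ℝ} (hG : CtGeo d X h t) :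
    T3Col d X h t (fun i : Empty => i.elim) (fun i : Empty => i.elim) (fun i : Empty => i.elim) ∧
      t3Int X (fun i : Empty => i.elim) (fun i : Empty => i.elim) = X ∧
      t3Core X (fun i : Empty => i.elim) (fun i : Empty => i.elim) = X := by
  refine ⟨⟨hG, fun i => i.elim, fun i => i.elim, fun i => i.elim, fun i => i.elim,
    fun i => i.elim, fun i => i.elim, fun x _ => ⟨univ, Filter.univ_mem, ?_⟩⟩, ?_, ?_⟩
  · exact Set.toFinite _
  · unfold t3Int t3Ext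
    ext x
    simp
  · unfold t3Core t3ExtO
    ext x
    simp

/-- **L-T3-Two-B.**
[Suppose `R ≤ r y₁`, `r = rdist S k x₀`.  `t3_smooth_lip` (`ε = 1`, `t3_rdist_lip`): `ρ`, `|ρ - r| < 1`, `gradSq ρ ≤ 4`.  `a = 2`, `b = R - 2`, `m₁ = m₂ = R/2`: `m₁ - a = b - m₂ = (R-4)/2 > 2π/√κ`.
`T3Band 2 S k U` without collars; `{1 ≤ ρ ≤ R-1}` is a relatively closed subset of the compact ball `{r ≤ R}`.  `t3_bubble` (`m = 1`, `c' = γ = (c-κ)/2`): every `F j` is a compact nonempty `1`-manifold with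
`D > c' > 0`: impossible (`t3_no_curve`), so there is no `F j` and `S = Up ∪ Um`, `x₀ ∈ Up` (`ρ x₀ < 1`), `y₁ ∈ Um` (`ρ y₁ > R - 1`): `S` is not preconnected.] -/
theorem t3_two {S : Set V} {k : Ten V} {U : V → ℝ} (hG : CtGeo 2 S k U) (hc : IsPreconnected S)
    {c κ R : ℝ} (hκ : 0 < κ) (hκc : κ < c) (hD : ∀ x ∈ S, c ≤ Dsc 2 S k U x)
    (hR : 4 + 4 * Real.pi / Real.sqrt κ < R) {x₀ : V} (hx₀ : x₀ ∈ S)
    (hcpt : IsCompact {y | y ∈ S ∧ rdist S k x₀ y ≤ R}) : ∀ y ∈ S, rdist S k x₀ y < R := by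
  by_contra hcon
  push Not at hcon
  obtain ⟨y₁, hy₁, hRy⟩ := hcon
  obtain ⟨ρ, hρs, hρr, hρg⟩ := t3_smooth_lip hG.mfd hG.met (t3_rdist_lip hG.mfd hG.met hc hx₀)
    (ε := 1) one_pos
  obtain ⟨hcol, hInt, hCore⟩ := t3_col_empty hG
  have hρc : ContinuousOn ρ S := if_smoothAlong_continuousOn hG.mfd hρs
  have hq : 2 * Real.pi / Real.sqrt κ < R / 2 - 2 := by
    have e : 4 * Real.pi / Real.sqrt κ = 2 * (2 * Real.pi / Real.sqrt κ) := by ring
    rw [e] at hR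
    linarith
  have hB : T3Band (1 + 1) S k U (fun i : Empty => i.elim) (fun i : Empty => i.elim)
      (fun i : Empty => i.elim) ρ 2 (R / 2) (R / 2) (R - 2) κ := by
    refine ⟨hcol, hρs, fun x hx => (hρg x hx).trans (by norm_num), hκ, hq, le_rfl, by linarith, ?_,
      fun i => i.elim⟩
    rw [hCore]
    have hcl : IsClosed ({y | y ∈ S ∧ rdist S k x₀ y ≤ R} ∩ ρ ⁻¹' Icc (2 - 1) (R - 2 + 1)) :=
      (hρc.mono fun y hy => hy.1).preimage_isClosed_of_isClosed hcpt.isClosed isClosed_Icc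
    have he : {x | x ∈ S ∧ 2 - 1 ≤ ρ x ∧ ρ x ≤ R - 2 + 1}
        = {y | y ∈ S ∧ rdist S k x₀ y ≤ R} ∩ ρ ⁻¹' Icc (2 - 1) (R - 2 + 1) := by
      ext x
      constructor
      · rintro ⟨hx, h1, h2⟩
        refine ⟨⟨hx, ?_⟩, h1, h2⟩
        have := abs_lt.1 (hρr x hx)
        linarith [this.1]
      · rintro ⟨⟨hx, -⟩, h1, h2⟩
        exact ⟨hx, h1, h2⟩
    rw [he]
    exact hcpt.of_isClosed_subset hcl inter_subset_left
  have hγ : 0 < (c - κ) / 2 := by linarith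
  obtain ⟨n, F, Up, Um, hF, -, hUp, hUm, hdis, hun, hl, hr⟩ := t3_bubble (m := 1) hB le_rfl (by norm_num)
    (c := (c - κ) / 2) (γ := (c - κ) / 2) hγ (fun x hx _ _ => by
      rw [hInt] at hx
      have := hD x hx
      have e : (1 + 1 : ℕ) = 2 := rfl
      rw [e]
      linarith)
  have hn : ∀ j : Fin n, False := by
    intro j
    obtain ⟨⟨hFc, hFconn, -⟩, -, -, U', hG', hD'⟩ := hF j
    exact t3_no_curve hG'.mfd hG'.met hG'.drift hFc hFconn.nonempty hγ fun x hx => (hD' x hx).le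
  have hempty : (⋃ j, F j) = ∅ := by
    rw [iUnion_eq_empty]
    intro j
    exact (hn j).elim
  rw [hempty, sdiff_empty, hInt] at hun
  rw [hInt] at hl hr
  have hx₀U : x₀ ∈ Up := by
    refine hl x₀ hx₀ ?_
    have := abs_lt.1 (hρr x₀ hx₀)
    rw [if_rdist_self k hx₀] at this
    linarith [this.2]
  have hy₁U : y₁ ∈ Um := by
    refine hr y₁ hy₁ ?_
    have := abs_lt.1 (hρr y₁ hy₁)
    linarith [this.1]
  obtain ⟨O₁, hO₁, rfl⟩ := hUp
  obtain ⟨O₂, hO₂, rfl⟩ := hUm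
  obtain ⟨z, hzS, hz1, hz2⟩ := hc O₁ O₂ hO₁ hO₂ (fun z hz => by
      have : z ∈ S ∩ O₁ ∪ S ∩ O₂ := by rw [hun]; exact hz
      rcases this with h | h
      · exact Or.inl h.2
      · exact Or.inr h.2) ⟨x₀, hx₀U⟩ ⟨y₁, hy₁U⟩
  exact (disjoint_left.1 hdis) ⟨hzS, hz1⟩ ⟨hzS, hz2⟩

/-- **L-T3-Two-C.**
[`O, φ` from `T3Cut`.  `O' = O ∩ {gradSq φ > 0}` (relatively open: continuity of `gradSq φ`; contains `S` by `T3Def.reg`); `CtLAM.inter_open`; `CtDef 3 (M ∩ O') g {φ < 0} φ`; `CtDef.sets`: the wall is `S`;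
`t3_tame` with `p = 0`, `c = 5/8`, `γ = 1/8` (`gradN 0 = 0`: `gs_sq_const`; `Dsc` on the open piece: `if_Dsc_inter`); `ct_wall_geo`.] -/
theorem t3_cut_tame {M : Set V} {g : Ten V} {t : V → ℝ} (h : Drift 3 M g t (3 / 4)) {S : Set V}
    (hS : T3Cut M g t S) : ∃ U : V → ℝ, CtGeo 2 S g U ∧ ∀ x ∈ S, 5 / 8 < Dsc 2 S g U x := by
  obtain ⟨-, -, O, φ, hdef, hlam⟩ := hS
  have hGM : CtGeo 3 M g t := ⟨h.mfd, h.met, h.smooth⟩
  have hG1 : CtGeo 3 (M ∩ O) g t := hGM.inter hdef.opn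
  obtain ⟨O₂, hO₂, hO₂e⟩ := ct_exists_open_gt hG1 (if_gradSq_smoothAlong hG1.met hdef.smooth) 0
  have hG2 : CtGeo 3 (M ∩ O ∩ O₂) g t := hG1.inter hO₂
  have hlam2 := hlam.inter_open hG1 hO₂
  have hφ2 : SmoothAlong 3 (M ∩ O ∩ O₂) φ := if_smoothAlong_inter hdef.smooth hO₂
  have hSO₂ : S ⊆ M ∩ O ∩ O₂ := by
    intro x hx
    have hx1 := hdef.sub hx
    rw [hO₂e]
    refine ⟨hx1, ?_⟩
    obtain ⟨ψ, W, hψ, u, hu, rfl⟩ := hG1.mfd x hx1
    rw [ct_fderiv_ne hG1 hdef.smooth hψ hu]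
    exact hdef.reg ψ W hψ u hu ((hdef.zero _ hx1).2 hx)
  have hCD : CtDef 3 (M ∩ O ∩ O₂) g ({x | x ∈ M ∩ O ∧ φ x < 0} ∩ O₂) φ := by
    refine ⟨hφ2, fun x hx => ?_, ?_⟩
    · rw [if_gradSq_inter hG1.mfd hG1.met hO₂ hdef.smooth hx]
      have : x ∈ {x | x ∈ M ∩ O ∧ 0 < gradSq 3 (M ∩ O) g φ x} := hO₂e ▸ hx
      exact this.2
    · have e : ({x | x ∈ M ∩ O ∧ φ x < 0} ∩ O₂) = {x | x ∈ M ∩ O ∩ O₂ ∧ φ x < 0} := by
        ext x
        constructor
        · rintro ⟨⟨h1, h2⟩, h3⟩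
          exact ⟨⟨h1, h3⟩, h2⟩
        · rintro ⟨⟨h1, h3⟩, h2⟩
          exact ⟨⟨h1, h2⟩, h3⟩
      rw [e, symmDiff_self]
      exact measure_empty
  have hwall : ctWall (2 + 1) (M ∩ O ∩ O₂) ({x | x ∈ M ∩ O ∧ φ x < 0} ∩ O₂) = S := by
    have e3 : (2 + 1 : ℕ) = 3 := rfl
    rw [e3, (hCD.sets hG2).2.1]
    ext x
    constructor
    · rintro ⟨hx, h0⟩
      exact (hdef.zero x hx.1).1 h0
    · intro hx
      exact ⟨hSO₂ hx, (hdef.zero x (hdef.sub hx)).2 hx⟩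
  obtain ⟨U, hU, hDU⟩ := t3_tame (d := 2) (X := M ∩ O ∩ O₂) (h := g) (t := t) (p := fun _ => 0) hG2
    (by norm_num) (by norm_num) (gs_sm_const 0) hlam2 (c := 5 / 8) (γ := 1 / 8) (by norm_num)
    (fun x hx => by
      rw [hwall] at hx
      have hx2 := hSO₂ hx
      have e3 : (2 + 1 : ℕ) = 3 := rfl
      rw [e3]
      have h1 : Dsc 3 (M ∩ O ∩ O₂) g t x = Dsc 3 M g t x := by
        rw [if_Dsc_inter hG1.mfd hG1.met hO₂ hG1.drift hx2,
          if_Dsc_inter hGM.mfd hGM.met hdef.opn hGM.drift hx2.1]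
      have h2 : gradN 3 (M ∩ O ∩ O₂) g (fun _ => (0 : ℝ)) x = 0 := by
        unfold gradN
        rw [gs_sq_const hG2.mfd hG2.met 0 hx2, Real.sqrt_zero]
      rw [h1, h2]
      have := h.bound x hx2.1.1
      norm_num
      linarith)
  have hgeo := ct_wall_geo (d := 2) hG2 ({x | x ∈ M ∩ O ∧ φ x < 0} ∩ O₂)
  rw [hwall] at hU hDU hgeo
  exact ⟨U, ⟨hgeo.mfd, hgeo.met, hU⟩, hDU⟩

/-- **L-T3-Two-D.**
[`t3_cut_tame`, `t3_two` with `κ = 9/16`, `R = 21` (`4 + 16π/3 < 21` as `π < 3.15`); `S` is compact and `rdist S g x` is continuous on `S`; `if_join_of_connected`.] -/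
theorem t3_cut_idiam {M : Set V} {g : Ten V} {t : V → ℝ} (h : Drift 3 M g t (3 / 4)) {S : Set V}
    (hS : T3Cut M g t S) : ∀ x ∈ S, ∀ y ∈ S, if_Join S x y ∧ rdist S g x y < 21 := by
  obtain ⟨U, hG, hD⟩ := t3_cut_tame h hS
  obtain ⟨hSc, hSconn, -⟩ := hS
  intro x hx y hy
  refine ⟨if_join_of_connected hG.mfd hSconn.isPreconnected hx hy, ?_⟩
  have hsq : Real.sqrt (9 / 16) = 3 / 4 := by
    rw [show (9 / 16 : ℝ) = (3 / 4) ^ 2 by norm_num, Real.sqrt_sq (by norm_num)]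
  have hcont : ContinuousOn (rdist S g x) S :=
    if_rdist_continuousOn hG.mfd hSconn.isPreconnected (if_isMetricOn_iff.1 hG.met).1 hx
  have hcpt : IsCompact {y | y ∈ S ∧ rdist S g x y ≤ 21} := by
    have hcl : IsClosed (S ∩ rdist S g x ⁻¹' Iic 21) :=
      hcont.preimage_isClosed_of_isClosed hSc.isClosed isClosed_Iic
    exact hSc.of_isClosed_subset hcl inter_subset_left
  refine t3_two hG hSconn.isPreconnected (c := 5 / 8) (κ := 9 / 16) (R := 21) (by norm_num) (by norm_num)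
    (fun z hz => (hD z hz).le) ?_ hx hcpt y hy
  rw [hsq]
  have := Real.pi_lt_d2
  linarith

/-- **Diameter of cut surfaces** (T Proposition 2.5). -/
theorem t3_cut_diam' {M : Set V} {g : Ten V} {t : V → ℝ} (h : Drift 3 M g t (3 / 4)) {S : Set V}
    (hS : T3Cut M g t S) : ∀ x ∈ S, ∀ y ∈ S, rdist M g x y ≤ 30 := by
  intro x hx y hy
  obtain ⟨hj, hlt⟩ := t3_cut_idiam h hS x hx y hy
  obtain ⟨-, -, O, φ, hdef, -⟩ := hS
  have hSM : S ⊆ M := fun z hz => (hdef.sub hz).1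
  have := t3_rdist_sub g hSM hj
  linarith

end Claimed.Agent.R315
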