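-- KEEP
import Claimed.Agent.R315.T3.Two
import Claimed.Agent.R315.T3.Li

/-!
# Row 315, paper T (n = 3), package T3-Pc: pieces (= cut manifolds of complementary regions) and their radial functions

Sub-captain: helper72.
`T3Pc X h t B O φ`: a connected `3`-manifold with minimal exterior collars, `D(h,t) ≥ 3/4`, proper core, thin tubes (every point of a tube is at distance `≤ 1` from `B i`), `diam B i ≤ 21`.
* `t3_pe`       path estimate: a curve from `o` to `x` must cross a separating set `F`  (T Prop. 5.2, first step);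
* `t3pc_bub`    bubbles at distance `≈ l` from `o`: closed surfaces of diameter `≤ 30` in `{l - 100 < r}` separating `o` from `{r ≥ l}`  (T Prop. 4.2);
* `t3_rad_of_pc` if `π : X → M` is a local isometry which maps the interior of the piece bijectively onto `R`, the function `r = rdist X ô ∘ (π|int)⁻¹` is a radial function `T3Rad M g R (π ô) r`.
LEAVES: L-T3-Pe, L-T3-PcBub, L-T3-RadOfPc.
-/

set_option autoImplicit false
set_option linter.unusedSectionVars false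
open scoped ContDiff Topology
open MeasureTheory Claims.C0499 Set

namespace Claimed.Agent.R315

variable {V : Type} [NormedAddCommGroup V] [NormedSpace ℝ V]

/-- **L-T3-Pe: path estimate.**
[`if_exists_len_lt`: an admissible curve `c` from `o` to `x` with `if_len h c < rdist o x + ε`.  `c '' [0,1]` is connected, meets `Q` and `Q'`, so it is not contained in `Q ∪ Q'`: `z = c τ ∈ X \ (Q ∪ Q') ⊆ F`.
Sub-arcs: `c₁ s = c (τ * if_st s)`, `c₂ s = c (τ + (1-τ) * if_st s)` are admissible; `if_integral_speed_comp`: their lengths are `∫_0^τ` and `∫_τ^1` of the speed, which add up to `if_len h c`.] -/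
theorem t3_pe [FiniteDimensional ℝ V] {d : ℕ} {X : Set V} {h : Ten V} (hX : IsMfd d X)
    (hh : IsMetricOn d X h) {o x : V} {F Q Q' : Set V} (hQ : T3RelOpen X Q)
    (hQ' : T3RelOpen X Q') (hd : Disjoint Q Q') (hU : Q ∪ Q' = X \ F) (ho : o ∈ Q) (hx : x ∈ Q')
    (hj : if_Join X o x) {ε : ℝ} (hε : 0 < ε) :
    ∃ z ∈ F, z ∈ X ∧ rdist X h z x ≤ rdist X h o x - rdist X h o z + ε := by
  have hT := (if_isMetricOn_iff.1 hh).1
  obtain ⟨c, hc, hc0, hc1, hlen⟩ :=
    if_exists_len_lt (g := h) hj (r := rdist X h o x + ε) (by linarith)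
  obtain ⟨O₁, hO₁, rfl⟩ := hQ
  obtain ⟨O₂, hO₂, rfl⟩ := hQ'
  have hconn : IsPreconnected (c '' Icc (0 : ℝ) 1) :=
    isPreconnected_Icc.image c hc.1.continuous.continuousOn
  have h0 : (0 : ℝ) ∈ Icc (0 : ℝ) 1 := ⟨le_rfl, zero_le_one⟩
  have h1 : (1 : ℝ) ∈ Icc (0 : ℝ) 1 := ⟨zero_le_one, le_rfl⟩
  have hex : ∃ τ ∈ Icc (0 : ℝ) 1, c τ ∉ X ∩ O₁ ∪ X ∩ O₂ := by
    by_contra hcon
    push Not at hcon
    have hsub : c '' Icc (0 : ℝ) 1 ⊆ O₁ ∪ O₂ := by
      rintro _ ⟨τ, hτ, rfl⟩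
      rcases hcon τ hτ with h' | h'
      · exact Or.inl h'.2
      · exact Or.inr h'.2
    obtain ⟨y, ⟨τ, hτ, rfl⟩, hy1, hy2⟩ := hconn O₁ O₂ hO₁ hO₂ hsub
      ⟨c 0, ⟨0, h0, rfl⟩, by rw [hc0]; exact ho.2⟩ ⟨c 1, ⟨1, h1, rfl⟩, by rw [hc1]; exact hx.2⟩
    exact (disjoint_left.1 hd) ⟨hc.2 τ hτ, hy1⟩ ⟨hc.2 τ hτ, hy2⟩
  obtain ⟨τ, hτ, hnot⟩ := hex
  have hzX : c τ ∈ X := hc.2 τ hτ
  have hzF : c τ ∈ F := by
    by_contra hF
    exact hnot (by rw [hU]; exact ⟨hzX, hF⟩)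
  refine ⟨c τ, hzF, hzX, ?_⟩
  have := if_rdist_add_le_len hX hT hc hτ
  rw [hc0, hc1] at this
  linarith

variable [MeasurableSpace V] [BorelSpace V]

/-- a piece. -/
structure T3Pc (X : Set V) (h : Ten V) (t : V → ℝ) {ι : Type} (B O : ι → Set V)
    (φ : ι → V → ℝ) : Prop where
  col : T3Col 3 X h t B O φ
  conn : IsPreconnected X
  curv : ∀ x ∈ X, 3 / 4 ≤ Dsc 3 X h t x
  proper : ∀ o ∈ X, ∀ R : ℝ, IsCompact {x | x ∈ t3Core X O φ ∧ rdist X h o x ≤ R}
  thin : ∀ i, ∀ x ∈ X ∩ O i, ∃ y ∈ B i, rdist X h x y ≤ 1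
  diam : ∀ i, ∀ x ∈ B i, ∀ y ∈ B i, rdist X h x y ≤ 21

variable [FiniteDimensional ℝ V]
variable {X : Set V} {h : Ten V} {t : V → ℝ} {ι : Type} {B O : ι → Set V} {φ : ι → V → ℝ}

/-- oscillation of the radial function on a tube (copy of `T3Pc.osc`, needed earlier). -/
theorem T3Pc.t3pc_osc_aux (H : T3Pc X h t B O φ) {o : V} (ho : o ∈ X) (i : ι) {x y : V}
    (hx : x ∈ X ∩ O i) (hy : y ∈ X ∩ O i) : |rdist X h o x - rdist X h o y| ≤ 23 := by
  have hM := H.col.geo.mfd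
  have hT := (if_isMetricOn_iff.1 H.col.geo.met).1
  have j := fun {a b : V} (ha : a ∈ X) (hb : b ∈ X) => if_join_of_connected hM H.conn ha hb
  obtain ⟨x', hx', h1⟩ := H.thin i x hx
  obtain ⟨y', hy', h2⟩ := H.thin i y hy
  have hBX : ∀ z ∈ B i, z ∈ X := fun z hz => ((H.col.df i).sub hz).1
  have h3 := H.diam i x' hx' y' hy'
  have h4 := if_rdist_tri hM hT (j hx.1 (hBX _ hx')) (j (hBX _ hx') (hBX _ hy'))
  have h5 := if_rdist_tri hM hT (j hx.1 (hBX _ hy')) (j (hBX _ hy') hy.1)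
  rw [if_rdist_symm X h y' y] at h5
  have h6 := t3_rdist_lip hM H.col.geo.met H.conn ho x hx.1 y hy.1 (j hx.1 hy.1)
  linarith

/-- **L-T3-PcBub** (T Proposition 4.2).
[`r = rdist X h o`; `t3_smooth_lip` (`ε = 1`): `ρ`.  `κ = 1/4` (`2π/√κ = 4π < 13`), `c = 7/16`, `γ = 1/16`; `b = l - 2`, `m₂ = b - 13`, `m₁ = m₂ - 25`, `a = m₁ - 13 = l - 53`.
`T3Band`: the core of `{a-1 ≤ ρ ≤ b+1}` is a relatively closed subset of the compact set `H.proper o (b+2)`; types: for `x, y` in one tube `|r x - r y| ≤ rdist x y ≤ 1 + 21 + 1`, `|ρ x - ρ y| < 25 = m₂ - m₁`.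
`t3_bubble` (`m = 2`).  `F j` is compact, connected, `CtGeo 2 (F j) h U`, `D > 7/16 > 1/4`: `t3_two` with `κ = 1/4`, `R = 30 > 4 + 8π`; `t3_rdist_sub`.  `ρ > a - 1 = l - 54` on `F j`: `r > l - 55`.
`ρ o < 1 ≤ a - 1`: `o ∈ Up`;  `l ≤ r x ⟹ ρ x > l - 1 = b + 1`: `x ∈ Um`.] -/
theorem t3pc_bub (H : T3Pc X h t B O φ) {o : V} (ho : o ∈ t3Int X O φ) {l : ℝ} (hl : 100 ≤ l) :
    ∃ (k : ℕ) (F : Fin k → Set V) (Up Um : Set V),
      (∀ j, T3Hyp 3 X (F j) ∧ F j ⊆ t3Int X O φ ∧ (∀ z ∈ F j, l - 100 < rdist X h o z) ∧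
        ∀ z ∈ F j, ∀ z' ∈ F j, rdist X h z z' ≤ 30) ∧
      Pairwise (Function.onFun Disjoint F) ∧ T3RelOpen X Up ∧ T3RelOpen X Um ∧ Disjoint Up Um ∧
      Up ∪ Um = t3Int X O φ \ ⋃ j, F j ∧ o ∈ Up ∧
      ∀ x ∈ t3Int X O φ, l ≤ rdist X h o x → x ∈ Um := by
  have hG := H.col.geo
  have hIntX : t3Int X O φ ⊆ X := fun x hx => hx.1
  have hoX : o ∈ X := hIntX ho
  obtain ⟨ρ, hρs, hρr, hρg⟩ := t3_smooth_lip hG.mfd hG.met (t3_rdist_lip hG.mfd hG.met H.conn hoX)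
    (ε := 1) one_pos
  have hρc : ContinuousOn ρ X := if_smoothAlong_continuousOn hG.mfd hρs
  have hsq : Real.sqrt (1 / 4) = 1 / 2 := by
    rw [show (1 / 4 : ℝ) = (1 / 2) ^ 2 by norm_num, Real.sqrt_sq (by norm_num)]
  have hpi := Real.pi_lt_d2
  have hlo : ∀ x ∈ X, rdist X h o x - 1 < ρ x := fun x hx => by
    have := abs_lt.1 (hρr x hx)
    linarith [this.1]
  have hup : ∀ x ∈ X, ρ x < rdist X h o x + 1 := fun x hx => by
    have := abs_lt.1 (hρr x hx)
    linarith [this.2]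
  have hB : T3Band (2 + 1) X h t B O φ ρ (l - 53) (l - 40) (l - 15) (l - 2) (1 / 4) := by
    refine ⟨H.col, hρs, fun x hx => (hρg x hx).trans (by norm_num), by norm_num, ?_, by linarith,
      ?_, ?_, fun i => ?_⟩
    · rw [hsq]
      linarith
    · rw [hsq]
      linarith
    · have hcpt := H.proper o hoX (l - 2 + 2)
      have hcl : IsClosed ({x | x ∈ t3Core X O φ ∧ rdist X h o x ≤ l - 2 + 2} ∩
          ρ ⁻¹' Icc (l - 53 - 1) (l - 2 + 1)) :=
        (hρc.mono fun y hy => hy.1.1).preimage_isClosed_of_isClosed hcpt.isClosed isClosed_Icc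
      have he : {x | x ∈ t3Core X O φ ∧ l - 53 - 1 ≤ ρ x ∧ ρ x ≤ l - 2 + 1}
          = {x | x ∈ t3Core X O φ ∧ rdist X h o x ≤ l - 2 + 2} ∩
            ρ ⁻¹' Icc (l - 53 - 1) (l - 2 + 1) := by
        ext x
        constructor
        · rintro ⟨hx, h1, h2⟩
          refine ⟨⟨hx, ?_⟩, h1, h2⟩
          have := hlo x hx.1
          linarith
        · rintro ⟨⟨hx, -⟩, h1, h2⟩
          exact ⟨hx, h1, h2⟩
      rw [he]
      exact hcpt.of_isClosed_subset hcl inter_subset_left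
    · by_cases hi : ∀ x ∈ X ∩ O i, ρ x ≤ l - 15
      · exact Or.inl hi
      · right
        push Not at hi
        obtain ⟨x₀, hx₀, hx₀ρ⟩ := hi
        intro y hy
        have h1 := abs_le.1 (H.t3pc_osc_aux hoX i hx₀ hy)
        have h2 := hup x₀ hx₀.1
        have h3 := hlo y hy.1
        linarith [h1.2]
  obtain ⟨k, F, Up, Um, hF, hFd, hUp, hUm, hdis, hun, hl1, hr1⟩ := t3_bubble (m := 2) hB (by norm_num)
    (by norm_num) (c := 7 / 16) (γ := 1 / 16) (by norm_num) (fun x hx _ _ => by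
      have := H.curv x (hIntX hx)
      have e : (2 + 1 : ℕ) = 3 := rfl
      rw [e]
      linarith)
  refine ⟨k, F, Up, Um, fun j => ?_, hFd, hUp, hUm, hdis, hun, ?_, fun x hx hlx => ?_⟩
  · obtain ⟨hhyp, hsub, hρF, U, hGU, hDU⟩ := hF j
    refine ⟨hhyp, hsub, fun z hz => ?_, fun z hz z' hz' => ?_⟩
    · have h1 := (hρF z hz).1
      have h2 := hup z (hIntX (hsub hz))
      linarith
    · obtain ⟨hFc, hFconn, -⟩ := hhyp
      have hcont : ContinuousOn (rdist (F j) h z) (F j) :=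
        if_rdist_continuousOn hGU.mfd hFconn.isPreconnected (if_isMetricOn_iff.1 hGU.met).1 hz
      have hcpt : IsCompact {y | y ∈ F j ∧ rdist (F j) h z y ≤ 30} := by
        have hcl : IsClosed (F j ∩ rdist (F j) h z ⁻¹' Iic 30) :=
          hcont.preimage_isClosed_of_isClosed hFc.isClosed isClosed_Iic
        exact hFc.of_isClosed_subset hcl inter_subset_left
      have h1 := t3_two hGU hFconn.isPreconnected (c := 7 / 16) (κ := 1 / 4) (R := 30) (by norm_num)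
        (by norm_num) (fun y hy => (hDU y hy).le) (by rw [hsq]; linarith) hz hcpt z' hz'
      have h2 := t3_rdist_sub h (hsub.trans hIntX)
        (if_join_of_connected hGU.mfd hFconn.isPreconnected hz hz')
      linarith
  · refine hl1 o ho ?_
    have := hup o hoX
    rw [if_rdist_self h hoX] at this
    linarith
  · refine hr1 x hx ?_
    have := hlo x (hIntX hx)
    linarith

/-- oscillation of the radial function on a tube (PROVED). -/
theorem T3Pc.osc (H : T3Pc X h t B O φ) {o : V} (ho : o ∈ X) (i : ι) {x y : V}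
    (hx : x ∈ X ∩ O i) (hy : y ∈ X ∩ O i) : |rdist X h o x - rdist X h o y| ≤ 23 := by
  have hM := H.col.geo.mfd
  have hT := (if_isMetricOn_iff.1 H.col.geo.met).1
  have j := fun {a b : V} (ha : a ∈ X) (hb : b ∈ X) => if_join_of_connected hM H.conn ha hb
  obtain ⟨x', hx', h1⟩ := H.thin i x hx
  obtain ⟨y', hy', h2⟩ := H.thin i y hy
  have hBX : ∀ z ∈ B i, z ∈ X := fun z hz => ((H.col.df i).sub hz).1
  have h3 := H.diam i x' hx' y' hy'
  have h4 := if_rdist_tri hM hT (j hx.1 (hBX _ hx')) (j (hBX _ hx') (hBX _ hy'))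
  have h5 := if_rdist_tri hM hT (j hx.1 (hBX _ hy')) (j (hBX _ hy') hy.1)
  rw [if_rdist_symm X h y' y] at h5
  have h6 := t3_rdist_lip hM H.col.geo.met H.conn ho x hx.1 y hy.1 (j hx.1 hy.1)
  linarith

section down
variable {V₀ : Type} [NormedAddCommGroup V₀] [NormedSpace ℝ V₀] [FiniteDimensional ℝ V₀]
  {M R : Set V₀} {g : Ten V₀} {t₀ : V₀ → ℝ} {π : V →L[ℝ] V₀}

/-- **L-T3-RadOfPc**: the radial function of a complementary region.
[`W` open with `X ∩ W = t3Int` (`T3Col.int_open`); `s = invFunOn π t3Int` is a continuous section over `R` (`T3Li.iso_of_injOn`, `T3Iso.continuousOn_inv`, `T3Li.image_open`).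
`le`: `T3Li.rdist_le` (`if_join_of_connected`).
`pe`: `F̂ = s '' F` compact, `P = t3Int ∩ π⁻¹ A`, `P' = t3Int ∩ π⁻¹ A'`; `t3_col_sep`; `t3_pe`; `T3Li.rdist_le`.
`bub`: `t3pc_bub`; `F j = π '' F̂ j`: `T3Li.hyp_down`; images of relatively open subsets of `t3Int` are relatively open in `M` (`T3Li.image_open`); disjointness and the set identities by injectivity.] -/
theorem t3_rad_of_pc (hLi : T3Li 3 X M π) (H : T3Pc X (t3pT π g) (fun z => t₀ (π z)) B O φ)
    (hinj : InjOn π (t3Int X O φ)) (himg : π '' t3Int X O φ = R) {o : V}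
    (ho : o ∈ t3Int X O φ) :
    T3Rad M g R (π o)
      (fun x => rdist X (t3pT π g) o (Function.invFunOn π (t3Int X O φ) x)) := by
  classical
  have hX := H.col.geo.mfd
  obtain ⟨W, hW, hXW⟩ := H.col.int_open
  have hinjW : InjOn π (X ∩ W) := by rw [hXW]; exact hinj
  obtain ⟨OR, hOR, hORe⟩ := hLi.image_open hW
  have hiso : T3Iso 3 (X ∩ W) (M ∩ OR) π := hLi.iso_of_injOn hW hOR hinjW hORe
  have hs : ContinuousOn (Function.invFunOn π (t3Int X O φ)) R := by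
    have := hiso.continuousOn_inv
    rwa [← hORe, hXW, himg] at this
  have hsmem : ∀ x ∈ R, Function.invFunOn π (t3Int X O φ) x ∈ t3Int X O φ :=
    fun x hx => Function.invFunOn_mem (himg.symm.subset hx)
  have hseq : ∀ x ∈ R, π (Function.invFunOn π (t3Int X O φ) x) = x :=
    fun x hx => Function.invFunOn_eq (himg.symm.subset hx)
  have hsπ : ∀ z ∈ t3Int X O φ, Function.invFunOn π (t3Int X O φ) (π z) = z :=
    fun z hz => hinj.leftInvOn_invFunOn hz
  have hmapR : ∀ z ∈ t3Int X O φ, π z ∈ R := fun z hz => himg ▸ mem_image_of_mem _ hz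
  have j := fun {a b : V} (ha : a ∈ X) (hb : b ∈ X) => if_join_of_connected hX H.conn ha hb
  -- relatively open subsets of the interior project to relatively open subsets of `M`
  have hopen : ∀ P : Set V, T3RelOpen X P → P ⊆ t3Int X O φ → T3RelOpen M (π '' P) := by
    rintro P ⟨OP, hOP, rfl⟩ hPI
    obtain ⟨O', hO', he⟩ := hLi.image_open (hW.inter hOP)
    refine ⟨O', hO', ?_⟩
    rw [← he]
    congr 1
    ext z
    constructor
    · intro hz
      exact ⟨hz.1, (hXW ▸ hPI hz : z ∈ X ∩ W).2, hz.2⟩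
    · intro hz
      exact ⟨hz.1, hz.2.2⟩
  -- preimages of relatively open subsets of `M`
  have hpre : ∀ A : Set V₀, T3RelOpen M A → T3RelOpen X (t3Int X O φ ∩ π ⁻¹' A) := by
    rintro A ⟨OA, hOA, rfl⟩
    refine ⟨W ∩ π ⁻¹' OA, hW.inter (hOA.preimage π.continuous), ?_⟩
    rw [← hXW]
    ext z
    constructor
    · rintro ⟨hz, -, hz2⟩
      exact ⟨hz.1, hz.2, hz2⟩
    · rintro ⟨hz, hzW, hz2⟩
      exact ⟨⟨hz, hzW⟩, hLi.maps hz, hz2⟩
  refine ⟨hmapR o ho, fun x hx => ?_, ?_, ?_⟩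
  · have := hLi.rdist_le g (j ho.1 (hsmem x hx).1)
    rwa [hseq x hx] at this
  · intro F A A' hF hFR hA hA' hd hU hoA x hx ε hε
    have hxR : x ∈ R := (hU ▸ (Or.inr hx : x ∈ A ∪ A') : x ∈ R \ F).1
    have hFc : IsCompact (Function.invFunOn π (t3Int X O φ) '' F) :=
      hF.image_of_continuousOn (hs.mono hFR)
    have hFI : Function.invFunOn π (t3Int X O φ) '' F ⊆ t3Int X O φ := by
      rintro _ ⟨a, ha, rfl⟩
      exact hsmem a (hFR ha)
    have hdis : Disjoint (t3Int X O φ ∩ π ⁻¹' A) (t3Int X O φ ∩ π ⁻¹' A') := by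
      rw [disjoint_left]
      rintro z ⟨-, hz⟩ ⟨-, hz'⟩
      exact disjoint_left.1 hd hz hz'
    have hun : (t3Int X O φ ∩ π ⁻¹' A) ∪ (t3Int X O φ ∩ π ⁻¹' A') =
        t3Int X O φ \ (Function.invFunOn π (t3Int X O φ) '' F) := by
      ext z
      constructor
      · intro hz
        have hzI : z ∈ t3Int X O φ := hz.elim (fun h => h.1) (fun h => h.1)
        have hzU : π z ∈ A ∪ A' := hz.elim (fun h => Or.inl h.2) (fun h => Or.inr h.2)
        rw [hU] at hzU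
        refine ⟨hzI, ?_⟩
        rintro ⟨a, ha, rfl⟩
        exact hzU.2 (by rw [hseq a (hFR ha)]; exact ha)
      · rintro ⟨hzI, hzF⟩
        have : π z ∈ R \ F := ⟨hmapR z hzI, fun hF' => hzF ⟨π z, hF', hsπ z hzI⟩⟩
        rw [← hU] at this
        exact this.elim (fun h => Or.inl ⟨hzI, h⟩) (fun h => Or.inr ⟨hzI, h⟩)
    obtain ⟨Q, Q', hQ, hQ', hQd, hQU, hPQ, hPQ'⟩ :=
      t3_col_sep H.col hFc hFI (hpre A hA) (hpre A' hA') hdis hun
    obtain ⟨z, ⟨a, ha, rfl⟩, hzX, hz⟩ := t3_pe hX H.col.geo.met hQ hQ' hQd hQU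
      (hPQ ⟨ho, hoA⟩) (hPQ' ⟨hsmem x hxR, by rw [mem_preimage, hseq x hxR]; exact hx⟩)
      (j ho.1 (hsmem x hxR).1) hε
    refine ⟨a, ha, ?_⟩
    have h1 := hLi.rdist_le g (j hzX (hsmem x hxR).1)
    rw [hseq a (hFR ha), hseq x hxR] at h1
    exact h1.trans hz
  · intro l hl
    obtain ⟨k, F, Up, Um, h1, h2, h3, h4, h5, h6, h7, h8⟩ := t3pc_bub H ho hl
    have hUpI : Up ⊆ t3Int X O φ := fun z hz =>
      (h6 ▸ (Or.inl hz : z ∈ Up ∪ Um) : z ∈ t3Int X O φ \ ⋃ j, F j).1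
    have hUmI : Um ⊆ t3Int X O φ := fun z hz =>
      (h6 ▸ (Or.inr hz : z ∈ Up ∪ Um) : z ∈ t3Int X O φ \ ⋃ j, F j).1
    refine ⟨k, fun i => π '' F i, π '' Up, π '' Um, fun i => ?_, ?_, hopen Up h3 hUpI,
      hopen Um h4 hUmI, ?_, ?_, mem_image_of_mem _ h7, ?_⟩
    · obtain ⟨a, b, c, e⟩ := h1 i
      refine ⟨hLi.hyp_down hW (fun z hz => (hXW ▸ b hz : z ∈ X ∩ W).2) hinjW a, ?_, ?_, ?_⟩
      · rintro _ ⟨z, hz, rfl⟩
        exact hmapR z (b hz)
      · rintro _ ⟨z, hz, rfl⟩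
        show l - 100 < rdist X (t3pT π g) o (Function.invFunOn π (t3Int X O φ) (π z))
        rw [hsπ z (b hz)]
        exact c z hz
      · rintro _ ⟨z, hz, rfl⟩ _ ⟨z', hz', rfl⟩
        have := hLi.rdist_le g (j (b hz).1 (b hz').1)
        linarith [e z hz z' hz']
    · intro i i' hii
      show Disjoint (π '' F i) (π '' F i')
      rw [disjoint_left]
      rintro _ ⟨z, hz, rfl⟩ ⟨z', hz', he⟩
      have : z' = z := hinj ((h1 i').2.1 hz') ((h1 i).2.1 hz) he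
      exact disjoint_left.1 (h2 hii) hz (this ▸ hz')
    · rw [disjoint_left]
      rintro _ ⟨z, hz, rfl⟩ ⟨z', hz', he⟩
      have : z' = z := hinj (hUmI hz') (hUpI hz) he
      exact disjoint_left.1 h5 hz (this ▸ hz')
    · rw [← image_union, h6]
      ext x
      constructor
      · rintro ⟨z, ⟨hz, hzF⟩, rfl⟩
        refine ⟨hmapR z hz, fun hx => ?_⟩
        obtain ⟨i, z', hz', he⟩ := mem_iUnion.1 hx
        have : z' = z := hinj ((h1 i).2.1 hz') hz he
        exact hzF (mem_iUnion.2 ⟨i, this ▸ hz'⟩)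
      · rintro ⟨hxR, hxF⟩
        refine ⟨_, ⟨hsmem x hxR, fun hz => hxF ?_⟩, hseq x hxR⟩
        obtain ⟨i, hi⟩ := mem_iUnion.1 hz
        exact mem_iUnion.2 ⟨i, _, hi, hseq x hxR⟩
    · intro x hxR hlx
      exact ⟨_, h8 _ (hsmem x hxR) hlx, hseq x hxR⟩

end down

end Claimed.Agent.R315
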