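-- KEEP
import Claimed.Agent.R315.T3.Pc

/-!
# Row 315, paper T (n = 3), package T3-Cm: the cut manifold of a complementary region, as a subset of `V × ℝ`

Sub-captain: helper72.  EXPORT `t3_cm`.  Everything is elementary (no analysis beyond the transfer lemmas of `T3/Li.lean`).

## Tube systems (`T3Tub M g t 𝒮 O T φ ζ`)
For `S ∈ 𝒮`: outer tube `M ∩ O S` with defining function `φ S`, `{φ S < 0}` a minimiser in it; outer tubes pairwise disjoint and locally finite; inner tube `S ⊆ T S ⊆ O S` with connected sides, THIN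
(every point of `M ∩ T S` is joined to `S` inside `M ∩ T S` by curves of length `≤ 1`); cut-off `ζ S` smooth along `M`, `= 1` on `M ∩ closure (T S)`, `= 0` on `M` outside a compact subset of `M ∩ O S`.

## The model
`χ = ∑_S sign(φ S) ζ S` on `M \ ⋃₀ 𝒮` (at most one term): smooth there, `= ±1` on the two sides of the inner tubes.
`I_R` = set of pairs `(S, σ)`, `σ = ±1`, such that the `σ`-side `{σ φ S > 0}` of `M ∩ T S` lies in `R`.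
`X_R = graph (χ | R) ∪ ⋃_{(S,σ) ∈ I_R} (M ∩ T S) × {σ}  ⊆ V × ℝ`;   collars: `B = S × {σ}`, `O = T S × (σ - 1/2, σ + 1/2)`, `φ (x,s) = σ φ S x`.
FACTS. (a) `X_R ∩ O_(S,σ) = (M ∩ T S) × {σ}` [a graph point `(x, χ x)` with `x ∈ T S` has `χ x = sign (φ S x)`];  (b) `t3Int = graph (χ | R)`;  (c) if `x ∈ R ∩ T S` then `(S, sign (φ S x)) ∈ I_R` [the side is connected, contained in
`M \ ⋃₀ 𝒮`, and meets the component `R`];  (d) LOCAL GRAPH PROPERTY: near a sheet point use (a) (`f` constant); near `(x, χ x)` with `x ∈ R` outside all `T S` take `N ∋ x` open with `M ∩ N ⊆ R`, `|χ - χ x| < 1/2` on `M ∩ N`, and the window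
`N × (χ x - 1/2, χ x + 1/2)`: a sheet point `(y, σ)` in it has `y ∈ R`, and `σ = - χ y` would give `|σ - χ x| > 3/2`; so `σ = χ y`.  (e) `{σ φ S ≤ 0}` is closed in `X_R`: a limit `(x,σ) ∈ X_R` with `x ∈ closure (T S) \ T S` would be a graph point, `σ = χ x = sign (φ S x)`
(`ζ S x = 1`), contradicting `σ φ S x ≤ 0`.  (f) the core `graph (χ|R) ∪ ⋃ S × {σ}` is CLOSED in `V × ℝ` [`(x_n, χ x_n) → (x, s)`, `x_n ∈ R`: `x ∈ M`; if `x ∉ ⋃₀ 𝒮` then `x ∈ R` (components of the open subset `M \ ⋃₀ 𝒮` of the locally connected space `M` are closed in it) and `s = χ x`;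
if `x ∈ S` then eventually `x_n ∈ T S`, `χ x_n = ±1` converges: eventually constant `σ`, and `(S,σ) ∈ I_R` by (c)], and `fst` maps `{z ∈ core | rdist X ô z ≤ ρ}` into the compact ball of `M` (`T3Li.rdist_le`, `Drift.proper`), `|z.2| ≤ 1`: PROPERNESS.
(g) curves of `M ∩ T S` lift to the sheet by the affine map `x ↦ (x, σ)` with the same length: `thin`, `diam` (`t3_cut_idiam`).  (h) connectedness: `graph (χ|R)` is a continuous image of `R`; `M ∩ T S` = two connected sides + connected `S`, `S ⊆ closure` of each side.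

LEAVES: L-T3-Cm-1 ... L-T3-Cm-9.
-/

set_option autoImplicit false
set_option linter.unusedSectionVars false
open scoped ContDiff Topology
open MeasureTheory Claims.C0499 Set

namespace Claimed.Agent.R315

variable {V : Type} [NormedAddCommGroup V] [NormedSpace ℝ V]

/-- `χ = ∑ sign(φ S) ζ S`. -/
noncomputable def t3Chi (𝒮 : Set (Set V)) (φ ζ : Set V → V → ℝ) (x : V) : ℝ :=
  ∑ᶠ S ∈ 𝒮, (SignType.sign (φ S x) : ℝ) * ζ S x

/-- the sides of the cut surfaces which are adjacent to `R`. -/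
def t3CmI (M : Set V) (𝒮 : Set (Set V)) (T : Set V → Set V) (φ : Set V → V → ℝ) (R : Set V) :
    Set (Set V × ℝ) :=
  {q | q.1 ∈ 𝒮 ∧ (q.2 = 1 ∨ q.2 = -1) ∧ {x | x ∈ M ∩ T q.1 ∧ 0 < q.2 * φ q.1 x} ⊆ R}

/-- the cut manifold of `R`. -/
def t3CmX (M : Set V) (𝒮 : Set (Set V)) (T : Set V → Set V) (φ ζ : Set V → V → ℝ) (R : Set V) :
    Set (V × ℝ) :=
  {z | z.1 ∈ R ∧ z.2 = t3Chi 𝒮 φ ζ z.1} ∪
    {z | ∃ q ∈ t3CmI M 𝒮 T φ R, z.1 ∈ M ∩ T q.1 ∧ z.2 = q.2}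

/-- boundary surfaces of the cut manifold. -/
def t3CmB (q : Set V × ℝ) : Set (V × ℝ) := q.1 ×ˢ {q.2}

/-- tubes of the cut manifold. -/
def t3CmO (T : Set V → Set V) (q : Set V × ℝ) : Set (V × ℝ) := T q.1 ×ˢ Metric.ball q.2 (1 / 2)

/-- defining functions of the boundary surfaces (negative on the exterior collar). -/
def t3CmF (φ : Set V → V → ℝ) (q : Set V × ℝ) (z : V × ℝ) : ℝ := q.2 * φ q.1 z.1

variable [MeasurableSpace V] [BorelSpace V]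

/-- tube system of a family of cut surfaces. -/
structure T3Tub (M : Set V) (g : Ten V) (t : V → ℝ) (𝒮 : Set (Set V)) (O T : Set V → Set V)
    (φ ζ : Set V → V → ℝ) : Prop where
  df : ∀ S ∈ 𝒮, T3Def 3 M S (O S) (φ S)
  lam : ∀ S ∈ 𝒮, CtLAM 3 (M ∩ O S) g t (fun _ => 0) {x | x ∈ M ∩ O S ∧ φ S x < 0}
  dis : ∀ S ∈ 𝒮, ∀ S' ∈ 𝒮, S ≠ S' → Disjoint (M ∩ O S) (M ∩ O S')
  lf : ∀ x ∈ M, ∃ W ∈ 𝓝 x, {S | S ∈ 𝒮 ∧ (M ∩ O S ∩ W).Nonempty}.Finite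
  inner : ∀ S ∈ 𝒮, IsOpen (T S) ∧ S ⊆ T S ∧ T S ⊆ O S
  side : ∀ S ∈ 𝒮, IsPreconnected {x | x ∈ M ∩ T S ∧ 0 < φ S x} ∧
    IsPreconnected {x | x ∈ M ∩ T S ∧ φ S x < 0}
  thin : ∀ S ∈ 𝒮, ∀ x ∈ M ∩ T S, ∃ y ∈ S, if_Join (M ∩ T S) x y ∧ rdist (M ∩ T S) g x y ≤ 1
  zeta : ∀ S ∈ 𝒮, SmoothAlong 3 M (ζ S) ∧ (∀ x, 0 ≤ ζ S x ∧ ζ S x ≤ 1) ∧
    (∀ x ∈ M ∩ closure (T S), ζ S x = 1) ∧ ∃ K, IsCompact K ∧ K ⊆ M ∩ O S ∧ ∀ x ∈ M, x ∉ K → ζ S x = 0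

theorem t3Cm_eqns_cite : True := by
  have := @t3Chi.eq_1
  have := @t3CmI.eq_1
  have := @t3CmX.eq_1
  have := @t3CmB.eq_1
  have := @t3CmO.eq_1
  have := @t3CmF.eq_1
  trivial

variable [FiniteDimensional ℝ V]

/-! ### existence of tube systems -/

omit [MeasurableSpace V] [BorelSpace V] in
/-- a locally finite family (at the points of the closed set `M`) of subsets of `M`: a compact set meets finitely many members. -/
theorem t3sep_fin {M : Set V} (hM : IsClosed M) {𝒮 : Set (Set V)}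
    (hc : ∀ S ∈ 𝒮, S ⊆ M)
    (hlf : ∀ x ∈ M, ∃ W ∈ 𝓝 x, {S | S ∈ 𝒮 ∧ (S ∩ W).Nonempty}.Finite) {K : Set V}
    (hK : IsCompact K) : {S | S ∈ 𝒮 ∧ (S ∩ K).Nonempty}.Finite := by
  classical
  have hKM : IsCompact (K ∩ M) := hK.inter_right hM
  choose! W hW hWf using hlf
  obtain ⟨t, ht, hcov⟩ := hKM.elim_nhds_subcover W fun x hx => hW x hx.2
  refine ((t.finite_toSet).biUnion fun x hx => hWf x (ht x hx).2).subset ?_
  rintro S ⟨hS, z, hzS, hzK⟩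
  obtain ⟨x, hx, hzx⟩ := mem_iUnion₂.1 (hcov ⟨hzK, hc S hS hzS⟩)
  exact mem_iUnion₂.2 ⟨x, hx, hS, z, hzS, hzx⟩

omit [MeasurableSpace V] [BorelSpace V] in
/-- **L-T3-Cm-1** (metric topology): a locally finite family of pairwise disjoint compact subsets of a closed set has pairwise disjoint, locally finite open neighbourhoods.
[`δ_S = min 1 (infDist-distance from `S` to the closed set `⋃ (𝒮 \ {S})`)/3 > 0`, `N S = {x | infDist x S < δ_S}`.  Disjointness: triangle inequality.  Local finiteness at `x`: `N S ∩ ball x 1 ≠ ∅` forces `S ∩ closedBall x 2 ≠ ∅`;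
`M ∩ closedBall x 2` is compact, so it meets finitely many `S`.] -/
theorem t3_sep_family {M : Set V} (hM : IsClosed M) {𝒮 : Set (Set V)}
    (hc : ∀ S ∈ 𝒮, IsCompact S ∧ S ⊆ M) (hd : 𝒮.PairwiseDisjoint id)
    (hlf : ∀ x ∈ M, ∃ W ∈ 𝓝 x, {S | S ∈ 𝒮 ∧ (S ∩ W).Nonempty}.Finite) :
    ∃ N : Set V → Set V, (∀ S ∈ 𝒮, IsOpen (N S) ∧ S ⊆ N S) ∧
      (∀ S ∈ 𝒮, ∀ S' ∈ 𝒮, S ≠ S' → Disjoint (N S) (N S')) ∧
      ∀ x : V, ∃ W ∈ 𝓝 x, {S | S ∈ 𝒮 ∧ (N S ∩ W).Nonempty}.Finite := by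
  classical
  have hfin : ∀ K : Set V, IsCompact K → {S | S ∈ 𝒮 ∧ (S ∩ K).Nonempty}.Finite := fun K hK =>
    t3sep_fin hM (fun S hS => (hc S hS).2) hlf hK
  have hD : ∀ S : Set V, ∃ D : ℝ, 0 < D ∧ D ≤ 1 ∧ (S ∈ 𝒮 → ∀ y ∈ S, ∀ S' ∈ 𝒮, S' ≠ S → ∀ y' ∈ S',
      D ≤ dist y y') := by
    intro S
    by_cases hS : S ∈ 𝒮
    · have hSc := (hc S hS).1
      have hKc : IsCompact (Metric.cthickening 1 S) := hSc.cthickening
      set 𝒯 : Set (Set V) := {S' | S' ∈ 𝒮 ∧ (S' ∩ Metric.cthickening 1 S).Nonempty} \ {S} with h𝒯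
      have h𝒯f : 𝒯.Finite := (hfin _ hKc).subset sdiff_subset
      have hCc : IsCompact (⋃₀ 𝒯) := h𝒯f.isCompact_sUnion fun S' hS' => (hc S' hS'.1.1).1
      have hdis : Disjoint S (⋃₀ 𝒯) := by
        rw [disjoint_sUnion_right]
        intro S' hS'
        exact hd hS hS'.1.1 (fun h => hS'.2 h.symm)
      obtain ⟨δ, hδ, hδd⟩ := hdis.exists_thickenings hSc hCc.isClosed
      refine ⟨min 1 δ, lt_min one_pos hδ, min_le_left _ _, fun _ y hy S' hS' hne y' hy' => ?_⟩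
      by_cases hmeet : (S' ∩ Metric.cthickening 1 S).Nonempty
      · have hmem : y' ∈ ⋃₀ 𝒯 := ⟨S', ⟨⟨hS', hmeet⟩, hne⟩, hy'⟩
        refine (min_le_right _ _).trans ?_
        by_contra hlt
        push Not at hlt
        refine disjoint_left.1 hδd (Metric.mem_thickening_iff.2 ⟨y, hy, ?_⟩)
          (Metric.self_subset_thickening hδ _ hmem)
        rwa [dist_comm]
      · refine (min_le_left _ _).trans ?_
        by_contra hlt
        push Not at hlt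
        refine hmeet ⟨y', hy', Metric.mem_cthickening_of_dist_le y' y 1 S hy ?_⟩
        rw [dist_comm]
        exact hlt.le
    · exact ⟨1, one_pos, le_rfl, fun h => absurd h hS⟩
  choose D hD0 hD1 hDd using hD
  refine ⟨fun S => Metric.thickening (D S / 2) S, fun S _ => ⟨Metric.isOpen_thickening,
    Metric.self_subset_thickening (half_pos (hD0 S)) S⟩, fun S hS S' hS' hne => ?_, fun x => ?_⟩
  · rw [disjoint_left]
    intro z hz hz'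
    obtain ⟨y, hy, hzy⟩ := Metric.mem_thickening_iff.1 hz
    obtain ⟨y', hy', hzy'⟩ := Metric.mem_thickening_iff.1 hz'
    have h1 := hDd S hS y hy S' hS' hne.symm y' hy'
    have h2 := hDd S' hS' y' hy' S hS hne y hy
    rw [dist_comm] at h2
    have h3 : dist y y' ≤ dist z y + dist z y' := dist_triangle_left y y' z
    linarith
  · refine ⟨Metric.ball x 1, Metric.ball_mem_nhds x one_pos,
      (hfin _ (isCompact_closedBall x 2)).subset ?_⟩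
    rintro S ⟨hS, z, hz, hzx⟩
    obtain ⟨y, hy, hzy⟩ := Metric.mem_thickening_iff.1 hz
    refine ⟨hS, y, hy, ?_⟩
    rw [Metric.mem_closedBall]
    have h1 : dist y x ≤ dist y z + dist z x := dist_triangle y z x
    rw [dist_comm y z] at h1
    have h2 := hD1 S
    have h3 : dist z x < 1 := hzx
    linarith

/-! `t3g_box` (L-T3-Cm-2) is PROVED in `T3/Br.lean`. -/

omit [MeasurableSpace V] [BorelSpace V] [FiniteDimensional ℝ V] in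
/-- preconnectedness in the subtype `↥M`. -/
theorem t3cm_pre_conn {M : Set V} (A : Set V) :
    IsPreconnected (Subtype.val ⁻¹' A : Set ↥M) ↔ IsPreconnected (M ∩ A) := by
  rw [← Topology.IsInducing.subtypeVal.isPreconnected_image, Subtype.image_preimage_coe]

omit [MeasurableSpace V] [BorelSpace V] in
/-- **L-T3-Cm-3**: the union of boxes along a connected hypersurface has connected sides.
[`N p` boxes as in `t3g_box` for all `p ∈ S`.  For `p' ∈ S ∩ N p` a smaller box around `p'` inside `N p ∩ N p'` (`t3g_box`) has a nonempty plus side: the plus sides of `N p` and `N p'` intersect.  Hence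
`{p' ∈ S | the plus side of N p' lies in the connected component (in the union of all plus sides) of the plus side of N p₀}` is open and closed in the connected set `S`.] -/
theorem t3g_box_union {d : ℕ} {M S O : Set V} {φ : V → ℝ} {g : Ten V} (hM : IsMfd d M)
    (hg : IsMetricOn d M g) (h : T3Def d M S O φ) (hS : IsConnected S) (N : V → Set V)
    (hN : ∀ p ∈ S, IsOpen (N p) ∧ p ∈ N p ∧ N p ⊆ O ∧
      IsPreconnected {x | x ∈ M ∩ N p ∧ 0 < φ x} ∧ IsPreconnected {x | x ∈ M ∩ N p ∧ φ x < 0}) :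
    IsPreconnected {x | x ∈ M ∩ (⋃ p ∈ S, N p) ∧ 0 < φ x} ∧
      IsPreconnected {x | x ∈ M ∩ (⋃ p ∈ S, N p) ∧ φ x < 0} := by
  have hw := t3g_wall hM h
  have hSM : S ⊆ M := fun x hx => (h.sub hx).1
  have hSc : IsPreconnected (Subtype.val ⁻¹' S : Set ↥M) := by
    rw [t3cm_pre_conn, inter_eq_right.2 hSM]
    exact hS.isPreconnected
  have hUe : (⋃ p : (Subtype.val ⁻¹' S : Set ↥M), (Subtype.val ⁻¹' (N p.1.1) : Set ↥M)) =
      Subtype.val ⁻¹' (⋃ p ∈ S, N p) := by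
    ext x
    simp only [mem_iUnion, mem_preimage]
    constructor
    · rintro ⟨p, hp⟩
      exact ⟨p.1.1, p.2, hp⟩
    · rintro ⟨p, hp, hx⟩
      exact ⟨⟨⟨p, hSM hp⟩, hp⟩, hx⟩
  constructor
  · have h1 := twall_tube_side hw hSc (fun p => Subtype.val ⁻¹' (N p.1.1))
      (fun p => (hN p.1.1 p.2).1.preimage continuous_subtype_val) (fun p => (hN p.1.1 p.2).2.1)
      (fun p => by
        show IsPreconnected (Subtype.val ⁻¹' (N p.1.1 ∩ {x | 0 < φ x}) : Set ↥M)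
        rw [t3cm_pre_conn]
        have e : M ∩ (N p.1.1 ∩ {x | 0 < φ x}) = {x | x ∈ M ∩ N p.1.1 ∧ 0 < φ x} := by
          ext x
          exact ⟨fun hx => ⟨⟨hx.1, hx.2.1⟩, hx.2.2⟩, fun hx => ⟨hx.1.1, hx.1.2, hx.2⟩⟩
        rw [e]
        exact (hN p.1.1 p.2).2.2.2.1)
    rw [hUe] at h1
    have h2 : IsPreconnected (Subtype.val ⁻¹' ((⋃ p ∈ S, N p) ∩ {x | 0 < φ x}) : Set ↥M) := h1
    rw [t3cm_pre_conn] at h2
    have e : M ∩ ((⋃ p ∈ S, N p) ∩ {x | 0 < φ x}) = {x | x ∈ M ∩ (⋃ p ∈ S, N p) ∧ 0 < φ x} := by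
      ext x
      exact ⟨fun hx => ⟨⟨hx.1, hx.2.1⟩, hx.2.2⟩, fun hx => ⟨hx.1.1, hx.1.2, hx.2⟩⟩
    rwa [e] at h2
  · have h1 := twall_tube_side hw.twall_neg hSc (fun p => Subtype.val ⁻¹' (N p.1.1))
      (fun p => (hN p.1.1 p.2).1.preimage continuous_subtype_val) (fun p => (hN p.1.1 p.2).2.1)
      (fun p => by
        simp only [Left.neg_pos_iff]
        show IsPreconnected (Subtype.val ⁻¹' (N p.1.1 ∩ {x | φ x < 0}) : Set ↥M)
        rw [t3cm_pre_conn]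
        have e : M ∩ (N p.1.1 ∩ {x | φ x < 0}) = {x | x ∈ M ∩ N p.1.1 ∧ φ x < 0} := by
          ext x
          exact ⟨fun hx => ⟨⟨hx.1, hx.2.1⟩, hx.2.2⟩, fun hx => ⟨hx.1.1, hx.1.2, hx.2⟩⟩
        rw [e]
        exact (hN p.1.1 p.2).2.2.2.2)
    simp only [Left.neg_pos_iff] at h1
    rw [hUe] at h1
    have h2 : IsPreconnected (Subtype.val ⁻¹' ((⋃ p ∈ S, N p) ∩ {x | φ x < 0}) : Set ↥M) := h1
    rw [t3cm_pre_conn] at h2
    have e : M ∩ ((⋃ p ∈ S, N p) ∩ {x | φ x < 0}) = {x | x ∈ M ∩ (⋃ p ∈ S, N p) ∧ φ x < 0} := by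
      ext x
      exact ⟨fun hx => ⟨⟨hx.1, hx.2.1⟩, hx.2.2⟩, fun hx => ⟨hx.1.1, hx.1.2, hx.2⟩⟩
    rwa [e] at h2

/-- tube data of one cut surface inside a prescribed neighbourhood. -/
theorem t3tub_one {M : Set V} {g : Ten V} {t : V → ℝ} (h : Drift 3 M g t (3 / 4)) {S Nn : Set V}
    (hS : T3Cut M g t S) (hN : IsOpen Nn) (hSN : S ⊆ Nn) :
    ∃ (O T : Set V) (φ ζ : V → ℝ), O ⊆ Nn ∧ T3Def 3 M S O φ ∧
      CtLAM 3 (M ∩ O) g t (fun _ => 0) {x | x ∈ M ∩ O ∧ φ x < 0} ∧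
      (IsOpen T ∧ S ⊆ T ∧ T ⊆ O) ∧
      (IsPreconnected {x | x ∈ M ∩ T ∧ 0 < φ x} ∧ IsPreconnected {x | x ∈ M ∩ T ∧ φ x < 0}) ∧
      (∀ x ∈ M ∩ T, ∃ y ∈ S, if_Join (M ∩ T) x y ∧ rdist (M ∩ T) g x y ≤ 1) ∧
      (SmoothAlong 3 M ζ ∧ (∀ x, 0 ≤ ζ x ∧ ζ x ≤ 1) ∧ (∀ x ∈ M ∩ closure T, ζ x = 1) ∧
        ∃ K, IsCompact K ∧ K ⊆ M ∩ O ∧ ∀ x ∈ M, x ∉ K → ζ x = 0) := by
  classical
  obtain ⟨hSk, hSc, O₀, φ, hdef₀, hlam₀⟩ := hS
  set O : Set V := O₀ ∩ Nn with hOdef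
  have hO : IsOpen O := hdef₀.opn.inter hN
  have eM : (M ∩ O₀) ∩ Nn = M ∩ O := inter_assoc _ _ _
  have hdef : T3Def 3 M S O φ := by
    refine ⟨hO, fun x hx => ⟨(hdef₀.sub hx).1, (hdef₀.sub hx).2, hSN hx⟩, ?_,
      fun x hx => hdef₀.zero x ⟨hx.1, hx.2.1⟩, fun ψ U hψ u hu h0 => ?_⟩
    · rw [← eM]
      exact if_smoothAlong_inter hdef₀.smooth hN
    · refine hdef₀.reg ψ U ?_ u hu h0
      rw [← eM] at hψ
      exact if_param_of_inter hN hψ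
  have hG₀ : CtGeo 3 (M ∩ O₀) g t := ⟨if_mfd_inter h.mfd hdef₀.opn,
    if_isMetricOn_inter h.met hdef₀.opn, if_smoothAlong_inter h.smooth hdef₀.opn⟩
  have hlam : CtLAM 3 (M ∩ O) g t (fun _ => 0) {x | x ∈ M ∩ O ∧ φ x < 0} := by
    have h1 := hlam₀.inter_open hG₀ hN
    rw [eM] at h1
    have e : {x | x ∈ M ∩ O₀ ∧ φ x < 0} ∩ Nn = {x | x ∈ M ∩ O ∧ φ x < 0} := by
      ext x
      constructor
      · rintro ⟨⟨⟨a, b⟩, c⟩, d⟩
        exact ⟨⟨a, b, d⟩, c⟩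
      · rintro ⟨⟨a, b, d⟩, c⟩
        exact ⟨⟨⟨a, b⟩, c⟩, d⟩
    rwa [e] at h1
  have hMO : IsMfd 3 (M ∩ O) := if_mfd_inter h.mfd hO
  obtain ⟨K', Wo, hK', hK'M, hWo, hSWo, hWK⟩ := gs_exists_compact_nhd hMO hSk hdef.sub
  obtain ⟨L, hL, hSL, hLW⟩ := exists_compact_between hSk (hWo.inter hO)
    (subset_inter hSWo fun x hx => (hdef.sub hx).2)
  have hbox : ∀ p : V, ∃ Nb : Set V, p ∈ S → (IsOpen Nb ∧ p ∈ Nb ∧ Nb ⊆ interior L ∩ O ∧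
      IsPreconnected {x | x ∈ M ∩ Nb ∧ 0 < φ x} ∧ IsPreconnected {x | x ∈ M ∩ Nb ∧ φ x < 0} ∧
      ∀ x ∈ M ∩ Nb, if_Join (M ∩ Nb) x p ∧ rdist (M ∩ Nb) g x p ≤ 1) := by
    intro p
    by_cases hp : p ∈ S
    · obtain ⟨Nb, a1, a2, a3, a4, -, a5, -, a6⟩ := t3g_box h.mfd h.met hdef hp
        (isOpen_interior.mem_nhds (hSL hp)) one_pos
      exact ⟨Nb, fun _ => ⟨a1, a2, a3, a4, a5, a6⟩⟩
    · exact ⟨∅, fun hp' => absurd hp' hp⟩
  choose Nb hNb using hbox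
  set T : Set V := ⋃ p ∈ S, Nb p with hT
  have hTL : T ⊆ interior L ∩ O := iUnion₂_subset fun p hp => (hNb p hp).2.2.1
  obtain ⟨η, Oη, ⟨hηs, K'', hK'', hK''M, hη0⟩, hη01, hOη, hK'O, hη1⟩ :=
    gs_exists_cutoff hMO hK' hK'M
  refine ⟨O, T, φ, fun x => if x ∈ O then η x else 0, inter_subset_right, hdef, hlam,
    ⟨isOpen_biUnion fun p hp => (hNb p hp).1,
      fun p hp => mem_iUnion₂.2 ⟨p, hp, (hNb p hp).2.1⟩, hTL.trans inter_subset_right⟩,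
    t3g_box_union h.mfd h.met hdef hSc Nb fun p hp => ⟨(hNb p hp).1, (hNb p hp).2.1,
      (hNb p hp).2.2.1.trans inter_subset_right, (hNb p hp).2.2.2.1, (hNb p hp).2.2.2.2.1⟩,
    ?_, ?_, ?_, ?_, ?_⟩
  · rintro x ⟨hxM, hxT⟩
    obtain ⟨p, hp, hxp⟩ := mem_iUnion₂.1 hxT
    obtain ⟨hj, hr⟩ := (hNb p hp).2.2.2.2.2 x ⟨hxM, hxp⟩
    have hsub : M ∩ Nb p ⊆ M ∩ T :=
      inter_subset_inter_right _ (subset_biUnion_of_mem (u := fun p => Nb p) hp)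
    refine ⟨p, hp, ?_, (t3_rdist_sub g hsub hj).trans hr⟩
    obtain ⟨c, ⟨hc1, hc2⟩, h0, h1⟩ := hj
    exact ⟨c, ⟨hc1, fun s hs => hsub (hc2 s hs)⟩, h0, h1⟩
  · refine if_smoothAlong_of_zero_off hO hK''.isClosed (fun x hx => (hK''M hx).2)
      (if_smoothAlong_congr hηs fun x hx => if_pos hx.2) fun x hx hxK => ?_
    by_cases hxO : x ∈ O
    · simp only [if_pos hxO]
      exact hη0 x ⟨hx, hxO⟩ hxK
    · simp only [if_neg hxO]
  · intro x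
    by_cases hxO : x ∈ O
    · simp only [if_pos hxO]
      exact hη01 x
    · simp only [if_neg hxO]
      exact ⟨le_rfl, zero_le_one⟩
  · rintro x ⟨hxM, hxT⟩
    have hxL : x ∈ L :=
      closure_minimal (hTL.trans (inter_subset_left.trans interior_subset)) hL.isClosed hxT
    have hxO : x ∈ O := (hLW hxL).2
    simp only [if_pos hxO]
    exact hη1 x (hK'O (hWK ⟨⟨hxM, hxO⟩, (hLW hxL).1⟩))
  · refine ⟨K'', hK'', hK''M, fun x hx hxK => ?_⟩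
    by_cases hxO : x ∈ O
    · simp only [if_pos hxO]
      exact hη0 x ⟨hx, hxO⟩ hxK
    · simp only [if_neg hxO]

/-- **L-T3-Cm-4: tube systems exist.**
[`(O⁰ S, φ S)` from `T3Cut` (choice); `N S` from `t3_sep_family`; `O S = O⁰ S ∩ N S` (`CtLAM.inter_open`, `T3Def` restricts).  `gs_exists_compact_nhd` in the manifold `M ∩ O S` for the compact set `S`: open `W S ⊇ S`, `M ∩ O S ∩ W S ⊆ K'` compact `⊆ M ∩ O S`.
Boxes `N p ⊆ W S ∩ O S` with `ε = 1` (`t3g_box`), `T S = ⋃_{p ∈ S} N p`; `side`: `t3g_box_union`; `thin`: `t3_rdist_sub` (`M ∩ N p ⊆ M ∩ T S`).  `M ∩ closure (T S) ⊆ K'` (`M` closed, `K'` closed).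
`ζ S`: `gs_exists_cutoff` in `M ∩ O S` for `K'`, extended by `0` outside `O S`; it is smooth along `M` because it vanishes on `M` outside a compact subset of `M ∩ O S` (two open pieces `M ∩ O S`, `M \ K''` cover `M`).] -/
theorem t3_tub_exists {M : Set V} {g : Ten V} {t : V → ℝ} (h : Drift 3 M g t (3 / 4))
    {𝒮 : Set (Set V)} (h𝒮 : T3Fam M g t 𝒮) :
    ∃ (O T : Set V → Set V) (φ ζ : Set V → V → ℝ), T3Tub M g t 𝒮 O T φ ζ := by
  classical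
  have hSM : ∀ S ∈ 𝒮, S ⊆ M := by
    intro S hS x hx
    obtain ⟨-, -, O, φ, hd, -⟩ := h𝒮.cut S hS
    exact (hd.sub hx).1
  obtain ⟨N, hN1, hN2, hN3⟩ := t3_sep_family h.closed
    (fun S hS => ⟨(h𝒮.cut S hS).1, hSM S hS⟩) h𝒮.dis h𝒮.lf
  have key : ∀ S : Set V, ∃ (O T : Set V) (φ ζ : V → ℝ), S ∈ 𝒮 → (O ⊆ N S ∧ T3Def 3 M S O φ ∧
      CtLAM 3 (M ∩ O) g t (fun _ => 0) {x | x ∈ M ∩ O ∧ φ x < 0} ∧
      (IsOpen T ∧ S ⊆ T ∧ T ⊆ O) ∧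
      (IsPreconnected {x | x ∈ M ∩ T ∧ 0 < φ x} ∧ IsPreconnected {x | x ∈ M ∩ T ∧ φ x < 0}) ∧
      (∀ x ∈ M ∩ T, ∃ y ∈ S, if_Join (M ∩ T) x y ∧ rdist (M ∩ T) g x y ≤ 1) ∧
      (SmoothAlong 3 M ζ ∧ (∀ x, 0 ≤ ζ x ∧ ζ x ≤ 1) ∧ (∀ x ∈ M ∩ closure T, ζ x = 1) ∧
        ∃ K, IsCompact K ∧ K ⊆ M ∩ O ∧ ∀ x ∈ M, x ∉ K → ζ x = 0)) := by
    intro S
    by_cases hS : S ∈ 𝒮
    · obtain ⟨O, T, φ, ζ, hh⟩ := t3tub_one h (h𝒮.cut S hS) (hN1 S hS).1 (hN1 S hS).2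
      exact ⟨O, T, φ, ζ, fun _ => hh⟩
    · exact ⟨∅, ∅, fun _ => 0, fun _ => 0, fun hS' => absurd hS' hS⟩
  choose O T φ ζ H using key
  refine ⟨O, T, φ, ζ, ⟨fun S hS => (H S hS).2.1, fun S hS => (H S hS).2.2.1, ?_, ?_,
    fun S hS => (H S hS).2.2.2.1, fun S hS => (H S hS).2.2.2.2.1,
    fun S hS => (H S hS).2.2.2.2.2.1, fun S hS => (H S hS).2.2.2.2.2.2⟩⟩
  · intro S hS S' hS' hne
    exact (hN2 S hS S' hS' hne).mono (inter_subset_right.trans (H S hS).1)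
      (inter_subset_right.trans (H S' hS').1)
  · intro x _
    obtain ⟨W, hW, hfin⟩ := hN3 x
    refine ⟨W, hW, hfin.subset ?_⟩
    rintro S ⟨hS, y, ⟨-, hyO⟩, hyW⟩
    exact ⟨hS, y, (H S hS).1 hyO, hyW⟩

/-! ### the model -/

variable {M : Set V} {g : Ten V} {t : V → ℝ} {𝒮 : Set (Set V)} {O T : Set V → Set V}
  {φ ζ : Set V → V → ℝ} {R : Set V}

/-- `ζ S` vanishes on `M` outside the outer tube. -/
theorem T3Tub.t3tub_zeta_off (H : T3Tub M g t 𝒮 O T φ ζ) {S : Set V} (hS : S ∈ 𝒮) {x : V}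
    (hx : x ∈ M) (hxO : x ∉ O S) : ζ S x = 0 := by
  obtain ⟨K, -, hKs, hK0⟩ := (H.zeta S hS).2.2.2
  exact hK0 x hx fun h => hxO (hKs h).2

/-- in an outer tube `χ` has one term. -/
theorem T3Tub.t3tub_chi_eq (H : T3Tub M g t 𝒮 O T φ ζ) {S : Set V} (hS : S ∈ 𝒮) {x : V}
    (hx : x ∈ M ∩ O S) : t3Chi 𝒮 φ ζ x = (SignType.sign (φ S x) : ℝ) * ζ S x := by
  classical
  unfold t3Chi
  rw [finsum_eq_single _ S fun S' hne => ?_, finsum_eq_if, if_pos hS]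
  by_cases hS' : S' ∈ 𝒮
  · rw [finsum_eq_if, if_pos hS', H.t3tub_zeta_off hS' hx.1 fun h =>
      Set.disjoint_left.1 (H.dis S hS S' hS' (Ne.symm hne)) hx ⟨hx.1, h⟩, mul_zero]
  · rw [finsum_eq_if, if_neg hS']

/-- `χ` vanishes where all cut-offs vanish. -/
theorem t3tub_chi_zero {𝒮 : Set (Set V)} {φ ζ : Set V → V → ℝ} {x : V}
    (h : ∀ S ∈ 𝒮, ζ S x = 0) : t3Chi 𝒮 φ ζ x = 0 := by
  unfold t3Chi
  exact finsum_mem_eq_zero_of_forall_eq_zero fun S hS => by rw [h S hS, mul_zero]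

/-- the surfaces of a tube system are closed. -/
theorem T3Tub.t3tub_closed (H : T3Tub M g t 𝒮 O T φ ζ) (hM : IsMfd 3 M) {S : Set V}
    (hS : S ∈ 𝒮) : IsClosed S := by
  obtain ⟨K, hKc, hKs, hK0⟩ := (H.zeta S hS).2.2.2
  have hφc : ContinuousOn (φ S) (M ∩ O S) :=
    if_smoothAlong_continuousOn (if_mfd_inter hM (H.df S hS).opn) (H.df S hS).smooth
  have e : S = K ∩ φ S ⁻¹' {0} := by
    ext x
    constructor
    · intro hx
      have hxM := (H.df S hS).sub hx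
      refine ⟨?_, ((H.df S hS).zero x hxM).2 hx⟩
      by_contra hxK
      have h1 := (H.zeta S hS).2.2.1 x ⟨hxM.1, subset_closure ((H.inner S hS).2.1 hx)⟩
      rw [hK0 x hxM.1 hxK] at h1
      exact zero_ne_one h1
    · rintro ⟨hxK, hx0⟩
      exact ((H.df S hS).zero x (hKs hxK)).1 hx0
  rw [e]
  exact (hφc.mono hKs).preimage_isClosed_of_isClosed hKc.isClosed isClosed_singleton

/-- **L-T3-Cm-5**: the function `χ`.
[At `x ∈ M` at most one `ζ S x ≠ 0` (the compact sets `K_S ⊆ M ∩ O S` are disjoint): `finsum` with at most one term.  `⋃ K_S` is closed in `M` (locally finite); on `M \ ⋃ K_S`: `χ = 0`; on `(M ∩ O S) \ S`: `χ = sign (φ S) ζ S` and `sign (φ S)` is locally constant.] -/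
theorem T3Tub.chi (H : T3Tub M g t 𝒮 O T φ ζ) (hM : IsMfd 3 M) :
    (∃ W : Set V, IsOpen W ∧ M ∩ W = M \ ⋃₀ 𝒮 ∧ SmoothAlong 3 (M ∩ W) (t3Chi 𝒮 φ ζ)) ∧
    (∀ S ∈ 𝒮, ∀ x ∈ M ∩ closure (T S), t3Chi 𝒮 φ ζ x = (SignType.sign (φ S x) : ℝ)) ∧
    ∀ x ∈ M, |t3Chi 𝒮 φ ζ x| ≤ 1 := by
  classical
  have hK : ∀ S ∈ 𝒮, ∃ K, IsCompact K ∧ K ⊆ M ∩ O S ∧ ∀ x ∈ M, x ∉ K → ζ S x = 0 :=
    fun S hS => (H.zeta S hS).2.2.2
  choose! K hKc hKs hK0 using hK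
  have hloc : ∀ C : Set V → Set V, (∀ S ∈ 𝒮, IsClosed (C S) ∧ C S ⊆ M ∩ O S) → ∀ x ∈ M,
      (∀ S ∈ 𝒮, x ∉ C S) → {y | ∀ S ∈ 𝒮, y ∉ C S} ∈ 𝓝 x := by
    intro C hC x hx hxC
    obtain ⟨W₀, hW₀, hfin⟩ := H.lf x hx
    have h1 : W₀ ∩ ⋂ S ∈ {S | S ∈ 𝒮 ∧ (M ∩ O S ∩ W₀).Nonempty}, (C S)ᶜ ∈ 𝓝 x :=
      Filter.inter_mem hW₀ ((Filter.biInter_mem hfin).2 fun S hS =>
        (hC S hS.1).1.isOpen_compl.mem_nhds (hxC S hS.1))
    refine Filter.mem_of_superset h1 ?_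
    rintro y ⟨hyW, hy⟩ S hS hyC
    exact (mem_iInter₂.1 hy S ⟨hS, y, (hC S hS).2 hyC, hyW⟩) hyC
  refine ⟨⟨interior (⋃₀ 𝒮)ᶜ, isOpen_interior, ?_, ?_⟩, ?_, ?_⟩
  · ext x
    constructor
    · rintro ⟨hxM, hx⟩
      exact ⟨hxM, interior_subset hx⟩
    · rintro ⟨hxM, hx⟩
      refine ⟨hxM, mem_interior_iff_mem_nhds.2 ?_⟩
      refine Filter.mem_of_superset (hloc (fun S => S)
        (fun S hS => ⟨H.t3tub_closed hM hS, (H.df S hS).sub⟩) x hxM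
        fun S hS hxS => hx ⟨S, hS, hxS⟩) ?_
      rintro y hy ⟨S, hS, hyS⟩
      exact hy S hS hyS
  · refine if_smoothAlong_of_pieces fun x hx => ?_
    have hxU : x ∉ ⋃₀ 𝒮 := interior_subset hx.2
    by_cases hcase : ∃ S ∈ 𝒮, x ∈ O S
    · obtain ⟨S, hS, hxO⟩ := hcase
      have hφc : ContinuousOn (φ S) (M ∩ O S) :=
        if_smoothAlong_continuousOn (if_mfd_inter hM (H.df S hS).opn) (H.df S hS).smooth
      have h0 : φ S x ≠ 0 := fun h0 =>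
        hxU ⟨S, hS, ((H.df S hS).zero x ⟨hx.1, hxO⟩).1 h0⟩
      obtain ⟨A, hA, hxA, hAs⟩ : ∃ A : Set ℝ, IsOpen A ∧ φ S x ∈ A ∧
          ∀ r ∈ A, SignType.sign r = SignType.sign (φ S x) := by
        rcases lt_or_gt_of_ne h0 with h | h
        · exact ⟨Iio 0, isOpen_Iio, h, fun r hr => by rw [sign_neg hr, sign_neg h]⟩
        · exact ⟨Ioi 0, isOpen_Ioi, h, fun r hr => by rw [sign_pos hr, sign_pos h]⟩
      obtain ⟨G, hG, hGe⟩ := (continuousOn_iff'.1 hφc) A hA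
      have hxG : x ∈ G := (hGe ▸ (⟨hxA, hx.1, hxO⟩ : x ∈ φ S ⁻¹' A ∩ (M ∩ O S)) :
        x ∈ G ∩ (M ∩ O S)).1
      refine ⟨O S ∩ G, (H.df S hS).opn.inter hG, ⟨hxO, hxG⟩, ?_⟩
      have hs : SmoothAlong 3 (M ∩ interior (⋃₀ 𝒮)ᶜ ∩ (O S ∩ G))
          (fun y => (SignType.sign (φ S x) : ℝ) * ζ S y) := by
        intro ψ U hψ
        exact contDiffOn_const.mul (if_smoothAlong_inter (if_smoothAlong_inter (H.zeta S hS).1
          isOpen_interior) ((H.df S hS).opn.inter hG) ψ U hψ)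
      refine if_smoothAlong_congr hs fun y hy => ?_
      have hyA : φ S y ∈ A := (hGe.symm ▸ (⟨hy.2.2, hy.1.1, hy.2.1⟩ : y ∈ G ∩ (M ∩ O S)) :
        y ∈ φ S ⁻¹' A ∩ (M ∩ O S)).1
      rw [H.t3tub_chi_eq hS ⟨hy.1.1, hy.2.1⟩, hAs _ hyA]
    · push Not at hcase
      have h1 := hloc K (fun S hS => ⟨(hKc S hS).isClosed, hKs S hS⟩) x hx.1
        fun S hS hxK => hcase S hS (hKs S hS hxK).2
      refine ⟨interior {y | ∀ S ∈ 𝒮, y ∉ K S}, isOpen_interior, mem_interior_iff_mem_nhds.2 h1, ?_⟩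
      refine if_smoothAlong_congr (if_smoothAlong_const 0) fun y hy => ?_
      exact t3tub_chi_zero fun S hS => hK0 S hS y hy.1.1 (interior_subset hy.2 S hS)
  · rintro S hS x ⟨hxM, hxT⟩
    have h1 := (H.zeta S hS).2.2.1 x ⟨hxM, hxT⟩
    have hxO : x ∈ O S := by
      by_contra hxO
      rw [H.t3tub_zeta_off hS hxM hxO] at h1
      exact zero_ne_one h1
    rw [H.t3tub_chi_eq hS ⟨hxM, hxO⟩, h1, mul_one]
  · intro x hx
    by_cases hcase : ∃ S ∈ 𝒮, x ∈ O S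
    · obtain ⟨S, hS, hxO⟩ := hcase
      rw [H.t3tub_chi_eq hS ⟨hx, hxO⟩, abs_mul]
      have h1 := (H.zeta S hS).2.1 x
      have h2 : |(SignType.sign (φ S x) : ℝ)| ≤ 1 := by
        rcases lt_trichotomy (φ S x) 0 with h | h | h
        · rw [sign_neg h]; simp
        · rw [h, sign_zero]; simp
        · rw [sign_pos h]; simp
      rw [abs_of_nonneg h1.1]
      exact mul_le_one₀ h2 h1.1 h1.2
    · push Not at hcase
      rw [t3tub_chi_zero fun S hS => H.t3tub_zeta_off hS hx (hcase S hS), abs_zero]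
      exact zero_le_one

/-- **L-T3-Cm-6**: facts (a), (b), (c) and the local graph property (d). -/
theorem T3Tub.li (H : T3Tub M g t 𝒮 O T φ ζ) (h : Drift 3 M g t (3 / 4))
    (hR : T3Comp (M \ ⋃₀ 𝒮) R) :
    T3Li 3 (t3CmX M 𝒮 T φ ζ R) M (ContinuousLinearMap.fst ℝ V ℝ) ∧
    (∀ q ∈ t3CmI M 𝒮 T φ R, t3CmX M 𝒮 T φ ζ R ∩ t3CmO T q = (M ∩ T q.1) ×ˢ {q.2}) ∧
    (t3Int (t3CmX M 𝒮 T φ ζ R) (fun q : t3CmI M 𝒮 T φ R => t3CmO T q.1)
      (fun q : t3CmI M 𝒮 T φ R => t3CmF φ q.1) = {z | z.1 ∈ R ∧ z.2 = t3Chi 𝒮 φ ζ z.1}) ∧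
    ∀ S ∈ 𝒮, ∀ x ∈ R ∩ T S, (S, (SignType.sign (φ S x) : ℝ)) ∈ t3CmI M 𝒮 T φ R ∧
      t3Chi 𝒮 φ ζ x = (SignType.sign (φ S x) : ℝ) := by
  classical
  obtain ⟨⟨W₀, hW₀, hMW₀, hsm⟩, hχT, -⟩ := H.chi h.mfd
  have hRM : ∀ x ∈ R, x ∈ M := fun x hx => (hR.1 hx).1
  have hTO : ∀ S ∈ 𝒮, ∀ x ∈ M ∩ T S, x ∈ M ∩ O S :=
    fun S hS x hx => ⟨hx.1, (H.inner S hS).2.2 hx.2⟩
  -- two signs at distance `< 1` are equal
  have hpm : ∀ a b : ℝ, (a = 1 ∨ a = -1) → (b = 1 ∨ b = -1) → |a - b| < 1 → a = b := by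
    rintro a b (rfl | rfl) (rfl | rfl) hab
    · rfl
    · norm_num at hab
    · norm_num at hab
    · rfl
  have hsgn : ∀ a : ℝ, a ≠ 0 → ((SignType.sign a : SignType) : ℝ) = 1 ∨
      ((SignType.sign a : SignType) : ℝ) = -1 := by
    intro a ha
    rcases lt_or_gt_of_ne ha with h1 | h1
    · right; simp [sign_neg h1]
    · left; simp [sign_pos h1]
  -- points of a tube off its surface lie off all surfaces
  have havoid : ∀ S ∈ 𝒮, ∀ x ∈ M ∩ T S, φ S x ≠ 0 → x ∈ M \ ⋃₀ 𝒮 := by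
    intro S hS x hx hφ
    refine ⟨hx.1, ?_⟩
    rintro ⟨S', hS', hxS'⟩
    by_cases e : S = S'
    · subst e
      exact hφ (((H.df S hS).zero x (hTO S hS x hx)).2 hxS')
    · exact disjoint_left.1 (H.dis S hS S' hS' e) (hTO S hS x hx) ((H.df S' hS').sub hxS')
  -- fact (c)
  have hc : ∀ S ∈ 𝒮, ∀ x ∈ R ∩ T S, φ S x ≠ 0 ∧
      (S, ((SignType.sign (φ S x) : SignType) : ℝ)) ∈ t3CmI M 𝒮 T φ R ∧
      t3Chi 𝒮 φ ζ x = ((SignType.sign (φ S x) : SignType) : ℝ) := by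
    intro S hS x hx
    have hxMT : x ∈ M ∩ T S := ⟨hRM x hx.1, hx.2⟩
    have hφ : φ S x ≠ 0 := fun h0 =>
      (hR.1 hx.1).2 ⟨S, hS, ((H.df S hS).zero x (hTO S hS x hxMT)).1 h0⟩
    refine ⟨hφ, ⟨hS, hsgn _ hφ, ?_⟩, hχT S hS x ⟨hxMT.1, subset_closure hxMT.2⟩⟩
    show {y | y ∈ M ∩ T S ∧ 0 < ((SignType.sign (φ S x) : SignType) : ℝ) * φ S y} ⊆ R
    rcases lt_or_gt_of_ne hφ with h1 | h1
    · have hset : {y | y ∈ M ∩ T S ∧ 0 < ((SignType.sign (φ S x) : SignType) : ℝ) * φ S y} =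
          {y | y ∈ M ∩ T S ∧ φ S y < 0} := by
        ext y; simp [sign_neg h1]
      rw [hset]
      exact hR.2.2.2 _ (fun y hy => havoid S hS y hy.1 (ne_of_lt hy.2)) (H.side S hS).2
        ⟨x, ⟨hxMT, h1⟩, hx.1⟩
    · have hset : {y | y ∈ M ∩ T S ∧ 0 < ((SignType.sign (φ S x) : SignType) : ℝ) * φ S y} =
          {y | y ∈ M ∩ T S ∧ 0 < φ S y} := by
        ext y; simp [sign_pos h1]
      rw [hset]
      exact hR.2.2.2 _ (fun y hy => havoid S hS y hy.1 (ne_of_gt hy.2)) (H.side S hS).1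
        ⟨x, ⟨hxMT, h1⟩, hx.1⟩
  -- fact (a)
  have ha : ∀ q ∈ t3CmI M 𝒮 T φ R,
      t3CmX M 𝒮 T φ ζ R ∩ t3CmO T q = (M ∩ T q.1) ×ˢ {q.2} := by
    rintro ⟨S, σ⟩ hq
    obtain ⟨hS, hσ, -⟩ := id hq
    simp only at hS hσ
    ext ⟨x, s⟩
    constructor
    · rintro ⟨hz, hxT, hs⟩
      simp only at hxT hs
      rw [Metric.mem_ball, Real.dist_eq] at hs
      rcases hz with ⟨hxR, hsχ⟩ | ⟨⟨S', σ'⟩, hq', hxT', hsσ'⟩
      · simp only at hxR hsχ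
        obtain ⟨h0, -, h2⟩ := hc S hS x ⟨hxR, hxT⟩
        refine ⟨⟨hRM x hxR, hxT⟩, ?_⟩
        show s = σ
        refine hpm s σ ?_ hσ (by linarith)
        rw [hsχ, h2]
        exact hsgn _ h0
      · simp only at hxT' hsσ'
        refine ⟨⟨hxT'.1, hxT⟩, ?_⟩
        show s = σ
        exact hpm s σ (hsσ' ▸ hq'.2.1) hσ (by linarith)
    · rintro ⟨hx, hs⟩
      simp only at hx
      have hs' : s = σ := hs
      subst hs'
      exact ⟨Or.inr ⟨(S, s), hq, hx, rfl⟩, hx.2, Metric.mem_ball_self (by norm_num)⟩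
  refine ⟨?_, ha, ?_, fun S hS x hx => (hc S hS x hx).2⟩
  · -- the local graph property
    refine t3li_of_graph h.mfd ?_
    have hsheet : ∀ z : V × ℝ, (∃ q ∈ t3CmI M 𝒮 T φ R, z.1 ∈ M ∩ T q.1 ∧ z.2 = q.2) →
        ∃ (W : Set (V × ℝ)) (O : Set V) (f : V → ℝ), IsOpen W ∧ z ∈ W ∧ IsOpen O ∧
          SmoothAlong 3 (M ∩ O) f ∧
          t3CmX M 𝒮 T φ ζ R ∩ W = {y | y.1 ∈ M ∩ O ∧ y.2 = f y.1} ∩ W := by
      rintro z ⟨q, hq, hz1, hz2⟩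
      have hTo : IsOpen (T q.1) := (H.inner q.1 hq.1).1
      refine ⟨t3CmO T q, T q.1, fun _ => q.2, hTo.prod Metric.isOpen_ball,
        ⟨hz1.2, by rw [hz2]; exact Metric.mem_ball_self (by norm_num)⟩, hTo,
        if_smoothAlong_const _, ?_⟩
      rw [ha q hq]
      ext y
      constructor
      · rintro ⟨hy1, hy2⟩
        have hy2' : y.2 = q.2 := hy2
        exact ⟨⟨hy1, hy2'⟩, hy1.2, by rw [hy2']; exact Metric.mem_ball_self (by norm_num)⟩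
      · rintro ⟨⟨hy1, hy2⟩, -⟩
        exact ⟨hy1, hy2⟩
    rintro z (⟨hzR, hzχ⟩ | hz)
    · have hxW : z.1 ∈ M ∩ W₀ := hMW₀ ▸ hR.1 hzR
      have hχc : ContinuousOn (t3Chi 𝒮 φ ζ) (M ∩ W₀) :=
        if_smoothAlong_continuousOn (if_mfd_inter h.mfd hW₀) hsm
      obtain ⟨u, hu, hue⟩ := continuousOn_iff'.1 hχc (Metric.ball (t3Chi 𝒮 φ ζ z.1) (1 / 2))
        Metric.isOpen_ball
      have hxu : z.1 ∈ u := by
        have : z.1 ∈ t3Chi 𝒮 φ ζ ⁻¹' Metric.ball (t3Chi 𝒮 φ ζ z.1) (1 / 2) ∩ (M ∩ W₀) :=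
          ⟨Metric.mem_ball_self (by norm_num), hxW⟩
        rw [hue] at this
        exact this.1
      obtain ⟨O₂, hO₂, hxO₂, hconn⟩ := pk_exists_conn_nhd
        (if_mfd_inter h.mfd (hW₀.inter hu)) (y := z.1) ⟨hxW.1, hxW.2, hxu⟩
      have hNo : IsOpen (W₀ ∩ u ∩ O₂) := (hW₀.inter hu).inter hO₂
      have hNe : M ∩ (W₀ ∩ u ∩ O₂) = M ∩ (W₀ ∩ u) ∩ O₂ := (inter_assoc _ _ _).symm
      have hNR : M ∩ (W₀ ∩ u ∩ O₂) ⊆ R := by
        rw [hNe]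
        refine hR.2.2.2 _ (fun y hy => ?_) hconn ⟨z.1, ⟨⟨hxW.1, hxW.2, hxu⟩, hxO₂⟩, hzR⟩
        rw [← hMW₀]
        exact ⟨hy.1.1, hy.1.2.1⟩
      have hNχ : ∀ y ∈ M ∩ (W₀ ∩ u ∩ O₂), |t3Chi 𝒮 φ ζ y - t3Chi 𝒮 φ ζ z.1| < 1 / 2 := by
        intro y hy
        have : y ∈ u ∩ (M ∩ W₀) := ⟨hy.2.1.2, hy.1, hy.2.1.1⟩
        rw [← hue] at this
        have h2 := this.1
        rwa [mem_preimage, Metric.mem_ball, Real.dist_eq] at h2
      have hsmN : SmoothAlong 3 (M ∩ (W₀ ∩ u ∩ O₂)) (t3Chi 𝒮 φ ζ) := by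
        have := if_smoothAlong_inter hsm (hu.inter hO₂)
        have e : M ∩ W₀ ∩ (u ∩ O₂) = M ∩ (W₀ ∩ u ∩ O₂) := by
          ext y; simp only [mem_inter_iff]; tauto
        rwa [e] at this
      refine ⟨(W₀ ∩ u ∩ O₂) ×ˢ Metric.ball (t3Chi 𝒮 φ ζ z.1) (1 / 2), W₀ ∩ u ∩ O₂, t3Chi 𝒮 φ ζ,
        hNo.prod Metric.isOpen_ball,
        ⟨⟨⟨hxW.2, hxu⟩, hxO₂⟩, by rw [hzχ]; exact Metric.mem_ball_self (by norm_num)⟩, hNo, hsmN, ?_⟩
      ext y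
      constructor
      · rintro ⟨hy, hyW⟩
        refine ⟨?_, hyW⟩
        rcases hy with ⟨hyR, hyχ⟩ | ⟨q, hq, hy1, hy2⟩
        · exact ⟨⟨hRM _ hyR, hyW.1⟩, hyχ⟩
        · have hyN : y.1 ∈ M ∩ (W₀ ∩ u ∩ O₂) := ⟨hy1.1, hyW.1⟩
          obtain ⟨h0, -, h2⟩ := hc q.1 hq.1 y.1 ⟨hNR hyN, hy1.2⟩
          refine ⟨hyN, ?_⟩
          have h3 := hNχ y.1 hyN
          have h4 : |y.2 - t3Chi 𝒮 φ ζ z.1| < 1 / 2 := by
            have := hyW.2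
            rwa [Metric.mem_ball, Real.dist_eq] at this
          refine hpm _ _ (hy2 ▸ hq.2.1) (h2 ▸ hsgn _ h0) ?_
          have h5 : y.2 - t3Chi 𝒮 φ ζ y.1 =
              (y.2 - t3Chi 𝒮 φ ζ z.1) - (t3Chi 𝒮 φ ζ y.1 - t3Chi 𝒮 φ ζ z.1) := by ring
          rw [h5]
          exact (abs_sub _ _).trans_lt (by linarith)
      · rintro ⟨⟨hy1, hy2⟩, hyW⟩
        exact ⟨Or.inl ⟨hNR hy1, hy2⟩, hyW⟩
    · exact hsheet z hz
  · -- fact (b)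
    ext z
    constructor
    · rintro ⟨hzX, hzE⟩
      rcases hzX with hz | ⟨q, hq, hz1, hz2⟩
      · exact hz
      · have hzO : z ∈ t3CmX M 𝒮 T φ ζ R ∩ t3CmO T q := by
          rw [ha q hq]
          exact ⟨hz1, hz2⟩
        have hpos : 0 < q.2 * φ q.1 z.1 := by
          by_contra hneg
          exact hzE ⟨⟨q, hq⟩, hzO, not_lt.1 hneg⟩
        have hzR : z.1 ∈ R := hq.2.2 ⟨hz1, hpos⟩
        obtain ⟨h0, -, h2⟩ := hc q.1 hq.1 z.1 ⟨hzR, hz1.2⟩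
        refine ⟨hzR, ?_⟩
        rw [hz2, h2]
        rcases hq.2.1 with e | e
        · rw [e, one_mul] at hpos
          rw [e]; simp [sign_pos hpos]
        · rw [e] at hpos
          have : φ q.1 z.1 < 0 := by linarith
          rw [e]; simp [sign_neg this]
    · rintro ⟨hzR, hzχ⟩
      refine ⟨Or.inl ⟨hzR, hzχ⟩, ?_⟩
      rintro ⟨⟨q, hq⟩, hzO, hle⟩
      rw [ha q hq] at hzO
      have hz2 : z.2 = q.2 := hzO.2
      obtain ⟨h0, -, h2⟩ := hc q.1 hq.1 z.1 ⟨hzR, hzO.1.2⟩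
      have hle' : q.2 * φ q.1 z.1 ≤ 0 := hle
      rw [← hz2, hzχ, h2] at hle'
      rcases lt_or_gt_of_ne h0 with h1 | h1
      · rw [sign_neg h1] at hle'
        simp at hle'
        linarith
      · rw [sign_pos h1] at hle'
        simp at hle'
        linarith

omit [MeasurableSpace V] [BorelSpace V] [FiniteDimensional ℝ V] in
/-- `T3Def` for a nonzero multiple of the defining function. -/
theorem t3cm_def_mul {d : ℕ} {M S O : Set V} {φ : V → ℝ} (h : T3Def d M S O φ) {c : ℝ}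
    (hc : c ≠ 0) : T3Def d M S O (fun x => c * φ x) where
  opn := h.opn
  sub := h.sub
  smooth := fun ψ U hψ => contDiffOn_const.mul (h.smooth ψ U hψ)
  zero := fun x hx => by rw [mul_eq_zero, or_iff_right hc]; exact h.zero x hx
  reg := fun ψ U hψ u hu h0 => by
    have h1 : DifferentiableAt ℝ (φ ∘ ψ) u :=
      ((h.smooth ψ U hψ).contDiffAt ((if_open hψ).mem_nhds hu)).differentiableAt (by simp)
    have h2 : fderiv ℝ ((fun x => c * φ x) ∘ ψ) u = c • fderiv ℝ (φ ∘ ψ) u :=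
      fderiv_const_mul h1 c
    rw [h2]
    exact smul_ne_zero hc (h.reg ψ U hψ u hu ((mul_eq_zero.1 h0).resolve_left hc))

/-- the outer tube of one cut surface as a manifold with one collar. -/
theorem T3Tub.col1 (H : T3Tub M g t 𝒮 O T φ ζ) (h : Drift 3 M g t (3 / 4)) (h𝒮 : T3Fam M g t 𝒮)
    {S : Set V} (hS : S ∈ 𝒮) :
    T3Col 3 (M ∩ O S) g t (fun _ : Unit => S) (fun _ => O S) (fun _ => φ S) := by
  have e : M ∩ O S ∩ O S = M ∩ O S := by rw [inter_assoc, inter_self]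
  have hdf := H.df S hS
  have hG : CtGeo 3 (M ∩ O S) g t := (CtGeo.mk h.mfd h.met h.smooth).inter hdf.opn
  refine ⟨hG, fun _ => (h𝒮.cut S hS).1, fun _ => (h𝒮.cut S hS).2.1, fun _ => ?_, fun _ => ?_,
    fun i j hij => absurd (Subsingleton.elim i j) hij, fun _ => ?_,
    fun x _ => ⟨univ, Filter.univ_mem, Set.toFinite _⟩⟩
  · refine ⟨hdf.opn, fun x hx => ⟨hdf.sub hx, (hdf.sub hx).2⟩, ?_, fun x hx => hdf.zero x hx.1, ?_⟩
    · rw [e]; exact hdf.smooth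
    · rw [e]; exact hdf.reg
  · rw [e]; exact H.lam S hS
  · have hc : ContinuousOn (φ S) (M ∩ O S) := if_smoothAlong_continuousOn hG.mfd hdf.smooth
    obtain ⟨u, hu, hue⟩ := continuousOn_iff_isClosed.1 hc (Iic 0) isClosed_Iic
    refine ⟨u, hu, ?_⟩
    rw [e, inter_comm, ← hue]
    ext x
    exact ⟨fun hx => ⟨hx.2, hx.1⟩, fun hx => ⟨hx.2, hx.1⟩⟩

/-- both sides of the inner tube are minimisers. -/
theorem T3Tub.lam_side (H : T3Tub M g t 𝒮 O T φ ζ) (h : Drift 3 M g t (3 / 4))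
    (h𝒮 : T3Fam M g t 𝒮) {S : Set V} (hS : S ∈ 𝒮) {σ : ℝ} (hσ : σ = 1 ∨ σ = -1) :
    CtLAM 3 (M ∩ T S) g t (fun _ => 0) {x | x ∈ M ∩ T S ∧ σ * φ S x < 0} := by
  have e : M ∩ O S ∩ O S = M ∩ O S := by rw [inter_assoc, inter_self]
  have hdf := H.df S hS
  have hG : CtGeo 3 (M ∩ O S) g t := (CtGeo.mk h.mfd h.met h.smooth).inter hdf.opn
  obtain ⟨hTo, -, hTO⟩ := H.inner S hS
  have eT : M ∩ O S ∩ T S = M ∩ T S := by
    ext x
    exact ⟨fun hx => ⟨hx.1.1, hx.2⟩, fun hx => ⟨⟨hx.1, hTO hx.2⟩, hx.2⟩⟩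
  rcases hσ with rfl | rfl
  · have h1 := (H.lam S hS).inter_open hG hTo
    rw [eT] at h1
    convert h1 using 1
    ext x
    simp only [one_mul, mem_ofPred_eq, mem_inter_iff]
    constructor
    · rintro ⟨hx, hφ⟩
      exact ⟨⟨⟨hx.1, hTO hx.2⟩, hφ⟩, hx.2⟩
    · rintro ⟨⟨hx, hφ⟩, hxT⟩
      exact ⟨⟨hx.1, hxT⟩, hφ⟩
  · have h0 := (H.col1 h h𝒮 hS).lam_le (by norm_num) ()
    simp only [e] at h0
    have h1 := ((h0.diff hG (if_smoothAlong_const 0)).congr_p (p' := fun _ => 0)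
      (fun x _ => by simp)).inter_open hG hTo
    rw [eT] at h1
    convert h1 using 1
    ext x
    simp only [mem_ofPred_eq, mem_inter_iff, mem_sdiff, not_and, not_le]
    constructor
    · rintro ⟨hx, hφ⟩
      exact ⟨⟨⟨hx.1, hTO hx.2⟩, fun _ => by linarith⟩, hx.2⟩
    · rintro ⟨⟨hx, hφ⟩, hxT⟩
      exact ⟨⟨hx.1, hxT⟩, by linarith [hφ hx]⟩

/-- **L-T3-Cm-7**: the collar structure.
[`df`: `T3Li.def_up` (+ sign); `lam`: `T3Li.iso_of_injOn` for `X ∩ t3CmO T q → M ∩ T S`, `T3Iso.lam`, `CtLAM.inter_open`, for `σ = -1` `CtLAM.diff` + `CtLAM.congr` (`S` is a null set); `clo`: fact (e); `dis`, `lf` from `H.dis`, `H.lf`.] -/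
theorem T3Tub.col (H : T3Tub M g t 𝒮 O T φ ζ) (h : Drift 3 M g t (3 / 4)) (h𝒮 : T3Fam M g t 𝒮)
    (hR : T3Comp (M \ ⋃₀ 𝒮) R) :
    T3Col 3 (t3CmX M 𝒮 T φ ζ R) (t3pT (ContinuousLinearMap.fst ℝ V ℝ) g) (fun z => t z.1)
      (fun q : t3CmI M 𝒮 T φ R => t3CmB q.1) (fun q : t3CmI M 𝒮 T φ R => t3CmO T q.1)
      (fun q : t3CmI M 𝒮 T φ R => t3CmF φ q.1) := by
  classical
  obtain ⟨hLi, ha, -, hc⟩ := H.li h hR
  obtain ⟨-, hχT, -⟩ := H.chi h.mfd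
  have hG : CtGeo 3 M g t := CtGeo.mk h.mfd h.met h.smooth
  have hXM : ∀ z ∈ t3CmX M 𝒮 T φ ζ R, z.1 ∈ M := by
    rintro z (hz | ⟨q, -, hz, -⟩)
    · exact (hR.1 hz.1).1
    · exact hz.1
  have hTO : ∀ S ∈ 𝒮, ∀ x ∈ M ∩ T S, x ∈ M ∩ O S :=
    fun S hS x hx => ⟨hx.1, (H.inner S hS).2.2 hx.2⟩
  have hσ0 : ∀ q ∈ t3CmI M 𝒮 T φ R, q.2 ≠ 0 := by
    rintro q hq
    rcases hq.2.1 with e | e <;> rw [e] <;> norm_num
  have hOo : ∀ q ∈ t3CmI M 𝒮 T φ R, IsOpen (t3CmO T q) :=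
    fun q hq => (H.inner q.1 hq.1).1.prod Metric.isOpen_ball
  refine ⟨hLi.geo hG, fun q => ?_, fun q => ?_, fun q => ?_, fun q => ?_, fun q q' hqq => ?_,
    fun q => ?_, fun z hz => ?_⟩
  · exact (h𝒮.cut q.1.1 q.2.1).1.prod isCompact_singleton
  · exact (h𝒮.cut q.1.1 q.2.1).2.1.prod isConnected_singleton
  · -- defining functions
    obtain ⟨q, hq⟩ := q
    have h1 := t3cm_def_mul (hLi.def_up (H.df q.1 hq.1) (hOo q hq)) (hσ0 q hq)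
    have e1 : t3CmX M 𝒮 T φ ζ R ∩ t3CmO T q ∩ (ContinuousLinearMap.fst ℝ V ℝ) ⁻¹' q.1 =
        t3CmB q := by
      rw [ha q hq]
      ext z
      constructor
      · rintro ⟨⟨-, hz2⟩, hz3⟩
        exact ⟨hz3, hz2⟩
      · rintro ⟨hz1, hz2⟩
        exact ⟨⟨⟨((H.df q.1 hq.1).sub hz1).1, (H.inner q.1 hq.1).2.1 hz1⟩, hz2⟩, hz1⟩
    have e2 : t3CmO T q ∩ (ContinuousLinearMap.fst ℝ V ℝ) ⁻¹' O q.1 = t3CmO T q := by
      refine inter_eq_left.2 fun z hz => ?_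
      exact (H.inner q.1 hq.1).2.2 hz.1
    rw [e1, e2] at h1
    exact h1
  · -- the exterior collars are minimisers
    obtain ⟨q, hq⟩ := q
    have hiso : T3Iso 3 (t3CmX M 𝒮 T φ ζ R ∩ t3CmO T q) (M ∩ T q.1)
        (ContinuousLinearMap.fst ℝ V ℝ) := by
      refine hLi.iso_of_injOn (hOo q hq) (H.inner q.1 hq.1).1 ?_ ?_
      · rw [ha q hq]
        rintro z ⟨-, hz⟩ z' ⟨-, hz'⟩ he
        exact Prod.ext he ((show z.2 = q.2 from hz).trans (show z'.2 = q.2 from hz').symm)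
      · rw [ha q hq]
        ext x
        constructor
        · rintro ⟨z, ⟨hz, -⟩, rfl⟩
          exact hz
        · intro hx
          exact ⟨(x, q.2), ⟨hx, rfl⟩, rfl⟩
    have h1 := (hiso.lam (p := fun _ => 0) (hG.inter (H.inner q.1 hq.1).1)
      (fun x hx => hx.1)).1 (H.lam_side h h𝒮 hq.1 hq.2.1)
    have e3 : {x | x ∈ t3CmX M 𝒮 T φ ζ R ∩ t3CmO T q ∧ t3CmF φ q x < 0} =
        t3CmX M 𝒮 T φ ζ R ∩ t3CmO T q ∩
          (ContinuousLinearMap.fst ℝ V ℝ) ⁻¹' {x | x ∈ M ∩ T q.1 ∧ q.2 * φ q.1 x < 0} := by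
      refine Set.ext fun z => ⟨?_, ?_⟩
      · rintro ⟨hz, hφ⟩
        have hz' := hz
        rw [ha q hq] at hz'
        exact ⟨hz, hz'.1, hφ⟩
      · rintro ⟨hz, -, hφ⟩
        exact ⟨hz, hφ⟩
    show CtLAM 3 (t3CmX M 𝒮 T φ ζ R ∩ t3CmO T q) _ _ _
      {x | x ∈ t3CmX M 𝒮 T φ ζ R ∩ t3CmO T q ∧ t3CmF φ q x < 0}
    rw [e3]
    exact h1
  · -- disjoint tubes
    obtain ⟨q, hq⟩ := q
    obtain ⟨q', hq'⟩ := q'
    have hne : q ≠ q' := fun e => hqq (Subtype.ext e)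
    show Disjoint (t3CmX M 𝒮 T φ ζ R ∩ t3CmO T q) (t3CmX M 𝒮 T φ ζ R ∩ t3CmO T q')
    rw [ha q hq, ha q' hq', disjoint_left]
    rintro z ⟨hz1, hz2⟩ ⟨hz1', hz2'⟩
    apply hne
    refine Prod.ext ?_ ((show z.2 = q.2 from hz2).symm.trans (show z.2 = q'.2 from hz2'))
    by_contra hS
    exact disjoint_left.1 (H.dis q.1 hq.1 q'.1 hq'.1 hS) (hTO _ hq.1 _ hz1) (hTO _ hq'.1 _ hz1')
  · -- the closed collars are closed in `X`
    obtain ⟨q, hq⟩ := q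
    have hS := hq.1
    have hdf := H.df q.1 hS
    have hφc : ContinuousOn (φ q.1) (M ∩ O q.1) :=
      if_smoothAlong_continuousOn (hG.inter hdf.opn).mfd hdf.smooth
    -- `M ∩ closure (T S) ⊆ M ∩ O S`
    have hclT : ∀ x ∈ M ∩ closure (T q.1), x ∈ M ∩ O q.1 := by
      intro x hx
      obtain ⟨-, -, h1, K, -, hKO, hK0⟩ := H.zeta q.1 hS
      by_contra hxO
      have := hK0 x hx.1 (fun hxK => hxO (hKO hxK))
      rw [h1 x hx] at this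
      exact one_ne_zero this
    refine ⟨closure {z | z ∈ t3CmX M 𝒮 T φ ζ R ∩ t3CmO T q ∧ t3CmF φ q z ≤ 0}, isClosed_closure,
      Subset.antisymm ?_ fun z hz => ⟨hz.1.1, subset_closure hz⟩⟩
    rintro z ⟨hzX, hzc⟩
    obtain ⟨w, hw, hwz⟩ := mem_closure_iff_seq_limit.1 hzc
    have hw' : ∀ n, (w n).1 ∈ M ∩ T q.1 ∧ (w n).2 = q.2 := by
      intro n
      have := (hw n).1
      rw [ha q hq] at this
      exact ⟨this.1, this.2⟩
    have hw1 : Filter.Tendsto (fun n => (w n).1) Filter.atTop (𝓝 z.1) :=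
      (continuous_fst.tendsto z).comp hwz
    have hw2 : Filter.Tendsto (fun n => (w n).2) Filter.atTop (𝓝 z.2) :=
      (continuous_snd.tendsto z).comp hwz
    have hz2 : z.2 = q.2 := by
      refine tendsto_nhds_unique hw2 ?_
      simp only [fun n => (hw' n).2]
      exact tendsto_const_nhds
    have hz1 : z.1 ∈ M ∩ closure (T q.1) :=
      ⟨hXM z hzX, mem_closure_of_tendsto hw1 (Filter.Eventually.of_forall fun n => (hw' n).1.2)⟩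
    have hz1O := hclT z.1 hz1
    have hle : q.2 * φ q.1 z.1 ≤ 0 := by
      have h1 : Filter.Tendsto (fun n => φ q.1 (w n).1) Filter.atTop (𝓝 (φ q.1 z.1)) := by
        refine ((hφc z.1 hz1O).tendsto).comp (tendsto_nhdsWithin_iff.2 ⟨hw1, ?_⟩)
        exact Filter.Eventually.of_forall fun n => hTO _ hS _ (hw' n).1
      exact le_of_tendsto (h1.const_mul q.2) (Filter.Eventually.of_forall fun n => (hw n).2)
    have hzT : z.1 ∈ T q.1 := by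
      rcases hzX with ⟨hzR, hzχ⟩ | ⟨q', hq', hz1', -⟩
      · exfalso
        have hφ0 : φ q.1 z.1 ≠ 0 := fun h0 =>
          (hR.1 hzR).2 ⟨q.1, hS, (hdf.zero z.1 hz1O).1 h0⟩
        have hχ := hχT q.1 hS z.1 hz1
        rw [← hz2, hzχ, hχ] at hle
        rcases lt_or_gt_of_ne hφ0 with h1 | h1
        · rw [sign_neg h1] at hle
          simp at hle
          linarith
        · rw [sign_pos h1] at hle
          simp at hle
          linarith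
      · by_contra hzT
        have hS' : q.1 ≠ q'.1 := fun e => hzT (e ▸ hz1'.2)
        exact disjoint_left.1 (H.dis q.1 hS q'.1 hq'.1 hS') hz1O (hTO _ hq'.1 _ hz1')
    refine ⟨?_, hle⟩
    rw [ha q hq]
    exact ⟨⟨hz1.1, hzT⟩, hz2⟩
  · -- local finiteness
    obtain ⟨W, hW, hfin⟩ := H.lf z.1 (hXM z hz)
    refine ⟨Prod.fst ⁻¹' W, continuous_fst.continuousAt.preimage_mem_nhds hW, ?_⟩
    have hfin2 : ({S | S ∈ 𝒮 ∧ (M ∩ O S ∩ W).Nonempty} ×ˢ ({1, -1} : Set ℝ)).Finite :=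
      hfin.prod (Set.toFinite _)
    refine (hfin2.preimage (Subtype.val_injective.injOn)).subset ?_
    rintro ⟨q, hq⟩ ⟨y, ⟨hyX, hyO⟩, hyW⟩
    refine ⟨⟨hq.1, y.1, ⟨hXM y hyX, (H.inner q.1 hq.1).2.2 hyO.1⟩, hyW⟩, ?_⟩
    rcases hq.2.1 with e | e
    · exact Or.inl e
    · exact Or.inr e

omit [MeasurableSpace V] [BorelSpace V] [FiniteDimensional ℝ V] in
/-- curves lift to a horizontal sheet with the same length. -/
theorem t3cm_rdist_lift {A : Set V} {X : Set (V × ℝ)} (g : Ten V) (σ : ℝ)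
    (hA : ∀ x ∈ A, (x, σ) ∈ X) {x y : V} (hj : if_Join A x y) :
    rdist X (t3pT (ContinuousLinearMap.fst ℝ V ℝ) g) (x, σ) (y, σ) ≤ rdist A g x y := by
  refine if_le_rdist hj fun c hc hx hy => ?_
  have hc' : ContDiff ℝ 1 (fun s => (c s, σ)) := hc.1.prodMk contDiff_const
  have e : if_len g c = if_len (t3pT (ContinuousLinearMap.fst ℝ V ℝ) g) (fun s => (c s, σ)) :=
    if_len_map (ContinuousLinearMap.fst ℝ V ℝ) g hc'
  rw [e]
  exact if_rdist_le' ⟨hc', fun s hs => hA _ (hc.2 s hs)⟩ _ (by rw [hx]) (by rw [hy])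

omit [MeasurableSpace V] [BorelSpace V] [FiniteDimensional ℝ V] in
/-- the sign of a number on the `σ`-side. -/
theorem t3cm_sign_eq {σ r : ℝ} (hσ : σ = 1 ∨ σ = -1) (h0 : 0 < σ * r) :
    (SignType.sign r : ℝ) = σ := by
  rcases hσ with rfl | rfl
  · rw [sign_pos (by linarith)]
    simp
  · rw [sign_neg (by linarith)]
    simp

/-- the surface lies in the closure of both sides of its inner tube. -/
theorem T3Tub.t3tub_side_closure (H : T3Tub M g t 𝒮 O T φ ζ) (hM : IsMfd 3 M)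
    (hg : IsMetricOn 3 M g) {S : Set V} (hS : S ∈ 𝒮) :
    S ⊆ closure {x | x ∈ M ∩ T S ∧ 0 < φ S x} ∧ S ⊆ closure {x | x ∈ M ∩ T S ∧ φ S x < 0} := by
  constructor
  · intro p hp
    rw [mem_closure_iff_nhds]
    intro W hW
    obtain ⟨N, -, -, hNW, -, ⟨x, hx, hx0⟩, -, -, -⟩ := t3g_box hM hg (H.df S hS) hp
      (Filter.inter_mem hW ((H.inner S hS).1.mem_nhds ((H.inner S hS).2.1 hp))) one_pos
    exact ⟨x, (hNW hx.2).1.1, ⟨hx.1, (hNW hx.2).1.2⟩, hx0⟩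
  · intro p hp
    rw [mem_closure_iff_nhds]
    intro W hW
    obtain ⟨N, -, -, hNW, -, -, -, ⟨x, hx, hx0⟩, -⟩ := t3g_box hM hg (H.df S hS) hp
      (Filter.inter_mem hW ((H.inner S hS).1.mem_nhds ((H.inner S hS).2.1 hp))) one_pos
    exact ⟨x, (hNW hx.2).1.1, ⟨hx.1, (hNW hx.2).1.2⟩, hx0⟩

/-- inner tubes are connected. -/
theorem T3Tub.t3tub_tube_conn (H : T3Tub M g t 𝒮 O T φ ζ) (hM : IsMfd 3 M)
    (hg : IsMetricOn 3 M g) {S : Set V} (hS : S ∈ 𝒮) (hne : S.Nonempty) :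
    IsPreconnected (M ∩ T S) := by
  obtain ⟨c1, c2⟩ := H.t3tub_side_closure hM hg hS
  obtain ⟨s1, s2⟩ := H.side S hS
  have a1 : IsPreconnected ({x | x ∈ M ∩ T S ∧ 0 < φ S x} ∪ S) :=
    s1.subset_closure subset_union_left (union_subset subset_closure c1)
  have a2 : IsPreconnected ({x | x ∈ M ∩ T S ∧ φ S x < 0} ∪ S) :=
    s2.subset_closure subset_union_left (union_subset subset_closure c2)
  obtain ⟨p, hp⟩ := hne
  have h3 := IsPreconnected.union p (Or.inr hp) (Or.inr hp) a1 a2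
  have e : M ∩ T S = ({x | x ∈ M ∩ T S ∧ 0 < φ S x} ∪ S) ∪ ({x | x ∈ M ∩ T S ∧ φ S x < 0} ∪ S) := by
    have hST : S ⊆ M ∩ T S := fun x hx => ⟨((H.df S hS).sub hx).1, (H.inner S hS).2.1 hx⟩
    ext x
    constructor
    · intro hx
      rcases lt_trichotomy (φ S x) 0 with h0 | h0 | h0
      · exact Or.inr (Or.inl ⟨hx, h0⟩)
      · exact Or.inl (Or.inr (((H.df S hS).zero x ⟨hx.1, (H.inner S hS).2.2 hx.2⟩).1 h0))
      · exact Or.inl (Or.inl ⟨hx, h0⟩)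
    · rintro ((hx | hx) | (hx | hx))
      · exact hx.1
      · exact hST hx
      · exact hx.1
      · exact hST hx
  rw [e]
  exact h3

/-- a point of the `σ`-side of an adjacent tube: it lies in `R` and `χ = σ` there. -/
theorem T3Tub.t3tub_side_pt (H : T3Tub M g t 𝒮 O T φ ζ) (hM : IsMfd 3 M) {q : Set V × ℝ}
    (hq : q ∈ t3CmI M 𝒮 T φ R) {x : V} (hx : x ∈ M ∩ T q.1) (h0 : 0 < q.2 * φ q.1 x) :
    x ∈ R ∧ t3Chi 𝒮 φ ζ x = q.2 := by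
  refine ⟨hq.2.2 ⟨hx, h0⟩, ?_⟩
  rw [(H.chi hM).2.1 q.1 hq.1 x ⟨hx.1, subset_closure hx.2⟩]
  exact t3cm_sign_eq hq.2.1 h0

/-- fact (h): the cut manifold is connected. -/
theorem T3Tub.t3tub_pc_conn (H : T3Tub M g t 𝒮 O T φ ζ) (h : Drift 3 M g t (3 / 4))
    (h𝒮 : T3Fam M g t 𝒮) (hR : T3Comp (M \ ⋃₀ 𝒮) R) :
    IsPreconnected (t3CmX M 𝒮 T φ ζ R) := by
  obtain ⟨⟨W, hW, hMW, hχs⟩, -, -⟩ := H.chi h.mfd
  have hχc : ContinuousOn (t3Chi 𝒮 φ ζ) (M \ ⋃₀ 𝒮) :=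
    hMW ▸ if_smoothAlong_continuousOn (if_mfd_inter h.mfd hW) hχs
  obtain ⟨hRY, ⟨x₀, hx₀⟩, hRc, -⟩ := hR
  set Γ : Set (V × ℝ) := {z | z.1 ∈ R ∧ z.2 = t3Chi 𝒮 φ ζ z.1} with hΓdef
  have hΓ : IsPreconnected Γ := by
    have e : Γ = (fun x => (x, t3Chi 𝒮 φ ζ x)) '' R := by
      ext z
      constructor
      · rintro ⟨h1, h2⟩
        exact ⟨z.1, h1, Prod.ext rfl h2.symm⟩
      · rintro ⟨x, hx, rfl⟩
        exact ⟨hx, rfl⟩
    rw [e]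
    exact hRc.image _ (continuousOn_id.prodMk (hχc.mono hRY))
  have hsheet : ∀ q ∈ t3CmI M 𝒮 T φ R, IsPreconnected (Γ ∪ (M ∩ T q.1) ×ˢ ({q.2} : Set ℝ)) := by
    intro q hq
    have hne : q.1.Nonempty := (h𝒮.cut q.1 hq.1).2.1.nonempty
    have hc : IsPreconnected ((M ∩ T q.1) ×ˢ ({q.2} : Set ℝ)) :=
      (H.t3tub_tube_conn h.mfd h.met hq.1 hne).prod isPreconnected_singleton
    refine IsPreconnected.union' ?_ hΓ hc
    obtain ⟨c1, c2⟩ := H.t3tub_side_closure h.mfd h.met hq.1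
    obtain ⟨x, hx, h0⟩ : ∃ x, x ∈ M ∩ T q.1 ∧ 0 < q.2 * φ q.1 x := by
      rcases hq.2.1 with hσ | hσ
      · obtain ⟨x, hx, h0⟩ := closure_nonempty_iff.1 (hne.mono c1)
        exact ⟨x, hx, by rw [hσ]; linarith⟩
      · obtain ⟨x, hx, h0⟩ := closure_nonempty_iff.1 (hne.mono c2)
        exact ⟨x, hx, by rw [hσ]; linarith⟩
    obtain ⟨h1, h2⟩ := H.t3tub_side_pt h.mfd hq hx h0
    exact ⟨(x, q.2), ⟨h1, h2.symm⟩, hx, rfl⟩
  have hX : t3CmX M 𝒮 T φ ζ R = ⋃₀ (insert Γ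
      ((fun q : Set V × ℝ => Γ ∪ (M ∩ T q.1) ×ˢ ({q.2} : Set ℝ)) '' t3CmI M 𝒮 T φ R)) := by
    ext z
    constructor
    · rintro (hz | ⟨q, hq, hz1, hz2⟩)
      · exact ⟨Γ, mem_insert _ _, hz⟩
      · exact ⟨_, mem_insert_of_mem _ ⟨q, hq, rfl⟩, Or.inr ⟨hz1, hz2⟩⟩
    · rintro ⟨s, (rfl | ⟨q, hq, rfl⟩), hz⟩
      · exact Or.inl hz
      · rcases hz with hz | hz
        · exact Or.inl hz
        · exact Or.inr ⟨q, hq, hz.1, hz.2⟩
  rw [hX]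
  refine isPreconnected_sUnion (x₀, t3Chi 𝒮 φ ζ x₀) _ ?_ ?_
  · rintro s (rfl | ⟨q, hq, rfl⟩)
    · exact ⟨hx₀, rfl⟩
    · exact Or.inl ⟨hx₀, rfl⟩
  · rintro s (rfl | ⟨q, hq, rfl⟩)
    · exact hΓ
    · exact hsheet q hq

/-- the boundary sheets form a closed set. -/
theorem T3Tub.t3tub_pc_sigma (H : T3Tub M g t 𝒮 O T φ ζ) (hM : IsMfd 3 M) (hMc : IsClosed M) :
    IsClosed (⋃ q ∈ t3CmI M 𝒮 T φ R, q.1 ×ˢ ({q.2} : Set ℝ)) := by
  rw [biUnion_eq_iUnion]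
  refine LocallyFinite.isClosed_iUnion ?_ fun q =>
    (H.t3tub_closed hM q.2.1).prod isClosed_singleton
  intro z
  by_cases hz : z.1 ∈ M
  · obtain ⟨W, hW, hfin⟩ := H.lf z.1 hz
    refine ⟨Prod.fst ⁻¹' W, continuous_fst.continuousAt.preimage_mem_nhds hW, ?_⟩
    have hfin2 : ({S | S ∈ 𝒮 ∧ (M ∩ O S ∩ W).Nonempty} ×ˢ ({1, -1} : Set ℝ)).Finite :=
      hfin.prod (Set.toFinite _)
    refine (hfin2.preimage (Subtype.val_injective.injOn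
      (s := (Subtype.val ⁻¹' _ : Set (t3CmI M 𝒮 T φ R))))).subset ?_
    rintro q ⟨y, hy1, hy2⟩
    refine ⟨⟨q.2.1, y.1, (H.df _ q.2.1).sub hy1.1, hy2⟩, ?_⟩
    rcases q.2.2.1 with h1 | h1
    · exact Or.inl h1
    · exact Or.inr h1
  · refine ⟨Prod.fst ⁻¹' Mᶜ, continuous_fst.continuousAt.preimage_mem_nhds
      (hMc.isOpen_compl.mem_nhds hz), ?_⟩
    convert Set.finite_empty
    rw [Set.eq_empty_iff_forall_notMem]
    rintro q ⟨y, hy1, hy2⟩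
    exact hy2 ((H.df _ q.2.1).sub hy1.1).1

/-- fact (f): the core is closed in `V × ℝ`. -/
theorem T3Tub.t3tub_pc_closed (H : T3Tub M g t 𝒮 O T φ ζ) (h : Drift 3 M g t (3 / 4))
    (hR : T3Comp (M \ ⋃₀ 𝒮) R) :
    IsClosed ({z : V × ℝ | z.1 ∈ R ∧ z.2 = t3Chi 𝒮 φ ζ z.1} ∪
      ⋃ q ∈ t3CmI M 𝒮 T φ R, q.1 ×ˢ ({q.2} : Set ℝ)) := by
  obtain ⟨-, -, -, hL4⟩ := H.li h hR
  obtain ⟨⟨W, hW, hMW, hχs⟩, -, -⟩ := H.chi h.mfd
  have hχc : ContinuousOn (t3Chi 𝒮 φ ζ) (M \ ⋃₀ 𝒮) :=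
    hMW ▸ if_smoothAlong_continuousOn (if_mfd_inter h.mfd hW) hχs
  obtain ⟨hRY, -, -, hRmax⟩ := hR
  have hSig := H.t3tub_pc_sigma (R := R) h.mfd h.closed
  refine isClosed_of_closure_subset ?_
  rw [closure_union, hSig.closure_eq]
  refine union_subset ?_ subset_union_right
  intro z hz
  obtain ⟨zs, hzs, hlim⟩ := mem_closure_iff_seq_limit.1 hz
  have hx : Filter.Tendsto (fun n => (zs n).1) Filter.atTop (𝓝 z.1) :=
    (continuous_fst.tendsto z).comp hlim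
  have hs : Filter.Tendsto (fun n => (zs n).2) Filter.atTop (𝓝 z.2) :=
    (continuous_snd.tendsto z).comp hlim
  have hzM : z.1 ∈ M :=
    h.closed.mem_of_tendsto hx (Filter.Eventually.of_forall fun n => (hRY (hzs n).1).1)
  by_cases hzS : z.1 ∈ ⋃₀ 𝒮
  · obtain ⟨S, hS, hzS⟩ := hzS
    right
    have e1 : ∀ᶠ n in Filter.atTop, (zs n).1 ∈ T S :=
      hx.eventually ((H.inner S hS).1.mem_nhds ((H.inner S hS).2.1 hzS))
    have e2 : ∀ᶠ n in Filter.atTop, (S, (zs n).2) ∈ t3CmI M 𝒮 T φ R := by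
      filter_upwards [e1] with n hn
      obtain ⟨a, b⟩ := hL4 S hS (zs n).1 ⟨(hzs n).1, hn⟩
      rw [(hzs n).2, b]
      exact a
    have e3 : z.2 ∈ ({1, -1} : Set ℝ) := by
      refine (Set.toFinite ({1, -1} : Set ℝ)).isClosed.mem_of_tendsto hs ?_
      filter_upwards [e2] with n hn
      rcases hn.2.1 with h1 | h1
      · exact Or.inl h1
      · exact Or.inr h1
    have e4 : ∀ᶠ n in Filter.atTop, dist (zs n).2 z.2 < 1 :=
      hs.eventually (Metric.ball_mem_nhds _ one_pos)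
    obtain ⟨n, hn2, hn4⟩ := (e2.and e4).exists
    have e5 : (zs n).2 = z.2 := by
      rw [Real.dist_eq] at hn4
      have h4 := abs_lt.1 hn4
      have h2 : (zs n).2 = 1 ∨ (zs n).2 = -1 := hn2.2.1
      have h3 : z.2 = 1 ∨ z.2 = -1 := e3
      rcases h2 with h2 | h2 <;> rcases h3 with h3 | h3 <;> rw [h2, h3] at h4 ⊢ <;>
        first | rfl | (exfalso; linarith [h4.1, h4.2])
    rw [e5] at hn2
    exact mem_iUnion₂.2 ⟨(S, z.2), hn2, hzS, rfl⟩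
  · left
    have hzY : z.1 ∈ M \ ⋃₀ 𝒮 := ⟨hzM, hzS⟩
    have hzW : z.1 ∈ W := (hMW ▸ hzY : z.1 ∈ M ∩ W).2
    obtain ⟨ψ, u₀, ε, hε, hψ, hψ0, hsub⟩ := t3g_ball h.mfd ⟨z.1, hzM⟩ (Subtype.val ⁻¹' W)
      ((hW.preimage continuous_subtype_val).mem_nhds hzW)
    obtain ⟨N, hN, hNe⟩ := if_image hψ
    have hzC : z.1 ∈ ψ '' Metric.ball u₀ ε := ⟨u₀, Metric.mem_ball_self hε, hψ0⟩
    have hCY : ψ '' Metric.ball u₀ ε ⊆ M \ ⋃₀ 𝒮 := by
      intro y hy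
      have hyM : y ∈ M := (hNe ▸ hy : y ∈ M ∩ N).1
      rw [← hMW]
      exact ⟨hyM, hsub (show (⟨y, hyM⟩ : ↥M) ∈ Subtype.val ⁻¹' (ψ '' Metric.ball u₀ ε) from hy)⟩
    have hCc : IsPreconnected (ψ '' Metric.ball u₀ ε) :=
      (convex_ball u₀ ε).isPreconnected.image ψ (if_continuousOn hψ)
    have e1 : ∀ᶠ n in Filter.atTop, (zs n).1 ∈ N :=
      hx.eventually (hN.mem_nhds (hNe ▸ hzC : z.1 ∈ M ∩ N).2)
    obtain ⟨n, hn⟩ := e1.exists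
    have hzR : z.1 ∈ R := hRmax _ hCY hCc
      ⟨(zs n).1, hNe.symm ▸ (⟨(hRY (hzs n).1).1, hn⟩ : (zs n).1 ∈ M ∩ N), (hzs n).1⟩ hzC
    refine ⟨hzR, ?_⟩
    have h1 : Filter.Tendsto (fun n => t3Chi 𝒮 φ ζ (zs n).1) Filter.atTop
        (𝓝 (t3Chi 𝒮 φ ζ z.1)) :=
      (hχc z.1 hzY).tendsto.comp (tendsto_nhdsWithin_iff.2
        ⟨hx, Filter.Eventually.of_forall fun n => hRY (hzs n).1⟩)
    exact tendsto_nhds_unique hs (h1.congr fun n => (hzs n).2.symm)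

/-- the core of the cut manifold. -/
theorem T3Tub.t3tub_pc_core (H : T3Tub M g t 𝒮 O T φ ζ) (h : Drift 3 M g t (3 / 4))
    (hR : T3Comp (M \ ⋃₀ 𝒮) R) :
    t3Core (t3CmX M 𝒮 T φ ζ R) (fun q : t3CmI M 𝒮 T φ R => t3CmO T q.1)
      (fun q : t3CmI M 𝒮 T φ R => t3CmF φ q.1) =
    {z : V × ℝ | z.1 ∈ R ∧ z.2 = t3Chi 𝒮 φ ζ z.1} ∪
      ⋃ q ∈ t3CmI M 𝒮 T φ R, q.1 ×ˢ ({q.2} : Set ℝ) := by
  obtain ⟨-, -, hL3, -⟩ := H.li h hR
  apply Subset.antisymm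
  · rintro z ⟨hzX, hzE⟩
    rcases hzX with hz | ⟨q, hq, hz1, hz2⟩
    · exact Or.inl hz
    · have hzX' : z ∈ t3CmX M 𝒮 T φ ζ R := Or.inr ⟨q, hq, hz1, hz2⟩
      have h0 : ¬ q.2 * φ q.1 z.1 < 0 := fun hlt => hzE ⟨⟨q, hq⟩, ⟨hzX', hz1.2, by
        show z.2 ∈ Metric.ball q.2 (1 / 2)
        rw [hz2]
        exact Metric.mem_ball_self (by norm_num)⟩, hlt⟩
      rcases (not_lt.1 h0).eq_or_lt with h1 | h1
      · right
        have hσ : q.2 ≠ 0 := by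
          rcases hq.2.1 with h2 | h2 <;> rw [h2] <;> norm_num
        have h2 : φ q.1 z.1 = 0 := (mul_eq_zero.1 h1.symm).resolve_left hσ
        exact mem_iUnion₂.2 ⟨q, hq,
          ((H.df q.1 hq.1).zero z.1 ⟨hz1.1, (H.inner q.1 hq.1).2.2 hz1.2⟩).1 h2, hz2⟩
      · left
        obtain ⟨a, b⟩ := H.t3tub_side_pt h.mfd hq hz1 h1
        exact ⟨a, by rw [hz2, b]⟩
  · rintro z (hz | hz)
    · have hz' : z ∈ t3Int (t3CmX M 𝒮 T φ ζ R) (fun q : t3CmI M 𝒮 T φ R => t3CmO T q.1)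
          (fun q : t3CmI M 𝒮 T φ R => t3CmF φ q.1) := hL3.symm ▸ hz
      refine ⟨hz'.1, ?_⟩
      rintro ⟨q, h1, h2⟩
      exact hz'.2 ⟨q, h1, h2.le⟩
    · obtain ⟨q, hq, hz1, hz2⟩ := mem_iUnion₂.1 hz
      have hzM := (H.df q.1 hq.1).sub hz1
      refine ⟨Or.inr ⟨q, hq, ⟨hzM.1, (H.inner q.1 hq.1).2.1 hz1⟩, hz2⟩, ?_⟩
      rintro ⟨⟨q', hq'⟩, ⟨-, hzO, -⟩, hlt⟩
      have hzO' : z.1 ∈ T q'.1 := hzO
      have hlt' : q'.2 * φ q'.1 z.1 < 0 := hlt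
      by_cases hqq : q'.1 = q.1
      · rw [hqq, ((H.df q.1 hq.1).zero z.1 hzM).2 hz1, mul_zero] at hlt'
        exact lt_irrefl _ hlt'
      · exact Set.disjoint_left.1 (H.dis q'.1 hq'.1 q.1 hq.1 hqq)
          ⟨hzM.1, (H.inner q'.1 hq'.1).2.2 hzO'⟩ hzM

/-- **L-T3-Cm-8**: connectedness, properness, thin tubes, diameters: facts (f), (g), (h). -/
theorem T3Tub.pc (H : T3Tub M g t 𝒮 O T φ ζ) (h : Drift 3 M g t (3 / 4)) (h𝒮 : T3Fam M g t 𝒮)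
    (hR : T3Comp (M \ ⋃₀ 𝒮) R) :
    T3Pc (t3CmX M 𝒮 T φ ζ R) (t3pT (ContinuousLinearMap.fst ℝ V ℝ) g) (fun z => t z.1)
      (fun q : t3CmI M 𝒮 T φ R => t3CmB q.1) (fun q : t3CmI M 𝒮 T φ R => t3CmO T q.1)
      (fun q : t3CmI M 𝒮 T φ R => t3CmF φ q.1) := by
  obtain ⟨hLi, hL2, -, -⟩ := H.li h hR
  have hcol := H.col h h𝒮 hR
  have hconn := H.t3tub_pc_conn h h𝒮 hR
  have hsheetX : ∀ q ∈ t3CmI M 𝒮 T φ R, ∀ x ∈ M ∩ T q.1, (x, q.2) ∈ t3CmX M 𝒮 T φ ζ R :=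
    fun q hq x hx => Or.inr ⟨q, hq, hx, rfl⟩
  refine ⟨hcol, hconn, fun z hz => ?_, fun o ho ρ => ?_, ?_, ?_⟩
  · have h1 := hLi.Dsc h.met h.smooth hz
    have h2 := h.bound _ (hLi.maps hz)
    exact h2.trans h1.ge
  · rw [H.t3tub_pc_core h hR]
    set C : Set (V × ℝ) := {z : V × ℝ | z.1 ∈ R ∧ z.2 = t3Chi 𝒮 φ ζ z.1} ∪
      ⋃ q ∈ t3CmI M 𝒮 T φ R, q.1 ×ˢ ({q.2} : Set ℝ) with hC
    have hCcl : IsClosed C := H.t3tub_pc_closed h hR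
    have hCX : C ⊆ t3CmX M 𝒮 T φ ζ R := by
      rw [hC, ← H.t3tub_pc_core h hR]
      exact fun z hz => hz.1
    have hcont : ContinuousOn (rdist (t3CmX M 𝒮 T φ ζ R)
        (t3pT (ContinuousLinearMap.fst ℝ V ℝ) g) o) (t3CmX M 𝒮 T φ ζ R) :=
      if_rdist_continuousOn hLi.mfd hconn (if_isMetricOn_iff.1 hcol.geo.met).1 ho
    have hcl : IsClosed (C ∩ rdist (t3CmX M 𝒮 T φ ζ R)
        (t3pT (ContinuousLinearMap.fst ℝ V ℝ) g) o ⁻¹' Iic ρ) :=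
      (hcont.mono hCX).preimage_isClosed_of_isClosed hCcl isClosed_Iic
    have hK : IsCompact ({y | y ∈ M ∧ rdist M g o.1 y ≤ ρ} ×ˢ Icc (-1 : ℝ) 1) :=
      (h.proper o.1 (hLi.maps ho) ρ).prod isCompact_Icc
    refine hK.of_isClosed_subset hcl ?_
    rintro z ⟨hzC, hzρ⟩
    have hzX := hCX hzC
    refine ⟨⟨hLi.maps hzX, ?_⟩, ?_⟩
    · exact (hLi.rdist_le g (if_join_of_connected hLi.mfd hconn ho hzX)).trans hzρ
    · rcases hzC with hz | hz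
      · have := abs_le.1 ((H.chi h.mfd).2.2 z.1 (hLi.maps hzX))
        rw [← hz.2] at this
        exact this
      · obtain ⟨q, hq, -, hz2⟩ := mem_iUnion₂.1 hz
        have hz2' : z.2 = q.2 := hz2
        rcases hq.2.1 with h1 | h1 <;> rw [hz2', h1] <;> constructor <;> norm_num
  · rintro ⟨q, hq⟩ z hz
    have hz' : z ∈ (M ∩ T q.1) ×ˢ ({q.2} : Set ℝ) := hL2 q hq ▸ hz
    obtain ⟨y, hy, hj, hr⟩ := H.thin q.1 hq.1 z.1 hz'.1
    refine ⟨(y, q.2), ⟨hy, rfl⟩, ?_⟩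
    have h1 := t3cm_rdist_lift g q.2 (hsheetX q hq) hj
    have e : z = (z.1, q.2) := Prod.ext rfl hz'.2
    rw [e]
    exact h1.trans hr
  · rintro ⟨q, hq⟩ x hx y hy
    obtain ⟨hj, hr⟩ := t3_cut_idiam h (h𝒮.cut q.1 hq.1) x.1 hx.1 y.1 hy.1
    have hST : ∀ w ∈ q.1, (w, q.2) ∈ t3CmX M 𝒮 T φ ζ R := fun w hw =>
      hsheetX q hq w ⟨((H.df q.1 hq.1).sub hw).1, (H.inner q.1 hq.1).2.1 hw⟩
    have h1 := t3cm_rdist_lift g q.2 hST hj
    have ex : x = (x.1, q.2) := Prod.ext rfl hx.2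
    have ey : y = (y.1, q.2) := Prod.ext rfl hy.2
    rw [ex, ey]
    linarith

/-- **THE CUT MANIFOLD** (PROVED from the statements above). -/
theorem t3_cm {M : Set V} {g : Ten V} {t : V → ℝ} (h : Drift 3 M g t (3 / 4))
    {𝒮 : Set (Set V)} (h𝒮 : T3Fam M g t 𝒮) :
    ∃ Wt : Set V → Set V, (∀ S ∈ 𝒮, IsOpen (Wt S) ∧ S ⊆ Wt S) ∧
      ∀ R, T3Comp (M \ ⋃₀ 𝒮) R →
        ∃ (X : Set (V × ℝ)) (ι : Type) (B O : ι → Set (V × ℝ)) (φ : ι → V × ℝ → ℝ),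
          T3Li 3 X M (ContinuousLinearMap.fst ℝ V ℝ) ∧
          T3Pc X (t3pT (ContinuousLinearMap.fst ℝ V ℝ) g)
            (fun z => t ((ContinuousLinearMap.fst ℝ V ℝ) z)) B O φ ∧
          InjOn (ContinuousLinearMap.fst ℝ V ℝ) (t3Int X O φ) ∧
          (ContinuousLinearMap.fst ℝ V ℝ) '' t3Int X O φ = R ∧
          ∀ S ∈ 𝒮, ∀ z ∈ t3Int X O φ, z.1 ∈ Wt S → ∃ i, z ∈ O i := by
  obtain ⟨O, T, φ, ζ, H⟩ := t3_tub_exists h h𝒮
  refine ⟨T, fun S hS => ⟨(H.inner S hS).1, (H.inner S hS).2.1⟩, fun R hR => ?_⟩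
  obtain ⟨h1, h2, h3, h4⟩ := H.li h hR
  refine ⟨_, _, _, _, _, h1, H.pc h h𝒮 hR, ?_, ?_, ?_⟩
  · rw [h3]
    rintro ⟨x, s⟩ ⟨-, hs⟩ ⟨x', s'⟩ ⟨-, hs'⟩ (hxx : x = x')
    subst hxx
    exact Prod.ext rfl (hs.trans hs'.symm)
  · rw [h3]
    ext x
    constructor
    · rintro ⟨z, ⟨hz, -⟩, rfl⟩
      exact hz
    · intro hx
      exact ⟨(x, t3Chi 𝒮 φ ζ x), ⟨hx, rfl⟩, rfl⟩
  · intro S hS z hz hzT
    rw [h3] at hz
    obtain ⟨h5, h6⟩ := h4 S hS z.1 ⟨hz.1, hzT⟩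
    refine ⟨⟨_, h5⟩, hzT, ?_⟩
    show z.2 ∈ Metric.ball ((SignType.sign (φ S z.1) : ℝ)) (1 / 2)
    rw [hz.2, h6]
    exact Metric.mem_ball_self (by norm_num)

end Claimed.Agent.R315
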