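-- KEEP
import Claimed.Agent.R315.T3.Pc
import Claimed.Agent.R315.Ct.Prod

/-!
# Row 315, paper T (n = 3), package T3-ZcA: the infinite cyclic cover defined by a two-sided hypersurface, as a subset of `V × ℝ`

Sub-captain: helper72.  Everything here is elementary (transfer lemmas of `T3/Li.lean`, translation lemmas of `Ct/ProdA.lean`).

* `T3Stp X F N K ϑ`: STEP FUNCTION of `F`: `ϑ : X → [0,1]`, smooth on the tube `X ∩ N`, `{ϑ = 1/2} = F` regular, `ϑ ∈ {0,1}` on `X` outside the compact set `K ⊆ X ∩ N`.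
* `t3Y X ϑ = {(x,s) | x ∈ X, s - ϑ x ∈ ℤ}`: THE COVER.  Only `ϑ mod 1` matters, and `ϑ mod 1` is smooth on `X`.
* `t3Tk k A = {z | (z.1, z.2 - k) ∈ A}`: DECK TRANSLATION `τᵏ` (an ambient translation).  `t3E0 X ϑ c = {z ∈ Y | z.2 < c}`.
* `T3Cov X Y`: the topological content (fibres are `ℤ`-torsors, local continuous sections), used by the detection package `T3/ZcF.lean`.
* `T3XCut X h t I S'`: what T Lemma 3.2 has to produce.

All data on `Y` are pull-backs by `fst`: metric `t3pT fst h`, drift `t ∘ fst`.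
LEAVES: L-T3-ZcA-1 (`t3_stp_exists`), -2 (`T3Stp.li`, `cov`, `box`, `inter`), -3 (`T3Stp.height`), -4 (`T3Stp.e0`), -5 (`T3Stp.layer`, `T3Stp.conn`, `t3_diff_conn`), -6 (`T3Stp.col`), -7 (`t3tk_*`).
-/

set_option autoImplicit false
set_option linter.unusedSectionVars false
open scoped ContDiff Topology ENNReal
open MeasureTheory Claims.C0499 Set

namespace Claimed.Agent.R315

variable {V : Type} [NormedAddCommGroup V] [NormedSpace ℝ V]

/-- step function of the hypersurface `F`. -/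
structure T3Stp (X F N K : Set V) (ϑ : V → ℝ) : Prop where
  opn : IsOpen N
  cpt : IsCompact K
  sub : K ⊆ X ∩ N
  df : T3Def 3 X F N (fun x => ϑ x - 1 / 2)
  int : ∀ x ∈ X, x ∉ K → ϑ x = 0 ∨ ϑ x = 1
  rng : ∀ x, 0 ≤ ϑ x ∧ ϑ x ≤ 1

/-- the infinite cyclic cover. -/
def t3Y (X : Set V) (ϑ : V → ℝ) : Set (V × ℝ) := {z | z.1 ∈ X ∧ ∃ k : ℤ, z.2 = ϑ z.1 + k}

/-- deck translation by `k`. -/
def t3Tk (k : ℤ) (A : Set (V × ℝ)) : Set (V × ℝ) := {z | (z.1, z.2 - k) ∈ A}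

/-- the part of the cover below the height `c`. -/
def t3E0 (X : Set V) (ϑ : V → ℝ) (c : ℝ) : Set (V × ℝ) := {z | z ∈ t3Y X ϑ ∧ z.2 < c}

/-- the layer `{a < height < b}`. -/
def t3Lay (X : Set V) (ϑ : V → ℝ) (a b : ℝ) : Set (V × ℝ) := {z | z ∈ t3Y X ϑ ∧ a < z.2 ∧ z.2 < b}

/-- topological infinite cyclic cover inside `V × ℝ`. -/
structure T3Cov (X : Set V) (Y : Set (V × ℝ)) : Prop where
  sub : ∀ z ∈ Y, z.1 ∈ X
  surj : ∀ x ∈ X, ∃ s, (x, s) ∈ Y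
  fib : ∀ x s s', (x, s) ∈ Y → ((x, s') ∈ Y ↔ ∃ k : ℤ, s' = s + k)
  sec : ∀ z ∈ Y, ∃ (U : Set V) (σ : V → ℝ), IsOpen U ∧ z.1 ∈ U ∧ ContinuousOn σ (X ∩ U) ∧
    σ z.1 = z.2 ∧ ∀ x ∈ X ∩ U, (x, σ x) ∈ Y

/-- closed connected hypersurface with a tube inside `I` in which one side is a minimiser. -/
def T3XCut [MeasurableSpace V] [BorelSpace V] (X : Set V) (h : Ten V) (t : V → ℝ)
    (I S' : Set V) : Prop :=
  IsCompact S' ∧ IsConnected S' ∧ ∃ (O' : Set V) (φ' : V → ℝ), T3Def 3 X S' O' φ' ∧ X ∩ O' ⊆ I ∧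
    CtLAM 3 (X ∩ O') h t (fun _ => 0) {x | x ∈ X ∩ O' ∧ φ' x < 0}

theorem t3ZcA_eqns_cite : True := by
  have := @t3Y.eq_1
  have := @t3Tk.eq_1
  have := @t3E0.eq_1
  have := @t3Lay.eq_1
  have := @T3XCut.eq_1
  trivial

theorem t3Tk_eq_ctTr (k : ℤ) (A : Set (V × ℝ)) :
    t3Tk k A = ctTr ((k : ℝ) • ((0 : V), (1 : ℝ))) A := by
  ext z
  simp [t3Tk, ctTr, Prod.sub_def]

theorem t3Tk_Y (X : Set V) (ϑ : V → ℝ) (k : ℤ) : t3Tk k (t3Y X ϑ) = t3Y X ϑ := by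
  ext z
  constructor
  · rintro ⟨h1, j, h2⟩
    refine ⟨h1, j + k, ?_⟩
    have h2' : z.2 - k = ϑ z.1 + j := h2
    push_cast
    linarith
  · rintro ⟨h1, j, h2⟩
    refine ⟨h1, j - k, ?_⟩
    show z.2 - k = ϑ z.1 + ((j - k : ℤ) : ℝ)
    push_cast
    linarith

theorem t3Y_inter (X W : Set V) (ϑ : V → ℝ) :
    t3Y (X ∩ W) ϑ = t3Y X ϑ ∩ Prod.fst ⁻¹' W := by
  ext z
  constructor
  · rintro ⟨⟨h1, h2⟩, h3⟩
    exact ⟨⟨h1, h3⟩, h2⟩
  · rintro ⟨⟨h1, h3⟩, h2⟩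
    exact ⟨⟨h1, h2⟩, h3⟩

/-! ### algebra of deck translations (PROVED) -/

theorem mem_t3Tk {k : ℤ} {A : Set (V × ℝ)} {z : V × ℝ} : z ∈ t3Tk k A ↔ (z.1, z.2 - k) ∈ A :=
  Iff.rfl

theorem t3Tk_zero (A : Set (V × ℝ)) : t3Tk 0 A = A := by
  ext z
  simp [t3Tk]

theorem t3Tk_add (j k : ℤ) (A : Set (V × ℝ)) : t3Tk j (t3Tk k A) = t3Tk (j + k) A := by
  ext z
  simp only [t3Tk, mem_ofPred_eq]
  have : z.2 - (j : ℝ) - (k : ℝ) = z.2 - ((j + k : ℤ) : ℝ) := by push_cast; ring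
  rw [this]

theorem t3Tk_neg_left (k : ℤ) (A : Set (V × ℝ)) : t3Tk (-k) (t3Tk k A) = A := by
  rw [t3Tk_add, neg_add_cancel, t3Tk_zero]

theorem t3Tk_neg_right (k : ℤ) (A : Set (V × ℝ)) : t3Tk k (t3Tk (-k) A) = A := by
  rw [t3Tk_add, add_neg_cancel, t3Tk_zero]

theorem t3Tk_mono (k : ℤ) {A C : Set (V × ℝ)} (h : A ⊆ C) : t3Tk k A ⊆ t3Tk k C :=
  fun _ hz => h hz

theorem t3Tk_inter (k : ℤ) (A C : Set (V × ℝ)) : t3Tk k (A ∩ C) = t3Tk k A ∩ t3Tk k C := rfl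

theorem t3Tk_union (k : ℤ) (A C : Set (V × ℝ)) : t3Tk k (A ∪ C) = t3Tk k A ∪ t3Tk k C := rfl

theorem t3Tk_diff (k : ℤ) (A C : Set (V × ℝ)) : t3Tk k (A \ C) = t3Tk k A \ t3Tk k C := rfl

theorem t3Tk_univ (k : ℤ) : t3Tk k (univ : Set (V × ℝ)) = univ := rfl

theorem t3Tk_empty (k : ℤ) : t3Tk k (∅ : Set (V × ℝ)) = ∅ := rfl

theorem t3Tk_disjoint (k : ℤ) {A C : Set (V × ℝ)} (h : Disjoint A C) :
    Disjoint (t3Tk k A) (t3Tk k C) := by
  rw [disjoint_iff_inter_eq_empty] at h ⊢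
  rw [← t3Tk_inter, h, t3Tk_empty]

theorem t3Tk_fst (k : ℤ) (W : Set V) :
    t3Tk k (Prod.fst ⁻¹' W : Set (V × ℝ)) = Prod.fst ⁻¹' W := rfl

theorem t3Tk_continuous (k : ℤ) : Continuous fun z : V × ℝ => (z.1, z.2 - (k : ℝ)) :=
  continuous_fst.prodMk (continuous_snd.sub continuous_const)

theorem t3Tk_isOpen (k : ℤ) {A : Set (V × ℝ)} (h : IsOpen A) : IsOpen (t3Tk k A) :=
  h.preimage (t3Tk_continuous k)

theorem t3Tk_E0 (X : Set V) (ϑ : V → ℝ) (c : ℝ) (k : ℤ) :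
    t3Tk k (t3E0 X ϑ c) = t3E0 X ϑ (c + k) := by
  ext z
  have hY : z ∈ t3Tk k (t3Y X ϑ) ↔ z ∈ t3Y X ϑ := by rw [t3Tk_Y]
  constructor
  · rintro ⟨h1, h2⟩
    exact ⟨hY.1 h1, by have : z.2 - k < c := h2; linarith⟩
  · rintro ⟨h1, h2⟩
    exact ⟨hY.2 h1, by show z.2 - k < c; linarith⟩

theorem t3Tk_measurableSet [MeasurableSpace V] [BorelSpace V] [FiniteDimensional ℝ V] (k : ℤ)
    {A : Set (V × ℝ)} (h : MeasurableSet A) : MeasurableSet (t3Tk k A) :=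
  (t3Tk_continuous k).measurable h

variable [FiniteDimensional ℝ V]
variable {X F N K : Set V} {ϑ : V → ℝ}

/-! ### L-T3-ZcA-1 -/

/-- a smooth monotone step from `0` to `1` on `[-1,1]` with positive derivative inside. -/
theorem t3zs_step : ∃ F : ℝ → ℝ, ContDiff ℝ ∞ F ∧ (∀ s, s ≤ -1 → F s = 0) ∧ (∀ s, 1 ≤ s → F s = 1) ∧
    (∀ s, 0 ≤ deriv F s) ∧ ∀ s, -1 < s → s < 1 → 0 < deriv F s := by
  set χ : ℝ → ℝ := fun s => Real.smoothTransition (s + 1) * Real.smoothTransition (1 - s) with hχdef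
  have hχ : ContDiff ℝ ∞ χ :=
    (Real.smoothTransition.contDiff.comp (contDiff_id.add contDiff_const)).mul
      (Real.smoothTransition.contDiff.comp (contDiff_const.sub contDiff_id))
  have hχ0 : ∀ s, 0 ≤ χ s := fun s =>
    mul_nonneg (Real.smoothTransition.nonneg _) (Real.smoothTransition.nonneg _)
  have hχp : ∀ s, -1 < s → s < 1 → 0 < χ s := fun s h1 h2 =>
    mul_pos (Real.smoothTransition.pos_of_pos (by linarith))
      (Real.smoothTransition.pos_of_pos (by linarith))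
  have hχa : ∀ s, s ≤ -1 → χ s = 0 := fun s hs => by
    show Real.smoothTransition (s + 1) * _ = 0
    rw [Real.smoothTransition.zero_of_nonpos (by linarith), zero_mul]
  have hχb : ∀ s, 1 ≤ s → χ s = 0 := fun s hs => by
    show _ * Real.smoothTransition (1 - s) = 0
    rw [Real.smoothTransition.zero_of_nonpos (x := 1 - s) (by linarith), mul_zero]
  have hint : ∀ x y, IntervalIntegrable χ volume x y := fun x y => hχ.continuous.intervalIntegrable _ _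
  set G : ℝ → ℝ := fun r => ∫ s in (-1 : ℝ)..r, χ s with hGdef
  have hd : ∀ r, HasDerivAt G (χ r) r := fun r =>
    intervalIntegral.integral_hasDerivAt_right (hint _ _)
      (hχ.continuous.stronglyMeasurableAtFilter _ _) hχ.continuous.continuousAt
  have hdG : deriv G = χ := funext fun r => (hd r).deriv
  have hG : ContDiff ℝ ∞ G :=
    contDiff_infty_iff_deriv.2 ⟨fun r => (hd r).differentiableAt, by rw [hdG]; exact hχ⟩
  have hGa : ∀ r, r ≤ -1 → G r = 0 := fun r hr => by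
    have : ∫ s in (-1 : ℝ)..r, χ s = ∫ s in (-1 : ℝ)..r, (0 : ℝ) := by
      refine intervalIntegral.integral_congr fun s hs => hχa s ?_
      rw [uIcc_of_ge hr] at hs
      exact hs.2
    show ∫ s in (-1 : ℝ)..r, χ s = 0
    rw [this]
    simp
  have hGb : ∀ r, 1 ≤ r → G r = G 1 := fun r hr => by
    have h1 : ∫ s in (-1 : ℝ)..r, χ s = (∫ s in (-1 : ℝ)..1, χ s) + ∫ s in (1 : ℝ)..r, χ s :=
      (intervalIntegral.integral_add_adjacent_intervals (hint _ _) (hint _ _)).symm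
    have h2 : ∫ s in (1 : ℝ)..r, χ s = ∫ s in (1 : ℝ)..r, (0 : ℝ) := by
      refine intervalIntegral.integral_congr fun s hs => hχb s ?_
      rw [uIcc_of_le hr] at hs
      exact hs.1
    show ∫ s in (-1 : ℝ)..r, χ s = ∫ s in (-1 : ℝ)..1, χ s
    rw [h1, h2]
    simp
  have hI0 : 0 < G 1 := by
    have hsm : StrictMonoOn G (Icc (-1) 1) :=
      strictMonoOn_of_deriv_pos (convex_Icc _ _) hG.continuous.continuousOn fun x hx => by
        rw [interior_Icc] at hx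
        rw [hdG]
        exact hχp x hx.1 hx.2
    have := hsm (left_mem_Icc.2 (by norm_num)) (right_mem_Icc.2 (by norm_num)) (by norm_num)
    rwa [hGa _ le_rfl] at this
  have hdF : deriv (fun r => (G 1)⁻¹ * G r) = fun r => (G 1)⁻¹ * χ r := by
    funext r
    rw [deriv_const_mul _ (hd r).differentiableAt, hdG]
  have hk : 0 < (G 1)⁻¹ := inv_pos.2 hI0
  refine ⟨fun r => (G 1)⁻¹ * G r, contDiff_const.mul hG, fun s hs => ?_, fun s hs => ?_, fun s => ?_,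
    fun s h1 h2 => ?_⟩
  · show (G 1)⁻¹ * G s = 0
    rw [hGa s hs, mul_zero]
  · show (G 1)⁻¹ * G s = 1
    rw [hGb s hs, inv_mul_cancel₀ hI0.ne']
  · rw [hdF]
    exact mul_nonneg hk.le (hχ0 s)
  · rw [hdF]
    exact mul_pos hk (hχp s h1 h2)

/-- the profile of a step function: `λ = 1/2` exactly at `0`, with positive slope. -/
theorem t3zs_profile : ∃ lam : ℝ → ℝ, ContDiff ℝ ∞ lam ∧ (∀ s, s ≤ -2 → lam s = 0) ∧
    (∀ s, 2 ≤ s → lam s = 1) ∧ (∀ s, 0 ≤ lam s ∧ lam s ≤ 1) ∧ (∀ s, lam s = 1 / 2 ↔ s = 0) ∧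
    0 < deriv lam 0 := by
  obtain ⟨F, hF, hFa, hFb, hFd, hFp⟩ := t3zs_step
  have hmono : Monotone F := monotone_of_deriv_nonneg (hF.differentiable (by simp)) hFd
  have hsm : StrictMonoOn F (Icc (-1) 1) :=
    strictMonoOn_of_deriv_pos (convex_Icc _ _) hF.continuous.continuousOn fun x hx => by
      rw [interior_Icc] at hx
      exact hFp x hx.1 hx.2
  obtain ⟨c, hc, hFc⟩ : ∃ c ∈ Icc (-1 : ℝ) 1, F c = 1 / 2 := by
    have := intermediate_value_Icc (show (-1 : ℝ) ≤ 1 by norm_num) hF.continuous.continuousOn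
    rw [hFa _ le_rfl, hFb _ le_rfl] at this
    exact this ⟨by norm_num, by norm_num⟩
  have hc1 : -1 < c := by
    rcases hc.1.eq_or_lt with h | h
    · rw [← h, hFa _ le_rfl] at hFc; norm_num at hFc
    · exact h
  have hc2 : c < 1 := by
    rcases hc.2.eq_or_lt with h | h
    · rw [h, hFb _ le_rfl] at hFc; norm_num at hFc
    · exact h
  have huniq : ∀ s, F s = 1 / 2 → s = c := by
    intro s hs
    have h1 : -1 < s := by
      by_contra h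
      rw [hFa s (not_lt.1 h)] at hs; norm_num at hs
    have h2 : s < 1 := by
      by_contra h
      rw [hFb s (not_lt.1 h)] at hs; norm_num at hs
    exact hsm.injOn ⟨h1.le, h2.le⟩ hc (hs.trans hFc.symm)
  have hd : deriv (fun s => F (s + c)) 0 = deriv F c := by
    rw [deriv_comp_add_const, zero_add]
  refine ⟨fun s => F (s + c), hF.comp (contDiff_id.add contDiff_const), fun s hs => hFa _ (by linarith),
    fun s hs => hFb _ (by linarith), fun s => ⟨?_, ?_⟩, fun s => ⟨fun h => ?_, fun h => ?_⟩, ?_⟩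
  · have := hmono (min_le_left (s + c) (-1))
    rwa [hFa _ (min_le_right _ _)] at this
  · have := hmono (le_max_left (s + c) 1)
    rwa [hFb _ (le_max_right _ _)] at this
  · have := huniq _ h
    linarith
  · show F (s + c) = 1 / 2
    rw [h, zero_add, hFc]
  · rw [hd]
    exact hFp c hc1 hc2
/-- **step functions exist**, with tube inside any given neighbourhood of `F`.
[`(O, φ)` from `T3Hyp`.  `gs_exists_compact_nhd` in the manifold `X ∩ (O ∩ W)` for the compact set `F`: open `W' ⊇ F` with `X ∩ (O ∩ W) ∩ W' ⊆ K'`, `K'` compact `⊆ X ∩ (O ∩ W)`.  `φ ≠ 0` on the compact set `K' \ W'`: `|φ| ≥ 2 ε > 0` there.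
`N = O ∩ W ∩ W'`, `K = {x ∈ K' | |φ x| ≤ ε} ⊆ W'`, `ϑ x = λ (φ x / ε)` for `x ∈ N`, `0` otherwise, `λ s = Real.smoothTransition ((s + 1)/2)`: `λ = 0` on `(-∞,-1]`, `= 1` on `[1,∞)`, values in `[0,1]`,
`λ s = 1/2 ↔ s = 0` and `λ' 0 > 0` (`smoothTransition x = e(x)/(e(x) + e(1-x))`, `e = expNegInvGlue` strictly increasing on `[0,∞)`).  `reg`: chain rule.] -/
theorem t3_stp_exists (hX : IsMfd 3 X) (hF : T3Hyp 3 X F) {W : Set V} (hW : IsOpen W)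
    (hFW : F ⊆ W) : ∃ (N K : Set V) (ϑ : V → ℝ), T3Stp X F N K ϑ ∧ N ⊆ W := by
  classical
  obtain ⟨hFc, -, O, φ, hdef⟩ := hF
  obtain ⟨lam, hlam, hlam0, hlam1, hlamr, hlamh, hlamd⟩ := t3zs_profile
  have hOW : IsOpen (O ∩ W) := hdef.opn.inter hW
  have hM1 : IsMfd 3 (X ∩ (O ∩ W)) := if_mfd_inter hX hOW
  have hFM : F ⊆ X ∩ (O ∩ W) := fun x hx => ⟨(hdef.sub hx).1, (hdef.sub hx).2, hFW hx⟩
  obtain ⟨K', W', hK'c, hK'M, hW', hFW', hsub⟩ := gs_exists_compact_nhd hM1 hFc hFM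
  have hφc : ContinuousOn φ (X ∩ O) :=
    if_smoothAlong_continuousOn (if_mfd_inter hX hdef.opn) hdef.smooth
  have hK'O : K' ⊆ X ∩ O := fun x hx => ⟨(hK'M hx).1, (hK'M hx).2.1⟩
  have hφK : ContinuousOn φ K' := hφc.mono hK'O
  -- lower bound of `|φ|` on `K' \ W'`
  obtain ⟨ε, hε, hεb⟩ : ∃ ε : ℝ, 0 < ε ∧ ∀ x ∈ K' \ W', ε < |φ x| := by
    have hc : IsCompact (K' \ W') := hK'c.diff hW'
    rcases (K' \ W').eq_empty_or_nonempty with he | hne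
    · exact ⟨1, one_pos, fun x hx => by rw [he] at hx; exact absurd hx (notMem_empty x)⟩
    · obtain ⟨x₀, hx₀, hmin⟩ := hc.exists_isMinOn hne (hφK.mono sdiff_subset).abs
      have hpos : 0 < |φ x₀| := by
        rw [abs_pos]
        intro h0
        exact hx₀.2 (hFW' ((hdef.zero x₀ (hK'O hx₀.1)).1 h0))
      exact ⟨|φ x₀| / 2, by positivity, fun x hx => lt_of_lt_of_le (by linarith) (hmin hx)⟩
  set N : Set V := O ∩ W ∩ W' with hN
  have hNo : IsOpen N := hOW.inter hW'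
  set K : Set V := K' ∩ φ ⁻¹' Icc (-ε) ε with hK
  have hKc : IsCompact K :=
    hK'c.of_isClosed_subset (hφK.preimage_isClosed_of_isClosed hK'c.isClosed isClosed_Icc)
      inter_subset_left
  set ϑ : V → ℝ := fun x => if x ∈ N then lam (2 / ε * φ x) else 0 with hϑ
  have hϑN : ∀ x ∈ N, ϑ x = lam (2 / ε * φ x) := fun x hx => if_pos hx
  have hϑN' : ∀ x, x ∉ N → ϑ x = 0 := fun x hx => if_neg hx
  have hXN : X ∩ N = X ∩ O ∩ (W ∩ W') := by
    ext x; simp only [hN, mem_inter_iff]; tauto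
  have hWW : IsOpen (W ∩ W') := hW.inter hW'
  have hφs : SmoothAlong 3 (X ∩ N) φ := by
    rw [hXN]; exact if_smoothAlong_inter hdef.smooth hWW
  set g : ℝ → ℝ := fun s => lam (2 / ε * s) - 1 / 2 with hg
  have hgs : ContDiff ℝ ∞ g := (hlam.comp (contDiff_const.mul contDiff_id)).sub contDiff_const
  have hϑg : ∀ x ∈ N, ϑ x - 1 / 2 = g (φ x) := fun x hx => by rw [hϑN x hx]
  have hgd : HasDerivAt g (deriv lam 0 * (2 / ε)) 0 := by
    have h1 : HasDerivAt lam (deriv lam 0) (2 / ε * 0) := by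
      rw [mul_zero]
      exact ((hlam.differentiable (by simp)) 0).hasDerivAt
    have h2 : HasDerivAt (fun s : ℝ => 2 / ε * s) (2 / ε) 0 := by
      simpa using (hasDerivAt_id (0 : ℝ)).const_mul (2 / ε)
    exact (h1.comp 0 h2).sub_const (1 / 2)
  refine ⟨N, K, ϑ, ⟨hNo, hKc, ?_, ⟨hNo, ?_, ?_, ?_, ?_⟩, ?_, ?_⟩, fun x hx => hx.1.2⟩
  · -- `K ⊆ X ∩ N`
    rintro x ⟨hxK', hxε⟩
    refine ⟨(hK'M hxK').1, (hK'M hxK').2, ?_⟩
    by_contra hxW
    have h1 := hεb x ⟨hxK', hxW⟩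
    have h2 : |φ x| ≤ ε := abs_le.2 hxε
    linarith
  · exact fun x hx => ⟨(hFM hx).1, (hFM hx).2, hFW' hx⟩
  · exact gs_sm_congr (gs_sm_comp' hgs hφs) fun x hx => hϑg x hx.2
  · intro x hx
    have hxO : x ∈ X ∩ O := ⟨hx.1, hx.2.1.1⟩
    rw [← hdef.zero x hxO, sub_eq_zero, hϑN x hx.2, hlamh]
    constructor
    · intro h
      rcases mul_eq_zero.1 h with h' | h'
      · exact absurd h' (by positivity)
      · exact h'
    · intro h
      rw [h, mul_zero]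
  · intro ψ U hp u hu h0
    have hpO : IsParam (X ∩ O) ψ U := by
      rw [hXN] at hp; exact if_param_of_inter hWW hp
    have hmem : ψ u ∈ X ∩ N := if_mem hp hu
    have hφ0 : φ (ψ u) = 0 := by
      have h1 : ϑ (ψ u) - 1 / 2 = 0 := h0
      rw [sub_eq_zero, hϑN _ hmem.2, hlamh] at h1
      rcases mul_eq_zero.1 h1 with h' | h'
      · exact absurd h' (by positivity)
      · exact h'
    have hne := hdef.reg ψ U hpO u hu hφ0
    have hUn : U ∈ 𝓝 u := (if_open hp).mem_nhds hu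
    have hdφ : HasFDerivAt (φ ∘ ψ) (fderiv ℝ (φ ∘ ψ) u) u :=
      (((hdef.smooth ψ U hpO).contDiffAt hUn).differentiableAt (by simp)).hasFDerivAt
    have hev : ((fun x => ϑ x - 1 / 2) ∘ ψ) =ᶠ[𝓝 u] g ∘ (φ ∘ ψ) := by
      filter_upwards [hUn] with w hw
      exact hϑg _ (if_mem hp hw).2
    have hgd' : HasDerivAt g (deriv lam 0 * (2 / ε)) ((φ ∘ ψ) u) := by
      show HasDerivAt g _ (φ (ψ u))
      rw [hφ0]; exact hgd
    rw [hev.fderiv_eq, (hgd'.comp_hasFDerivAt u hdφ).fderiv]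
    exact smul_ne_zero (by positivity) hne
  · intro x hx hxK
    by_cases hxN : x ∈ N
    · have hxK' : x ∈ K' := hsub ⟨⟨hx, hxN.1⟩, hxN.2⟩
      rw [hϑN x hxN]
      have h1 : ¬ (-ε ≤ φ x ∧ φ x ≤ ε) := fun h => hxK ⟨hxK', h⟩
      rcases le_or_gt (-ε) (φ x) with h2 | h2
      · have h3 : ε < φ x := by
          by_contra h4
          exact h1 ⟨h2, not_lt.1 h4⟩
        right
        apply hlam1
        rw [div_mul_eq_mul_div, le_div_iff₀ hε]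
        linarith
      · left
        apply hlam0
        rw [div_mul_eq_mul_div, div_le_iff₀ hε]
        linarith
    · exact Or.inl (hϑN' x hxN)
  · intro x
    by_cases hxN : x ∈ N
    · rw [hϑN x hxN]; exact hlamr _
    · rw [hϑN' x hxN]; exact ⟨le_rfl, zero_le_one⟩

/-! ### L-T3-ZcA-2 -/

/-- the hypotheses of the abstract lemmas. -/
theorem T3Stp.zl_cont (hS : T3Stp X F N K ϑ) (hX : IsMfd 3 X) : ContinuousOn ϑ (X ∩ N) := by
  have h1 : ContinuousOn (fun x => ϑ x - 1 / 2) (X ∩ N) :=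
    if_smoothAlong_continuousOn (if_mfd_inter hX hS.opn) hS.df.smooth
  have h2 := h1.add (continuousOn_const (c := (1 / 2 : ℝ)))
  refine h2.congr fun x _ => ?_
  show ϑ x = ϑ x - 1 / 2 + 1 / 2
  ring

/-- off `K` the step function has integer values. -/
theorem T3Stp.zl_int (hS : T3Stp X F N K ϑ) {x : V} (hx : x ∈ X) (hK : x ∉ K) :
    ∃ m : ℤ, ϑ x = m := by
  rcases hS.int x hx hK with h | h
  · exact ⟨0, by simpa using h⟩
  · exact ⟨1, by simpa using h⟩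

/-- two integers at distance less than one are equal. -/
theorem t3zl_int_eq {j k : ℤ} (h : |(j : ℝ) - k| < 1) : j = k := by
  have h1 := abs_lt.1 h
  have h2 : (k : ℝ) - 1 < j := by linarith [h1.1]
  have h3 : (j : ℝ) < k + 1 := by linarith [h1.2]
  have h2' : k - 1 < j := by exact_mod_cast h2
  have h3' : j < k + 1 := by exact_mod_cast h3
  omega


/-- the cover is locally a graph.
[`t3li_of_graph`.  At `z = (x, ϑ x + k)`: if `x ∈ N` take `O' ⊆ N` open around `x` with `|ϑ - ϑ x| < 1/2` on `X ∩ O'` (continuity of `ϑ` on `X ∩ N`: `if_smoothAlong_continuousOn`), `f = ϑ + k`, window `O' × ball z.2 (1/2)`;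
if `x ∉ N` then `x ∉ K`: `O' = Kᶜ`, on `X ∩ O'` all heights are integers, `f = z.2` constant, window `O' × ball z.2 (1/2)`.] -/
theorem T3Stp.li (hS : T3Stp X F N K ϑ) (hX : IsMfd 3 X) :
    T3Li 3 (t3Y X ϑ) X (ContinuousLinearMap.fst ℝ V ℝ) := by
  refine t3li_of_graph hX fun z hz => ?_
  obtain ⟨hx, k, hk⟩ := hz
  by_cases hN : z.1 ∈ N
  · have hc : ContinuousWithinAt ϑ (X ∩ N) z.1 := hS.zl_cont hX z.1 ⟨hx, hN⟩
    have h1 : {y | |ϑ y - ϑ z.1| < 1 / 2} ∈ 𝓝[X ∩ N] z.1 := by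
      have := Metric.continuousWithinAt_iff'.1 hc (1 / 2) (by norm_num)
      filter_upwards [this] with y hy
      rwa [Real.dist_eq] at hy
    obtain ⟨O₁, hO₁, hzO₁, hsub⟩ := mem_nhdsWithin.1 h1
    have hO' : IsOpen (N ∩ O₁) := hS.opn.inter hO₁
    have hsm : SmoothAlong 3 (X ∩ (N ∩ O₁)) (fun x => ϑ x + k) := by
      rw [← inter_assoc]
      refine gs_sm_congr (gs_sm_add (if_smoothAlong_inter hS.df.smooth hO₁)
        (gs_sm_const ((1 / 2 : ℝ) + k))) fun x _ => ?_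
      ring
    refine ⟨(N ∩ O₁) ×ˢ Metric.ball z.2 (1 / 2), N ∩ O₁, fun x => ϑ x + k,
      hO'.prod Metric.isOpen_ball, ⟨⟨hN, hzO₁⟩, Metric.mem_ball_self (by norm_num)⟩, hO', hsm, ?_⟩
    ext y
    constructor
    · rintro ⟨⟨hyX, j, hj⟩, hyO, hyb⟩
      refine ⟨⟨⟨hyX, hyO⟩, ?_⟩, hyO, hyb⟩
      have h2 : |ϑ y.1 - ϑ z.1| < 1 / 2 := hsub ⟨hyO.2, hyX, hyO.1⟩
      have h3 : |y.2 - z.2| < 1 / 2 := by rwa [Metric.mem_ball, Real.dist_eq] at hyb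
      rw [hj, hk] at h3
      have h4 : j = k := by
        apply t3zl_int_eq
        have a2 := abs_lt.1 h2
        have a3 := abs_lt.1 h3
        rw [abs_lt]
        constructor <;> linarith [a2.1, a2.2, a3.1, a3.2]
      show y.2 = ϑ y.1 + k
      rw [hj, h4]
    · rintro ⟨⟨hy, hy2⟩, hW⟩
      exact ⟨⟨hy.1, k, hy2⟩, hW⟩
  · have hK : z.1 ∉ K := fun h => hN (hS.sub h).2
    obtain ⟨mz, hmz⟩ := hS.zl_int hx hK
    have hKo : IsOpen Kᶜ := hS.cpt.isClosed.isOpen_compl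
    refine ⟨Kᶜ ×ˢ Metric.ball z.2 (1 / 2), Kᶜ, fun _ => z.2, hKo.prod Metric.isOpen_ball,
      ⟨hK, Metric.mem_ball_self (by norm_num)⟩, hKo, gs_sm_const _, ?_⟩
    ext y
    constructor
    · rintro ⟨⟨hyX, j, hj⟩, hyO, hyb⟩
      refine ⟨⟨⟨hyX, hyO⟩, ?_⟩, hyO, hyb⟩
      obtain ⟨my, hmy⟩ := hS.zl_int hyX hyO
      have h3 : |y.2 - z.2| < 1 / 2 := by rwa [Metric.mem_ball, Real.dist_eq] at hyb
      rw [hj, hk, hmy, hmz] at h3
      have h4 : my + j = mz + k := by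
        apply t3zl_int_eq
        push_cast
        linarith
      show y.2 = z.2
      rw [hj, hk, hmy, hmz]
      exact_mod_cast h4
    · rintro ⟨⟨hy, hy2⟩, hW⟩
      obtain ⟨my, hmy⟩ := hS.zl_int hy.1 hy.2
      refine ⟨⟨hy.1, mz + k - my, ?_⟩, hW⟩
      have hy2' : y.2 = z.2 := hy2
      rw [hy2', hk, hmy, hmz]
      push_cast
      ring

/-- [same case distinction as for `T3Stp.li`; `fib`, `surj`, `sub` are immediate.] -/
theorem T3Stp.cov (hS : T3Stp X F N K ϑ) (hX : IsMfd 3 X) : T3Cov X (t3Y X ϑ) := by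
  refine ⟨fun z hz => hz.1, fun x hx => ⟨ϑ x, hx, 0, by simp⟩, fun x s s' hs => ?_, fun z hz => ?_⟩
  · obtain ⟨hx, j, hj⟩ := hs
    have hj' : s = ϑ x + j := hj
    constructor
    · rintro ⟨-, j', hj''⟩
      have hj3 : s' = ϑ x + j' := hj''
      exact ⟨j' - j, by push_cast; linarith⟩
    · rintro ⟨k, hk⟩
      exact ⟨hx, j + k, by show s' = ϑ x + ((j + k : ℤ) : ℝ); push_cast; linarith⟩
  · obtain ⟨hx, k, hk⟩ := hz
    by_cases hN : z.1 ∈ N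
    · exact ⟨N, fun x => ϑ x + k, hS.opn, hN, (hS.zl_cont hX).add continuousOn_const, hk.symm,
        fun x hx => ⟨hx.1, k, rfl⟩⟩
    · have hK : z.1 ∉ K := fun h => hN (hS.sub h).2
      obtain ⟨mz, hmz⟩ := hS.zl_int hx hK
      refine ⟨Kᶜ, fun _ => z.2, hS.cpt.isClosed.isOpen_compl, hK, continuousOn_const, rfl,
        fun x hx' => ⟨hx'.1, ?_⟩⟩
      obtain ⟨mx, hmx⟩ := hS.zl_int hx'.1 hx'.2
      refine ⟨mz + k - mx, ?_⟩
      show z.2 = ϑ x + ((mz + k - mx : ℤ) : ℝ)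
      rw [hk, hmx, hmz]
      push_cast
      ring

/-- boxes over compact sets are compact.
[closed subset of `C ×ˢ Icc (-a) a`: let `(x_n, s_n) → (x, s)`, `x ∈ C ⊆ X`; by `T3Cov.sec`-type local description (`Y ∩ window = graph`) or directly: near `x` the function `ϑ mod 1` is continuous.] -/
theorem T3Stp.box (hS : T3Stp X F N K ϑ) (hX : IsMfd 3 X) {C : Set V} (hC : IsCompact C)
    (hCX : C ⊆ X) (a : ℝ) : IsCompact {z | z ∈ t3Y X ϑ ∧ z.1 ∈ C ∧ |z.2| ≤ a} := by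
  set G : V × ℝ → ℝ := fun z => Real.cos (2 * Real.pi * (z.2 - ϑ z.1)) with hG
  have hGc : ContinuousOn G (Prod.fst ⁻¹' X) := by
    intro z hz
    have hzX : z.1 ∈ X := hz
    by_cases hN : z.1 ∈ N
    · have h1 : ContinuousOn (fun z : V × ℝ => ϑ z.1) (Prod.fst ⁻¹' (X ∩ N)) :=
        (hS.zl_cont hX).comp continuousOn_fst fun z hz => hz
      have h2 : ContinuousOn G (Prod.fst ⁻¹' (X ∩ N)) :=
        Real.continuous_cos.comp_continuousOn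
          (continuousOn_const.mul (continuousOn_snd.sub h1))
      have h3 : ContinuousWithinAt G (Prod.fst ⁻¹' X ∩ Prod.fst ⁻¹' N) z := h2 z ⟨hzX, hN⟩
      exact (continuousWithinAt_inter ((hS.opn.preimage continuous_fst).mem_nhds hN)).1 h3
    · have hK : z.1 ∉ K := fun h => hN (hS.sub h).2
      have hG0 : ∀ y : V × ℝ, y.1 ∈ X → y.1 ∉ K → G y = Real.cos (2 * Real.pi * y.2) := by
        intro y hy hyK
        obtain ⟨m, hm⟩ := hS.zl_int hy hyK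
        show Real.cos (2 * Real.pi * (y.2 - ϑ y.1)) = _
        rw [hm, mul_sub, mul_comm (2 * Real.pi) (m : ℝ), Real.cos_sub_int_mul_two_pi]
      have he : G =ᶠ[𝓝[Prod.fst ⁻¹' X] z] fun y => Real.cos (2 * Real.pi * y.2) := by
        filter_upwards [self_mem_nhdsWithin, mem_nhdsWithin_of_mem_nhds
          ((hS.cpt.isClosed.isOpen_compl.preimage continuous_fst).mem_nhds hK)] with y hy hyK
        exact hG0 y hy hyK
      have hc : Continuous fun y : V × ℝ => Real.cos (2 * Real.pi * y.2) :=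
        Real.continuous_cos.comp (continuous_const.mul continuous_snd)
      exact hc.continuousWithinAt.congr_of_eventuallyEq he (hG0 z hzX hK)
  have hB : IsCompact (C ×ˢ Icc (-a) a) := hC.prod isCompact_Icc
  have hBX : C ×ˢ Icc (-a) a ⊆ Prod.fst ⁻¹' X := fun z hz => hCX hz.1
  have hcl : IsClosed (C ×ˢ Icc (-a) a ∩ G ⁻¹' {1}) :=
    (hGc.mono hBX).preimage_isClosed_of_isClosed hB.isClosed isClosed_singleton
  have he : {z | z ∈ t3Y X ϑ ∧ z.1 ∈ C ∧ |z.2| ≤ a} = C ×ˢ Icc (-a) a ∩ G ⁻¹' {1} := by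
    ext z
    constructor
    · rintro ⟨⟨-, k, hk⟩, hzC, hza⟩
      refine ⟨⟨hzC, abs_le.1 hza⟩, ?_⟩
      show Real.cos (2 * Real.pi * (z.2 - ϑ z.1)) = 1
      rw [Real.cos_eq_one_iff]
      exact ⟨k, by rw [hk]; ring⟩
    · rintro ⟨⟨hzC, hza⟩, hz1⟩
      have hz1' : Real.cos (2 * Real.pi * (z.2 - ϑ z.1)) = 1 := hz1
      rw [Real.cos_eq_one_iff] at hz1'
      obtain ⟨k, hk⟩ := hz1'
      refine ⟨⟨hCX hzC, k, ?_⟩, hzC, abs_le.2 hza⟩
      have hpi : (2 * Real.pi) ≠ 0 := by positivity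
      have : (k : ℝ) = z.2 - ϑ z.1 := by
        apply mul_right_cancel₀ hpi
        rw [hk]; ring
      linarith
  rw [he]
  exact hB.of_isClosed_subset hcl inter_subset_left

/-- restriction to an open piece containing the tube.  [`(X ∩ W) ∩ N = X ∩ N`.] -/
theorem T3Stp.inter (hS : T3Stp X F N K ϑ) {W : Set V} (hW : X ∩ N ⊆ W) :
    T3Stp (X ∩ W) F N K ϑ := by
  have e : X ∩ W ∩ N = X ∩ N := by
    ext x
    constructor
    · rintro ⟨⟨h1, -⟩, h2⟩; exact ⟨h1, h2⟩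
    · rintro ⟨h1, h2⟩; exact ⟨⟨h1, hW ⟨h1, h2⟩⟩, h2⟩
  exact ⟨hS.opn, hS.cpt, by rw [e]; exact hS.sub, ⟨hS.opn, by rw [e]; exact hS.df.sub,
    by rw [e]; exact hS.df.smooth, by rw [e]; exact hS.df.zero, by rw [e]; exact hS.df.reg⟩,
    fun x hx => hS.int x hx.1, hS.rng⟩

/-! ### L-T3-ZcA-3 -/

/-- near a point over the tube the cover is the graph of `ϑ + k`. -/
theorem T3Stp.zl_winN (hS : T3Stp X F N K ϑ) (hX : IsMfd 3 X) {z : V × ℝ} (hz : z ∈ t3Y X ϑ)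
    (hN : z.1 ∈ N) : ∃ k : ℤ, ∃ W ∈ 𝓝 z, ∀ y ∈ t3Y X ϑ ∩ W, y.2 = ϑ y.1 + k := by
  obtain ⟨hx, k, hk⟩ := hz
  have hc : ContinuousWithinAt ϑ (X ∩ N) z.1 := hS.zl_cont hX z.1 ⟨hx, hN⟩
  have h1 : {y | |ϑ y - ϑ z.1| < 1 / 2} ∈ 𝓝[X ∩ N] z.1 := by
    have := Metric.continuousWithinAt_iff'.1 hc (1 / 2) (by norm_num)
    filter_upwards [this] with y hy
    rwa [Real.dist_eq] at hy
  obtain ⟨O₁, hO₁, hzO₁, hsub⟩ := mem_nhdsWithin.1 h1
  refine ⟨k, (N ∩ O₁) ×ˢ Metric.ball z.2 (1 / 2), ((hS.opn.inter hO₁).prod Metric.isOpen_ball).mem_nhds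
    ⟨⟨hN, hzO₁⟩, Metric.mem_ball_self (by norm_num)⟩, ?_⟩
  rintro y ⟨⟨hyX, j, hj⟩, hyO, hyb⟩
  have h2 : |ϑ y.1 - ϑ z.1| < 1 / 2 := hsub ⟨hyO.2, hyX, hyO.1⟩
  have h3 : |y.2 - z.2| < 1 / 2 := by rwa [Metric.mem_ball, Real.dist_eq] at hyb
  rw [hj, hk] at h3
  have h4 : j = k := by
    apply t3zl_int_eq
    have a2 := abs_lt.1 h2
    have a3 := abs_lt.1 h3
    rw [abs_lt]
    constructor <;> linarith [a2.1, a2.2, a3.1, a3.2]
  rw [hj, h4]

/-- near a point off `K` the height is locally constant on the cover. -/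
theorem T3Stp.zl_winK (hS : T3Stp X F N K ϑ) {z : V × ℝ} (hz : z ∈ t3Y X ϑ)
    (hK : z.1 ∉ K) : ∃ W ∈ 𝓝 z, ∀ y ∈ t3Y X ϑ ∩ W, y.2 = z.2 := by
  obtain ⟨hx, k, hk⟩ := hz
  obtain ⟨mz, hmz⟩ := hS.zl_int hx hK
  refine ⟨Kᶜ ×ˢ Metric.ball z.2 (1 / 2),
    (hS.cpt.isClosed.isOpen_compl.prod Metric.isOpen_ball).mem_nhds
      ⟨hK, Metric.mem_ball_self (by norm_num)⟩, ?_⟩
  rintro y ⟨⟨hyX, j, hj⟩, hyO, hyb⟩
  obtain ⟨my, hmy⟩ := hS.zl_int hyX hyO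
  have h3 : |y.2 - z.2| < 1 / 2 := by rwa [Metric.mem_ball, Real.dist_eq] at hyb
  rw [hj, hk, hmy, hmz] at h3
  have h4 : my + j = mz + k := by
    apply t3zl_int_eq
    push_cast
    linarith
  rw [hj, hk, hmy, hmz]
  exact_mod_cast h4

/-- the height is a Lipschitz function on the cover.
[`snd` is smooth along `Y` (linear).  `gradSq Y (t3pT fst h) snd z = gradSq (X ∩ N) h ϑ z.1` if `z.1 ∈ N` (on the open piece `Y ∩ window` of `T3Stp.li`: `snd = (ϑ + k) ∘ fst`; `T3Li.gradSq`, `if_gradSq_inter`, `gs_sq_congr`), `= 0` if `z.1 ∉ K` (`snd` is locally constant).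
`gradSq (X ∩ N) h ϑ` is continuous, hence bounded on the compact set `K`.  `if_lip`.] -/
theorem T3Stp.height (hS : T3Stp X F N K ϑ) (hX : IsMfd 3 X) {h : Ten V}
    (hh : IsMetricOn 3 X h) :
    ∃ Lθ : ℝ, 0 ≤ Lθ ∧ ∀ z z' : V × ℝ, if_Join (t3Y X ϑ) z z' →
      |z'.2 - z.2| ≤ Lθ * rdist (t3Y X ϑ) (t3pT (ContinuousLinearMap.fst ℝ V ℝ) h) z z' := by
  set π : V × ℝ →L[ℝ] V := ContinuousLinearMap.fst ℝ V ℝ with hπ
  have hLi := hS.li hX
  have hY : IsMfd 3 (t3Y X ϑ) := hLi.mfd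
  have hH : IsMetricOn 3 (t3Y X ϑ) (t3pT π h) := hLi.metric hh
  have hsnd : SmoothAlong 3 (t3Y X ϑ) (Prod.snd : V × ℝ → ℝ) :=
    if_smoothAlong_of_contDiff contDiff_snd
  have hXN : IsMfd 3 (X ∩ N) := if_mfd_inter hX hS.opn
  have hhN : IsMetricOn 3 (X ∩ N) h := if_isMetricOn_inter hh hS.opn
  set Φ : V → ℝ := gradSq 3 (X ∩ N) h (fun x => ϑ x - 1 / 2) with hΦ
  have hΦc : ContinuousOn Φ (X ∩ N) :=
    if_smoothAlong_continuousOn hXN (if_gradSq_smoothAlong hhN hS.df.smooth)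
  obtain ⟨B, hB⟩ := hS.cpt.exists_bound_of_continuousOn (hΦc.mono hS.sub)
  refine ⟨Real.sqrt (max B 0), Real.sqrt_nonneg _, fun z z' hj =>
    if_lip hY hH hsnd (Real.sqrt_nonneg _) (fun y hy => ?_) hj⟩
  rw [Real.sq_sqrt (le_max_right _ _)]
  by_cases hK : y.1 ∈ K
  · have hN : y.1 ∈ N := (hS.sub hK).2
    obtain ⟨k, W, hW, hWe⟩ := hS.zl_winN hX hy hN
    have hpre : IsOpen (π ⁻¹' N) := hS.opn.preimage π.continuous
    have hLiN := hLi.inter_pre hS.opn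
    have hfk : SmoothAlong 3 (X ∩ N) (fun x => (ϑ x - 1 / 2) + ((1 / 2 : ℝ) + k)) :=
      gs_sm_add hS.df.smooth (gs_sm_const _)
    have e1 : gradSq 3 (t3Y X ϑ) (t3pT π h) Prod.snd y
        = gradSq 3 (t3Y X ϑ ∩ π ⁻¹' N) (t3pT π h) Prod.snd y :=
      (if_gradSq_inter' _ _ hpre (show y ∈ π ⁻¹' N from hN)).symm
    have e2 : gradSq 3 (t3Y X ϑ ∩ π ⁻¹' N) (t3pT π h) Prod.snd y
        = gradSq 3 (t3Y X ϑ ∩ π ⁻¹' N) (t3pT π h)
          (fun w => (fun x => (ϑ x - 1 / 2) + ((1 / 2 : ℝ) + k)) (π w)) y :=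
      gs_sq_congr_near hW fun w hw => by
        have := hWe w ⟨hw.1.1, hw.2⟩
        show w.2 = (ϑ w.1 - 1 / 2) + ((1 / 2 : ℝ) + k)
        rw [this]; ring
    have e3 := hLiN.gradSq hhN hfk (z := y) ⟨hy, hN⟩
    have e4 : gradSq 3 (X ∩ N) h (fun x => (ϑ x - 1 / 2) + ((1 / 2 : ℝ) + k)) y.1 = Φ y.1 := by
      rw [gs_sq_add hXN hhN hS.df.smooth (gs_sm_const _) (hS.sub hK),
        gs_ip_const_right hXN hhN _ hS.df.smooth (hS.sub hK), gs_sq_const hXN hhN _ (hS.sub hK)]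
      ring
    rw [e1, e2, e3]
    show gradSq 3 (X ∩ N) h (fun x => (ϑ x - 1 / 2) + ((1 / 2 : ℝ) + k)) y.1 ≤ _
    rw [e4]
    exact ((le_abs_self _).trans (hB y.1 hK)).trans (le_max_left _ _)
  · obtain ⟨W, hW, hWe⟩ := hS.zl_winK hy hK
    have e1 : gradSq 3 (t3Y X ϑ) (t3pT π h) Prod.snd y
        = gradSq 3 (t3Y X ϑ) (t3pT π h) (fun _ => y.2) y := gs_sq_congr_near hW hWe
    rw [e1, gs_sq_const hY hH _ hy]
    exact le_max_right _ _

/-! ### L-T3-ZcA-5: connectedness (topology) -/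

/-- one half of `t3_diff_conn`. -/
theorem t3dc_aux {X O F u v : Set V} (hX : IsPreconnected X) (hO : IsOpen O) (hF : IsClosed F)
    (hFI : F ⊆ X ∩ O) (hne : F.Nonempty) (hu : IsOpen u) (hv : IsOpen v) (hcov : X \ F ⊆ u ∪ v)
    (hb : ((X \ F) ∩ v).Nonempty) (hemp : ¬ (((X ∩ O) \ F) ∩ v).Nonempty) :
    ((X \ F) ∩ (u ∩ v)).Nonempty := by
  have h1 : IsOpen (O ∪ u ∩ Fᶜ) := hO.union (hu.inter hF.isOpen_compl)
  have h2 : IsOpen (v ∩ Fᶜ) := hv.inter hF.isOpen_compl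
  have hc : X ⊆ (O ∪ u ∩ Fᶜ) ∪ (v ∩ Fᶜ) := by
    intro x hx
    by_cases hxF : x ∈ F
    · exact Or.inl (Or.inl (hFI hxF).2)
    · rcases hcov ⟨hx, hxF⟩ with h | h
      · exact Or.inl (Or.inr ⟨h, hxF⟩)
      · exact Or.inr ⟨h, hxF⟩
  obtain ⟨p, hp⟩ := hne
  obtain ⟨b, ⟨hbX, hbF⟩, hbv⟩ := hb
  obtain ⟨x, hxX, hx1, hxv, hxF⟩ := hX _ _ h1 h2 hc ⟨p, (hFI hp).1, Or.inl (hFI hp).2⟩
    ⟨b, hbX, hbv, hbF⟩
  rcases hx1 with h | h
  · exact absurd ⟨x, ⟨⟨hxX, h⟩, hxF⟩, hxv⟩ hemp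
  · exact ⟨x, ⟨hxX, hxF⟩, h.1, hxv⟩

/-- the level `1/2` of a step function is `F` (abstract form). -/
theorem t3zl_half (hKs : K ⊆ X ∩ N) (hFs : F ⊆ X ∩ N) (hzero : ∀ x ∈ X ∩ N, ϑ x = 1 / 2 ↔ x ∈ F)
    (hint : ∀ x ∈ X, x ∉ K → ϑ x = 0 ∨ ϑ x = 1) {x : V} (hx : x ∈ X) : ϑ x = 1 / 2 ↔ x ∈ F := by
  by_cases hxN : x ∈ N
  · exact hzero x ⟨hx, hxN⟩
  · have hxK : x ∉ K := fun h => hxN (hKs h).2
    constructor
    · intro h
      rcases hint x hx hxK with h' | h' <;> rw [h'] at h <;> norm_num at h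
    · intro h
      exact absurd (hFs h).2 hxN

/-- abstract form of `T3Stp.layer`. -/
theorem t3zl_layer (hN : IsOpen N) (hK : IsCompact K) (hKs : K ⊆ X ∩ N)
    (hcont : ContinuousOn ϑ (X ∩ N)) (hhalf : ∀ x ∈ X, ϑ x = 1 / 2 ↔ x ∈ F)
    (hint : ∀ x ∈ X, x ∉ K → ϑ x = 0 ∨ ϑ x = 1) (hrng : ∀ x, 0 ≤ ϑ x ∧ ϑ x ≤ 1)
    (hc : IsPreconnected (X \ F)) (k : ℤ) :
    IsPreconnected (t3Lay X ϑ (k - 1 / 2) (k + 1 / 2)) := by
  classical
  set v : V → ℝ := fun x => if ϑ x < 1 / 2 then ϑ x else ϑ x - 1 with hv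
  have hvc : ContinuousOn v (X \ F) := by
    intro x hx
    by_cases hxK : x ∈ K
    · have hxN : x ∈ N := (hKs hxK).2
      have h1 : ContinuousWithinAt ϑ (X \ F) x :=
        ((continuousWithinAt_inter (hN.mem_nhds hxN)).1 (hcont x ⟨hx.1, hxN⟩)).mono sdiff_subset
      have hne : ϑ x ≠ 1 / 2 := fun h => hx.2 ((hhalf x hx.1).1 h)
      rcases lt_or_gt_of_ne hne with hlt | hgt
      · have he : v =ᶠ[𝓝[X \ F] x] ϑ := by
          filter_upwards [h1.eventually (gt_mem_nhds hlt)] with y hy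
          show (if ϑ y < 1 / 2 then ϑ y else ϑ y - 1) = ϑ y
          rw [if_pos hy]
        exact h1.congr_of_eventuallyEq he (by show (if ϑ x < 1 / 2 then ϑ x else ϑ x - 1) = ϑ x; rw [if_pos hlt])
      · have he : v =ᶠ[𝓝[X \ F] x] fun y => ϑ y - 1 := by
          filter_upwards [h1.eventually (lt_mem_nhds hgt)] with y hy
          show (if ϑ y < 1 / 2 then ϑ y else ϑ y - 1) = ϑ y - 1
          rw [if_neg (not_lt.2 hy.le)]
        exact (h1.sub continuousWithinAt_const).congr_of_eventuallyEq he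
          (by show (if ϑ x < 1 / 2 then ϑ x else ϑ x - 1) = ϑ x - 1; rw [if_neg (not_lt.2 hgt.le)])
    · have hv0 : ∀ y ∈ X, y ∉ K → v y = 0 := by
        intro y hy hyK
        show (if ϑ y < 1 / 2 then ϑ y else ϑ y - 1) = 0
        rcases hint y hy hyK with h' | h' <;> rw [h'] <;> norm_num
      have he : v =ᶠ[𝓝[X \ F] x] fun _ => (0 : ℝ) := by
        filter_upwards [self_mem_nhdsWithin,
          mem_nhdsWithin_of_mem_nhds (hK.isClosed.isOpen_compl.mem_nhds hxK)] with y hy hyK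
        exact hv0 y hy.1 hyK
      exact continuousWithinAt_const.congr_of_eventuallyEq he (hv0 x hx.1 hxK)
  have himg : t3Lay X ϑ (k - 1 / 2) (k + 1 / 2) = (fun x => (x, v x + k)) '' (X \ F) := by
    ext z
    constructor
    · rintro ⟨⟨hzX, j, hj⟩, h1, h2⟩
      have hr := hrng z.1
      have hzF : z.1 ∉ F := by
        intro hF
        have h3 := (hhalf z.1 hzX).2 hF
        rw [hj, h3] at h1 h2
        have h4 : (k : ℝ) - 1 < j := by linarith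
        have h5 : (j : ℝ) < k := by linarith
        have h4' : k - 1 < j := by exact_mod_cast h4
        have h5' : j < k := by exact_mod_cast h5
        omega
      refine ⟨z.1, ⟨hzX, hzF⟩, ?_⟩
      refine Prod.ext rfl ?_
      show (if ϑ z.1 < 1 / 2 then ϑ z.1 else ϑ z.1 - 1) + k = z.2
      rw [hj] at h1 h2 ⊢
      by_cases hlt : ϑ z.1 < 1 / 2
      · rw [if_pos hlt]
        have h4 : (k : ℝ) - 1 < j := by linarith
        have h5 : (j : ℝ) < k + 1 := by linarith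
        have h4' : k - 1 < j := by exact_mod_cast h4
        have h5' : j < k + 1 := by exact_mod_cast h5
        have : j = k := by omega
        rw [this]
      · rw [if_neg hlt]
        have hgt : 1 / 2 < ϑ z.1 :=
          lt_of_le_of_ne (not_lt.1 hlt) fun h => hzF ((hhalf z.1 hzX).1 h.symm)
        have h4 : (k : ℝ) - 2 < j := by linarith
        have h5 : (j : ℝ) < k := by linarith
        have h4' : k - 2 < j := by exact_mod_cast h4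
        have h5' : j < k := by exact_mod_cast h5
        have : j = k - 1 := by omega
        rw [this]
        push_cast
        ring
    · rintro ⟨x, ⟨hxX, hxF⟩, rfl⟩
      have hr := hrng x
      show (x ∈ X ∧ ∃ j : ℤ, v x + k = ϑ x + j) ∧ (k : ℝ) - 1 / 2 < v x + k ∧ v x + k < k + 1 / 2
      by_cases hlt : ϑ x < 1 / 2
      · have hvx : v x = ϑ x := by
          show (if ϑ x < 1 / 2 then ϑ x else ϑ x - 1) = ϑ x
          rw [if_pos hlt]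
        rw [hvx]
        exact ⟨⟨hxX, k, rfl⟩, by linarith, by linarith⟩
      · have hvx : v x = ϑ x - 1 := by
          show (if ϑ x < 1 / 2 then ϑ x else ϑ x - 1) = ϑ x - 1
          rw [if_neg hlt]
        have hgt : 1 / 2 < ϑ x :=
          lt_of_le_of_ne (not_lt.1 hlt) fun h => hxF ((hhalf x hxX).1 h.symm)
        rw [hvx]
        exact ⟨⟨hxX, k - 1, by push_cast; ring⟩, by linarith, by linarith⟩
  rw [himg]
  exact hc.image _ (continuousOn_id.prodMk (hvc.add continuousOn_const))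

/-- abstract form of `T3Stp.conn`. -/
theorem t3zl_conn (hFs : F ⊆ X ∩ N)
    (hcont : ContinuousOn ϑ (X ∩ N)) (hhalf : ∀ x ∈ X, ϑ x = 1 / 2 ↔ x ∈ F)
    (hrng : ∀ x, 0 ≤ ϑ x ∧ ϑ x ≤ 1)
    (hacc : ∀ p ∈ F, ∀ W ∈ 𝓝 p, (∃ x ∈ X ∩ N ∩ W, ϑ x < 1 / 2) ∧ ∃ x ∈ X ∩ N ∩ W, 1 / 2 < ϑ x)
    (hlay : ∀ k : ℤ, IsPreconnected (t3Lay X ϑ (k - 1 / 2) (k + 1 / 2))) (hne : F.Nonempty) :
    IsPreconnected (t3Y X ϑ) := by
  set L : ℤ → Set (V × ℝ) := fun k => t3Lay X ϑ (k - 1 / 2) (k + 1 / 2) with hL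
  set C : ℤ → Set (V × ℝ) := fun k => closure (L k) ∩ t3Y X ϑ with hC
  have hLC : ∀ k, L k ⊆ C k := fun k z hz => ⟨subset_closure hz, hz.1⟩
  have hCp : ∀ k, IsPreconnected (C k) := fun k =>
    (hlay k).subset_closure (hLC k) inter_subset_left
  -- the wall points are in the closure of both adjacent layers
  have hwall : ∀ p ∈ F, ∀ k : ℤ, ((p, (k : ℝ) + 1 / 2) : V × ℝ) ∈ C k ∧
      ((p, (k : ℝ) + 1 / 2) : V × ℝ) ∈ C (k + 1) := by
    intro p hp k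
    have hpX := (hFs hp).1
    have hϑp : ϑ p = 1 / 2 := (hhalf p hpX).2 hp
    have hY : ((p, (k : ℝ) + 1 / 2) : V × ℝ) ∈ t3Y X ϑ := ⟨hpX, k, by show (k : ℝ) + 1 / 2 = ϑ p + k; rw [hϑp]; ring⟩
    have hσ : ContinuousWithinAt (fun x => ((x, ϑ x + k) : V × ℝ)) (X ∩ N) p :=
      continuousWithinAt_id.prodMk ((hcont p (hFs hp)).add continuousWithinAt_const)
    have hσp : ((p, ϑ p + k) : V × ℝ) = (p, (k : ℝ) + 1 / 2) := by rw [hϑp, add_comm]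
    have key : ∀ W' ∈ 𝓝 ((p, (k : ℝ) + 1 / 2) : V × ℝ), ∃ W ∈ 𝓝 p, ∀ x ∈ X ∩ N ∩ W,
        ((x, ϑ x + k) : V × ℝ) ∈ W' := by
      intro W' hW'
      have h1 : (fun x => ((x, ϑ x + k) : V × ℝ)) ⁻¹' W' ∈ 𝓝[X ∩ N] p := by
        apply hσ
        show W' ∈ 𝓝 ((p, ϑ p + k) : V × ℝ)
        rw [hσp]; exact hW'
      obtain ⟨W, hW, hsub⟩ := mem_nhdsWithin_iff_exists_mem_nhds_inter.1 h1
      exact ⟨W, hW, fun x hx => hsub ⟨hx.2, hx.1⟩⟩
    refine ⟨⟨?_, hY⟩, ⟨?_, hY⟩⟩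
    · rw [mem_closure_iff_nhds]
      intro W' hW'
      obtain ⟨W, hW, hsub⟩ := key W' hW'
      obtain ⟨⟨x, hx, hlt⟩, -⟩ := hacc p hp W hW
      have hr := hrng x
      exact ⟨(x, ϑ x + k), hsub x hx, ⟨hx.1.1, k, rfl⟩, by show (k : ℝ) - 1 / 2 < ϑ x + k; linarith,
        by show ϑ x + k < (k : ℝ) + 1 / 2; linarith⟩
    · rw [mem_closure_iff_nhds]
      intro W' hW'
      obtain ⟨W, hW, hsub⟩ := key W' hW'
      obtain ⟨-, ⟨x, hx, hgt⟩⟩ := hacc p hp W hW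
      have hr := hrng x
      refine ⟨(x, ϑ x + k), hsub x hx, ⟨hx.1.1, k, rfl⟩, ?_, ?_⟩
      · show (((k + 1 : ℤ) : ℝ)) - 1 / 2 < ϑ x + k
        push_cast; linarith
      · show ϑ x + k < (((k + 1 : ℤ) : ℝ)) + 1 / 2
        push_cast; linarith
  have hun : t3Y X ϑ = ⋃ k, C k := by
    apply Subset.antisymm
    · rintro z ⟨hzX, j, hj⟩
      have hr := hrng z.1
      rcases lt_trichotomy (ϑ z.1) (1 / 2) with h | h | h
      · exact mem_iUnion.2 ⟨j, hLC j ⟨⟨hzX, j, hj⟩, by rw [hj]; linarith, by rw [hj]; linarith⟩⟩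
      · have hzF := (hhalf z.1 hzX).1 h
        have := (hwall z.1 hzF j).1
        have e : z = (z.1, (j : ℝ) + 1 / 2) := Prod.ext rfl (by show z.2 = _; rw [hj, h]; ring)
        rw [e]
        exact mem_iUnion.2 ⟨j, this⟩
      · refine mem_iUnion.2 ⟨j + 1, hLC (j + 1) ⟨⟨hzX, j, hj⟩, ?_, ?_⟩⟩
        · rw [hj]; push_cast; linarith
        · rw [hj]; push_cast; linarith
    · exact iUnion_subset fun k => inter_subset_right
  rw [hun]
  obtain ⟨p, hp⟩ := hne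
  refine IsPreconnected.iUnion_of_chain hCp fun k => ?_
  rw [Order.succ_eq_add_one]
  exact ⟨_, (hwall p hp k).1, (hwall p hp k).2⟩
theorem T3Stp.zl_half (hS : T3Stp X F N K ϑ) : ∀ x ∈ X, ϑ x = 1 / 2 ↔ x ∈ F := fun x hx =>
  t3zl_half hS.sub hS.df.sub (fun y hy => by rw [← hS.df.zero y hy, sub_eq_zero]) hS.int hx

/-- removing a hypersurface of the interior: `X \ F` is connected if `I \ F` is.
[Let `X \ F ⊆ u ∪ v` be a separation; the connected set `I \ F` lies in `u`, say.  Then `P' = (X \ F) ∩ v ⊆ X \ I` is open in `X`, and closed in `X` because every point of `F` has the neighbourhood `I`, which misses `P'`.  `X` is connected and `F ≠ ∅`.] -/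
theorem t3_diff_conn {X I F : Set V} (hX : IsPreconnected X) (hI : T3RelOpen X I)
    (hF : IsCompact F) (hFI : F ⊆ I) (hne : F.Nonempty) (hc : IsPreconnected (I \ F)) :
    IsPreconnected (X \ F) := by
  obtain ⟨O, hO, rfl⟩ := hI
  intro u v hu hv hcov ha hb
  by_cases h1 : (((X ∩ O) \ F) ∩ v).Nonempty
  · by_cases h2 : (((X ∩ O) \ F) ∩ u).Nonempty
    · obtain ⟨x, ⟨⟨hxX, -⟩, hxF⟩, hxuv⟩ := hc u v hu hv
        (fun x hx => hcov ⟨hx.1.1, hx.2⟩) h2 h1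
      exact ⟨x, ⟨hxX, hxF⟩, hxuv⟩
    · have := t3dc_aux hX hO hF.isClosed hFI hne hv hu (by rwa [union_comm]) ha h2
      rwa [inter_comm v u] at this
  · exact t3dc_aux hX hO hF.isClosed hFI hne hu hv hcov hb h1

/-- the layers `{k - 1/2 < height < k + 1/2}` are copies of `X \ F`.
[`v x = ϑ x` if `ϑ x < 1/2`, `ϑ x - 1` if `ϑ x > 1/2`: continuous on `X \ F` (on `X ∩ N \ F`: `ϑ` is continuous and `≠ 1/2`; on `X \ K`: `v = 0`); the layer is the image of `X \ F` under `x ↦ (x, v x + k)`.] -/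
theorem T3Stp.layer (hS : T3Stp X F N K ϑ) (hX : IsMfd 3 X) (hc : IsPreconnected (X \ F))
    (k : ℤ) : IsPreconnected (t3Lay X ϑ (k - 1 / 2) (k + 1 / 2)) :=
  t3zl_layer hS.opn hS.cpt hS.sub (hS.zl_cont hX) hS.zl_half hS.int hS.rng hc k

/-- the cover is connected (helper185 14:10Z: hypothesis `F.Nonempty` ADDED; for `F = ∅`, `ϑ = 0` the cover is `X × ℤ`).
[`F × {k + 1/2}` lies in the closure of the layers `k` and `k + 1` (`t3g_wall` / `t3g_box`: both sides of `F` accumulate at every point of `F`): the union of the layers `k`, `k+1` and of `F × {k + 1/2}` is connected; induction / `IsPreconnected.iUnion_of_chain`.] -/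
theorem T3Stp.conn (hS : T3Stp X F N K ϑ) (hX : IsMfd 3 X) (hc : IsPreconnected (X \ F))
    (hne : F.Nonempty) : IsPreconnected (t3Y X ϑ) := by
  refine t3zl_conn hS.df.sub (hS.zl_cont hX) hS.zl_half hS.rng (fun p hp W hW => ?_)
    (fun k => hS.layer hX hc k) hne
  obtain ⟨ψ, r, l, hr, hψ, rfl, hl, hφ⟩ := t3g_chart hX hS.df hp
  obtain ⟨s₀, hs₀, -, hbox⟩ := t3g_box_aux (φ := fun x => ϑ x - 1 / 2) hS.opn hr hψ hl hφ hW
  obtain ⟨N', -, -, hNW, -, -, -, ⟨x, hx, hx0⟩, -, ⟨y, hy, hy0⟩⟩ := hbox s₀ hs₀ le_rfl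
  have hx0' : 0 < ϑ x - 1 / 2 := hx0
  have hy0' : ϑ y - 1 / 2 < 0 := hy0
  exact ⟨⟨y, ⟨⟨hy.1, (hNW hy.2).2⟩, (hNW hy.2).1⟩, by linarith⟩,
    ⟨x, ⟨⟨hx.1, (hNW hx.2).2⟩, (hNW hx.2).1⟩, by linarith⟩⟩

/-- a functional which kills the coordinate vectors vanishes. -/
theorem t3zl_clm_zero {d : ℕ} {L : E d →L[ℝ] ℝ} (hL : ∀ i, L (EuclideanSpace.single i 1) = 0) :
    L = 0 := by
  have h1 : (L : E d →ₗ[ℝ] ℝ) = 0 :=
    (EuclideanSpace.basisFun (Fin d) ℝ).toBasis.ext fun i => by simpa using hL i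
  ext v
  exact LinearMap.congr_fun h1 v

/-- a regular defining function has nonzero gradient along the hypersurface. -/
theorem T3Def.zl_sq_pos {d : ℕ} {M S O : Set V} {φ : V → ℝ} {g : Ten V} (hdef : T3Def d M S O φ)
    (hM : IsMfd d M) (hg : IsMetricOn d M g) {p : V} (hp : p ∈ S) :
    0 < gradSq d (M ∩ O) g φ p := by
  have hgO : IsMetricOn d (M ∩ O) g := if_isMetricOn_inter hg hdef.opn
  obtain ⟨ψ, U, hψ, u, hu, rfl⟩ := if_mfd_inter hM hdef.opn p (hdef.sub hp)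
  rw [gs_sq_eq hgO hdef.smooth hψ hu]
  refine lt_of_le_of_ne (rm_sq_nonneg (gs_met hgO hψ) hu _) fun h0 => ?_
  have h1 := (rm_sq_eq_zero (gs_met hgO hψ) hu _).1 h0.symm
  exact hdef.reg ψ U hψ u hu ((hdef.zero _ (hdef.sub hp)).2 hp) (t3zl_clm_zero h1)

/-- gradient of the height over the tube. -/
theorem T3Stp.zl_gradSq (hS : T3Stp X F N K ϑ) (hX : IsMfd 3 X) {h : Ten V}
    (hh : IsMetricOn 3 X h) (c : ℝ) {y : V × ℝ} (hy : y ∈ t3Y X ϑ) (hN : y.1 ∈ N) :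
    gradSq 3 (t3Y X ϑ) (t3pT (ContinuousLinearMap.fst ℝ V ℝ) h) (fun z => z.2 - c) y
      = gradSq 3 (X ∩ N) h (fun x => ϑ x - 1 / 2) y.1 := by
  set π : V × ℝ →L[ℝ] V := ContinuousLinearMap.fst ℝ V ℝ with hπ
  have hLi := hS.li hX
  have hXN : IsMfd 3 (X ∩ N) := if_mfd_inter hX hS.opn
  have hhN : IsMetricOn 3 (X ∩ N) h := if_isMetricOn_inter hh hS.opn
  have hyN : y.1 ∈ X ∩ N := ⟨hy.1, hN⟩
  obtain ⟨k, W, hW, hWe⟩ := hS.zl_winN hX hy hN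
  have hpre : IsOpen (π ⁻¹' N) := hS.opn.preimage π.continuous
  have hLiN := hLi.inter_pre hS.opn
  have hfk : SmoothAlong 3 (X ∩ N) (fun x => (ϑ x - 1 / 2) + ((1 / 2 : ℝ) + k - c)) :=
    gs_sm_add hS.df.smooth (gs_sm_const _)
  have e1 : gradSq 3 (t3Y X ϑ) (t3pT π h) (fun z => z.2 - c) y
      = gradSq 3 (t3Y X ϑ ∩ π ⁻¹' N) (t3pT π h) (fun z => z.2 - c) y :=
    (if_gradSq_inter' _ _ hpre (show y ∈ π ⁻¹' N from hN)).symm
  have e2 : gradSq 3 (t3Y X ϑ ∩ π ⁻¹' N) (t3pT π h) (fun z => z.2 - c) y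
      = gradSq 3 (t3Y X ϑ ∩ π ⁻¹' N) (t3pT π h)
        (fun w => (fun x => (ϑ x - 1 / 2) + ((1 / 2 : ℝ) + k - c)) (π w)) y :=
    gs_sq_congr_near hW fun w hw => by
      have := hWe w ⟨hw.1.1, hw.2⟩
      show w.2 - c = (ϑ w.1 - 1 / 2) + ((1 / 2 : ℝ) + k - c)
      rw [this]; ring
  have e3 := hLiN.gradSq hhN hfk (z := y) ⟨hy, hN⟩
  rw [e1, e2, e3]
  show gradSq 3 (X ∩ N) h (fun x => (ϑ x - 1 / 2) + ((1 / 2 : ℝ) + k - c)) y.1 = _
  rw [gs_sq_add hXN hhN hS.df.smooth (gs_sm_const _) hyN,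
    gs_ip_const_right hXN hhN _ hS.df.smooth hyN, gs_sq_const hXN hhN _ hyN]
  ring

/-- `F` is compact. -/
theorem T3Stp.zl_F_compact (hS : T3Stp X F N K ϑ) (hX : IsMfd 3 X) : IsCompact F := by
  have he : F = K ∩ ϑ ⁻¹' {1 / 2} := by
    ext x
    constructor
    · intro hx
      have hxX := (hS.df.sub hx).1
      have h1 : ϑ x = 1 / 2 := (hS.zl_half x hxX).2 hx
      refine ⟨?_, h1⟩
      by_contra hK
      rcases hS.int x hxX hK with h' | h' <;> rw [h'] at h1 <;> norm_num at h1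
    · rintro ⟨hxK, h1⟩
      exact (hS.zl_half x (hS.sub hxK).1).1 h1
  rw [he]
  exact hS.cpt.of_isClosed_subset (((hS.zl_cont hX).mono hS.sub).preimage_isClosed_of_isClosed
    hS.cpt.isClosed isClosed_singleton) inter_subset_left

variable [MeasurableSpace V] [BorelSpace V]
variable {h : Ten V} {t : V → ℝ}

/-! ### L-T3-ZcA-4 -/

/-- the reference set `E₀ = {height < 1/2}` has finite perimeter.
[`F̂ = F × {1/2} = Y ∩ {snd = 1/2}` is compact.  Every point of `Y \ F̂` has an open neighbourhood in which `E₀` is empty or everything: `wper E₀ F̂ᶜ = 0` (`ct_wper_congr`, `ct_wper_empty`, `ct_wper_univ`, Lindelöf).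
Near `F̂`: on an open `Ŵ ⊇ F̂` with `gradSq snd > 0` on `Y ∩ Ŵ` the function `snd - 1/2` is a `CtDef` of `E₀ ∩ Ŵ`: `CtDef.lf`, `ct_wper_inter`; so `wper E₀ F̂ ≠ ⊤`.] -/
theorem T3Stp.e0 (hS : T3Stp X F N K ϑ) (hG : CtGeo 3 X h t) :
    CtLF 3 (t3Y X ϑ) (t3pT (ContinuousLinearMap.fst ℝ V ℝ) h) (fun z => t z.1)
        (t3E0 X ϑ (1 / 2)) ∧
      wper 3 (t3Y X ϑ) (t3pT (ContinuousLinearMap.fst ℝ V ℝ) h) (fun z => t z.1)
        (t3E0 X ϑ (1 / 2)) univ ≠ ⊤ := by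
  set π : V × ℝ →L[ℝ] V := ContinuousLinearMap.fst ℝ V ℝ with hπ
  have hX := hG.mfd
  have hLi := hS.li hX
  have hGY : CtGeo 3 (t3Y X ϑ) (t3pT π h) (fun z => t z.1) := hLi.geo hG
  have hYm : MeasurableSet (t3Y X ϑ) := ct_measurableSet hGY.mfd
  have hEm : MeasurableSet (t3E0 X ϑ (1 / 2)) :=
    hYm.inter (measurableSet_lt measurable_snd measurable_const)
  set μ : Measure (V × ℝ) := wper 3 (t3Y X ϑ) (t3pT π h) (fun z => t z.1) (t3E0 X ϑ (1 / 2)) with hμ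
  have hO₁ : IsOpen {z : V × ℝ | z.2 < 1 / 2} := isOpen_lt continuous_snd continuous_const
  have hO₂ : IsOpen {z : V × ℝ | 1 / 2 < z.2} := isOpen_lt continuous_const continuous_snd
  have h1 : μ {z : V × ℝ | z.2 < 1 / 2} = 0 := by
    have h2 := ct_wper_congr hGY hEm hYm hO₁ (by
      have : symmDiff (t3E0 X ϑ (1 / 2)) (t3Y X ϑ) ∩ {z : V × ℝ | z.2 < 1 / 2} = ∅ := by
        ext z
        simp only [mem_inter_iff, mem_symmDiff, mem_empty_iff_false, iff_false]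
        rintro ⟨⟨hz, hz'⟩ | ⟨hz, hz'⟩, hlt⟩
        · exact hz' hz.1
        · exact hz' ⟨hz, hlt⟩
      rw [this]; exact measure_empty)
    rw [ct_wper_univ hGY] at h2
    have h3 : μ.restrict {z : V × ℝ | z.2 < 1 / 2} univ = 0 := by rw [h2]; simp
    rwa [Measure.restrict_apply_univ] at h3
  have h2 : μ {z : V × ℝ | 1 / 2 < z.2} = 0 := by
    have h2 := ct_wper_congr hGY hEm MeasurableSet.empty hO₂ (by
      have : symmDiff (t3E0 X ϑ (1 / 2)) ∅ ∩ {z : V × ℝ | 1 / 2 < z.2} = ∅ := by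
        ext z
        simp only [mem_inter_iff, mem_symmDiff, mem_empty_iff_false, iff_false]
        rintro ⟨⟨hz, -⟩ | ⟨hz, -⟩, hlt⟩
        · exact absurd hz.2 (not_lt.2 (le_of_lt hlt))
        · exact hz
      rw [this]; exact measure_empty)
    rw [ct_wper_empty hGY] at h2
    have h3 : μ.restrict {z : V × ℝ | 1 / 2 < z.2} univ = 0 := by rw [h2]; simp
    rwa [Measure.restrict_apply_univ] at h3
  have h0 : μ (t3Y X ϑ)ᶜ = 0 := ct_wper_compl_M hGY hEm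
  -- the wall
  have hFc : IsCompact (F ×ˢ ({1 / 2} : Set ℝ)) := (hS.zl_F_compact hX).prod isCompact_singleton
  have hXN : IsMfd 3 (X ∩ N) := if_mfd_inter hX hS.opn
  have hhN : IsMetricOn 3 (X ∩ N) h := if_isMetricOn_inter hG.met hS.opn
  set Φ : V → ℝ := gradSq 3 (X ∩ N) h (fun x => ϑ x - 1 / 2) with hΦ
  have hΦc : ContinuousOn Φ (X ∩ N) :=
    if_smoothAlong_continuousOn hXN (if_gradSq_smoothAlong hhN hS.df.smooth)
  obtain ⟨O₃, hO₃, hO₃e⟩ := continuousOn_iff'.1 hΦc (Ioi 0) isOpen_Ioi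
  have hW : IsOpen (π ⁻¹' (N ∩ O₃)) := (hS.opn.inter hO₃).preimage π.continuous
  have hFW : F ×ˢ ({1 / 2} : Set ℝ) ⊆ t3Y X ϑ ∩ π ⁻¹' (N ∩ O₃) := by
    rintro z ⟨hzF, hz2⟩
    have hzN := hS.df.sub hzF
    have hz2' : z.2 = 1 / 2 := hz2
    refine ⟨⟨hzN.1, 0, ?_⟩, hzN.2, ?_⟩
    · rw [hz2', (hS.zl_half z.1 hzN.1).2 hzF]; simp
    · have : z.1 ∈ Φ ⁻¹' Ioi 0 ∩ (X ∩ N) := ⟨hS.df.zl_sq_pos hX hG.met hzF, hzN⟩
      rw [hO₃e] at this
      exact this.1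
  have hdef : CtDef 3 (t3Y X ϑ ∩ π ⁻¹' (N ∩ O₃)) (t3pT π h) (t3E0 X ϑ (1 / 2) ∩ π ⁻¹' (N ∩ O₃))
      (fun z => z.2 - 1 / 2) := by
    refine ⟨if_smoothAlong_of_contDiff (contDiff_snd.sub contDiff_const), fun z hz => ?_, ?_⟩
    · rw [if_gradSq_inter' _ _ hW hz.2, hS.zl_gradSq hX hG.met (1 / 2) hz.1 hz.2.1]
      have : z.1 ∈ O₃ ∩ (X ∩ N) := ⟨hz.2.2, hz.1.1, hz.2.1⟩
      rw [← hO₃e] at this
      exact this.1
    · have : symmDiff (t3E0 X ϑ (1 / 2) ∩ π ⁻¹' (N ∩ O₃))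
          {x | x ∈ t3Y X ϑ ∩ π ⁻¹' (N ∩ O₃) ∧ x.2 - 1 / 2 < 0} = ∅ := by
        have e : t3E0 X ϑ (1 / 2) ∩ π ⁻¹' (N ∩ O₃)
            = {x | x ∈ t3Y X ϑ ∩ π ⁻¹' (N ∩ O₃) ∧ x.2 - 1 / 2 < 0} := by
          ext z
          constructor
          · rintro ⟨⟨hz, hlt⟩, hzW⟩
            exact ⟨⟨hz, hzW⟩, by linarith⟩
          · rintro ⟨⟨hz, hzW⟩, hlt⟩
            exact ⟨⟨hz, by linarith⟩, hzW⟩
        rw [e, symmDiff_self]; rfl
      rw [this]; exact measure_empty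
  have hlf := CtDef.lf (hGY.inter hW) (hEm.inter hW.measurableSet)
    (fun z hz => ⟨hz.1.1, hz.2⟩) hdef
  have hfin : μ (F ×ˢ ({1 / 2} : Set ℝ)) ≠ ⊤ := by
    have h3 := hlf.fin _ hFc hFW
    rwa [ct_wper_inter hGY hEm hW, Measure.restrict_apply hFc.measurableSet,
      inter_eq_left.2 fun z hz => (hFW hz).2] at h3
  have hcov : (univ : Set (V × ℝ)) ⊆ ((t3Y X ϑ)ᶜ ∪ {z : V × ℝ | z.2 < 1 / 2}) ∪
      ({z : V × ℝ | 1 / 2 < z.2} ∪ F ×ˢ ({1 / 2} : Set ℝ)) := by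
    intro z _
    by_cases hz : z ∈ t3Y X ϑ
    · rcases lt_trichotomy z.2 (1 / 2) with hlt | heq | hgt
      · exact Or.inl (Or.inr hlt)
      · refine Or.inr (Or.inr ⟨?_, heq⟩)
        obtain ⟨hzX, k, hk⟩ := hz
        have hr := hS.rng z.1
        rw [heq] at hk
        have hk0 : k = 0 := by
          apply t3zl_int_eq
          rw [abs_lt]
          push_cast
          constructor <;> linarith [hr.1, hr.2]
        rw [hk0] at hk
        exact (hS.zl_half z.1 hzX).1 (by push_cast at hk; linarith)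
      · exact Or.inr (Or.inl hgt)
    · exact Or.inl (Or.inl hz)
  have huniv : μ univ ≠ ⊤ := by
    have h3 : μ univ ≤ (μ (t3Y X ϑ)ᶜ + μ {z : V × ℝ | z.2 < 1 / 2}) +
        (μ {z : V × ℝ | 1 / 2 < z.2} + μ (F ×ˢ ({1 / 2} : Set ℝ))) :=
      (measure_mono hcov).trans ((measure_union_le _ _).trans
        (add_le_add (measure_union_le _ _) (measure_union_le _ _)))
    rw [h0, h1, h2, zero_add, zero_add, zero_add] at h3
    exact ne_top_of_le_ne_top hfin h3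
  exact ⟨⟨hEm, fun z hz => hz.1, fun C _ _ => ne_top_of_le_ne_top huniv (measure_mono (subset_univ _))⟩,
    huniv⟩

/-! ### L-T3-ZcA-6 -/

/-- the collars of `X` lift to collars of the cover, indexed by `ι × ℤ`.
[Shrink the tubes: `T3Col.shrink` with `C = K`.  On `X ∩ (O i \ K)` all heights are integers: second statement.  `fst : Y ∩ Ô q → X ∩ (O i \ K)` is a `T3Iso` (`T3Li.iso_of_injOn`): `lam` by `T3Iso.lam`, `df` by `T3Li.def_up`; `clo`, `dis`, `lf` as in `T3Tub.col`.] -/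
theorem T3Stp.col (hS : T3Stp X F N K ϑ) {ι : Type} {B O : ι → Set V} {φ : ι → V → ℝ}
    (H : T3Col 3 X h t B O φ) (hK : Disjoint K (t3Ext X O φ)) :
    T3Col 3 (t3Y X ϑ) (t3pT (ContinuousLinearMap.fst ℝ V ℝ) h) (fun z => t z.1)
        (fun q : ι × ℤ => B q.1 ×ˢ {(q.2 : ℝ)})
        (fun q : ι × ℤ => (O q.1 \ K) ×ˢ Metric.ball (q.2 : ℝ) (1 / 2))
        (fun (q : ι × ℤ) (z : V × ℝ) => φ q.1 z.1) ∧
      ∀ q : ι × ℤ, t3Y X ϑ ∩ ((O q.1 \ K) ×ˢ Metric.ball (q.2 : ℝ) (1 / 2)) =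
        (X ∩ (O q.1 \ K)) ×ˢ {(q.2 : ℝ)} := by
  set π : V × ℝ →L[ℝ] V := ContinuousLinearMap.fst ℝ V ℝ with hπ
  have hX := H.geo.mfd
  have hLi := hS.li hX
  have H₁ := H.shrink hS.cpt.isClosed hK
  -- the second statement
  have S2 : ∀ q : ι × ℤ, t3Y X ϑ ∩ ((O q.1 \ K) ×ˢ Metric.ball (q.2 : ℝ) (1 / 2)) =
      (X ∩ (O q.1 \ K)) ×ˢ {(q.2 : ℝ)} := by
    intro q
    ext z
    constructor
    · rintro ⟨⟨hzX, k, hk⟩, hzO, hzb⟩
      refine ⟨⟨hzX, hzO⟩, ?_⟩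
      obtain ⟨a, ha⟩ := hS.zl_int hzX hzO.2
      have h3 : |z.2 - q.2| < 1 / 2 := by rwa [Metric.mem_ball, Real.dist_eq] at hzb
      rw [hk, ha] at h3
      have h4 : a + k = q.2 := by
        apply t3zl_int_eq
        push_cast
        linarith
      show z.2 = (q.2 : ℝ)
      rw [hk, ha]
      exact_mod_cast h4
    · rintro ⟨⟨hzX, hzO⟩, hz2⟩
      have hz2' : z.2 = (q.2 : ℝ) := hz2
      obtain ⟨a, ha⟩ := hS.zl_int hzX hzO.2
      refine ⟨⟨hzX, q.2 - a, ?_⟩, hzO, ?_⟩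
      · rw [hz2', ha]; push_cast; ring
      · rw [hz2']; exact Metric.mem_ball_self (by norm_num)
  have hOo : ∀ i, IsOpen (O i \ K) := fun i => (H₁.df i).opn
  have hÔo : ∀ q : ι × ℤ, IsOpen ((O q.1 \ K) ×ˢ Metric.ball (q.2 : ℝ) (1 / 2)) := fun q =>
    (hOo q.1).prod Metric.isOpen_ball
  refine ⟨⟨hLi.geo H.geo, fun q => (H.cpt q.1).prod isCompact_singleton,
    fun q => (H.conn q.1).prod isConnected_singleton, fun q => ?_, fun q => ?_, fun q q' hqq => ?_,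
    fun q => ?_, fun z hz => ?_⟩, S2⟩
  · -- defining functions
    have hW : IsOpen (Prod.snd ⁻¹' Metric.ball (q.2 : ℝ) (1 / 2) : Set (V × ℝ)) :=
      Metric.isOpen_ball.preimage continuous_snd
    have h1 := hLi.def_up (H₁.df q.1) hW
    have e1 : (Prod.snd ⁻¹' Metric.ball (q.2 : ℝ) (1 / 2) : Set (V × ℝ)) ∩ π ⁻¹' (O q.1 \ K)
        = (O q.1 \ K) ×ˢ Metric.ball (q.2 : ℝ) (1 / 2) := by
      ext z
      exact ⟨fun hz => ⟨hz.2, hz.1⟩, fun hz => ⟨hz.2, hz.1⟩⟩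
    have e2 : t3Y X ϑ ∩ (Prod.snd ⁻¹' Metric.ball (q.2 : ℝ) (1 / 2) : Set (V × ℝ)) ∩ π ⁻¹' (B q.1)
        = B q.1 ×ˢ {(q.2 : ℝ)} := by
      ext z
      constructor
      · rintro ⟨⟨hzY, hzb⟩, hzB⟩
        have hzO := ((H₁.df q.1).sub hzB).2
        have : z ∈ (X ∩ (O q.1 \ K)) ×ˢ {(q.2 : ℝ)} := by
          rw [← S2 q]; exact ⟨hzY, hzO, hzb⟩
        exact ⟨hzB, this.2⟩
      · rintro ⟨hzB, hz2⟩
        have : z ∈ t3Y X ϑ ∩ ((O q.1 \ K) ×ˢ Metric.ball (q.2 : ℝ) (1 / 2)) := by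
          rw [S2 q]; exact ⟨(H₁.df q.1).sub hzB, hz2⟩
        exact ⟨⟨this.1, this.2.2⟩, hzB⟩
    rw [e1, e2] at h1
    exact h1
  · -- minimisers
    have hinj : InjOn π (t3Y X ϑ ∩ ((O q.1 \ K) ×ˢ Metric.ball (q.2 : ℝ) (1 / 2))) := by
      rw [S2 q]
      rintro z hz z' hz' he
      have h2 : z.2 = (q.2 : ℝ) := hz.2
      have h2' : z'.2 = (q.2 : ℝ) := hz'.2
      exact Prod.ext he (h2.trans h2'.symm)
    have himg : π '' (t3Y X ϑ ∩ ((O q.1 \ K) ×ˢ Metric.ball (q.2 : ℝ) (1 / 2)))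
        = X ∩ (O q.1 \ K) := by
      rw [S2 q]
      ext x
      constructor
      · rintro ⟨z, hz, rfl⟩; exact hz.1
      · intro hx; exact ⟨(x, (q.2 : ℝ)), ⟨hx, rfl⟩, rfl⟩
    have hiso := hLi.iso_of_injOn (hÔo q) (hOo q.1) hinj himg
    have h1 := (hiso.lam (p := fun _ => 0) (H.geo.inter (hOo q.1))
      (A := {x | x ∈ X ∩ (O q.1 \ K) ∧ φ q.1 x < 0}) fun x hx => hx.1).1 (H₁.lam q.1)
    have e : t3Y X ϑ ∩ ((O q.1 \ K) ×ˢ Metric.ball (q.2 : ℝ) (1 / 2)) ∩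
        π ⁻¹' {x | x ∈ X ∩ (O q.1 \ K) ∧ φ q.1 x < 0}
        = {x | x ∈ t3Y X ϑ ∩ ((O q.1 \ K) ×ˢ Metric.ball (q.2 : ℝ) (1 / 2)) ∧ φ q.1 x.1 < 0} := by
      ext z
      constructor
      · rintro ⟨hz, -, hlt⟩; exact ⟨hz, hlt⟩
      · rintro ⟨hz, hlt⟩; exact ⟨hz, ⟨hz.1.1, hz.2.1⟩, hlt⟩
    rw [e] at h1
    exact h1
  · -- disjointness
    show Disjoint (t3Y X ϑ ∩ ((O q.1 \ K) ×ˢ Metric.ball (q.2 : ℝ) (1 / 2)))
      (t3Y X ϑ ∩ ((O q'.1 \ K) ×ˢ Metric.ball (q'.2 : ℝ) (1 / 2)))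
    rw [S2 q, S2 q', disjoint_left]
    rintro z ⟨hz1, hz2⟩ ⟨hz1', hz2'⟩
    by_cases h1 : q.1 = q'.1
    · have h2 : z.2 = (q.2 : ℝ) := hz2
      have h2' : z.2 = (q'.2 : ℝ) := hz2'
      have h3 : q.2 = q'.2 := by exact_mod_cast h2.symm.trans h2'
      exact hqq (Prod.ext h1 h3)
    · exact disjoint_left.1 (H₁.dis h1) hz1 hz1'
  · -- closedness
    obtain ⟨C₀, hC₀, hC₀e⟩ := H₁.clo q.1
    refine ⟨C₀ ×ˢ {(q.2 : ℝ)}, hC₀.prod isClosed_singleton, ?_⟩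
    ext z
    constructor
    · rintro ⟨hzY, hzC, hz2⟩
      have h1 : z.1 ∈ X ∩ C₀ := ⟨hzY.1, hzC⟩
      rw [hC₀e] at h1
      have : z ∈ t3Y X ϑ ∩ ((O q.1 \ K) ×ˢ Metric.ball (q.2 : ℝ) (1 / 2)) := by
        rw [S2 q]; exact ⟨h1.1, hz2⟩
      exact ⟨this, h1.2⟩
    · rintro ⟨hz, hle⟩
      have h1 : z.1 ∈ X ∩ C₀ := by
        rw [hC₀e]; exact ⟨⟨hz.1.1, hz.2.1⟩, hle⟩
      have h2 := hz
      rw [S2 q] at h2
      exact ⟨hz.1, h1.2, h2.2⟩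
  · -- local finiteness
    obtain ⟨W₀, hW₀, hfin⟩ := H₁.lf z.1 hz.1
    refine ⟨W₀ ×ˢ Metric.ball z.2 1, prod_mem_nhds hW₀ (Metric.ball_mem_nhds _ one_pos),
      (hfin.prod (finite_Icc ⌊z.2 - 1⌋ ⌈z.2 + 1⌉)).subset ?_⟩
    rintro q ⟨y, hy, hyW⟩
    have hy' := hy
    rw [S2 q] at hy'
    have h2 : y.2 = (q.2 : ℝ) := hy'.2
    have h3 : |y.2 - z.2| < 1 := by
      have := hyW.2
      rwa [Metric.mem_ball, Real.dist_eq] at this
    rw [h2] at h3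
    have a3 := abs_lt.1 h3
    refine ⟨⟨y.1, hy'.1, hyW.1⟩, ?_, ?_⟩
    · have h4 : ((⌊z.2 - 1⌋ : ℤ) : ℝ) ≤ q.2 := (Int.floor_le _).trans (by linarith [a3.1])
      exact_mod_cast h4
    · have h5 : (q.2 : ℝ) ≤ ((⌈z.2 + 1⌉ : ℤ) : ℝ) := le_trans (by linarith [a3.2]) (Int.le_ceil _)
      exact_mod_cast h5

/-! ### L-T3-ZcA-7: deck translations preserve everything
[`t3Tk_eq_ctTr`; `v = k • (0,1)`; `ctTr v Y = Y` by hypothesis; `(fun z => t3pT fst h (z - v)) = t3pT fst h` and `(fun z => t (z - v).1) = fun z => t z.1` by `funext` (`fst v = 0`); then the lemmas of `Ct/ProdA.lean`.] -/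

section tk
variable {Y : Set (V × ℝ)}

theorem t3tk_hY (h : Ten V) (k : ℤ) :
    (fun z : V × ℝ => t3pT (ContinuousLinearMap.fst ℝ V ℝ) h (z - (k : ℝ) • ((0 : V), (1 : ℝ)))) =
      t3pT (ContinuousLinearMap.fst ℝ V ℝ) h := by
  funext z
  simp [t3pT]

theorem t3tk_tY (t : V → ℝ) (k : ℤ) :
    (fun z : V × ℝ => (fun y : V × ℝ => t y.1) (z - (k : ℝ) • ((0 : V), (1 : ℝ)))) =
      fun z : V × ℝ => t z.1 := by
  funext z
  simp

theorem t3tk_sets (hY : ∀ k, t3Tk k Y = Y) (k : ℤ) (A : Set (V × ℝ)) :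
    ctBd 3 Y (t3Tk k A) = t3Tk k (ctBd 3 Y A) ∧ ctIn 3 Y (t3Tk k A) = t3Tk k (ctIn 3 Y A) ∧
      ctOut 3 Y (t3Tk k A) = t3Tk k (ctOut 3 Y A) := by
  have h := ct_translate_sets (d := 3) (M := Y) ((k : ℝ) • ((0 : V), (1 : ℝ))) A
  simp only [← t3Tk_eq_ctTr, hY] at h
  exact ⟨h.1, h.2.2.2.1, h.2.2.2.2⟩

theorem t3tk_vol (hY : ∀ k, t3Tk k Y = Y)
    (hG : CtGeo 3 Y (t3pT (ContinuousLinearMap.fst ℝ V ℝ) h) (fun z => t z.1)) (k : ℤ)
    (A : Set (V × ℝ)) :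
    vol 3 Y (t3pT (ContinuousLinearMap.fst ℝ V ℝ) h) (t3Tk k A) =
      vol 3 Y (t3pT (ContinuousLinearMap.fst ℝ V ℝ) h) A := by
  have h1 := ct_translate_vol hG ((k : ℝ) • ((0 : V), (1 : ℝ))) A
  rw [t3tk_hY, ← t3Tk_eq_ctTr, ← t3Tk_eq_ctTr, hY] at h1
  exact h1

theorem t3tk_wper (hY : ∀ k, t3Tk k Y = Y)
    (hG : CtGeo 3 Y (t3pT (ContinuousLinearMap.fst ℝ V ℝ) h) (fun z => t z.1)) (k : ℤ)
    {A : Set (V × ℝ)} (hA : MeasurableSet A) (C : Set (V × ℝ)) :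
    wper 3 Y (t3pT (ContinuousLinearMap.fst ℝ V ℝ) h) (fun z => t z.1) (t3Tk k A) (t3Tk k C) =
      wper 3 Y (t3pT (ContinuousLinearMap.fst ℝ V ℝ) h) (fun z => t z.1) A C := by
  have h1 := ct_translate_wper hG ((k : ℝ) • ((0 : V), (1 : ℝ))) hA C
  rw [t3tk_hY, t3tk_tY, ← t3Tk_eq_ctTr, ← t3Tk_eq_ctTr, ← t3Tk_eq_ctTr, hY] at h1
  exact h1

theorem t3tk_lf (hY : ∀ k, t3Tk k Y = Y)
    (hG : CtGeo 3 Y (t3pT (ContinuousLinearMap.fst ℝ V ℝ) h) (fun z => t z.1)) (k : ℤ)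
    {A : Set (V × ℝ)}
    (hA : CtLF 3 Y (t3pT (ContinuousLinearMap.fst ℝ V ℝ) h) (fun z => t z.1) A) :
    CtLF 3 Y (t3pT (ContinuousLinearMap.fst ℝ V ℝ) h) (fun z => t z.1) (t3Tk k A) := by
  refine ⟨t3Tk_measurableSet k hA.meas, ?_, fun K hK hKY => ?_⟩
  · have := t3Tk_mono k hA.sub
    rwa [hY] at this
  · have h1 := t3tk_wper hY hG k hA.meas (t3Tk (-k) K)
    rw [t3Tk_neg_right] at h1
    rw [h1]
    refine hA.fin _ ?_ ?_
    · have : t3Tk (-k) K = (fun z : V × ℝ => (z.1, z.2 - (k : ℝ))) '' K := by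
        ext z
        constructor
        · intro hz
          refine ⟨_, hz, ?_⟩
          ext <;> simp
        · rintro ⟨y, hy, rfl⟩
          show (y.1, y.2 - (k : ℝ) - ((-k : ℤ) : ℝ)) ∈ K
          have : y.2 - (k : ℝ) - ((-k : ℤ) : ℝ) = y.2 := by push_cast; ring
          rw [this]
          exact hy
      rw [this]
      exact hK.image (t3Tk_continuous k)
    · have := t3Tk_mono (-k) hKY
      rwa [hY] at this

/-- minimisers in an open piece are translated to minimisers in the translated piece. -/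
theorem t3tk_lam (hY : ∀ k, t3Tk k Y = Y)
    (hG : CtGeo 3 Y (t3pT (ContinuousLinearMap.fst ℝ V ℝ) h) (fun z => t z.1)) (k : ℤ)
    {A W : Set (V × ℝ)} (hW : IsOpen W)
    (hA : CtLAM 3 (Y ∩ W) (t3pT (ContinuousLinearMap.fst ℝ V ℝ) h) (fun z => t z.1)
      (fun _ => 0) (A ∩ W)) :
    CtLAM 3 (Y ∩ t3Tk k W) (t3pT (ContinuousLinearMap.fst ℝ V ℝ) h) (fun z => t z.1)
      (fun _ => 0) (t3Tk k A ∩ t3Tk k W) := by
  have h1 := hA.translate (hG.inter hW) ((k : ℝ) • ((0 : V), (1 : ℝ)))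
  rw [t3tk_hY, t3tk_tY, ← t3Tk_eq_ctTr, ← t3Tk_eq_ctTr, t3Tk_inter, t3Tk_inter, hY] at h1
  exact h1

end tk

end Claimed.Agent.R315
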