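-- KEEP
import Claimed.Agent.R315.T3.Col
import Claimed.Agent.R315.T3.Smp

/-!
# Row 315, paper T (n = 3), package T3-ZcB: minimisers of the TOTAL perimeter, touching of minimisers, a uniform lower perimeter bound

Sub-captain: helper72.  General tools (any manifold `(X,h,t)`), used on the cyclic cover.
* `T3TMin d X h t Kpos Kneg A`: `A` has finite total perimeter and minimises `wper · univ` among all `CtLF` sets `G` with `Kpos ⊆ G`, `G ∩ Kneg = ∅` (the free region need NOT be relatively compact);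
* `t3_tmin_exists` (direct method), `T3TMin.cmin` (total ⟹ local), `T3TMin.lattice` (`A₁ ∩ A₂`, `A₁ ∪ A₂` are again minimisers);
* `t3_smp2`: if `A₁`, `A₂`, `A₁ ∩ A₂`, `A₁ ∪ A₂` are local absolute minimisers (same pressure), the boundaries of `A₁`, `A₂` coincide near every common point;
* `T3Col.touch`: the boundary of a minimiser constrained by a collar coincides with `B i` near every common point;
* `t3_per_lower`: uniform lower bound for the perimeter near boundary points in a compact set.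
LEAVES: L-T3-ZcB-1 (`t3_tmin_exists`, `T3TMin.cmin`), -2 (`T3TMin.lattice`), -3 (`t3_smp2`), -4 (`T3Col.touch`), -5 (`t3_per_lower`).
-/

set_option autoImplicit false
set_option linter.unusedSectionVars false
open scoped ContDiff Topology ENNReal
open MeasureTheory Claims.C0499 Set

namespace Claimed.Agent.R315

variable {V : Type} [NormedAddCommGroup V] [NormedSpace ℝ V] [MeasurableSpace V] [BorelSpace V]

/-- constrained minimiser of the total perimeter. -/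
def T3TMin (d : ℕ) (X : Set V) (h : Ten V) (t : V → ℝ) (Kpos Kneg A : Set V) : Prop :=
  CtLF d X h t A ∧ Kpos ⊆ A ∧ Disjoint A Kneg ∧ wper d X h t A univ ≠ ⊤ ∧
    ∀ G, CtLF d X h t G → Kpos ⊆ G → Disjoint G Kneg →
      wper d X h t A univ ≤ wper d X h t G univ

theorem t3ZcB_eqns_cite : True := by
  have := @T3TMin.eq_1
  trivial

variable [FiniteDimensional ℝ V]
variable {d : ℕ} {X : Set V} {h : Ten V} {t p : V → ℝ} {Kpos Kneg A : Set V}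

/-- **L-T3-ZcB-1: existence.**  [`ct_exists_min` with `p = 0`, `Kp = ∅`, `Cp = 0`; `ctTot .. 0 A = wper A univ` (`integral_zero`, `EReal.coe_ennreal_le_coe_ennreal_iff`).] -/
theorem t3_tmin_exists (hG : CtGeo d X h t) (h1 : MeasurableSet Kpos) (h2 : MeasurableSet Kneg)
    {E₀ : Set V} (hE₀ : CtLF d X h t E₀) (hE₀1 : Kpos ⊆ E₀) (hE₀2 : Disjoint E₀ Kneg)
    (hfin : wper d X h t E₀ univ ≠ ⊤) : ∃ A, T3TMin d X h t Kpos Kneg A := by
  obtain ⟨A, hA, hA1, hA2, hAf, hmin⟩ := ct_exists_min hG (p := fun _ => 0) measurable_const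
    (Kp := ∅) isCompact_empty (empty_subset _) (fun _ _ => rfl) (Cp := 0) (fun _ => by simp)
    h1 h2 hE₀ hE₀1 hE₀2 hfin
  refine ⟨A, hA, hA1, hA2, hAf, fun G hG' hG1 hG2 => ?_⟩
  have := hmin G hG' hG1 hG2
  simpa [ctTot] using this

/-- **L-T3-ZcB-1: total ⟹ local.**
[`G` admissible, `A △ G ⊆ K` compact.  `wper G` and `wper A` agree on the open set `Kᶜ` (`ct_wper_congr`): `wper G univ = wper G K + wper A Kᶜ`, `wper A univ = wper A K + wper A Kᶜ`, `wper A Kᶜ ≠ ⊤`: `wper A K ≤ wper G K`; `ctEn` with pressure `0` is `(wper · K).toReal` (both finite).] -/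
theorem T3TMin.cmin (hG : CtGeo d X h t) (hA : T3TMin d X h t Kpos Kneg A) :
    T3CMin d X h t (fun _ => 0) Kpos Kneg A := by
  obtain ⟨hlf, hp, hn, hfin, hmin⟩ := hA
  refine ⟨hlf, hp, hn, fun K G hK hKX hG' hG1 hG2 hs => ?_⟩
  have hKm : MeasurableSet K := hK.isClosed.measurableSet
  have h0 := hmin G hG' hG1 hG2
  have hc : (wper d X h t A).restrict Kᶜ = (wper d X h t G).restrict Kᶜ := by
    refine ct_wper_congr hG hlf.meas hG'.meas hK.isClosed.isOpen_compl ?_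
    have : symmDiff A G ∩ Kᶜ = ∅ := by
      ext x
      simp only [mem_inter_iff, mem_compl_iff, mem_empty_iff_false, iff_false, not_and, not_not]
      exact fun hx => hs hx
    rw [this]
    exact measure_empty
  have hc' : wper d X h t A Kᶜ = wper d X h t G Kᶜ := by
    have := congrArg (fun μ : Measure V => μ univ) hc
    simpa [Measure.restrict_apply MeasurableSet.univ] using this
  have hA' := measure_add_measure_compl (μ := wper d X h t A) hKm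
  have hG'' := measure_add_measure_compl (μ := wper d X h t G) hKm
  rw [← hA', ← hG'', ← hc'] at h0
  have hcf : wper d X h t A Kᶜ ≠ ⊤ := ne_top_of_le_ne_top hfin (measure_mono (subset_univ _))
  have h3 : wper d X h t A K ≤ wper d X h t G K := (ENNReal.add_le_add_iff_right hcf).1 h0
  simp only [ctEn, integral_zero, sub_zero]
  exact ENNReal.toReal_mono (hG'.fin K hK hKX) h3

/-- **L-T3-ZcB-2: lattice property.**
[`A₁ ∩ A₂` is admissible for the first problem, `A₁ ∪ A₂` for the second (`CtLF.inter`, `CtLF.union`); `ct_wper_lattice` at `univ`: `P(A₁ ∩ A₂) + P(A₁ ∪ A₂) ≤ P(A₁) + P(A₂)`, `P(A₁) ≤ P(A₁ ∩ A₂)`, `P(A₂) ≤ P(A₁ ∪ A₂)`, all finite: equalities.] -/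
theorem T3TMin.lattice (hG : CtGeo d X h t) {K₁ K₁' K₂ K₂' A₁ A₂ : Set V}
    (h₁ : T3TMin d X h t K₁ K₁' A₁) (h₂ : T3TMin d X h t K₂ K₂' A₂) (h12 : K₁ ⊆ A₂)
    (h21 : Disjoint A₁ K₂') :
    T3TMin d X h t K₁ K₁' (A₁ ∩ A₂) ∧ T3TMin d X h t K₂ K₂' (A₁ ∪ A₂) := by
  obtain ⟨l1, p1, n1, f1, m1⟩ := h₁
  obtain ⟨l2, p2, n2, f2, m2⟩ := h₂
  have li := l1.inter hG l2
  have lu := l1.union hG l2
  have pi : K₁ ⊆ A₁ ∩ A₂ := subset_inter p1 h12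
  have ni : Disjoint (A₁ ∩ A₂) K₁' := n1.mono_left inter_subset_left
  have pu : K₂ ⊆ A₁ ∪ A₂ := p2.trans subset_union_right
  have nu : Disjoint (A₁ ∪ A₂) K₂' := disjoint_union_left.2 ⟨h21, n2⟩
  have hl : wper d X h t (A₁ ∩ A₂) univ + wper d X h t (A₁ ∪ A₂) univ ≤
      wper d X h t A₁ univ + wper d X h t A₂ univ := by
    have := ct_wper_lattice hG l1.meas l2.meas univ
    simpa [Measure.add_apply] using this
  have ai := m1 _ li pi ni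
  have bu := m2 _ lu pu nu
  have hsum : wper d X h t A₁ univ + wper d X h t A₂ univ ≠ ⊤ := ENNReal.add_ne_top.2 ⟨f1, f2⟩
  have fi : wper d X h t (A₁ ∩ A₂) univ ≠ ⊤ :=
    ne_top_of_le_ne_top hsum (le_self_add.trans hl)
  have fu : wper d X h t (A₁ ∪ A₂) univ ≠ ⊤ :=
    ne_top_of_le_ne_top hsum (le_add_self.trans hl)
  have ia : wper d X h t (A₁ ∩ A₂) univ ≤ wper d X h t A₁ univ := by
    have : wper d X h t (A₁ ∩ A₂) univ + wper d X h t (A₁ ∪ A₂) univ ≤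
        wper d X h t A₁ univ + wper d X h t (A₁ ∪ A₂) univ := hl.trans (by gcongr)
    exact (ENNReal.add_le_add_iff_right fu).1 this
  have ub : wper d X h t (A₁ ∪ A₂) univ ≤ wper d X h t A₂ univ := by
    have : wper d X h t (A₁ ∩ A₂) univ + wper d X h t (A₁ ∪ A₂) univ ≤
        wper d X h t (A₁ ∩ A₂) univ + wper d X h t A₂ univ := hl.trans (by gcongr)
    exact (ENNReal.add_le_add_iff_left fi).1 this
  exact ⟨⟨li, pi, ni, fi, fun G g1 g2 g3 => ia.trans (m1 G g1 g2 g3)⟩,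
    ⟨lu, pu, nu, fu, fun G g1 g2 g3 => ub.trans (m2 G g1 g2 g3)⟩⟩

/-- `ctIn` is monotone (PROVED). -/
theorem t3_in_mono (hG : CtGeo d X h t) {A C : Set V} (hAC : A ⊆ C) :
    ctIn d X A ⊆ ctIn d X C := by
  obtain ⟨O, hO, e⟩ := ct_in_open hG.mfd A
  rw [← e]
  refine ct_in_of_null hG hO (measure_mono_null ?_ (ct_vol_in_diff hG A))
  rw [e]
  exact fun y hy => ⟨hy.1, fun h' => hy.2 (hAC h')⟩

/-- `ctOut` is antitone (PROVED). -/
theorem t3_out_anti (hG : CtGeo d X h t) {A C : Set V} (hAC : A ⊆ C) :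
    ctOut d X C ⊆ ctOut d X A := by
  obtain ⟨O, hO, e⟩ := ct_out_open hG.mfd C
  rw [← e]
  refine ct_out_of_null hG hO (measure_mono_null ?_ (ct_vol_out_inter hG C))
  rw [e]
  exact fun y hy => ⟨hy.1, hAC hy.2⟩

/-- complementary phases (PROVED): where `A₁ ∩ A₂` is null and `A₁ ∪ A₂` is full, the plus phase of `A₁` is the minus phase of `A₂`. -/
theorem t3_in_out_compl (hG : CtGeo d X h t) (A₁ A₂ : Set V) :
    ctOut d X (A₁ ∩ A₂) ∩ ctIn d X A₁ ⊆ ctOut d X A₂ ∧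
      ctIn d X (A₁ ∪ A₂) ∩ ctOut d X A₁ ⊆ ctIn d X A₂ := by
  obtain ⟨O₁, hO₁, e₁⟩ := ct_out_open hG.mfd (A₁ ∩ A₂)
  obtain ⟨O₂, hO₂, e₂⟩ := ct_in_open hG.mfd (A₁ ∪ A₂)
  obtain ⟨O₃, hO₃, e₃⟩ := ct_in_open hG.mfd A₁
  obtain ⟨O₄, hO₄, e₄⟩ := ct_out_open hG.mfd A₁
  constructor
  · have : ctOut d X (A₁ ∩ A₂) ∩ ctIn d X A₁ = X ∩ (O₁ ∩ O₃) := by
      rw [← e₁, ← e₃]; ext y; simp only [mem_inter_iff]; tauto
    rw [this]
    refine ct_out_of_null hG (hO₁.inter hO₃) (measure_mono_null ?_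
      (measure_union_null (ct_vol_out_inter hG (A₁ ∩ A₂)) (ct_vol_in_diff hG A₁)))
    rintro y ⟨⟨hy, hy1, hy3⟩, hyA⟩
    by_cases hy' : y ∈ A₁
    · exact Or.inl ⟨e₁ ▸ ⟨hy, hy1⟩, hy', hyA⟩
    · exact Or.inr ⟨e₃ ▸ ⟨hy, hy3⟩, hy'⟩
  · have : ctIn d X (A₁ ∪ A₂) ∩ ctOut d X A₁ = X ∩ (O₂ ∩ O₄) := by
      rw [← e₂, ← e₄]; ext y; simp only [mem_inter_iff]; tauto
    rw [this]
    refine ct_in_of_null hG (hO₂.inter hO₄) (measure_mono_null ?_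
      (measure_union_null (ct_vol_out_inter hG A₁) (ct_vol_in_diff hG (A₁ ∪ A₂))))
    rintro y ⟨⟨hy, hy2, hy4⟩, hyA⟩
    by_cases hy' : y ∈ A₁
    · exact Or.inl ⟨e₄ ▸ ⟨hy, hy4⟩, hy'⟩
    · exact Or.inr ⟨e₂ ▸ ⟨hy, hy2⟩, fun h' => h'.elim hy' hyA⟩

/-- **L-T3-ZcB-3: touching minimisers.**
[All boundary points are regular (`CtLAM.sing_empty`).  `ct_trichotomy` for `B = A₁ ∩ A₂` at `x`:
`x ∈ ctIn B` is impossible (`B ⊆ A₁`: then `x ∈ ctIn A₁`; use `ct_in_open`, `ct_vol_in_diff`, `t3_in_of_ae`);  `x ∈ ctBd B`: `t3_smp` for `B ⊆ A₁` and for `B ⊆ A₂`;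
`x ∈ ctOut B`: `ct_trichotomy` for `C = A₁ ∪ A₂`: `x ∈ ctOut C` impossible; `x ∈ ctBd C`: `t3_smp` for `A₁ ⊆ C`, `A₂ ⊆ C`; `x ∈ ctIn C`: on an open `O ∋ x`: `A₂ = X \ A₁` a.e.; the boundary only depends on the a.e. class in `O`
(chartwise from the definition of `Gmt.gmtBd`, or `ct_bd_inter` + `ct_trichotomy` + `t3_in_of_ae`/`t3_out_of_ae`), and `ct_bd_diff`.] -/
theorem t3_smp2 {m : ℕ} (hG : CtGeo (m + 1) X h t) (hm : 1 ≤ m) (hm7 : m + 1 ≤ 7)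
    (hp : SmoothAlong (m + 1) X p) {A₁ A₂ : Set V} (h₁ : CtLAM (m + 1) X h t p A₁)
    (h₂ : CtLAM (m + 1) X h t p A₂) (hI : CtLAM (m + 1) X h t p (A₁ ∩ A₂))
    (hU : CtLAM (m + 1) X h t p (A₁ ∪ A₂)) {x : V} (hx₁ : x ∈ ctBd (m + 1) X A₁)
    (hx₂ : x ∈ ctBd (m + 1) X A₂) :
    ∃ O : Set V, IsOpen O ∧ x ∈ O ∧ ctBd (m + 1) X A₁ ∩ O = ctBd (m + 1) X A₂ ∩ O := by
  have hM := hG.mfd
  have hd1 : 1 ≤ m + 1 := by omega
  have hd2 : 2 ≤ m + 1 := by omega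
  have hxX : x ∈ X := ct_bd_subset A₁ hx₁
  have reg : ∀ {A : Set V}, CtLAM (m + 1) X h t p A → ∀ {y : V}, y ∈ ctBd (m + 1) X A →
      CtReg (m + 1) X A y := by
    intro A hA y hy
    by_contra hn
    have : y ∈ ctSing (m + 1) X A := ⟨hy, hn⟩
    rw [hA.sing_empty hG hp hd2 hm7] at this
    exact this
  have smp : ∀ {A C : Set V}, CtLAM (m + 1) X h t p A → CtLAM (m + 1) X h t p C → A ⊆ C →
      x ∈ ctBd (m + 1) X A → x ∈ ctBd (m + 1) X C →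
      ∃ O : Set V, IsOpen O ∧ x ∈ O ∧ ctBd (m + 1) X A ∩ O = ctBd (m + 1) X C ∩ O := by
    intro A C hA hC hAC hxA hxC
    refine t3_smp hG hp hp (fun _ _ => le_rfl) hA hC ?_ (reg hA hxA) (reg hC hxC)
    rw [Set.sdiff_eq_empty.2 hAC]
    exact measure_empty
  obtain ⟨t1u, -, t113, t123⟩ := ct_trichotomy hM hd1 A₁
  obtain ⟨t2u, -, t213, t223⟩ := ct_trichotomy hM hd1 A₂
  obtain ⟨tBu, -, -, -⟩ := ct_trichotomy hM hd1 (A₁ ∩ A₂)
  obtain ⟨tCu, -, -, -⟩ := ct_trichotomy hM hd1 (A₁ ∪ A₂)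
  have hxB : x ∈ ctIn (m + 1) X (A₁ ∩ A₂) ∪ ctOut (m + 1) X (A₁ ∩ A₂) ∪
      ctBd (m + 1) X (A₁ ∩ A₂) := by rw [tBu]; exact hxX
  have hxC : x ∈ ctIn (m + 1) X (A₁ ∪ A₂) ∪ ctOut (m + 1) X (A₁ ∪ A₂) ∪
      ctBd (m + 1) X (A₁ ∪ A₂) := by rw [tCu]; exact hxX
  rcases hxB with (hB | hB) | hB
  · exact absurd hx₁ (disjoint_left.1 t113 (t3_in_mono hG inter_subset_left hB))
  · rcases hxC with (hC | hC) | hC
    · -- complementary phases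
      obtain ⟨O₁, hO₁, e₁⟩ := ct_out_open hM (A₁ ∩ A₂)
      obtain ⟨O₂, hO₂, e₂⟩ := ct_in_open hM (A₁ ∪ A₂)
      have hx1 : x ∈ X ∩ O₁ := by rw [e₁]; exact hB
      have hx2 : x ∈ X ∩ O₂ := by rw [e₂]; exact hC
      refine ⟨O₁ ∩ O₂, hO₁.inter hO₂, ⟨hx1.2, hx2.2⟩, ?_⟩
      have key : ∀ (A A' : Set V), ctIn (m + 1) X A ∪ ctOut (m + 1) X A ∪ ctBd (m + 1) X A = X →
          Disjoint (ctIn (m + 1) X A') (ctBd (m + 1) X A') →
          Disjoint (ctOut (m + 1) X A') (ctBd (m + 1) X A') →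
          ctOut (m + 1) X (A ∩ A') = X ∩ O₁ → ctIn (m + 1) X (A ∪ A') = X ∩ O₂ →
          ctBd (m + 1) X A' ∩ (O₁ ∩ O₂) ⊆ ctBd (m + 1) X A ∩ (O₁ ∩ O₂) := by
        intro A A' hu h13 h23 f₁ f₂ y hy
        have hyX : y ∈ X := ct_bd_subset A' hy.1
        refine ⟨?_, hy.2⟩
        have hy' : y ∈ ctIn (m + 1) X A ∪ ctOut (m + 1) X A ∪ ctBd (m + 1) X A := by
          rw [hu]; exact hyX
        rcases hy' with (h' | h') | h'
        · exact absurd hy.1 (disjoint_left.1 h23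
            ((t3_in_out_compl hG A A').1 ⟨by rw [f₁]; exact ⟨hyX, hy.2.1⟩, h'⟩))
        · exact absurd hy.1 (disjoint_left.1 h13
            ((t3_in_out_compl hG A A').2 ⟨by rw [f₂]; exact ⟨hyX, hy.2.2⟩, h'⟩))
        · exact h'
      refine Subset.antisymm ?_ ?_
      · exact key A₂ A₁ t2u t113 t123 (by rw [inter_comm, e₁]) (by rw [union_comm, e₂])
      · exact key A₁ A₂ t1u t213 t223 e₁.symm e₂.symm
    · exact absurd hx₁ (disjoint_left.1 t123 (t3_out_anti hG subset_union_left hC))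
    · obtain ⟨O₁, hO₁, hx1, e₁⟩ := smp h₁ hU subset_union_left hx₁ hC
      obtain ⟨O₂, hO₂, hx2, e₂⟩ := smp h₂ hU subset_union_right hx₂ hC
      refine ⟨O₁ ∩ O₂, hO₁.inter hO₂, ⟨hx1, hx2⟩, ?_⟩
      calc ctBd (m + 1) X A₁ ∩ (O₁ ∩ O₂) = (ctBd (m + 1) X A₁ ∩ O₁) ∩ O₂ := by rw [inter_assoc]
        _ = (ctBd (m + 1) X (A₁ ∪ A₂) ∩ O₂) ∩ O₁ := by rw [e₁, inter_right_comm]
        _ = ctBd (m + 1) X A₂ ∩ (O₁ ∩ O₂) := by rw [← e₂, inter_assoc, inter_comm O₂ O₁]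
  · obtain ⟨O₁, hO₁, hx1, e₁⟩ := smp hI h₁ inter_subset_left hB hx₁
    obtain ⟨O₂, hO₂, hx2, e₂⟩ := smp hI h₂ inter_subset_right hB hx₂
    refine ⟨O₁ ∩ O₂, hO₁.inter hO₂, ⟨hx1, hx2⟩, ?_⟩
    calc ctBd (m + 1) X A₁ ∩ (O₁ ∩ O₂) = (ctBd (m + 1) X A₁ ∩ O₁) ∩ O₂ := by rw [inter_assoc]
      _ = (ctBd (m + 1) X (A₁ ∩ A₂) ∩ O₂) ∩ O₁ := by rw [← e₁, inter_right_comm]
      _ = ctBd (m + 1) X A₂ ∩ (O₁ ∩ O₂) := by rw [e₂, inter_assoc, inter_comm O₂ O₁]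

/-- `t3_smp2` in an open piece (PROVED from `t3_smp2`). -/
theorem t3_smp2_inter {m : ℕ} (hG : CtGeo (m + 1) X h t) (hm : 1 ≤ m) (hm7 : m + 1 ≤ 7)
    {W : Set V} (hW : IsOpen W) {A₁ A₂ : Set V}
    (h₁ : CtLAM (m + 1) (X ∩ W) h t (fun _ => 0) (A₁ ∩ W))
    (h₂ : CtLAM (m + 1) (X ∩ W) h t (fun _ => 0) (A₂ ∩ W))
    (hI : CtLAM (m + 1) (X ∩ W) h t (fun _ => 0) ((A₁ ∩ A₂) ∩ W))
    (hU : CtLAM (m + 1) (X ∩ W) h t (fun _ => 0) ((A₁ ∪ A₂) ∩ W)) {x : V} (hx : x ∈ W)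
    (hx₁ : x ∈ ctBd (m + 1) X A₁) (hx₂ : x ∈ ctBd (m + 1) X A₂) :
    ∃ U : Set V, IsOpen U ∧ x ∈ U ∧ ctBd (m + 1) X A₁ ∩ U = ctBd (m + 1) X A₂ ∩ U := by
  have e1 := (ct_bd_inter hG.mfd A₁ hW).1
  have e2 := (ct_bd_inter hG.mfd A₂ hW).1
  have hI' : CtLAM (m + 1) (X ∩ W) h t (fun _ => 0) ((A₁ ∩ W) ∩ (A₂ ∩ W)) := by
    have : (A₁ ∩ W) ∩ (A₂ ∩ W) = (A₁ ∩ A₂) ∩ W := by
      ext y; simp only [mem_inter_iff]; tauto
    rw [this]; exact hI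
  have hU' : CtLAM (m + 1) (X ∩ W) h t (fun _ => 0) ((A₁ ∩ W) ∪ (A₂ ∩ W)) := by
    rw [← union_inter_distrib_right]; exact hU
  have hp : SmoothAlong (m + 1) (X ∩ W) (fun _ : V => (0 : ℝ)) := fun ψ U _ => contDiffOn_const
  obtain ⟨O, hO, hxO, hOe⟩ := t3_smp2 (hG.inter hW) hm hm7 hp h₁ h₂ hI' hU'
    (by rw [e1]; exact ⟨hx₁, hx⟩) (by rw [e2]; exact ⟨hx₂, hx⟩)
  rw [e1, e2] at hOe
  refine ⟨W ∩ O, hW.inter hO, ⟨hx, hxO⟩, ?_⟩
  rw [← inter_assoc, ← inter_assoc, hOe]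

omit [MeasurableSpace V] [BorelSpace V] in
/-- the boundary is relatively closed (PROVED). -/
theorem t3_bd_closed {d : ℕ} {M : Set V} (hM : IsMfd d M) (hd : 1 ≤ d) (A : Set V) :
    ∃ C : Set V, IsClosed C ∧ M ∩ C = ctBd d M A := by
  obtain ⟨O₁, hO₁, e₁⟩ := ct_in_open hM A
  obtain ⟨O₂, hO₂, e₂⟩ := ct_out_open hM A
  obtain ⟨hu, -, h13, h23⟩ := ct_trichotomy hM hd A
  refine ⟨(O₁ ∪ O₂)ᶜ, (hO₁.union hO₂).isClosed_compl, ?_⟩
  ext x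
  constructor
  · rintro ⟨hx, hxO⟩
    have : x ∈ ctIn d M A ∪ ctOut d M A ∪ ctBd d M A := by rw [hu]; exact hx
    rcases this with (h | h) | h
    · exact absurd (Or.inl (e₁ ▸ h : x ∈ M ∩ O₁).2) hxO
    · exact absurd (Or.inr (e₂ ▸ h : x ∈ M ∩ O₂).2) hxO
    · exact h
  · intro hx
    have hxM : x ∈ M := ct_bd_subset A hx
    refine ⟨hxM, ?_⟩
    rintro (h | h)
    · exact disjoint_left.1 h13 (e₁ ▸ ⟨hxM, h⟩ : x ∈ ctIn d M A) hx
    · exact disjoint_left.1 h23 (e₂ ▸ ⟨hxM, h⟩ : x ∈ ctOut d M A) hx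

omit [MeasurableSpace V] [BorelSpace V] [FiniteDimensional ℝ V] in
/-- defining functions restrict to open pieces (PROVED). -/
theorem T3Def.inter_open {S O : Set V} {φ : V → ℝ} (hdf : T3Def d X S O φ) {W : Set V}
    (hW : IsOpen W) : T3Def d X (S ∩ W) (O ∩ W) φ := by
  have hset : X ∩ (O ∩ W) = X ∩ O ∩ W := (inter_assoc _ _ _).symm
  refine ⟨hdf.opn.inter hW, fun x hx => ⟨(hdf.sub hx.1).1, (hdf.sub hx.1).2, hx.2⟩, ?_,
    fun x hx => ?_, fun ψ U hψ u hu h0 => ?_⟩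
  · rw [hset]; exact if_smoothAlong_inter hdf.smooth hW
  · rw [hdf.zero x ⟨hx.1, hx.2.1⟩]
    exact ⟨fun hs => ⟨hs, hx.2.2⟩, fun hs => hs.1⟩
  · refine hdf.reg ψ U ?_ u hu h0
    rw [hset] at hψ
    exact if_param_of_inter hW hψ

/-- the boundary of a sublevel set of a defining function (PROVED). -/
theorem T3Def.bd_of (hG : CtGeo d X h t) (hd : 1 ≤ d) {S O : Set V} {φ : V → ℝ}
    (hdf : T3Def d X S O φ) {C : Set V} (h1 : {x | x ∈ X ∩ O ∧ φ x < 0} ⊆ C)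
    (h2 : C ⊆ {x | x ∈ X ∩ O ∧ φ x ≤ 0}) : ctBd d (X ∩ O) C = S := by
  have hG' : CtGeo d (X ∩ O) h t := hG.inter hdf.opn
  have hc : ContinuousOn φ (X ∩ O) := if_smoothAlong_continuousOn hG'.mfd hdf.smooth
  obtain ⟨hU, hIO, hIB, hOB⟩ := ct_trichotomy hG'.mfd hd C
  obtain ⟨u, hu, hue⟩ := (continuousOn_iff'.1 hc) (Ioi 0) isOpen_Ioi
  obtain ⟨u', hu', hue'⟩ := (continuousOn_iff'.1 hc) (Iio 0) isOpen_Iio
  have hout : (X ∩ O) ∩ u ⊆ ctOut d (X ∩ O) C := by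
    refine ct_out_of_null hG' hu ?_
    have : (X ∩ O) ∩ u ∩ C = ∅ := by
      ext x
      simp only [mem_inter_iff, mem_empty_iff_false, iff_false]
      rintro ⟨⟨hx, hxu⟩, hxC⟩
      have : x ∈ φ ⁻¹' Ioi 0 ∩ (X ∩ O) := by rw [hue]; exact ⟨hxu, hx⟩
      have h3 : 0 < φ x := this.1
      have h4 := (h2 hxC).2
      linarith
    rw [this]
    exact measure_empty
  have hin : (X ∩ O) ∩ u' ⊆ ctIn d (X ∩ O) C := by
    refine ct_in_of_null hG' hu' ?_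
    have : ((X ∩ O) ∩ u') \ C = ∅ := by
      rw [Set.sdiff_eq_empty]
      rintro x ⟨hx, hxu⟩
      have : x ∈ φ ⁻¹' Iio 0 ∩ (X ∩ O) := by rw [hue']; exact ⟨hxu, hx⟩
      exact h1 ⟨hx, this.1⟩
    rw [this]
    exact measure_empty
  have hpos : ∀ y ∈ X ∩ O, 0 < φ y → y ∈ ctOut d (X ∩ O) C := fun y hy hφ => by
    have : y ∈ u ∩ (X ∩ O) := by rw [← hue]; exact ⟨hφ, hy⟩
    exact hout ⟨hy, this.1⟩
  have hneg : ∀ y ∈ X ∩ O, φ y < 0 → y ∈ ctIn d (X ∩ O) C := fun y hy hφ => by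
    have : y ∈ u' ∩ (X ∩ O) := by rw [← hue']; exact ⟨hφ, hy⟩
    exact hin ⟨hy, this.1⟩
  refine Subset.antisymm ?_ ?_
  · intro x hx
    have hxM : x ∈ X ∩ O := ct_bd_subset C hx
    rcases lt_trichotomy (φ x) 0 with h0 | h0 | h0
    · exact absurd hx (disjoint_left.1 hIB (hneg x hxM h0))
    · exact (hdf.zero x hxM).1 h0
    · exact absurd hx (disjoint_left.1 hOB (hpos x hxM h0))
  · intro q hq
    have hqM : q ∈ X ∩ O := hdf.sub hq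
    rw [← hU] at hqM
    rcases hqM with (hq1 | hq1) | hq1
    · exfalso
      obtain ⟨W, hW, hWe⟩ := ct_in_open hG'.mfd C
      have hqW : q ∈ W := by
        have : q ∈ (X ∩ O) ∩ W := by rw [hWe]; exact hq1
        exact this.2
      obtain ⟨N, hN, hqN, hNW, -, ⟨y, hy, hyφ⟩, -, -, -⟩ :=
        t3g_box hG.mfd hG.met hdf hq (hW.mem_nhds hqW) one_pos
      have hyM : y ∈ X ∩ O := ⟨hy.1, (hNW hy.2).2⟩
      have h3 : y ∈ ctIn d (X ∩ O) C := by rw [← hWe]; exact ⟨hyM, (hNW hy.2).1⟩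
      exact disjoint_left.1 hIO h3 (hpos y hyM hyφ)
    · exfalso
      obtain ⟨W, hW, hWe⟩ := ct_out_open hG'.mfd C
      have hqW : q ∈ W := by
        have : q ∈ (X ∩ O) ∩ W := by rw [hWe]; exact hq1
        exact this.2
      obtain ⟨N, hN, hqN, hNW, -, -, -, ⟨y, hy, hyφ⟩, -⟩ :=
        t3g_box hG.mfd hG.met hdf hq (hW.mem_nhds hqW) one_pos
      have hyM : y ∈ X ∩ O := ⟨hy.1, (hNW hy.2).2⟩
      have h3 : y ∈ ctOut d (X ∩ O) C := by rw [← hWe]; exact ⟨hyM, (hNW hy.2).1⟩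
      exact disjoint_left.1 hIO (hneg y hyM hyφ) h3
    · exact hq1

/-- **L-T3-ZcB-4: touching a collar.**
[`Y' = X ∩ (O i ∩ W)`.  `T3CMin.inter`.  First case: `T3Col.lam_le` + `CtLAM.inter_open`: `C = {φ i ≤ 0} ∩ W` is `CtLAM 0` in `Y'`; `T3CMin.barrier`: `A ∩ (O i ∩ W)` is `CtLAM 0`; `C ⊆ A`; `q` is a regular boundary point of both
(`CtLAM.sing_empty`, `ct_bd_inter`; the boundary of `C` in `Y'` is `B i ∩ W`: `CtDef.sets` on the open piece where `gradSq (φ i) > 0`, as in `t3_cut_tame`); `t3_smp`.  Second case: `T3CMin.barrier'`, `t3_smp` for `A ⊆ Y' \ C` (`CtLAM.diff`, `ct_bd_diff`).] -/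
theorem T3Col.touch {m : ℕ} {ι : Type} {B O : ι → Set V} {φ : ι → V → ℝ}
    (H : T3Col (m + 1) X h t B O φ) (hm : 1 ≤ m) (hm7 : m + 1 ≤ 7)
    (hA : T3CMin (m + 1) X h t (fun _ => 0) Kpos Kneg A) (i : ι) {W : Set V} (hW : IsOpen W)
    (hK : (Kpos ∩ (O i ∩ W) = {x | x ∈ X ∩ (O i ∩ W) ∧ φ i x ≤ 0} ∧ Kneg ∩ (O i ∩ W) = ∅) ∨
      (Kneg ∩ (O i ∩ W) = {x | x ∈ X ∩ (O i ∩ W) ∧ φ i x ≤ 0} ∧ Kpos ∩ (O i ∩ W) = ∅))
    {q : V} (hq : q ∈ B i ∩ W) (hqA : q ∈ ctBd (m + 1) X A) :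
    ∃ N : Set V, IsOpen N ∧ q ∈ N ∧ ctBd (m + 1) X A ∩ N = B i ∩ N := by
  have hd2 : 2 ≤ m + 1 := by omega
  have hd1 : 1 ≤ m + 1 := by omega
  have hGo : IsOpen (O i ∩ W) := (H.df i).opn.inter hW
  have hG' : CtGeo (m + 1) (X ∩ (O i ∩ W)) h t := H.geo.inter hGo
  have hp0 : SmoothAlong (m + 1) (X ∩ (O i ∩ W)) (fun _ : V => (0 : ℝ)) :=
    fun ψ U _ => contDiffOn_const
  set C : Set V := {x | x ∈ X ∩ (O i ∩ W) ∧ φ i x ≤ 0} with hC
  have hCl : CtLAM (m + 1) (X ∩ (O i ∩ W)) h t (fun _ => 0) C := by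
    have h1 := (H.lam_le hd2 i).inter_open (H.geo.inter (H.df i).opn) hW
    have e1 : X ∩ O i ∩ W = X ∩ (O i ∩ W) := inter_assoc _ _ _
    have e2 : {x | x ∈ X ∩ O i ∧ φ i x ≤ 0} ∩ W = C := by
      ext x
      constructor
      · rintro ⟨⟨hx, hφ⟩, hxW⟩
        exact ⟨⟨hx.1, hx.2, hxW⟩, hφ⟩
      · rintro ⟨hx, hφ⟩
        exact ⟨⟨⟨hx.1, hx.2.1⟩, hφ⟩, hx.2.2⟩
    rw [e1, e2] at h1
    exact h1
  have hCbd : ctBd (m + 1) (X ∩ (O i ∩ W)) C = B i ∩ W :=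
    ((H.df i).inter_open hW).bd_of H.geo hd1 (fun x hx => ⟨hx.1, hx.2.le⟩) Subset.rfl
  have hAi := hA.inter H.geo hGo
  have hAbd := (ct_bd_inter H.geo.mfd A hGo).1
  have hqG : q ∈ O i ∩ W := ⟨((H.df i).sub hq.1).2, hq.2⟩
  have reg : ∀ {A' : Set V}, CtLAM (m + 1) (X ∩ (O i ∩ W)) h t (fun _ => 0) A' → ∀ {y : V},
      y ∈ ctBd (m + 1) (X ∩ (O i ∩ W)) A' → CtReg (m + 1) (X ∩ (O i ∩ W)) A' y := by
    intro A' hA' y hy
    by_contra hn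
    have : y ∈ ctSing (m + 1) (X ∩ (O i ∩ W)) A' := ⟨hy, hn⟩
    rw [hA'.sing_empty hG' hp0 hd2 hm7] at this
    exact this
  have hqA' : q ∈ ctBd (m + 1) (X ∩ (O i ∩ W)) (A ∩ (O i ∩ W)) := by
    rw [hAbd]; exact ⟨hqA, hqG⟩
  have fin : ∀ N : Set V, IsOpen N → q ∈ N →
      ctBd (m + 1) (X ∩ (O i ∩ W)) (A ∩ (O i ∩ W)) ∩ N = (B i ∩ W) ∩ N →
      ∃ N : Set V, IsOpen N ∧ q ∈ N ∧ ctBd (m + 1) X A ∩ N = B i ∩ N := by
    intro N hN hqN he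
    refine ⟨(O i ∩ W) ∩ N, hGo.inter hN, ⟨hqG, hqN⟩, ?_⟩
    rw [← inter_assoc, ← hAbd, he]
    ext x
    constructor
    · rintro ⟨⟨hx, hxW⟩, hxN⟩
      exact ⟨hx, ⟨((H.df i).sub hx).2, hxW⟩, hxN⟩
    · rintro ⟨hx, ⟨-, hxW⟩, hxN⟩
      exact ⟨⟨hx, hxW⟩, hxN⟩
  rcases hK with ⟨hK1, hK2⟩ | ⟨hK1, hK2⟩
  · rw [hK1, hK2] at hAi
    have hAl := hAi.barrier hG' continuousOn_const (fun _ _ => le_rfl) hCl
    obtain ⟨N, hN, hqN, he⟩ := t3_smp hG' hp0 hp0 (fun _ _ => le_rfl) hCl hAl (by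
      rw [Set.sdiff_eq_empty.2 hAi.2.1]; exact measure_empty)
      (reg hCl (by rw [hCbd]; exact hq)) (reg hAl hqA')
    exact fin N hN hqN (by rw [← he, hCbd])
  · rw [hK1, hK2] at hAi
    have hAl := hAi.barrier' hG' hp0 (fun _ _ => le_rfl) hCl
    have hCd : CtLAM (m + 1) (X ∩ (O i ∩ W)) h t (fun _ => 0) ((X ∩ (O i ∩ W)) \ C) := by
      have := hCl.diff hG' hp0
      simpa using this
    have hCdbd : ctBd (m + 1) (X ∩ (O i ∩ W)) ((X ∩ (O i ∩ W)) \ C) = B i ∩ W := by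
      rw [ct_bd_diff hG'.mfd, hCbd]
    obtain ⟨N, hN, hqN, he⟩ := t3_smp hG' hp0 hp0 (fun _ _ => le_rfl) hAl hCd (by
      have : (A ∩ (O i ∩ W)) \ ((X ∩ (O i ∩ W)) \ C) = ∅ := by
        rw [Set.sdiff_eq_empty]
        intro x hx
        exact ⟨hAi.1.sub hx, fun hxC => disjoint_left.1 hAi.2.2.1 hx hxC⟩
      rw [this]; exact measure_empty)
      (reg hAl hqA') (reg hCd (by rw [hCdbd]; exact hq))
    exact fin N hN hqN (by rw [he, hCdbd])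

/-- local form of `t3_per_lower`. -/
theorem t3ZcB_per_lower_loc (hG : CtGeo d X h t) (hd : 1 ≤ d) (hp : SmoothAlong d X p) {O : Set V}
    (hO : IsOpen O) {x : V} (hxX : x ∈ X) (hxO : x ∈ O) :
    ∃ N : Set V, IsOpen N ∧ x ∈ N ∧ ∃ ε : ℝ≥0∞, 0 < ε ∧ ∀ A, CtLAM d X h t p A →
      ∀ y ∈ X ∩ N, y ∈ ctBd d X A → ε ≤ wper d X h t A O := by
  obtain ⟨ψ, U, hψ, u, hu, rfl⟩ := hG.mfd x hxX
  have hUo := if_open hψ
  have hWo : IsOpen (U ∩ ψ ⁻¹' O) := (if_continuousOn hψ).isOpen_inter_preimage hUo hO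
  obtain ⟨r₀, hr₀, hr₀U⟩ := Metric.nhds_basis_closedBall.mem_iff.1 (hWo.mem_nhds ⟨hu, hxO⟩)
  have hcU : Metric.closedBall u r₀ ⊆ U := hr₀U.trans inter_subset_left
  have hbU : Metric.ball u r₀ ⊆ U := Metric.ball_subset_closedBall.trans hcU
  have hD := ct_gmtData hG hp hψ
  obtain ⟨c, C, hc, hcC, hb⟩ := Gmt.gmtInt_bounds hUo hD.int (isCompact_closedBall u r₀) hcU
  obtain ⟨Λ₀, hΛ₀⟩ := (isCompact_closedBall u r₀).exists_bound_of_continuousOn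
    (hD.f.continuousOn.mono hcU)
  obtain ⟨c', hc', ε₀, hε₀, hlow⟩ := Gmt.gmtQM_per_lower d hd (C / c - 1)
  have hδ : 0 ≤ C / c - 1 := by
    rw [sub_nonneg, le_div_iff₀ hc, one_mul]
    exact hcC
  set Λ := max Λ₀ 0 / c with hΛ
  have hΛ0 : 0 ≤ Λ := div_nonneg (le_max_right _ _) hc.le
  set r' := min (r₀ / 4) (ε₀ / (Λ + 1)) with hr'
  have hr'0 : 0 < r' := lt_min (by positivity) (by positivity)
  have hΛr : Λ * r' ≤ ε₀ := by
    calc Λ * r' ≤ (Λ + 1) * (ε₀ / (Λ + 1)) :=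
          mul_le_mul (by linarith) (min_le_right _ _) hr'0.le (by positivity)
      _ = ε₀ := by field_simp
  obtain ⟨N, hN, hNe⟩ := if_image_open hψ (Metric.isOpen_ball : IsOpen (Metric.ball u (r₀ / 2)))
    ((Metric.ball_subset_ball (by linarith)).trans hbU)
  have huN : ψ u ∈ X ∩ N := by
    rw [← hNe]
    exact mem_image_of_mem ψ (Metric.mem_ball_self (by positivity))
  refine ⟨N, hN, huN.2, ENNReal.ofReal c * ENNReal.ofReal (c' * r' ^ (d - 1)),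
    ENNReal.mul_pos (by simpa using hc) (by simpa using (by positivity : 0 < c' * r' ^ (d - 1))),
    ?_⟩
  intro A hA y hy hyb
  rw [← hNe] at hy
  obtain ⟨u', hu', rfl⟩ := hy
  have hu'd : dist u' u < r₀ / 2 := Metric.mem_ball.1 hu'
  have hu'U : u' ∈ U := hbU (Metric.mem_ball.2 (by linarith))
  have hbd : u' ∈ Gmt.gmtBd (ctPre ψ U A) := (ct_bd_iff hψ A hu'U).1 hyb
  have hQM : Gmt.GmtQM (C / c - 1) Λ (Metric.ball u r₀) (ctPre ψ U A) :=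
    Gmt.GmtLAM.toQM Metric.isOpen_ball ((hA.chart hG hp hψ).mono hbU)
      (hD.f.continuousOn.mono hbU) hc hcC
      (fun z hz => hb z (Metric.ball_subset_closedBall hz))
      (fun z hz => (hΛ₀ z (Metric.ball_subset_closedBall hz)).trans (le_max_left _ _))
  have hsub : Metric.closedBall u' r' ⊆ Metric.ball u r₀ := by
    intro z hz
    have h1 : dist z u' ≤ r' := Metric.mem_closedBall.1 hz
    have h2 : r' ≤ r₀ / 4 := min_le_left _ _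
    have h3 := dist_triangle z u' u
    exact Metric.mem_ball.2 (by linarith)
  have hsub' : Metric.ball u' r' ⊆ Metric.ball u r₀ := Metric.ball_subset_closedBall.trans hsub
  have h1 := hlow (C / c - 1) Λ (Metric.ball u r₀) (ctPre ψ U A) u' r' hδ le_rfl hΛ0
    Metric.isOpen_ball hQM hbd hr'0 hsub hΛr
  have h2 : ENNReal.ofReal c * Gmt.gmtP (ctPre ψ U A) (Metric.ball u' r') ≤
      Gmt.gmtPer (ctA h t ψ) (ctPre ψ U A) (Metric.ball u' r') :=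
    Gmt.mul_gmtP_le_gmtPer hc.le
      (fun z hz ξ => (hb z (Metric.ball_subset_closedBall (hsub' hz)) ξ).1) _
  calc ENNReal.ofReal c * ENNReal.ofReal (c' * r' ^ (d - 1))
      ≤ ENNReal.ofReal c * Gmt.gmtP (ctPre ψ U A) (Metric.ball u' r') := by gcongr
    _ ≤ Gmt.gmtPer (ctA h t ψ) (ctPre ψ U A) (Metric.ball u' r') := h2
    _ = Gmt.gmtPerM (ctA h t ψ) (ctPre ψ U A) (Metric.ball u' r') :=
        (Gmt.gmtPerM_open _ _ Metric.isOpen_ball).symm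
    _ = wper d X h t A (ψ '' Metric.ball u' r') :=
        (ct_wper_chart hG hψ hA.lf.meas (hsub'.trans hbU) Metric.isOpen_ball.measurableSet).symm
    _ ≤ wper d X h t A O := by
        refine measure_mono ?_
        rintro _ ⟨z, hz, rfl⟩
        exact (hr₀U (Metric.ball_subset_closedBall (hsub' hz))).2

/-- **L-T3-ZcB-5: uniform lower perimeter bound.**
[For `x ∈ K`: parametrisation `(ψ, U)`, `ψ u = x`, `closedBall u (2r) ⊆ U ∩ ψ⁻¹ O`.  `Gmt.gmtInt_bounds` on `closedBall u (2r)`: `c|ξ|² ≤ ctA ξ ξ ≤ C|ξ|²`; `|ctF| ≤ Λ₀` there (continuity).  For every `CtLAM` set `A`: `CtLAM.chart`,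
restriction to `ball u (2r)`, `Gmt.GmtLAM.toQM`: quasi-minimiser with constants independent of `A`; `Gmt.gmtQM_per_lower`: for every boundary point `u' ∈ closedBall u r`: `gmtP (ball u' r') ≥ c' r'^(d-1)` with `r' ≤ r` fixed;
`Gmt.mul_gmtP_le_gmtPer`, `Gmt.gmtPerM_open`, `ct_wper_chart`, `ct_bd_iff`.  Finitely many `ψ '' ball u r` cover `K` (`if_image_open`); `ε` = the minimum.] -/
theorem t3_per_lower (hG : CtGeo d X h t) (hd : 1 ≤ d) (hp : SmoothAlong d X p) {K O : Set V}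
    (hK : IsCompact K) (hKX : K ⊆ X) (hO : IsOpen O) (hKO : K ⊆ O) :
    ∃ ε : ℝ≥0∞, 0 < ε ∧ ∀ A, CtLAM d X h t p A → ∀ x ∈ K, x ∈ ctBd d X A →
      ε ≤ wper d X h t A O := by
  refine hK.induction_on (p := fun K' => ∃ ε : ℝ≥0∞, 0 < ε ∧ ∀ A, CtLAM d X h t p A →
    ∀ x ∈ K', x ∈ ctBd d X A → ε ≤ wper d X h t A O) ?_ ?_ ?_ ?_
  · exact ⟨1, one_pos, fun A _ x hx => absurd hx (notMem_empty x)⟩
  · rintro s s' hss ⟨ε, hε, H⟩
    exact ⟨ε, hε, fun A hA x hx => H A hA x (hss hx)⟩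
  · rintro s s' ⟨ε, hε, H⟩ ⟨ε', hε', H'⟩
    refine ⟨min ε ε', lt_min hε hε', fun A hA x hx hxb => ?_⟩
    rcases hx with hx | hx
    · exact (min_le_left _ _).trans (H A hA x hx hxb)
    · exact (min_le_right _ _).trans (H' A hA x hx hxb)
  · intro x hx
    obtain ⟨N, hN, hxN, ε, hε, H⟩ := t3ZcB_per_lower_loc hG hd hp hO (hKX hx) (hKO hx)
    refine ⟨X ∩ N, ?_, ε, hε, H⟩
    exact Filter.mem_of_superset (inter_mem_nhdsWithin K (hN.mem_nhds hxN))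
      (inter_subset_inter_left _ hKX)

end Claimed.Agent.R315
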