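-- KEEP
import Claimed.Agent.R315.T3.ZcA
import Claimed.Agent.R315.T3.ZcB

/-!
# Row 315, paper T (n = 3), package T3-ZcC: the minimiser on the cyclic cover, PINNED CASE

Sub-captain: helper72.

## Setting `T3ZS`
`X` a piece (`T3Pc`), `I = t3Int`, `F ⊆ I` closed two-sided, `I \ F` connected, `ϑ` a step function of `F` with tube in `I`, `Y = t3Y X ϑ`, `x₀ ∈ X`, `L` so large that the core `K` of the tube lies in `{rdist x₀ < L}`.
FREE REGION `J = {x ∈ I | rdist X h x₀ x < L} = X ∩ Wj`, upstairs `Y ∩ fst⁻¹ Wj`.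

## Interface `T3Zm` (what the packages `ZcE`, `ZcF` use; NO monotonicity `A ⊆ τA` is needed)
`lam`   all translates `τᵏ A` are local absolute minimisers (pressure `0`) in the free region;
`touch` the boundaries of `A` and `τᵏ A` coincide near every common point over `J`;
`fin`   every point over `J` has a neighbourhood which lies in `ctIn (τᵏ A)` and in `ctOut (τ⁻ᵏ A)` for all large `k`;
`cpt`   the part of `ctBd A` over `I ∩ {rdist ≤ L - 1}` at bounded height is compact (the boundary does not accumulate at the `B i`).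

## Pinned case (this file): the pinned region `Π = t3Ext ∪ {rdist ≥ L}` contains a nonempty relatively open subset of `X`
`Kp c = {z ∈ Y | z.1 ∈ Π, z.2 < c}`, `Kn c = {z ∈ Y | z.1 ∈ Π, c < z.2}` (over `Π` all heights are integers), `A` = minimiser of the TOTAL perimeter with `Kp (1/2) ⊆ A`, `A ∩ Kn (1/2) = ∅` (competitor `E₀`).
`τᵏ A` solves the problem `c = 1/2 + k`; for `k ≥ 0`: `A ∩ τᵏ A` solves the problem `1/2`, `A ∪ τᵏ A` the problem `1/2 + k` (`T3TMin.lattice`).  All constraints lie over `Π`.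
The compact case (`Π` has empty interior: `X` compact without collars) is in `T3/ZcD.lean`.

LEAVES: L-T3-ZcC-1 (`t3tk_tmin`, `t3Tk_zKp`, `t3Tk_zKn`, `T3ZS.free_open`, `T3ZS.geoY`), -2 (`T3ZS.P_min`), -3 (`T3ZS.P_lam`), -4 (`T3ZS.P_touch`), -5 (`t3z_per_tendsto`), -6 (`T3ZS.P_clean`), -7 (`T3ZS.P_fin`), -8 (`T3ZS.P_cpt`), -9 (`T3ZS.P`).
-/

set_option autoImplicit false
set_option linter.unusedSectionVars false
open scoped ContDiff Topology ENNReal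
open MeasureTheory Claims.C0499 Set Filter

namespace Claimed.Agent.R315

variable {V : Type} [NormedAddCommGroup V] [NormedSpace ℝ V]

/-- the lifted metric. -/
noncomputable abbrev t3hY (h : Ten V) : Ten (V × ℝ) := t3pT (ContinuousLinearMap.fst ℝ V ℝ) h

/-- the lifted drift. -/
abbrev t3tY (t : V → ℝ) : V × ℝ → ℝ := fun z => t z.1

/-- the pinned region. -/
def t3zPi {ι : Type} (X : Set V) (h : Ten V) (O : ι → Set V) (φ : ι → V → ℝ) (x₀ : V) (L : ℝ) :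
    Set V :=
  {x | x ∈ t3Ext X O φ ∨ (x ∈ X ∧ L ≤ rdist X h x₀ x)}

/-- plus constraint at the height `c`. -/
def t3zKp (Y : Set (V × ℝ)) (P : Set V) (c : ℝ) : Set (V × ℝ) := {z | z ∈ Y ∧ z.1 ∈ P ∧ z.2 < c}

/-- minus constraint at the height `c`. -/
def t3zKn (Y : Set (V × ℝ)) (P : Set V) (c : ℝ) : Set (V × ℝ) := {z | z ∈ Y ∧ z.1 ∈ P ∧ c < z.2}

variable [MeasurableSpace V] [BorelSpace V]

/-- the setting. -/
structure T3ZS (X : Set V) (h : Ten V) (t : V → ℝ) {ι : Type} (B O : ι → Set V)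
    (φ : ι → V → ℝ) (F N K : Set V) (ϑ : V → ℝ) (x₀ : V) (L : ℝ) : Prop where
  pc : T3Pc X h t B O φ
  hyp : T3Hyp 3 X F
  stp : T3Stp X F N K ϑ
  tube : X ∩ N ⊆ t3Int X O φ
  conn : IsPreconnected (t3Int X O φ \ F)
  base : x₀ ∈ X
  near : ∀ x ∈ K, rdist X h x₀ x < L

/-- the minimiser package on the cover. -/
structure T3Zm (X : Set V) (h : Ten V) (t : V → ℝ) (I : Set V) (x₀ : V) (L : ℝ)
    (Y : Set (V × ℝ)) (Wj : Set V) (A : Set (V × ℝ)) : Prop where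
  opn : IsOpen Wj
  reg : X ∩ Wj = {x | x ∈ I ∧ rdist X h x₀ x < L}
  lam : ∀ k : ℤ, CtLAM 3 (Y ∩ Prod.fst ⁻¹' Wj) (t3hY h) (t3tY t) (fun _ => 0)
    (t3Tk k A ∩ Prod.fst ⁻¹' Wj)
  touch : ∀ (k : ℤ) (z : V × ℝ), z.1 ∈ Wj → z ∈ ctBd 3 Y A → z ∈ ctBd 3 Y (t3Tk k A) →
    ∃ U : Set (V × ℝ), IsOpen U ∧ z ∈ U ∧ ctBd 3 Y A ∩ U = ctBd 3 Y (t3Tk k A) ∩ U
  fin : ∀ z ∈ Y, z.1 ∈ Wj → ∃ (k₀ : ℤ) (U : Set (V × ℝ)), IsOpen U ∧ z ∈ U ∧ ∀ k ≥ k₀,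
    Y ∩ U ⊆ ctIn 3 Y (t3Tk k A) ∧ Y ∩ U ⊆ ctOut 3 Y (t3Tk (-k) A)
  cpt : ∀ a : ℝ, IsCompact
    {y | y ∈ ctBd 3 Y A ∧ y.1 ∈ I ∧ rdist X h x₀ y.1 ≤ L - 1 ∧ |y.2| ≤ a}

theorem t3ZcC_eqns_cite : True := by
  have := @t3hY.eq_1
  have := @t3tY.eq_1
  have := @t3zPi.eq_1
  have := @t3zKp.eq_1
  have := @t3zKn.eq_1
  trivial

variable [FiniteDimensional ℝ V]
variable {X : Set V} {h : Ten V} {t : V → ℝ} {ι : Type} {B O : ι → Set V} {φ : ι → V → ℝ}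
  {F N K : Set V} {ϑ : V → ℝ} {x₀ : V} {L : ℝ}

/-! ### L-T3-ZcC-1: bookkeeping -/

/-- translates of total minimisers.  [`t3tk_lf`, `t3tk_wper` (`t3Tk k univ = univ`); a competitor `G` for the translated problem is `τᵏ (τ⁻ᵏ G)`.] -/
theorem t3tk_tmin {Y : Set (V × ℝ)} (hY : ∀ k, t3Tk k Y = Y) (hG : CtGeo 3 Y (t3hY h) (t3tY t))
    (k : ℤ) {Kp Kn A : Set (V × ℝ)} (hA : T3TMin 3 Y (t3hY h) (t3tY t) Kp Kn A) :
    T3TMin 3 Y (t3hY h) (t3tY t) (t3Tk k Kp) (t3Tk k Kn) (t3Tk k A) := by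
  obtain ⟨l, p, n, f, m⟩ := hA
  have hw : ∀ (j : ℤ) {G : Set (V × ℝ)}, MeasurableSet G →
      wper 3 Y (t3hY h) (t3tY t) (t3Tk j G) univ = wper 3 Y (t3hY h) (t3tY t) G univ :=
    fun j G hGm => t3tk_wper hY hG j hGm univ
  refine ⟨t3tk_lf hY hG k l, t3Tk_mono k p, t3Tk_disjoint k n, by rw [hw k l.meas]; exact f,
    fun G g1 g2 g3 => ?_⟩
  rw [hw k l.meas, ← hw (-k) g1.meas]
  refine m _ (t3tk_lf hY hG (-k) g1) ?_ ?_
  · have := t3Tk_mono (-k) g2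
    rwa [t3Tk_neg_left] at this
  · have := t3Tk_disjoint (-k) g3
    rwa [t3Tk_neg_left] at this

omit [MeasurableSpace V] [BorelSpace V] [FiniteDimensional ℝ V] in
theorem t3Tk_zKp {Y : Set (V × ℝ)} (hY : ∀ k, t3Tk k Y = Y) (P : Set V) (c : ℝ) (k : ℤ) :
    t3Tk k (t3zKp Y P c) = t3zKp Y P (c + k) := by
  ext z
  have hz : z ∈ t3Tk k Y ↔ z ∈ Y := by rw [hY]
  constructor
  · rintro ⟨h1, h2, h3⟩
    exact ⟨hz.1 h1, h2, by have : z.2 - k < c := h3; linarith⟩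
  · rintro ⟨h1, h2, h3⟩
    exact ⟨hz.2 h1, h2, by show z.2 - k < c; linarith⟩

omit [MeasurableSpace V] [BorelSpace V] [FiniteDimensional ℝ V] in
theorem t3Tk_zKn {Y : Set (V × ℝ)} (hY : ∀ k, t3Tk k Y = Y) (P : Set V) (c : ℝ) (k : ℤ) :
    t3Tk k (t3zKn Y P c) = t3zKn Y P (c + k) := by
  ext z
  have hz : z ∈ t3Tk k Y ↔ z ∈ Y := by rw [hY]
  constructor
  · rintro ⟨h1, h2, h3⟩
    exact ⟨hz.1 h1, h2, by have : c < z.2 - k := h3; linarith⟩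
  · rintro ⟨h1, h2, h3⟩
    exact ⟨hz.2 h1, h2, by show c < z.2 - k; linarith⟩

/-- the geometry of the cover.  [`T3Stp.li`, `T3Li.geo`, `T3Li.Dsc`.] -/
theorem T3ZS.geoY (H : T3ZS X h t B O φ F N K ϑ x₀ L) :
    CtGeo 3 (t3Y X ϑ) (t3hY h) (t3tY t) ∧
      ∀ z ∈ t3Y X ϑ, 3 / 4 ≤ Dsc 3 (t3Y X ϑ) (t3hY h) (t3tY t) z := by
  have hli := H.stp.li H.pc.col.geo.mfd
  refine ⟨hli.geo H.pc.col.geo, fun z hz => ?_⟩
  have h1 := hli.Dsc H.pc.col.geo.met H.pc.col.geo.drift hz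
  have h2 := H.pc.curv _ (hli.maps hz)
  calc (3 / 4 : ℝ) ≤ _ := h2
    _ = _ := h1.symm

/-- the free region is relatively open.  [`T3Col.int_open`; `rdist X h x₀` is continuous on `X` (`t3_rdist_lip` + local comparison `if_rdist_le_of_segment`, or `if_rdist_continuousOn` if available).] -/
theorem T3ZS.free_open (H : T3ZS X h t B O φ F N K ϑ x₀ L) (L' : ℝ) :
    ∃ Wj : Set V, IsOpen Wj ∧ X ∩ Wj = {x | x ∈ t3Int X O φ ∧ rdist X h x₀ x < L'} := by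
  obtain ⟨WI, hWI, hXI⟩ := H.pc.col.int_open
  have hc := if_rdist_continuousOn H.pc.col.geo.mfd H.pc.conn H.pc.col.geo.ten H.base
  obtain ⟨u, hu, hue⟩ := (continuousOn_iff'.1 hc) (Iio L') isOpen_Iio
  refine ⟨WI ∩ u, hWI.inter hu, ?_⟩
  ext x
  constructor
  · rintro ⟨hx, hxW, hxu⟩
    refine ⟨hXI ▸ ⟨hx, hxW⟩, ?_⟩
    have : x ∈ rdist X h x₀ ⁻¹' Iio L' ∩ X := hue ▸ ⟨hxu, hx⟩
    exact this.1
  · rintro ⟨hxI, hxL⟩
    have h1 : x ∈ X ∩ WI := hXI ▸ hxI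
    have h2 : x ∈ u ∩ X := hue ▸ (⟨hxL, h1.1⟩ : x ∈ rdist X h x₀ ⁻¹' Iio L' ∩ X)
    exact ⟨h1.1, h1.2, h2.1⟩

/-! ### L-T3-ZcC-2 -/

/-- the pinned region is closed in `X` (PROVED). -/
theorem T3ZS.pi_closed (H : T3ZS X h t B O φ F N K ϑ x₀ L) :
    ∃ C : Set V, IsClosed C ∧ X ∩ C = t3zPi X h O φ x₀ L := by
  obtain ⟨C, hC, hCe⟩ := H.pc.col.extI_closed univ
  rw [← t3Ext_eq_extI] at hCe
  have hc := if_rdist_continuousOn H.pc.col.geo.mfd H.pc.conn H.pc.col.geo.ten H.base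
  obtain ⟨u, hu, hue⟩ := (continuousOn_iff'.1 hc) (Iio L) isOpen_Iio
  refine ⟨C ∪ uᶜ, hC.union hu.isClosed_compl, ?_⟩
  ext x
  constructor
  · rintro ⟨hx, hxC | hxu⟩
    · exact Or.inl (hCe ▸ ⟨hx, hxC⟩)
    · refine Or.inr ⟨hx, ?_⟩
      by_contra hlt
      have : x ∈ u ∩ X := hue ▸ (⟨not_le.1 hlt, hx⟩ : x ∈ rdist X h x₀ ⁻¹' Iio L ∩ X)
      exact hxu this.1
  · rintro (hx | ⟨hx, hxL⟩)
    · have : x ∈ X ∩ C := hCe ▸ hx
      exact ⟨this.1, Or.inl this.2⟩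
    · refine ⟨hx, Or.inr fun hxu => ?_⟩
      have : x ∈ rdist X h x₀ ⁻¹' Iio L ∩ X := hue ▸ ⟨hxu, hx⟩
      exact absurd this.1 (not_lt.2 hxL)

/-- **the pinned minimiser exists.**
[`Π` is closed in `X` (`T3Col.extI_closed`, continuity of `rdist`), so `Kp`, `Kn` are measurable (relatively closed/open conditions inside the measurable set `Y`: `ct_measurableSet`).  `E₀ = t3E0 X ϑ (1/2)`: `T3Stp.e0`; `Kp ⊆ E₀`, `E₀ ∩ Kn = ∅`.  `t3_tmin_exists`.] -/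
theorem T3ZS.P_min (H : T3ZS X h t B O φ F N K ϑ x₀ L) :
    ∃ A, T3TMin 3 (t3Y X ϑ) (t3hY h) (t3tY t) (t3zKp (t3Y X ϑ) (t3zPi X h O φ x₀ L) (1 / 2))
      (t3zKn (t3Y X ϑ) (t3zPi X h O φ x₀ L) (1 / 2)) A := by
  have hG := H.geoY.1
  have hYm : MeasurableSet (t3Y X ϑ) := ct_measurableSet hG.mfd
  obtain ⟨C, hC, hCe⟩ := H.pi_closed
  have hPm : MeasurableSet (t3zPi X h O φ x₀ L) := by
    rw [← hCe]; exact (ct_measurableSet H.pc.col.geo.mfd).inter hC.measurableSet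
  have h1 : MeasurableSet (t3zKp (t3Y X ϑ) (t3zPi X h O φ x₀ L) (1 / 2)) :=
    hYm.inter ((measurable_fst hPm).inter (measurable_snd measurableSet_Iio))
  have h2 : MeasurableSet (t3zKn (t3Y X ϑ) (t3zPi X h O φ x₀ L) (1 / 2)) :=
    hYm.inter ((measurable_fst hPm).inter (measurable_snd measurableSet_Ioi))
  obtain ⟨hE, hEf⟩ := H.stp.e0 H.pc.col.geo
  refine t3_tmin_exists hG h1 h2 hE (fun z hz => ⟨hz.1, hz.2.2⟩) ?_ hEf
  rw [disjoint_left]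
  rintro z hz hz'
  have a1 : z.2 < 1 / 2 := hz.2
  have a2 : 1 / 2 < z.2 := hz'.2.2
  linarith

/-! ### L-T3-ZcC-3 -/

/-- solutions of the pinned problems are local absolute minimisers in the free region.
[`T3TMin.cmin`, `T3CMin.inter` with the open set `fst⁻¹ Wj`; both constraints miss it (`J ∩ Π = ∅`); `T3CMin.lam`.] -/
theorem T3ZS.P_lam (H : T3ZS X h t B O φ F N K ϑ x₀ L) {Wj : Set V} (hW : IsOpen Wj)
    (hJ : X ∩ Wj = {x | x ∈ t3Int X O φ ∧ rdist X h x₀ x < L}) {c : ℝ} {A : Set (V × ℝ)}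
    (hA : T3TMin 3 (t3Y X ϑ) (t3hY h) (t3tY t) (t3zKp (t3Y X ϑ) (t3zPi X h O φ x₀ L) c)
      (t3zKn (t3Y X ϑ) (t3zPi X h O φ x₀ L) c) A) :
    CtLAM 3 (t3Y X ϑ ∩ Prod.fst ⁻¹' Wj) (t3hY h) (t3tY t) (fun _ => 0)
      (A ∩ Prod.fst ⁻¹' Wj) := by
  have hG := H.geoY.1
  have h1 := (hA.cmin hG).inter hG (hW.preimage continuous_fst)
  have hdis : ∀ z : V × ℝ, z ∈ t3Y X ϑ → z.1 ∈ t3zPi X h O φ x₀ L → z.1 ∉ Wj := by
    intro z hz hP hzW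
    have h2 : z.1 ∈ {x | x ∈ t3Int X O φ ∧ rdist X h x₀ x < L} := hJ ▸ ⟨hz.1, hzW⟩
    rcases hP with hP | hP
    · exact h2.1.2 hP
    · exact absurd h2.2 (not_lt.2 hP.2)
  have e1 : t3zKp (t3Y X ϑ) (t3zPi X h O φ x₀ L) c ∩ Prod.fst ⁻¹' Wj = ∅ := by
    ext z
    simp only [mem_inter_iff, mem_empty_iff_false, iff_false, not_and]
    exact fun hz => hdis z hz.1 hz.2.1
  have e2 : t3zKn (t3Y X ϑ) (t3zPi X h O φ x₀ L) c ∩ Prod.fst ⁻¹' Wj = ∅ := by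
    ext z
    simp only [mem_inter_iff, mem_empty_iff_false, iff_false, not_and]
    exact fun hz => hdis z hz.1 hz.2.1
  rw [e1, e2] at h1
  exact h1.lam

theorem t3zKp_mono (Y : Set (V × ℝ)) (P : Set V) {c c' : ℝ} (h : c ≤ c') :
    t3zKp Y P c ⊆ t3zKp Y P c' := fun _ hz => ⟨hz.1, hz.2.1, lt_of_lt_of_le hz.2.2 h⟩

theorem t3zKn_anti (Y : Set (V × ℝ)) (P : Set V) {c c' : ℝ} (h : c ≤ c') :
    t3zKn Y P c' ⊆ t3zKn Y P c := fun _ hz => ⟨hz.1, hz.2.1, lt_of_le_of_lt h hz.2.2⟩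

/-! ### L-T3-ZcC-4 -/

/-- [`k ≥ 0`: `τᵏ A` solves the problem `1/2 + k` (`t3tk_tmin`, `t3Tk_zKp`, `t3Tk_zKn`); `Kp (1/2) ⊆ Kp (1/2 + k) ⊆ τᵏ A`, `Kn (1/2 + k) ⊆ Kn (1/2)` misses `A`: `T3TMin.lattice`; `P_lam` for the four sets; `t3_smp2` in `Y ∩ fst⁻¹ Wj`; `ct_bd_inter`.
`k < 0`: the same with the roles of `A` and `τᵏ A` exchanged.] -/
theorem T3ZS.P_touch (H : T3ZS X h t B O φ F N K ϑ x₀ L) {Wj : Set V} (hW : IsOpen Wj)
    (hJ : X ∩ Wj = {x | x ∈ t3Int X O φ ∧ rdist X h x₀ x < L}) {A : Set (V × ℝ)}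
    (hA : T3TMin 3 (t3Y X ϑ) (t3hY h) (t3tY t) (t3zKp (t3Y X ϑ) (t3zPi X h O φ x₀ L) (1 / 2))
      (t3zKn (t3Y X ϑ) (t3zPi X h O φ x₀ L) (1 / 2)) A)
    (k : ℤ) (z : V × ℝ) (hz : z.1 ∈ Wj) (h1 : z ∈ ctBd 3 (t3Y X ϑ) A)
    (h2 : z ∈ ctBd 3 (t3Y X ϑ) (t3Tk k A)) :
    ∃ U : Set (V × ℝ), IsOpen U ∧ z ∈ U ∧
      ctBd 3 (t3Y X ϑ) A ∩ U = ctBd 3 (t3Y X ϑ) (t3Tk k A) ∩ U := by
  have hY : ∀ k, t3Tk k (t3Y X ϑ) = t3Y X ϑ := t3Tk_Y X ϑ
  have hG := H.geoY.1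
  have hAk := t3tk_tmin hY hG k hA
  rw [t3Tk_zKp hY, t3Tk_zKn hY] at hAk
  have hWo : IsOpen (Prod.fst ⁻¹' Wj : Set (V × ℝ)) := hW.preimage continuous_fst
  rcases le_total 0 k with hk | hk
  · have hk' : (1 / 2 : ℝ) ≤ 1 / 2 + k := by
      have : (0 : ℝ) ≤ k := Int.cast_nonneg hk
      linarith
    obtain ⟨hi, hu⟩ := hA.lattice hG hAk ((t3zKp_mono _ _ hk').trans hAk.2.1)
      (hA.2.2.1.mono_right (t3zKn_anti _ _ hk'))
    exact t3_smp2_inter hG (by norm_num) (by norm_num) hWo (H.P_lam hW hJ hA) (H.P_lam hW hJ hAk)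
      (H.P_lam hW hJ hi) (H.P_lam hW hJ hu) hz h1 h2
  · have hk' : (1 / 2 : ℝ) + k ≤ 1 / 2 := by
      have : (k : ℝ) ≤ 0 := Int.cast_nonpos.2 hk
      linarith
    obtain ⟨hi, hu⟩ := hAk.lattice hG hA ((t3zKp_mono _ _ hk').trans hA.2.1)
      (hAk.2.2.1.mono_right (t3zKn_anti _ _ hk'))
    obtain ⟨U, hU, hzU, he⟩ := t3_smp2_inter hG (by norm_num) (by norm_num) hWo
      (H.P_lam hW hJ hAk) (H.P_lam hW hJ hA) (H.P_lam hW hJ hi) (H.P_lam hW hJ hu) hz h2 h1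
    exact ⟨U, hU, hzU, he.symm⟩

/-! ### L-T3-ZcC-5 -/

/-- the perimeter of the translates in a set of bounded height tends to `0`.
[`S = {z | |z.2| ≤ a}` is measurable; `wper (τᵏ A) C ≤ wper (τᵏ A) S = wper A (τ⁻ᵏ S)` (`t3tk_wper`).  Fix `m : ℕ`, `m > 2 a`: for each residue `r` the sets `τ^{-(m j + r)} S`, `j : ℤ`, are pairwise disjoint: `∑_j wper A (..) ≤ wper A univ`.
So `∑_k wper A (τ⁻ᵏ S) ≤ m · wper A univ < ⊤`; `ENNReal.tendsto_cofinite_zero_of_tsum_ne_top`.] -/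
theorem t3z_per_tendsto {Y : Set (V × ℝ)} (hY : ∀ k, t3Tk k Y = Y)
    (hG : CtGeo 3 Y (t3hY h) (t3tY t)) {A : Set (V × ℝ)} (hA : MeasurableSet A)
    (hfin : wper 3 Y (t3hY h) (t3tY t) A univ ≠ ⊤) {C : Set (V × ℝ)} {a : ℝ}
    (hC : ∀ z ∈ C, |z.2| ≤ a) :
    Tendsto (fun k : ℤ => wper 3 Y (t3hY h) (t3tY t) (t3Tk k A) C) cofinite (𝓝 0) := by
  obtain ⟨μ, hμ⟩ : ∃ μ : Measure (V × ℝ), μ = wper 3 Y (t3hY h) (t3tY t) A := ⟨_, rfl⟩
  have hk : ∀ k : ℤ, wper 3 Y (t3hY h) (t3tY t) (t3Tk k A) C = μ (t3Tk (-k) C) := fun k => by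
    have h1 := t3tk_wper hY hG k hA (t3Tk (-k) C)
    rw [t3Tk_neg_right] at h1
    rw [hμ]
    exact h1
  simp only [hk]
  rw [← hμ] at hfin
  have hT : Tendsto (fun n : ℕ => μ {z : V × ℝ | (n : ℝ) ≤ |z.2|}) atTop (𝓝 0) := by
    have h1 := tendsto_measure_iInter_atTop (μ := μ)
      (s := fun n : ℕ => {z : V × ℝ | (n : ℝ) ≤ |z.2|})
      (fun n => (measurableSet_le measurable_const
        (continuous_abs.measurable.comp measurable_snd)).nullMeasurableSet)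
      (fun m n hmn z hz => by
        have h3 : (n : ℝ) ≤ |z.2| := hz
        have h4 : (m : ℝ) ≤ n := by exact_mod_cast hmn
        exact h4.trans h3)
      ⟨0, ne_top_of_le_ne_top hfin (measure_mono (subset_univ _))⟩
    have h2 : (⋂ n : ℕ, {z : V × ℝ | (n : ℝ) ≤ |z.2|}) = ∅ := by
      refine eq_empty_iff_forall_notMem.2 fun z hz => ?_
      obtain ⟨n, hn⟩ := exists_nat_gt |z.2|
      exact absurd (mem_iInter.1 hz n) (not_le.2 hn)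
    rw [h2, measure_empty] at h1
    exact h1
  rw [ENNReal.tendsto_nhds_zero]
  intro ε hε
  obtain ⟨n, hn⟩ := ((ENNReal.tendsto_nhds_zero.1 hT) ε hε).exists
  rw [eventually_cofinite]
  refine (Set.finite_Icc (-(⌈(n : ℝ) + a⌉)) ⌈(n : ℝ) + a⌉).subset fun k hk' => ?_
  by_contra hcon
  apply hk'
  refine (measure_mono ?_).trans hn
  intro z hz
  have h1 : |z.2 - ((-k : ℤ) : ℝ)| ≤ a := hC _ hz
  rw [abs_le] at h1
  push_cast at h1
  have hM : (n : ℝ) + a ≤ (⌈(n : ℝ) + a⌉ : ℝ) := Int.le_ceil _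
  show (n : ℝ) ≤ |z.2|
  rw [Set.mem_Icc, not_and_or, not_le, not_le] at hcon
  rcases hcon with hc | hc
  · have h2 : (k : ℝ) < -(⌈(n : ℝ) + a⌉ : ℝ) := by exact_mod_cast hc
    refine le_trans ?_ (le_abs_self _)
    linarith [h1.1]
  · have h2 : (⌈(n : ℝ) + a⌉ : ℝ) < (k : ℝ) := by exact_mod_cast hc
    refine le_trans ?_ (neg_le_abs _)
    linarith [h1.2]

/-! ### L-T3-ZcC-6 -/

/-- far translates have no boundary points near a given point of the free region.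
[`M' = Y ∩ fst⁻¹ Wj`.  Chart ball: `K₀ = ψ '' closedBall u r ⊆ M'` compact, `U` open with `Y ∩ U = ψ '' ball u r` (connected: image of a convex set).  `O'` = a bounded open set `⊇ K₀`.  `t3_per_lower` in `M'` (`p = 0`): `ε`.
`τᵏ A ∩ fst⁻¹ Wj` is `CtLAM 0` in `M'` (hypothesis `hlam`); `wper M' (τᵏ A ∩ ..) O' = wper Y (τᵏ A) (O' ∩ fst⁻¹ Wj)` (`ct_wper_inter`) `→ 0` (`t3z_per_tendsto`): `< ε` for all but finitely many `k`; `ct_bd_inter`.] -/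
theorem T3ZS.P_clean (H : T3ZS X h t B O φ F N K ϑ x₀ L) {Wj : Set V} (hW : IsOpen Wj)
    {A : Set (V × ℝ)} (hAm : MeasurableSet A)
    (hfin : wper 3 (t3Y X ϑ) (t3hY h) (t3tY t) A univ ≠ ⊤)
    (hlam : ∀ k : ℤ, CtLAM 3 (t3Y X ϑ ∩ Prod.fst ⁻¹' Wj) (t3hY h) (t3tY t) (fun _ => 0)
      (t3Tk k A ∩ Prod.fst ⁻¹' Wj))
    {z : V × ℝ} (hz : z ∈ t3Y X ϑ) (hzW : z.1 ∈ Wj) :
    ∃ (k₁ : ℤ) (U : Set (V × ℝ)), IsOpen U ∧ z ∈ U ∧ IsPreconnected (t3Y X ϑ ∩ U) ∧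
      ∀ k : ℤ, k₁ ≤ |k| → Disjoint (ctBd 3 (t3Y X ϑ) (t3Tk k A)) U := by
  have hY : ∀ k, t3Tk k (t3Y X ϑ) = t3Y X ϑ := t3Tk_Y X ϑ
  have hG := H.geoY.1
  have hGo : IsOpen (Prod.fst ⁻¹' Wj : Set (V × ℝ)) := hW.preimage continuous_fst
  have hG' := hG.inter hGo
  obtain ⟨ψ, U₀, hψ, u, hu, rfl⟩ := hG'.mfd z ⟨hz, hzW⟩
  obtain ⟨r, hr, hball⟩ := Metric.nhds_basis_closedBall.mem_iff.1 ((if_open hψ).mem_nhds hu)
  have hbU : Metric.ball u r ⊆ U₀ := Metric.ball_subset_closedBall.trans hball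
  obtain ⟨U₁, hU₁, he⟩ := if_image_open hψ Metric.isOpen_ball hbU
  have hK₀ : IsCompact (ψ '' Metric.closedBall u r) :=
    (isCompact_closedBall u r).image_of_continuousOn ((if_continuousOn hψ).mono hball)
  have hK₀M : ψ '' Metric.closedBall u r ⊆ t3Y X ϑ ∩ Prod.fst ⁻¹' Wj :=
    (image_mono hball).trans (if_image_subset hψ)
  obtain ⟨R, hR⟩ := hK₀.isBounded.subset_ball (0 : V × ℝ)
  obtain ⟨ε, hε, hlow⟩ := t3_per_lower hG' (by norm_num) (p := fun _ => 0)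
    (fun ψ U _ => contDiffOn_const) hK₀ hK₀M Metric.isOpen_ball hR
  have ht := t3z_per_tendsto hY hG hAm hfin (C := Metric.ball (0 : V × ℝ) R) (a := R)
    (fun y hy => by
      have h1 : ‖y‖ < R := mem_ball_zero_iff.1 hy
      have h2 : ‖y.2‖ ≤ ‖y‖ := norm_snd_le y
      rw [← Real.norm_eq_abs]; linarith)
  have hev := (tendsto_order.1 ht).2 ε hε
  rw [Filter.eventually_cofinite] at hev
  obtain ⟨b, hb⟩ := (hev.image (fun k : ℤ => |k|)).bddAbove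
  have hYU : t3Y X ϑ ∩ (Prod.fst ⁻¹' Wj ∩ U₁) = ψ '' Metric.ball u r := by
    rw [he, inter_assoc]
  refine ⟨b + 1, Prod.fst ⁻¹' Wj ∩ U₁, hGo.inter hU₁, ?_, ?_, fun k hk => ?_⟩
  · have : ψ u ∈ t3Y X ϑ ∩ (Prod.fst ⁻¹' Wj ∩ U₁) := by
      rw [hYU]; exact ⟨u, Metric.mem_ball_self hr, rfl⟩
    exact this.2
  · rw [hYU]
    exact (convex_ball u r).isPreconnected.image ψ ((if_continuousOn hψ).mono hbU)
  · rw [disjoint_left]
    intro x hx hxU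
    have hxY : x ∈ t3Y X ϑ := ct_bd_subset _ hx
    have hxK : x ∈ ψ '' Metric.closedBall u r := by
      have : x ∈ ψ '' Metric.ball u r := by rw [← hYU]; exact ⟨hxY, hxU⟩
      exact image_mono Metric.ball_subset_closedBall this
    have hbd : x ∈ ctBd 3 (t3Y X ϑ ∩ Prod.fst ⁻¹' Wj) (t3Tk k A ∩ Prod.fst ⁻¹' Wj) := by
      rw [(ct_bd_inter hG.mfd (t3Tk k A) hGo).1]; exact ⟨hx, hxU.1⟩
    have h1 := hlow _ (hlam k) x hxK hbd
    rw [ct_wper_inter hG (t3Tk_measurableSet k hAm) hGo] at h1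
    have h2 : ε ≤ wper 3 (t3Y X ϑ) (t3hY h) (t3tY t) (t3Tk k A) (Metric.ball 0 R) :=
      h1.trans (Measure.restrict_apply_le _ _)
    have h3 : |k| ≤ b := hb ⟨k, not_lt.2 h2, rfl⟩
    omega

/-! ### L-T3-ZcC-7 -/

/-- compact sets of positive volume in nonempty open pieces (PROVED). -/
theorem t3_pos_compact {d : ℕ} {M : Set V} (hG : CtGeo d M h t) {U : Set V} (hU : IsOpen U)
    (hne : (M ∩ U).Nonempty) : ∃ P : Set V, IsCompact P ∧ P ⊆ M ∩ U ∧ vol d M h P ≠ 0 := by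
  obtain ⟨x, hx⟩ := hne
  obtain ⟨ψ, U₀, hψ, u, hu, rfl⟩ := (hG.inter hU).mfd x hx
  obtain ⟨r, hr, hball⟩ := Metric.nhds_basis_closedBall.mem_iff.1 ((if_open hψ).mem_nhds hu)
  have hbU : Metric.ball u r ⊆ U₀ := Metric.ball_subset_closedBall.trans hball
  obtain ⟨U₁, hU₁, he⟩ := if_image_open (if_param_of_inter hU hψ) Metric.isOpen_ball hbU
  refine ⟨ψ '' Metric.closedBall u r,
    (isCompact_closedBall u r).image_of_continuousOn ((if_continuousOn hψ).mono hball),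
    (image_mono hball).trans (if_image_subset hψ), fun h0 => ?_⟩
  have h1 : 0 < wvol d M h t U₁ := ct_wvol_pos hG hU₁
    ⟨ψ u, by rw [← he]; exact ⟨u, Metric.mem_ball_self hr, rfl⟩⟩
  have h2 : vol d M h U₁ = 0 := by
    rw [← measure_inter_conull (if_vol_compl hG.mfd h), inter_comm, ← he]
    exact measure_mono_null (image_mono Metric.ball_subset_closedBall) h0
  exact h1.ne' (ct_wvol_ac d M h t h2)

/-- far translates of a set of finite perimeter cannot be null in one open piece and full in another one (PROVED). -/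
theorem t3z_no_limit {Y : Set (V × ℝ)} (hY : ∀ k, t3Tk k Y = Y) (hc : IsPreconnected Y)
    (hG : CtGeo 3 Y (t3hY h) (t3tY t)) {A : Set (V × ℝ)} (hA : MeasurableSet A) (hAY : A ⊆ Y)
    (hfin : wper 3 Y (t3hY h) (t3tY t) A univ ≠ ⊤) {κ : ℕ → ℤ} (hκ : Tendsto κ atTop cofinite)
    {U₁ U₂ : Set (V × ℝ)} (hU₁ : IsOpen U₁) (hU₂ : IsOpen U₂) (hne₁ : (Y ∩ U₁).Nonempty)
    (hne₂ : (Y ∩ U₂).Nonempty)
    (h₁ : ∀ i, vol 3 Y (t3hY h) (t3Tk (κ i) A ∩ (Y ∩ U₁)) = 0)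
    (h₂ : ∀ i, vol 3 Y (t3hY h) ((Y ∩ U₂) \ t3Tk (κ i) A) = 0) : False := by
  obtain ⟨P₁, hP₁, hP₁s, hP₁v⟩ := t3_pos_compact hG hU₁ hne₁
  obtain ⟨P₂, hP₂, hP₂s, hP₂v⟩ := t3_pos_compact hG hU₂ hne₂
  have hm : ∀ i, MeasurableSet (t3Tk (κ i) A) := fun i => t3Tk_measurableSet _ hA
  obtain ⟨σ, A', hσ, hA', hconv⟩ := ct_compact hG (fun i => t3Tk (κ i) A) hm
    (fun i => by have := t3Tk_mono (κ i) hAY; rwa [hY] at this)
    (fun K _ _ => ⟨wper 3 Y (t3hY h) (t3tY t) A univ, hfin, Eventually.of_forall fun i => by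
      have h1 := t3tk_wper hY hG (κ i) hA univ
      rw [t3Tk_univ] at h1
      rw [← h1]
      exact measure_mono (subset_univ _)⟩)
  -- the limit has no perimeter
  have hz : ∀ n : ℕ, wper 3 Y (t3hY h) (t3tY t) A' (Metric.ball (0 : V × ℝ) n) = 0 := by
    intro n
    have h1 := ct_wper_lsc hG (fun i => hm (σ i)) hA'.meas hconv
      (O := Metric.ball (0 : V × ℝ) n) Metric.isOpen_ball
    have ht := t3z_per_tendsto hY hG hA hfin (C := Metric.ball (0 : V × ℝ) n) (a := n)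
      (fun y hy => by
        have h1 : ‖y‖ < n := mem_ball_zero_iff.1 hy
        have h2 : ‖y.2‖ ≤ ‖y‖ := norm_snd_le y
        rw [← Real.norm_eq_abs]; linarith)
    have ht' : Tendsto (fun i => wper 3 Y (t3hY h) (t3tY t) (t3Tk (κ (σ i)) A)
        (Metric.ball (0 : V × ℝ) n)) atTop (𝓝 0) :=
      ht.comp (hκ.comp hσ.tendsto_atTop)
    rw [ht'.liminf_eq] at h1
    exact le_antisymm h1 zero_le
  have hz' : wper 3 Y (t3hY h) (t3tY t) A' univ = 0 := by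
    have : (univ : Set (V × ℝ)) = ⋃ n : ℕ, Metric.ball (0 : V × ℝ) n := by
      refine (eq_univ_of_forall fun y => ?_).symm
      obtain ⟨n, hn⟩ := exists_nat_gt ‖y‖
      exact mem_iUnion.2 ⟨n, mem_ball_zero_iff.2 hn⟩
    rw [this]
    exact measure_iUnion_null hz
  have hcst := ct_constancy hG hA'.meas isOpen_univ (by rwa [inter_univ]) hz'
  -- passage to the limit
  have l₁ : vol 3 Y (t3hY h) (A' ∩ P₁) = 0 := by
    have ht := hconv P₁ hP₁ (hP₁s.trans inter_subset_left)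
    refine le_antisymm (ge_of_tendsto' ht fun i => ?_) zero_le
    calc vol 3 Y (t3hY h) (A' ∩ P₁)
        ≤ vol 3 Y (t3hY h) (symmDiff (t3Tk (κ (σ i)) A) A' ∩ P₁ ∪
            t3Tk (κ (σ i)) A ∩ (Y ∩ U₁)) := by
          refine measure_mono fun y hy => ?_
          by_cases hyA : y ∈ t3Tk (κ (σ i)) A
          · exact Or.inr ⟨hyA, hP₁s hy.2⟩
          · exact Or.inl ⟨Or.inr ⟨hy.1, hyA⟩, hy.2⟩
      _ ≤ _ + _ := measure_union_le _ _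
      _ = vol 3 Y (t3hY h) (symmDiff (t3Tk (κ (σ i)) A) A' ∩ P₁) := by rw [h₁, add_zero]
  have l₂ : vol 3 Y (t3hY h) (P₂ \ A') = 0 := by
    have ht := hconv P₂ hP₂ (hP₂s.trans inter_subset_left)
    refine le_antisymm (ge_of_tendsto' ht fun i => ?_) zero_le
    calc vol 3 Y (t3hY h) (P₂ \ A')
        ≤ vol 3 Y (t3hY h) (symmDiff (t3Tk (κ (σ i)) A) A' ∩ P₂ ∪
            (Y ∩ U₂) \ t3Tk (κ (σ i)) A) := by
          refine measure_mono fun y hy => ?_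
          by_cases hyA : y ∈ t3Tk (κ (σ i)) A
          · exact Or.inl ⟨Or.inl ⟨hyA, hy.2⟩, hy.1⟩
          · exact Or.inr ⟨hP₂s hy.1, hyA⟩
      _ ≤ _ + _ := measure_union_le _ _
      _ = vol 3 Y (t3hY h) (symmDiff (t3Tk (κ (σ i)) A) A' ∩ P₂) := by rw [h₂, add_zero]
  rcases hcst with h0 | h0
  · refine hP₂v (measure_mono_null (fun y hy => ?_) (measure_union_null l₂ h0))
    by_cases hyA : y ∈ A'
    · exact Or.inr ⟨hyA, mem_univ y⟩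
    · exact Or.inl ⟨hy, hyA⟩
  · refine hP₁v (measure_mono_null (fun y hy => ?_) (measure_union_null l₁ h0))
    by_cases hyA : y ∈ A'
    · exact Or.inl ⟨hyA, hy⟩
    · exact Or.inr ⟨mem_univ y, hyA⟩

/-- the cover is connected (PROVED). -/
theorem T3ZS.connY (H : T3ZS X h t B O φ F N K ϑ x₀ L) : IsPreconnected (t3Y X ϑ) := by
  obtain ⟨W, hW, he⟩ := H.pc.col.int_open
  have hne : F.Nonempty := H.hyp.2.1.nonempty
  exact H.stp.conn H.pc.col.geo.mfd (t3_diff_conn H.pc.conn ⟨W, hW, he.symm⟩ H.hyp.1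
    (fun x hx => H.tube (H.stp.df.sub hx)) hne H.conn) hne

omit [MeasurableSpace V] [BorelSpace V] in
/-- a connected open piece which misses the boundary lies in one phase (PROVED). -/
theorem t3_phase_dichotomy {d : ℕ} {M : Set V} (hM : IsMfd d M) (hd : 1 ≤ d) (A : Set V)
    {U : Set V} (hc : IsPreconnected (M ∩ U)) (hdis : Disjoint (ctBd d M A) U) :
    M ∩ U ⊆ ctIn d M A ∨ M ∩ U ⊆ ctOut d M A := by
  obtain ⟨O₁, hO₁, e₁⟩ := ct_in_open hM A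
  obtain ⟨O₂, hO₂, e₂⟩ := ct_out_open hM A
  obtain ⟨hu, h12, -, -⟩ := ct_trichotomy hM hd A
  have h1 := (isPreconnected_iff_subset_of_disjoint.1 hc) O₁ O₂ hO₁ hO₂ (by
    intro x hx
    have : x ∈ ctIn d M A ∪ ctOut d M A ∪ ctBd d M A := by rw [hu]; exact hx.1
    rcases this with (h' | h') | h'
    · exact Or.inl (e₁ ▸ h' : x ∈ M ∩ O₁).2
    · exact Or.inr (e₂ ▸ h' : x ∈ M ∩ O₂).2
    · exact absurd hx.2 (disjoint_left.1 hdis h')) (by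
    ext x
    simp only [mem_inter_iff, mem_empty_iff_false, iff_false]
    rintro ⟨hx, hx1, hx2⟩
    exact disjoint_left.1 h12 (e₁ ▸ ⟨hx.1, hx1⟩ : x ∈ ctIn d M A)
      (e₂ ▸ ⟨hx.1, hx2⟩ : x ∈ ctOut d M A))
  rcases h1 with h1 | h1
  · left; intro x hx; rw [← e₁]; exact ⟨hx.1, h1 hx⟩
  · right; intro x hx; rw [← e₂]; exact ⟨hx.1, h1 hx⟩

/-- **finiteness in the pinned case.**
[`(k₁, U)` from `P_clean`.  For `|k| ≥ k₁`: `Y ∩ U` is connected and misses the boundary: it lies in `ctIn (τᵏ A)` or in `ctOut (τᵏ A)` (`ct_trichotomy`, `ct_in_open`, `ct_out_open`).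
CLAIM: only finitely many `k > 0` are of the second kind.  Otherwise choose `k_i ↗ ∞` of the second kind.  `ct_compact` on `Y` (`wper (τᵏ A) K' ≤ wper A univ`): a subsequence converges (`CtConv`) to `A'`.  For every bounded open `O'`:
`wper A' O' ≤ liminf wper (τ^{k_i} A) O' = 0` (`ct_wper_lsc`, `t3z_per_tendsto`); countably many balls: `wper A' univ = 0`.  `Y` is connected (`t3_diff_conn`, `T3Stp.conn`): `ct_constancy`: `A'` is null or conull.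
But `A'` is null in `Y ∩ U` (`ct_vol_out_inter`; pass to the limit on a compact chart ball in `U`; it has positive volume: `ct_wvol_pos`), and `A'` is conull in `b̂ = {z ∈ Y | z.1 ∈ b, |z.2 - s| < 1/2}`, where `b ⊆ Π` is the nonempty relatively open set of `hP`:
`b̂ ⊆ Kp (1/2 + k) ⊆ τᵏ A` for large `k`.  Contradiction.  The same for `k → -∞` with `Kn`.] -/
theorem T3ZS.P_fin (H : T3ZS X h t B O φ F N K ϑ x₀ L)
    (hP : (t3ExtO X O φ ∪ {x | x ∈ X ∧ L < rdist X h x₀ x}).Nonempty) {Wj : Set V}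
    (hW : IsOpen Wj) (hJ : X ∩ Wj = {x | x ∈ t3Int X O φ ∧ rdist X h x₀ x < L})
    {A : Set (V × ℝ)}
    (hA : T3TMin 3 (t3Y X ϑ) (t3hY h) (t3tY t) (t3zKp (t3Y X ϑ) (t3zPi X h O φ x₀ L) (1 / 2))
      (t3zKn (t3Y X ϑ) (t3zPi X h O φ x₀ L) (1 / 2)) A)
    {z : V × ℝ} (hz : z ∈ t3Y X ϑ) (hzW : z.1 ∈ Wj) :
    ∃ (k₀ : ℤ) (U : Set (V × ℝ)), IsOpen U ∧ z ∈ U ∧ ∀ k ≥ k₀,
      t3Y X ϑ ∩ U ⊆ ctIn 3 (t3Y X ϑ) (t3Tk k A) ∧
        t3Y X ϑ ∩ U ⊆ ctOut 3 (t3Y X ϑ) (t3Tk (-k) A) := by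
  have hY : ∀ k, t3Tk k (t3Y X ϑ) = t3Y X ϑ := t3Tk_Y X ϑ
  have hG := H.geoY.1
  have hAm := hA.1.meas
  have hAY := hA.1.sub
  have hfin := hA.2.2.2.1
  have hcY := H.connY
  have hAk : ∀ k : ℤ, T3TMin 3 (t3Y X ϑ) (t3hY h) (t3tY t)
      (t3zKp (t3Y X ϑ) (t3zPi X h O φ x₀ L) (1 / 2 + k))
      (t3zKn (t3Y X ϑ) (t3zPi X h O φ x₀ L) (1 / 2 + k)) (t3Tk k A) := fun k => by
    have h1 := t3tk_tmin hY hG k hA
    rwa [t3Tk_zKp hY, t3Tk_zKn hY] at h1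
  obtain ⟨k₁, U, hU, hzU, hUc, hdis⟩ := H.P_clean hW hAm hfin (fun k => H.P_lam hW hJ (hAk k))
    hz hzW
  have hdich : ∀ k : ℤ, k₁ ≤ |k| → t3Y X ϑ ∩ U ⊆ ctIn 3 (t3Y X ϑ) (t3Tk k A) ∨
      t3Y X ϑ ∩ U ⊆ ctOut 3 (t3Y X ϑ) (t3Tk k A) := fun k hk =>
    t3_phase_dichotomy hG.mfd (by norm_num) _ hUc (hdis k hk)
  -- the pinned open piece
  obtain ⟨W₁, hW₁, hW₁e⟩ := H.pc.col.extO_open
  have hcr := if_rdist_continuousOn H.pc.col.geo.mfd H.pc.conn H.pc.col.geo.ten H.base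
  obtain ⟨u₂, hu₂, hu₂e⟩ := (continuousOn_iff'.1 hcr) (Ioi L) isOpen_Ioi
  obtain ⟨xb, hxb⟩ := hP
  have hxbX : xb ∈ X := by
    rcases hxb with ⟨i, hx, -⟩ | hx
    · exact hx.1
    · exact hx.1
  have hxbW : xb ∈ W₁ ∪ u₂ := by
    rcases hxb with hx | hx
    · exact Or.inl (hW₁e ▸ hx : xb ∈ X ∩ W₁).2
    · exact Or.inr (hu₂e ▸ (⟨hx.2, hx.1⟩ : xb ∈ rdist X h x₀ ⁻¹' Ioi L ∩ X) : xb ∈ u₂ ∩ X).1
  have hWbP : ∀ x ∈ X, x ∈ W₁ ∪ u₂ → x ∈ t3zPi X h O φ x₀ L := by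
    rintro x hx (hx1 | hx2)
    · obtain ⟨i, hxi, hφ⟩ : x ∈ t3ExtO X O φ := hW₁e ▸ ⟨hx, hx1⟩
      exact Or.inl ⟨i, hxi, hφ.le⟩
    · have : x ∈ rdist X h x₀ ⁻¹' Ioi L ∩ X := hu₂e ▸ ⟨hx2, hx⟩
      exact Or.inr ⟨hx, le_of_lt this.1⟩
  set Ub : Set (V × ℝ) := Prod.fst ⁻¹' (W₁ ∪ u₂) ∩ Prod.snd ⁻¹' Metric.ball (ϑ xb) 1 with hUb
  have hUbo : IsOpen Ub :=
    ((hW₁.union hu₂).preimage continuous_fst).inter (Metric.isOpen_ball.preimage continuous_snd)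
  have hneb : (t3Y X ϑ ∩ Ub).Nonempty :=
    ⟨(xb, ϑ xb), ⟨hxbX, 0, by simp⟩, hxbW, Metric.mem_ball_self one_pos⟩
  have hneU : (t3Y X ϑ ∩ U).Nonempty := ⟨z, hz, hzU⟩
  have hbs : ∀ y ∈ t3Y X ϑ ∩ Ub, y.1 ∈ t3zPi X h O φ x₀ L ∧ |y.2 - ϑ xb| < 1 := by
    rintro y ⟨hy, hy1, hy2⟩
    refine ⟨hWbP y.1 hy.1 hy1, ?_⟩
    have : dist y.2 (ϑ xb) < 1 := hy2
    rwa [Real.dist_eq] at this
  have hin : ∀ k : ℤ, ϑ xb + 1 ≤ k → t3Y X ϑ ∩ Ub ⊆ t3Tk k A := by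
    intro k hk y hy
    obtain ⟨h1, h2⟩ := hbs y hy
    refine (hAk k).2.1 ⟨hy.1, h1, ?_⟩
    have := (abs_lt.1 h2).2
    linarith
  have hout : ∀ k : ℤ, (k : ℝ) ≤ ϑ xb - 2 → Disjoint (t3Tk k A) (t3Y X ϑ ∩ Ub) := by
    intro k hk
    rw [disjoint_left]
    intro y hyA hy
    obtain ⟨h1, h2⟩ := hbs y hy
    refine disjoint_left.1 (hAk k).2.2.1 hyA ⟨hy.1, h1, ?_⟩
    have := (abs_lt.1 h2).1
    linarith
  have hplus : ∃ k₂ : ℤ, ∀ k ≥ k₂, t3Y X ϑ ∩ U ⊆ ctIn 3 (t3Y X ϑ) (t3Tk k A) := by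
    by_contra hcon
    push Not at hcon
    choose κ' hκ1 hκ2 using hcon
    set κ : ℕ → ℤ := fun i => κ' (max (max k₁ (i : ℤ)) ⌈ϑ xb + 1⌉) with hκ
    have hge : ∀ i : ℕ, max (max k₁ (i : ℤ)) ⌈ϑ xb + 1⌉ ≤ κ i := fun i => hκ1 _
    have hκt : Tendsto κ atTop cofinite := by
      have : Tendsto κ atTop atTop := tendsto_atTop_mono
        (fun i => (le_max_right k₁ (i : ℤ)).trans ((le_max_left _ _).trans (hge i)))
        tendsto_natCast_atTop_atTop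
      exact this.mono_right (by rw [Int.cofinite_eq]; exact le_sup_right)
    refine t3z_no_limit hY hcY hG hAm hAY hfin hκt hU hUbo hneU hneb (fun i => ?_) (fun i => ?_)
    · have h1 : k₁ ≤ |κ i| :=
        ((le_max_left k₁ (i : ℤ)).trans ((le_max_left _ _).trans (hge i))).trans (le_abs_self _)
      have h2 := (hdich (κ i) h1).resolve_left (hκ2 _)
      refine measure_mono_null (fun y hy => ?_) (ct_vol_out_inter hG (t3Tk (κ i) A))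
      exact ⟨h2 hy.2, hy.1⟩
    · have h1 : ϑ xb + 1 ≤ (κ i : ℝ) := by
        have h2 : ⌈ϑ xb + 1⌉ ≤ κ i := (le_max_right _ _).trans (hge i)
        exact (Int.le_ceil _).trans (by exact_mod_cast h2)
      rw [Set.sdiff_eq_empty.2 (hin _ h1)]
      exact measure_empty
  have hminus : ∃ k₃ : ℤ, ∀ k ≥ k₃, t3Y X ϑ ∩ U ⊆ ctOut 3 (t3Y X ϑ) (t3Tk (-k) A) := by
    by_contra hcon
    push Not at hcon
    choose κ' hκ1 hκ2 using hcon
    set κ : ℕ → ℤ := fun i => -κ' (max (max k₁ (i : ℤ)) ⌈2 - ϑ xb⌉) with hκ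
    have hge : ∀ i : ℕ, max (max k₁ (i : ℤ)) ⌈2 - ϑ xb⌉ ≤ -κ i := fun i => by
      rw [hκ]; simp only [neg_neg]; exact hκ1 _
    have hκt : Tendsto κ atTop cofinite := by
      have : Tendsto κ atTop atBot := tendsto_atBot_mono
        (fun i => by
          have := (le_max_right k₁ (i : ℤ)).trans ((le_max_left _ _).trans (hge i))
          show κ i ≤ -(i : ℤ)
          omega)
        (tendsto_neg_atTop_atBot.comp tendsto_natCast_atTop_atTop)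
      exact this.mono_right (by rw [Int.cofinite_eq]; exact le_sup_left)
    refine t3z_no_limit hY hcY hG hAm hAY hfin hκt hUbo hU hneb hneU (fun i => ?_) (fun i => ?_)
    · have h1 : (κ i : ℝ) ≤ ϑ xb - 2 := by
        have h2 : ⌈2 - ϑ xb⌉ ≤ -κ i := (le_max_right _ _).trans (hge i)
        have h3 : 2 - ϑ xb ≤ ((-κ i : ℤ) : ℝ) := (Int.le_ceil _).trans (by exact_mod_cast h2)
        push_cast at h3
        linarith
      rw [disjoint_iff_inter_eq_empty.1 (hout _ h1)]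
      exact measure_empty
    · have h1 : k₁ ≤ |κ i| := by
        have := (le_max_left k₁ (i : ℤ)).trans ((le_max_left _ _).trans (hge i))
        exact this.trans (neg_le_abs _)
      have h2 := (hdich (κ i) h1).resolve_right (hκ2 _)
      refine measure_mono_null (fun y hy => ?_) (ct_vol_in_diff hG (t3Tk (κ i) A))
      exact ⟨h2 hy.1, hy.2⟩
  obtain ⟨k₂, hk₂⟩ := hplus
  obtain ⟨k₃, hk₃⟩ := hminus
  exact ⟨max k₂ k₃, U, hU, hzU, fun k hk =>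
    ⟨hk₂ k ((le_max_left _ _).trans hk), hk₃ k ((le_max_right _ _).trans hk)⟩⟩

/-! ### L-T3-ZcC-8 -/

/-- **the boundary does not accumulate at the collars.**
[The set is contained in the compact box over `C = {x ∈ t3Core | rdist x₀ x ≤ L - 1}` (`T3Pc.proper`, `T3Stp.box`); it suffices that it is closed.  Let `y_n → y*`, `y* ∈ Y` in the box.  `y* ∈ ctBd A` (the boundary is closed in `Y`: `ct_trichotomy`, `ct_in_open`, `ct_out_open`);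
`rdist`, height: continuity.  `y*.1 ∈ t3Core = I ∪ ⋃ B i`.  Suppose `y*.1 ∈ B i`; then `y* ∈ B i × {k}`.  `T3Stp.col`: collars of `Y`; `W = fst⁻¹ {rdist x₀ < L}` (open piece); in `Ô (i,k) ∩ W` the constraints are: the closed collar in `Kp` (`k ≤ 0`) resp. in `Kn` (`k ≥ 1`), the other one empty.
`T3TMin.cmin`, `T3Col.touch`: near `y*` the boundary of `A` is `B i × {k}`, which is not over `I`: contradiction with `y_n.1 ∈ I`.] -/
theorem T3ZS.P_cpt (H : T3ZS X h t B O φ F N K ϑ x₀ L) {A : Set (V × ℝ)}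
    (hA : T3TMin 3 (t3Y X ϑ) (t3hY h) (t3tY t) (t3zKp (t3Y X ϑ) (t3zPi X h O φ x₀ L) (1 / 2))
      (t3zKn (t3Y X ϑ) (t3zPi X h O φ x₀ L) (1 / 2)) A) (a : ℝ) :
    IsCompact {y | y ∈ ctBd 3 (t3Y X ϑ) A ∧ y.1 ∈ t3Int X O φ ∧ rdist X h x₀ y.1 ≤ L - 1 ∧
      |y.2| ≤ a} := by
  have hG := H.geoY.1
  have hcol := H.pc.col
  have hKI : K ⊆ t3Int X O φ := fun x hx => H.tube (H.stp.sub hx)
  have hKdis : Disjoint K (t3Ext X O φ) := disjoint_left.2 fun x hx hx' => (hKI hx).2 hx'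
  obtain ⟨Hc, Hbox⟩ := H.stp.col hcol hKdis
  have hC := H.pc.proper x₀ H.base (L - 1)
  have hCX : {x | x ∈ t3Core X O φ ∧ rdist X h x₀ x ≤ L - 1} ⊆ X := fun x hx => hx.1.1
  have hBx := H.stp.box hcol.geo.mfd hC hCX a
  obtain ⟨Cb, hCb, hCbe⟩ := t3_bd_closed hG.mfd (by norm_num : 1 ≤ 3) A
  have hcr := if_rdist_continuousOn hcol.geo.mfd H.pc.conn hcol.geo.ten H.base
  obtain ⟨WL, hWL, hWLe⟩ := (continuousOn_iff'.1 hcr) (Iio L) isOpen_Iio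
  have hWo : IsOpen (Prod.fst ⁻¹' WL : Set (V × ℝ)) := hWL.preimage continuous_fst
  set G : Set (V × ℝ) :=
    ⋃₀ {Nn | IsOpen Nn ∧ ∀ y' ∈ ctBd 3 (t3Y X ϑ) A ∩ Nn, y'.1 ∉ t3Int X O φ} with hGdef
  have hGo : IsOpen G := isOpen_sUnion fun Nn hN => hN.1
  have hBI : ∀ i, ∀ x ∈ B i, x ∉ t3Int X O φ := fun i x hx hxI =>
    hxI.2 ⟨i, (hcol.df i).sub hx, (((hcol.df i).zero x ((hcol.df i).sub hx)).2 hx).le⟩
  have key : ∀ y ∈ ctBd 3 (t3Y X ϑ) A, y.1 ∈ t3Core X O φ → rdist X h x₀ y.1 ≤ L - 1 →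
      y.1 ∉ t3Int X O φ → y ∈ G := by
    intro y hyb hyc hyL hyI
    have hyY : y ∈ t3Y X ϑ := ct_bd_subset A hyb
    have hyE : y.1 ∈ t3Ext X O φ := by
      by_contra hn
      exact hyI ⟨hyc.1, hn⟩
    obtain ⟨i, hyi, hφ⟩ := hyE
    have hφ0 : φ i y.1 = 0 := le_antisymm hφ (by
      by_contra hlt
      exact hyc.2 ⟨i, hyi, not_le.1 hlt⟩)
    have hyB : y.1 ∈ B i := ((hcol.df i).zero y.1 hyi).1 hφ0
    have hyK : y.1 ∉ K := fun hk => hyI (hKI hk)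
    obtain ⟨k, hk⟩ : ∃ k : ℤ, y.2 = k := by
      obtain ⟨-, j, hj⟩ := hyY
      rcases H.stp.int y.1 hyc.1 hyK with h0 | h1
      · exact ⟨j, by rw [hj, h0, zero_add]⟩
      · exact ⟨j + 1, by rw [hj, h1]; push_cast; ring⟩
    have hyW : y.1 ∈ WL := by
      have : y.1 ∈ WL ∩ X :=
        hWLe ▸ (⟨by show rdist X h x₀ y.1 < L; linarith, hyc.1⟩ : y.1 ∈ rdist X h x₀ ⁻¹' Iio L ∩ X)
      exact this.1
    -- description of the constraints in the tube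
    have hloc : ∀ w : V × ℝ, w ∈ t3Y X ϑ →
        w ∈ ((O i \ K) ×ˢ Metric.ball (k : ℝ) (1 / 2) : Set (V × ℝ)) ∩ Prod.fst ⁻¹' WL →
        w.2 = k ∧ (w.1 ∈ t3zPi X h O φ x₀ L ↔ φ i w.1 ≤ 0) := by
      intro w hw hwO
      have h1 : w ∈ (X ∩ (O i \ K)) ×ˢ ({(k : ℝ)} : Set ℝ) := by
        rw [← Hbox (i, k)]; exact ⟨hw, hwO.1⟩
      refine ⟨h1.2, ?_⟩
      have hwL : rdist X h x₀ w.1 < L := by
        have : w.1 ∈ rdist X h x₀ ⁻¹' Iio L ∩ X := hWLe ▸ ⟨hwO.2, hw.1⟩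
        exact this.1
      constructor
      · rintro (⟨j, hwj, hφj⟩ | ⟨-, hL⟩)
        · by_cases hij : i = j
          · subst hij; exact hφj
          · exact absurd hwj (disjoint_left.1 (hcol.dis hij) ⟨hw.1, h1.1.2.1⟩)
        · exact absurd hwL (not_lt.2 hL)
      · intro hφw
        exact Or.inl ⟨i, ⟨hw.1, h1.1.2.1⟩, hφw⟩
    obtain ⟨Nn, hNn, hyN, hNe⟩ := Hc.touch (m := 2) (by norm_num) (by norm_num) (hA.cmin hG) (i, k)
      hWo (by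
        rcases le_or_gt k 0 with hk0 | hk0
        · left
          have hk0' : (k : ℝ) ≤ 0 := by exact_mod_cast hk0
          constructor
          · ext w
            constructor
            · rintro ⟨⟨hw, hwP, -⟩, hwO⟩
              exact ⟨⟨hw, hwO⟩, ((hloc w hw hwO).2).1 hwP⟩
            · rintro ⟨⟨hw, hwO⟩, hφw⟩
              refine ⟨⟨hw, ((hloc w hw hwO).2).2 hφw, ?_⟩, hwO⟩
              rw [(hloc w hw hwO).1]; linarith
          · ext w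
            simp only [mem_inter_iff, mem_empty_iff_false, iff_false]
            rintro ⟨⟨hw, -, hlt⟩, hwO⟩
            have h1 := (hloc w hw ⟨hwO.1, hwO.2⟩).1
            rw [h1] at hlt; linarith
        · right
          have hk0' : (1 : ℝ) ≤ k := by exact_mod_cast hk0
          constructor
          · ext w
            constructor
            · rintro ⟨⟨hw, hwP, -⟩, hwO⟩
              exact ⟨⟨hw, hwO⟩, ((hloc w hw hwO).2).1 hwP⟩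
            · rintro ⟨⟨hw, hwO⟩, hφw⟩
              refine ⟨⟨hw, ((hloc w hw hwO).2).2 hφw, ?_⟩, hwO⟩
              rw [(hloc w hw hwO).1]; linarith
          · ext w
            simp only [mem_inter_iff, mem_empty_iff_false, iff_false]
            rintro ⟨⟨hw, -, hlt⟩, hwO⟩
            have h1 := (hloc w hw ⟨hwO.1, hwO.2⟩).1
            rw [h1] at hlt; linarith)
      (q := y) ⟨⟨hyB, hk⟩, hyW⟩ hyb
    refine ⟨Nn, ⟨hNn, fun y' hy' => ?_⟩, hyN⟩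
    have : y' ∈ (B i ×ˢ ({(k : ℝ)} : Set ℝ)) ∩ Nn := hNe ▸ hy'
    exact hBI i y'.1 this.1.1
  have hS : {y | y ∈ ctBd 3 (t3Y X ϑ) A ∧ y.1 ∈ t3Int X O φ ∧ rdist X h x₀ y.1 ≤ L - 1 ∧
      |y.2| ≤ a} = ({z | z ∈ t3Y X ϑ ∧ z.1 ∈ {x | x ∈ t3Core X O φ ∧ rdist X h x₀ x ≤ L - 1} ∧
        |z.2| ≤ a} ∩ Cb) \ G := by
    ext y
    constructor
    · rintro ⟨hyb, hyI, hyL, hya⟩
      have hyY : y ∈ t3Y X ϑ := ct_bd_subset A hyb
      refine ⟨⟨⟨hyY, ⟨⟨hyI.1, fun hE => ?_⟩, hyL⟩, hya⟩, (hCbe ▸ hyb : y ∈ t3Y X ϑ ∩ Cb).2⟩, ?_⟩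
      · obtain ⟨i, hyi, hφ⟩ := hE
        exact hyI.2 ⟨i, hyi, hφ.le⟩
      · rintro ⟨Nn, ⟨-, hN⟩, hyN⟩
        exact hN y ⟨hyb, hyN⟩ hyI
    · rintro ⟨⟨⟨hyY, ⟨hyc, hyL⟩, hya⟩, hyCb⟩, hyG⟩
      have hyb : y ∈ ctBd 3 (t3Y X ϑ) A := hCbe ▸ ⟨hyY, hyCb⟩
      refine ⟨hyb, ?_, hyL, hya⟩
      by_contra hyI
      exact hyG (key y hyb hyc hyL hyI)
  rw [hS]
  exact (hBx.inter_right hCb).diff hGo

/-! ### L-T3-ZcC-9: assembly -/

/-- **the pinned case.** -/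
theorem T3ZS.P (H : T3ZS X h t B O φ F N K ϑ x₀ L)
    (hP : (t3ExtO X O φ ∪ {x | x ∈ X ∧ L < rdist X h x₀ x}).Nonempty) :
    ∃ (Wj : Set V) (A : Set (V × ℝ)), T3Zm X h t (t3Int X O φ) x₀ L (t3Y X ϑ) Wj A := by
  obtain ⟨Wj, hW, hJ⟩ := H.free_open L
  obtain ⟨A, hA⟩ := H.P_min
  have hY : ∀ k, t3Tk k (t3Y X ϑ) = t3Y X ϑ := t3Tk_Y X ϑ
  refine ⟨Wj, A, hW, hJ, fun k => ?_, fun k z hz h1 h2 => H.P_touch hW hJ hA k z hz h1 h2,
    fun z hz hzW => H.P_fin hP hW hJ hA hz hzW, fun a => H.P_cpt hA a⟩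
  have h1 := t3tk_tmin hY H.geoY.1 k hA
  rw [t3Tk_zKp hY, t3Tk_zKn hY] at h1
  exact H.P_lam hW hJ h1

end Claimed.Agent.R315
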