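-- KEEP
import Claimed.Agent.R315.T3.ZcC
import Claimed.Agent.R315.T3.Cm

/-!
# Row 315, paper T (n = 3), package T3-ZcD: the minimiser on the cyclic cover, COMPACT CASE

Sub-captain: helper72.  Setting `T3ZS` with EMPTY open pinned region: `X` is compact, there are no collars, `I = X` (`T3ZS.C_cpt`).  Nothing pins the minimiser horizontally, so we use VERTICAL OBSTACLES
`Lo a = {z ∈ Y | z.2 ≤ a} ⊆ A`, `A ∩ Hi b = ∅`, `Hi b = {z ∈ Y | b ≤ z.2}` and get rid of them by RECENTRING (the problem is invariant under deck translations):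

(1) `C_min`: minimiser `A_n` of the total perimeter for `a = -n`, `b = n + 1`; `P(A_n) ≤ a₀ = P(E₀)`.
(2) `C_count`: `A_n` is a local absolute minimiser in `{-n < height < n+1}`.  By `t3_per_lower` on the window `{|height| < 1}` (translated) every layer `D_j = {j - 1/2 < height < j + 1/2}`, `-n+1 ≤ j ≤ n`, which contains a boundary point costs `ε`; every point lies in at most two windows:
    at most `m₀ = 2 a₀/ε` such layers (`m₀` does not depend on `n`).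
(3) `C_type`: a layer without boundary points is connected (`T3Stp.layer`), so it is IN (`A` conull) or OUT (`A` null).  Layers `j ≤ -n-1` are IN, layers `j ≥ n+2` are OUT.
(4) `C_cut`, `C_center`: `j₁` = the least OUT layer, `j₀` = the greatest IN layer below `j₁`; the layers in between are neither: `j₁ - j₀ - 1 ≤ m₀ + 2`.  `A₁ = (A ∩ {height < j₁}) ∪ {height < j₀ + 1/2}` has `P(A₁) ≤ P(A)`; `A' = τ^{-j₀} A₁` is admissible, so it is a minimiser, and `E₀ ⊆ A' ⊆ {height < H₀}`, `H₀ = m₀ + 5`.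
(5) `C_stable`: the minimal values for all `n ≥ H₀` agree, and ONE set `A` solves all these problems.  (6) `t3zC_lam`: such a set is a local absolute minimiser in all of `Y`.  (7) `C_touch`: the same for `A ∩ τᵏ A`, `A ∪ τᵏ A` (`T3TMin.lattice`); `t3_smp2`.

LEAVES: L-T3-ZcD-1 (`C_cpt`, `C_min`), -2 (`C_count`), -3 (`C_type`, `C_cut`), -4 (`C_center`), -5 (`C_stable`), -6 (`t3zC_lam`), -7 (`C_touch`), -8 (`T3ZS.C`).
-/

set_option autoImplicit false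
set_option linter.unusedSectionVars false
open scoped ContDiff Topology ENNReal
open MeasureTheory Claims.C0499 Set Filter

namespace Claimed.Agent.R315

variable {V : Type} [NormedAddCommGroup V] [NormedSpace ℝ V]

/-- lower obstacle. -/
def t3Lo (Y : Set (V × ℝ)) (a : ℝ) : Set (V × ℝ) := {z | z ∈ Y ∧ z.2 ≤ a}

/-- upper obstacle. -/
def t3Hi (Y : Set (V × ℝ)) (b : ℝ) : Set (V × ℝ) := {z | z ∈ Y ∧ b ≤ z.2}

theorem t3ZcD_eqns_cite : True := by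
  have := @t3Lo.eq_1
  have := @t3Hi.eq_1
  trivial

variable [MeasurableSpace V] [BorelSpace V] [FiniteDimensional ℝ V]
variable {X : Set V} {h : Ten V} {t : V → ℝ} {ι : Type} {B O : ι → Set V} {φ : ι → V → ℝ}
  {F N K : Set V} {ϑ : V → ℝ} {x₀ : V} {L : ℝ}

/-! ### L-T3-ZcD-1 -/

/-- [`t3ExtO = ∅`: `t3Core = X`; all points have `rdist ≤ L`: `X` is the compact set `H.pc.proper x₀ L`.  If `x ∈ X ∩ O i`, `φ i x ≤ 0`, then `φ i x = 0`, `x ∈ B i`, and `t3g_box` produces a point of the tube with `φ i < 0`: contradiction.  So `t3Ext = ∅`.] -/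
theorem T3ZS.C_cpt (H : T3ZS X h t B O φ F N K ϑ x₀ L)
    (hC : ¬ (t3ExtO X O φ ∪ {x | x ∈ X ∧ L < rdist X h x₀ x}).Nonempty) :
    IsCompact X ∧ t3Int X O φ = X := by
  have hno : ∀ x, x ∉ t3ExtO X O φ ∪ {x | x ∈ X ∧ L < rdist X h x₀ x} :=
    fun x hx => hC ⟨x, hx⟩
  constructor
  · have : X = {x | x ∈ t3Core X O φ ∧ rdist X h x₀ x ≤ L} := by
      ext x
      constructor
      · intro hx
        exact ⟨⟨hx, fun h' => hno x (Or.inl h')⟩, not_lt.1 fun h' => hno x (Or.inr ⟨hx, h'⟩)⟩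
      · intro hx
        exact hx.1.1
    rw [this]
    exact H.pc.proper x₀ H.base L
  · refine sdiff_eq_left.2 ?_ |>.trans rfl
    rw [disjoint_left]
    rintro x hx ⟨i, hxi, hφ⟩
    rcases lt_or_eq_of_le hφ with h' | h'
    · exact hno x (Or.inl ⟨i, hxi, h'⟩)
    · have hxB : x ∈ B i := ((H.pc.col.df i).zero x hxi).1 h'
      obtain ⟨N', -, -, hN', -, -, -, ⟨y, hy, hy0⟩, -⟩ := t3g_box H.pc.col.geo.mfd
        H.pc.col.geo.met (H.pc.col.df i) hxB (W := univ) Filter.univ_mem one_pos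
      exact hno y (Or.inl ⟨i, ⟨hy.1, (hN' hy.2).2⟩, hy0⟩)

/-- [`t3_tmin_exists` with `E₀ = t3E0 X ϑ (1/2)` (`T3Stp.e0`); the obstacles are measurable; minimality against `E₀`.] -/
theorem T3ZS.C_min (H : T3ZS X h t B O φ F N K ϑ x₀ L) {a b : ℝ} (ha : a < 1 / 2)
    (hb : 1 / 2 ≤ b) :
    ∃ A, T3TMin 3 (t3Y X ϑ) (t3hY h) (t3tY t) (t3Lo (t3Y X ϑ) a) (t3Hi (t3Y X ϑ) b) A ∧
      wper 3 (t3Y X ϑ) (t3hY h) (t3tY t) A univ ≤
        wper 3 (t3Y X ϑ) (t3hY h) (t3tY t) (t3E0 X ϑ (1 / 2)) univ := by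
  have hG := H.geoY.1
  obtain ⟨hE, hEf⟩ := H.stp.e0 H.pc.col.geo
  have hYm := ct_measurableSet hG.mfd
  have m1 : MeasurableSet (t3Lo (t3Y X ϑ) a) :=
    hYm.inter (isClosed_le continuous_snd continuous_const).measurableSet
  have m2 : MeasurableSet (t3Hi (t3Y X ϑ) b) :=
    hYm.inter (isClosed_le continuous_const continuous_snd).measurableSet
  have s1 : t3Lo (t3Y X ϑ) a ⊆ t3E0 X ϑ (1 / 2) := fun z hz => ⟨hz.1, lt_of_le_of_lt hz.2 ha⟩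
  have s2 : Disjoint (t3E0 X ϑ (1 / 2)) (t3Hi (t3Y X ϑ) b) := by
    rw [disjoint_left]
    intro z hz hz'
    have e1 : z.2 < 1 / 2 := hz.2
    have e2 : b ≤ z.2 := hz'.2
    linarith
  obtain ⟨A, hA⟩ := t3_tmin_exists hG m1 m2 hE s1 s2 hEf
  exact ⟨A, hA, hA.2.2.2.2 _ hE s1 s2⟩

/-! ### L-T3-ZcD-2 -/

/-- **counting the layers which contain boundary points** (plan (2)).
[`O₀ = {z | |z.2| < 1}`, `M₀ = Y ∩ O₀`, `K₀ = {z ∈ Y | |z.2| ≤ 1/2}` compact (`T3Stp.box`, `C = X`); `t3_per_lower` in `M₀`, `p = 0`, `O = univ`: `ε`.  `m₀ ≥ 2 a₀/ε`.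
`A` is `CtLAM 0` in `Y ∩ {-n < snd < n+1}` (`T3TMin.cmin`, `T3CMin.inter`, `T3CMin.lam`), hence in `Y ∩ τʲ O₀` (`CtLAM.inter_open`), so `τ⁻ʲ A ∩ O₀` is `CtLAM 0` in `M₀` (`t3tk_lam`).  A boundary point of `A` in `D_j` gives a boundary point of `τ⁻ʲ A` in `K₀` (`t3tk_sets`, `ct_bd_inter`):
`ε ≤ wper M₀ (τ⁻ʲ A ∩ O₀) univ = wper Y (τ⁻ʲ A) O₀ = wper Y A (τʲ O₀)`.  The windows `τʲ O₀` with `j` even (odd) are pairwise disjoint: `card S · ε ≤ 2 wper A univ ≤ 2 a₀`.] -/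
theorem T3ZS.C_count (H : T3ZS X h t B O φ F N K ϑ x₀ L) (hX : IsCompact X) :
    ∃ m₀ : ℕ, ∀ (n : ℕ) (A : Set (V × ℝ)),
      T3TMin 3 (t3Y X ϑ) (t3hY h) (t3tY t) (t3Lo (t3Y X ϑ) (-n)) (t3Hi (t3Y X ϑ) (n + 1)) A →
      ∀ S : Finset ℤ, (∀ j ∈ S, -(n : ℤ) + 1 ≤ j ∧ j ≤ n ∧
        (ctBd 3 (t3Y X ϑ) A ∩ t3Lay X ϑ (j - 1 / 2) (j + 1 / 2)).Nonempty) → S.card ≤ m₀ := by
  classical
  have hY : ∀ k, t3Tk k (t3Y X ϑ) = t3Y X ϑ := t3Tk_Y X ϑ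
  have hG := H.geoY.1
  obtain ⟨hE, hEf⟩ := H.stp.e0 H.pc.col.geo
  have hO₀ : IsOpen {z : V × ℝ | |z.2| < 1} := isOpen_lt continuous_snd.abs continuous_const
  have hK₀ := H.stp.box H.pc.col.geo.mfd hX Subset.rfl (1 / 2)
  have hK₀M : {z | z ∈ t3Y X ϑ ∧ z.1 ∈ X ∧ |z.2| ≤ 1 / 2} ⊆ t3Y X ϑ ∩ {z : V × ℝ | |z.2| < 1} := by
    rintro z ⟨h1, -, h3⟩
    exact ⟨h1, lt_of_le_of_lt h3 (by norm_num)⟩
  obtain ⟨ε, hε, hlow⟩ := t3_per_lower (hG.inter hO₀) (by norm_num)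
    (p := fun _ => 0) (fun ψ U _ => contDiffOn_const) hK₀ hK₀M isOpen_univ (subset_univ _)
  obtain ⟨a₀, ha₀⟩ : ∃ a₀, a₀ = wper 3 (t3Y X ϑ) (t3hY h) (t3tY t) (t3E0 X ϑ (1 / 2)) univ :=
    ⟨_, rfl⟩
  have ha₀f : a₀ ≠ ⊤ := by rw [ha₀]; exact hEf
  have h2a : 2 * a₀ ≠ ⊤ := ENNReal.mul_ne_top (by norm_num) ha₀f
  obtain ⟨m₀, hm₀⟩ := ENNReal.exists_nat_gt (ENNReal.div_ne_top h2a hε.ne')
  refine ⟨m₀, fun n A hA S hS => ?_⟩
  have hn0 : (0 : ℝ) ≤ n := Nat.cast_nonneg _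
  -- total perimeter
  have hAa : wper 3 (t3Y X ϑ) (t3hY h) (t3tY t) A univ ≤ a₀ := by
    rw [ha₀]
    refine hA.2.2.2.2 _ hE (fun z hz => ⟨hz.1, ?_⟩) ?_
    · have : z.2 ≤ -(n : ℝ) := hz.2
      linarith
    · rw [disjoint_left]
      intro z hz hz'
      have e1 : z.2 < 1 / 2 := hz.2
      have e2 : (n : ℝ) + 1 ≤ z.2 := hz'.2
      linarith
  -- one window
  have hwin : ∀ j ∈ S, ε ≤ wper 3 (t3Y X ϑ) (t3hY h) (t3tY t) A (t3Tk j {z : V × ℝ | |z.2| < 1}) := by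
    intro j hj
    obtain ⟨hj1, hj2, z, hzb, hzl⟩ := hS j hj
    have hj1' : -(n : ℝ) + 1 ≤ (j : ℝ) := by exact_mod_cast hj1
    have hj2' : (j : ℝ) ≤ (n : ℝ) := by exact_mod_cast hj2
    have hW : IsOpen (t3Tk j {z : V × ℝ | |z.2| < 1}) := t3Tk_isOpen j hO₀
    have hc := (hA.cmin hG).inter hG hW
    have e1 : t3Lo (t3Y X ϑ) (-(n : ℝ)) ∩ t3Tk j {z : V × ℝ | |z.2| < 1} = ∅ := by
      rw [Set.eq_empty_iff_forall_notMem]
      rintro y ⟨hy1, hy2⟩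
      have a1 : y.2 ≤ -(n : ℝ) := hy1.2
      have a2 : |y.2 - (j : ℝ)| < 1 := hy2
      have := (abs_lt.1 a2).1
      linarith
    have e2 : t3Hi (t3Y X ϑ) ((n : ℝ) + 1) ∩ t3Tk j {z : V × ℝ | |z.2| < 1} = ∅ := by
      rw [Set.eq_empty_iff_forall_notMem]
      rintro y ⟨hy1, hy2⟩
      have a1 : (n : ℝ) + 1 ≤ y.2 := hy1.2
      have a2 : |y.2 - (j : ℝ)| < 1 := hy2
      have := (abs_lt.1 a2).2
      linarith
    rw [e1, e2] at hc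
    have hlam := t3tk_lam hY hG (-j) hW hc.lam
    rw [t3Tk_neg_left] at hlam
    -- the translated boundary point
    have hx : ((z.1, z.2 - (j : ℝ)) : V × ℝ) ∈ t3Tk (-j) (ctBd 3 (t3Y X ϑ) A) := by
      show ((z.1, z.2 - (j : ℝ) - ((-j : ℤ) : ℝ)) : V × ℝ) ∈ ctBd 3 (t3Y X ϑ) A
      have : z.2 - (j : ℝ) - ((-j : ℤ) : ℝ) = z.2 := by push_cast; ring
      rw [this]
      exact hzb
    have hzl1 : (j : ℝ) - 1 / 2 < z.2 := hzl.2.1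
    have hzl2 : z.2 < (j : ℝ) + 1 / 2 := hzl.2.2
    have habs : |z.2 - (j : ℝ)| ≤ 1 / 2 := abs_le.2 ⟨by linarith, by linarith⟩
    have hxY : ((z.1, z.2 - (j : ℝ)) : V × ℝ) ∈ t3Y X ϑ := by
      have h1 : ((z.1, z.2 - (j : ℝ)) : V × ℝ) ∈ t3Tk (-j) (t3Y X ϑ) := by
        show ((z.1, z.2 - (j : ℝ) - ((-j : ℤ) : ℝ)) : V × ℝ) ∈ t3Y X ϑ
        have : z.2 - (j : ℝ) - ((-j : ℤ) : ℝ) = z.2 := by push_cast; ring
        rw [this]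
        exact hzl.1
      rwa [hY] at h1
    have hxb : ((z.1, z.2 - (j : ℝ)) : V × ℝ) ∈ ctBd 3 (t3Y X ϑ ∩ {z : V × ℝ | |z.2| < 1})
        (t3Tk (-j) A ∩ {z : V × ℝ | |z.2| < 1}) := by
      rw [(ct_bd_inter hG.mfd (t3Tk (-j) A) hO₀).1, (t3tk_sets hY (-j) A).1]
      exact ⟨hx, lt_of_le_of_lt habs (by norm_num)⟩
    have h3 := hlow _ hlam _ ⟨hxY, hzl.1.1, habs⟩ hxb
    rw [ct_wper_inter hG (t3Tk_measurableSet (-j) hA.1.meas) hO₀, Measure.restrict_apply_univ] at h3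
    have h4 := t3tk_wper hY hG (-j) hA.1.meas (t3Tk j {z : V × ℝ | |z.2| < 1})
    rw [t3Tk_neg_left] at h4
    rw [← h4]
    exact h3
  -- disjoint windows
  have hpar : ∀ T : Finset ℤ, T ⊆ S → (∀ i ∈ T, ∀ j ∈ T, i ≠ j → 2 ≤ |i - j|) →
      ∑ j ∈ T, wper 3 (t3Y X ϑ) (t3hY h) (t3tY t) A (t3Tk j {z : V × ℝ | |z.2| < 1}) ≤ a₀ := by
    intro T _ hT
    rw [← measure_biUnion_finset (fun i hi j hj hij => ?_)
      (fun j _ => (t3Tk_isOpen j hO₀).measurableSet)]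
    · exact (measure_mono (subset_univ _)).trans hAa
    · rw [Function.onFun, disjoint_left]
      intro y hy1 hy2
      have a1 : |y.2 - (i : ℝ)| < 1 := hy1
      have a2 : |y.2 - (j : ℝ)| < 1 := hy2
      have a3 := hT i hi j hj hij
      have a4 : (2 : ℝ) ≤ |(i : ℝ) - (j : ℝ)| := by exact_mod_cast a3
      have b1 := abs_lt.1 a1
      have b2 := abs_lt.1 a2
      have : |(i : ℝ) - (j : ℝ)| < 2 := abs_lt.2 ⟨by linarith [b1.1, b1.2, b2.1, b2.2],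
        by linarith [b1.1, b1.2, b2.1, b2.2]⟩
      linarith
  have hev := hpar (S.filter fun j => Even j) (Finset.filter_subset _ _) (by
    intro i hi j hj hij
    rw [Finset.mem_filter] at hi hj
    obtain ⟨a, ha⟩ := hi.2
    obtain ⟨b, hb⟩ := hj.2
    rcases le_total (i - j) 0 with h' | h'
    · rw [abs_of_nonpos h']; omega
    · rw [abs_of_nonneg h']; omega)
  have hod := hpar (S.filter fun j => ¬ Even j) (Finset.filter_subset _ _) (by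
    intro i hi j hj hij
    rw [Finset.mem_filter] at hi hj
    obtain ⟨a, ha⟩ := Int.not_even_iff_odd.1 hi.2
    obtain ⟨b, hb⟩ := Int.not_even_iff_odd.1 hj.2
    rcases le_total (i - j) 0 with h' | h'
    · rw [abs_of_nonpos h']; omega
    · rw [abs_of_nonneg h']; omega)
  have hsum : (S.card : ℝ≥0∞) * ε ≤ 2 * a₀ := by
    calc (S.card : ℝ≥0∞) * ε = ∑ _j ∈ S, ε := by rw [Finset.sum_const, nsmul_eq_mul]
      _ ≤ ∑ j ∈ S, wper 3 (t3Y X ϑ) (t3hY h) (t3tY t) A (t3Tk j {z : V × ℝ | |z.2| < 1}) :=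
          Finset.sum_le_sum hwin
      _ = _ := (Finset.sum_filter_add_sum_filter_not S (fun j => Even j) _).symm
      _ ≤ a₀ + a₀ := add_le_add hev hod
      _ = 2 * a₀ := (two_mul a₀).symm
  have h5 : (S.card : ℝ≥0∞) ≤ 2 * a₀ / ε :=
    (ENNReal.le_div_iff_mul_le (Or.inl hε.ne') (Or.inr h2a)).2 hsum
  have h6 : (S.card : ℝ≥0∞) < (m₀ : ℝ≥0∞) := lt_of_le_of_lt h5 hm₀
  exact (Nat.cast_lt.1 h6).le

/-! ### L-T3-ZcD-3 -/

/-- a layer without boundary points is IN or OUT.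
[the layer is connected (`T3Stp.layer`) and covered by the disjoint relatively open sets `ctIn`, `ctOut` (`ct_trichotomy`, `ct_in_open`, `ct_out_open`); `ct_vol_in_diff`, `ct_vol_out_inter`.] -/
theorem T3ZS.C_type (H : T3ZS X h t B O φ F N K ϑ x₀ L) (hc : IsPreconnected (X \ F))
    (A : Set (V × ℝ)) (j : ℤ)
    (hj : Disjoint (ctBd 3 (t3Y X ϑ) A) (t3Lay X ϑ (j - 1 / 2) (j + 1 / 2))) :
    vol 3 (t3Y X ϑ) (t3hY h) (t3Lay X ϑ (j - 1 / 2) (j + 1 / 2) \ A) = 0 ∨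
      vol 3 (t3Y X ϑ) (t3hY h) (A ∩ t3Lay X ϑ (j - 1 / 2) (j + 1 / 2)) = 0 := by
  have hG := H.geoY.1
  have hlay := H.stp.layer H.pc.col.geo.mfd hc j
  obtain ⟨hcov, hdis, -, -⟩ := ct_trichotomy hG.mfd (by norm_num) A
  obtain ⟨O₁, hO₁, e₁⟩ := ct_in_open hG.mfd A
  obtain ⟨O₂, hO₂, e₂⟩ := ct_out_open hG.mfd A
  have hsub : t3Lay X ϑ (j - 1 / 2) (j + 1 / 2) ⊆ O₁ ∪ O₂ := by
    intro z hz
    have hzY : z ∈ ctIn 3 (t3Y X ϑ) A ∪ ctOut 3 (t3Y X ϑ) A ∪ ctBd 3 (t3Y X ϑ) A := by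
      rw [hcov]; exact hz.1
    rcases hzY with (h' | h') | h'
    · rw [← e₁] at h'; exact Or.inl h'.2
    · rw [← e₂] at h'; exact Or.inr h'.2
    · exact absurd hz (disjoint_left.1 hj h')
  by_cases h1 : (t3Lay X ϑ (j - 1 / 2) (j + 1 / 2) ∩ O₁).Nonempty
  · by_cases h2 : (t3Lay X ϑ (j - 1 / 2) (j + 1 / 2) ∩ O₂).Nonempty
    · obtain ⟨z, hz, hz1, hz2⟩ := hlay O₁ O₂ hO₁ hO₂ hsub h1 h2
      have a1 : z ∈ ctIn 3 (t3Y X ϑ) A := by rw [← e₁]; exact ⟨hz.1, hz1⟩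
      have a2 : z ∈ ctOut 3 (t3Y X ϑ) A := by rw [← e₂]; exact ⟨hz.1, hz2⟩
      exact absurd a2 (disjoint_left.1 hdis a1)
    · left
      refine measure_mono_null ?_ (ct_vol_in_diff hG A)
      rintro z ⟨hz, hzA⟩
      refine ⟨?_, hzA⟩
      rw [← e₁]
      rcases hsub hz with h' | h'
      · exact ⟨hz.1, h'⟩
      · exact absurd ⟨z, hz, h'⟩ h2
  · right
    refine measure_mono_null ?_ (ct_vol_out_inter hG A)
    rintro z ⟨hzA, hz⟩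
    refine ⟨?_, hzA⟩
    rw [← e₂]
    rcases hsub hz with h' | h'
    · exact absurd ⟨z, hz, h'⟩ h1
    · exact ⟨hz.1, h'⟩

/-- **cutting along an IN layer and an OUT layer.**
[Open cover `U₁ = {snd < j₀ + 1/2}`, `U₂ = {j₀ - 1/2 < snd < j₁ + 1/2}`, `U₃ = {j₁ - 1/2 < snd}`.  In `U₁`: `A₁ = Y`; in `U₃`: `A₁` is null; in `U₂`: `A₁ = A` a.e.  `ct_wper_congr`, `ct_wper_univ`, `ct_wper_empty`:
`wper A₁ univ ≤ wper A₁ U₁ + wper A₁ U₂ + wper A₁ U₃ = wper A U₂ ≤ wper A univ`.  `CtLF`: measurable, `⊆ Y`, finite total perimeter.] -/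
theorem T3ZS.C_cut (H : T3ZS X h t B O φ F N K ϑ x₀ L) {A : Set (V × ℝ)}
    (hA : CtLF 3 (t3Y X ϑ) (t3hY h) (t3tY t) A) {j₀ j₁ : ℤ} (hj : j₀ < j₁)
    (h0 : vol 3 (t3Y X ϑ) (t3hY h) (t3Lay X ϑ (j₀ - 1 / 2) (j₀ + 1 / 2) \ A) = 0)
    (h1 : vol 3 (t3Y X ϑ) (t3hY h) (A ∩ t3Lay X ϑ (j₁ - 1 / 2) (j₁ + 1 / 2)) = 0) :
    CtLF 3 (t3Y X ϑ) (t3hY h) (t3tY t) ((A ∩ {z | z.2 < j₁}) ∪ t3E0 X ϑ (j₀ + 1 / 2)) ∧
      wper 3 (t3Y X ϑ) (t3hY h) (t3tY t) ((A ∩ {z | z.2 < j₁}) ∪ t3E0 X ϑ (j₀ + 1 / 2)) univ ≤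
        wper 3 (t3Y X ϑ) (t3hY h) (t3tY t) A univ := by
  have hG := H.geoY.1
  have hYm := ct_measurableSet hG.mfd
  have hjr : (j₀ : ℝ) + 1 ≤ (j₁ : ℝ) := by exact_mod_cast hj
  obtain ⟨A₁, hA₁⟩ : ∃ A₁, A₁ = (A ∩ {z : V × ℝ | z.2 < j₁}) ∪ t3E0 X ϑ (j₀ + 1 / 2) := ⟨_, rfl⟩
  rw [← hA₁]
  have hmem : ∀ z, z ∈ A₁ ↔ (z ∈ A ∧ z.2 < (j₁ : ℝ)) ∨ (z ∈ t3Y X ϑ ∧ z.2 < (j₀ : ℝ) + 1 / 2) := by
    intro z; rw [hA₁]; rfl
  have hm : MeasurableSet A₁ := by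
    rw [hA₁]
    exact (hA.meas.inter (isOpen_lt continuous_snd continuous_const).measurableSet).union
      (hYm.inter (isOpen_lt continuous_snd continuous_const).measurableSet)
  have hsubY : A₁ ⊆ t3Y X ϑ := by
    intro z hz
    rcases (hmem z).1 hz with h' | h'
    · exact hA.sub h'.1
    · exact h'.1
  have hU₁ : IsOpen {z : V × ℝ | z.2 < (j₀ : ℝ) + 1 / 2} := isOpen_lt continuous_snd continuous_const
  have hU₂ : IsOpen {z : V × ℝ | (j₀ : ℝ) - 1 / 2 < z.2 ∧ z.2 < (j₁ : ℝ) + 1 / 2} :=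
    (isOpen_lt continuous_const continuous_snd).inter (isOpen_lt continuous_snd continuous_const)
  have hU₃ : IsOpen {z : V × ℝ | (j₁ : ℝ) - 1 / 2 < z.2} := isOpen_lt continuous_const continuous_snd
  have r₁ := ct_wper_congr hG hm hYm hU₁ (by
    have : symmDiff A₁ (t3Y X ϑ) ∩ {z : V × ℝ | z.2 < (j₀ : ℝ) + 1 / 2} = ∅ := by
      rw [Set.eq_empty_iff_forall_notMem]
      rintro z ⟨hz | hz, hzU⟩
      · exact hz.2 (hsubY hz.1)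
      · exact hz.2 ((hmem z).2 (Or.inr ⟨hz.1, hzU⟩))
    rw [this]; exact measure_empty)
  have r₃ := ct_wper_congr hG hm MeasurableSet.empty hU₃ (by
    refine measure_mono_null ?_ h1
    rintro z ⟨hz | hz, hzU⟩
    · have hzU' : (j₁ : ℝ) - 1 / 2 < z.2 := hzU
      rcases (hmem z).1 hz.1 with h' | h'
      · exact ⟨h'.1, hA.sub h'.1, hzU', by linarith [h'.2]⟩
      · exfalso; linarith [h'.2]
    · exact absurd hz.1 (Set.notMem_empty z))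
  have r₂ := ct_wper_congr hG hm hA.meas hU₂ (by
    refine measure_mono_null ?_ (measure_union_null h0 h1)
    rintro z ⟨hz | hz, hzU⟩
    · have hzU' : (j₀ : ℝ) - 1 / 2 < z.2 ∧ z.2 < (j₁ : ℝ) + 1 / 2 := hzU
      rcases (hmem z).1 hz.1 with h' | h'
      · exact absurd h'.1 hz.2
      · exact Or.inl ⟨⟨h'.1, hzU'.1, h'.2⟩, hz.2⟩
    · have hzU' : (j₀ : ℝ) - 1 / 2 < z.2 ∧ z.2 < (j₁ : ℝ) + 1 / 2 := hzU
      have h3 : ¬ z.2 < (j₁ : ℝ) := fun h' => hz.2 ((hmem z).2 (Or.inl ⟨hz.1, h'⟩))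
      exact Or.inr ⟨hz.1, hA.sub hz.1, by linarith, hzU'.2⟩)
  rw [ct_wper_univ hG, Measure.restrict_zero] at r₁
  rw [ct_wper_empty hG, Measure.restrict_zero] at r₃
  have key : ∀ C : Set (V × ℝ), wper 3 (t3Y X ϑ) (t3hY h) (t3tY t) A₁ C ≤
      wper 3 (t3Y X ϑ) (t3hY h) (t3tY t) A C := by
    intro C
    have c₁ : wper 3 (t3Y X ϑ) (t3hY h) (t3tY t) A₁
        (C ∩ {z : V × ℝ | z.2 < (j₀ : ℝ) + 1 / 2}) = 0 := by
      rw [← Measure.restrict_apply' hU₁.measurableSet, r₁]; rfl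
    have c₃ : wper 3 (t3Y X ϑ) (t3hY h) (t3tY t) A₁
        (C ∩ {z : V × ℝ | (j₁ : ℝ) - 1 / 2 < z.2}) = 0 := by
      rw [← Measure.restrict_apply' hU₃.measurableSet, r₃]; rfl
    have c₂ : wper 3 (t3Y X ϑ) (t3hY h) (t3tY t) A₁
        (C ∩ {z : V × ℝ | (j₀ : ℝ) - 1 / 2 < z.2 ∧ z.2 < (j₁ : ℝ) + 1 / 2}) ≤
        wper 3 (t3Y X ϑ) (t3hY h) (t3tY t) A C := by
      rw [← Measure.restrict_apply' hU₂.measurableSet, r₂,
        Measure.restrict_apply' hU₂.measurableSet]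
      exact measure_mono inter_subset_left
    have hcov : C ⊆ (C ∩ {z : V × ℝ | z.2 < (j₀ : ℝ) + 1 / 2} ∪
        C ∩ {z : V × ℝ | (j₀ : ℝ) - 1 / 2 < z.2 ∧ z.2 < (j₁ : ℝ) + 1 / 2}) ∪
        C ∩ {z : V × ℝ | (j₁ : ℝ) - 1 / 2 < z.2} := by
      intro z hz
      by_cases a1 : z.2 < (j₀ : ℝ) + 1 / 2
      · exact Or.inl (Or.inl ⟨hz, a1⟩)
      · by_cases a2 : z.2 < (j₁ : ℝ) + 1 / 2
        · exact Or.inl (Or.inr ⟨hz, by
            show (j₀ : ℝ) - 1 / 2 < z.2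
            linarith [not_lt.1 a1], a2⟩)
        · refine Or.inr ⟨hz, ?_⟩
          show (j₁ : ℝ) - 1 / 2 < z.2
          linarith [not_lt.1 a2]
    calc wper 3 (t3Y X ϑ) (t3hY h) (t3tY t) A₁ C
        ≤ _ := measure_mono hcov
      _ ≤ _ := (measure_union_le _ _).trans (add_le_add_left (measure_union_le _ _) _)
      _ ≤ wper 3 (t3Y X ϑ) (t3hY h) (t3tY t) A C := by
          rw [c₁, c₃, zero_add, add_zero]
          exact c₂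
  exact ⟨⟨hm, hsubY, fun K' hK hKY => ne_top_of_le_ne_top (hA.fin K' hK hKY) (key K')⟩, key univ⟩

/-! ### L-T3-ZcD-4 -/

/-- **recentring** (plan (3), (4)).
[`m₀` from `C_count`, `H₀ = m₀ + 5`.  Layers have positive volume (`ct_wvol_pos`/`ct_vol_ac`), so no layer is both IN and OUT.  `j ≤ -n-1`: the layer lies in `Lo (-n) ⊆ A`: IN.  `j ≥ n+2`: the layer lies in `Hi (n+1)`: OUT.
`j₁ = ` least OUT index (`Int.exists_least_of_bdd`), `j₀ = ` greatest IN index `< j₁`.  Every `j₀ < j < j₁` is neither IN nor OUT, so by `C_type` its layer contains a boundary point; all of them except possibly `j = -n`, `j = n+1` are counted by `C_count` (`S = Finset.Ioo j₀ j₁` minus these two).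
`A₁` from `C_cut`; `A' = τ^{-j₀} A₁` (`t3tk_lf`, `t3tk_wper`): `t3E0 (1/2) ⊆ A' ⊆ {snd < j₁ - j₀} ⊆ t3E0 H₀`; admissible because `H₀ ≤ n`; `wper A' univ ≤ wper A univ`.] -/
theorem T3ZS.C_center (H : T3ZS X h t B O φ F N K ϑ x₀ L) (hX : IsCompact X)
    (hc : IsPreconnected (X \ F)) :
    ∃ H₀ : ℕ, ∀ (n : ℕ) (A : Set (V × ℝ)), H₀ ≤ n →
      T3TMin 3 (t3Y X ϑ) (t3hY h) (t3tY t) (t3Lo (t3Y X ϑ) (-n)) (t3Hi (t3Y X ϑ) (n + 1)) A →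
      ∃ A', T3TMin 3 (t3Y X ϑ) (t3hY h) (t3tY t) (t3Lo (t3Y X ϑ) (-n))
          (t3Hi (t3Y X ϑ) (n + 1)) A' ∧ t3E0 X ϑ (1 / 2) ⊆ A' ∧ A' ⊆ t3E0 X ϑ H₀ := by
  classical
  obtain ⟨m₀, hm₀⟩ := H.C_count hX
  refine ⟨m₀ + 5, fun n A hn hA => ?_⟩
  have hY : ∀ k, t3Tk k (t3Y X ϑ) = t3Y X ϑ := t3Tk_Y X ϑ
  have hG := H.geoY.1
  -- a point off `F`
  have hne : ∃ x ∈ X, ϑ x ≠ 1 / 2 := by
    by_cases hx₀ : x₀ ∈ F
    · obtain ⟨N', -, -, hN', -, ⟨y, hy, hy0⟩, -⟩ := t3g_box H.pc.col.geo.mfd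
        H.pc.col.geo.met H.stp.df hx₀ (W := univ) Filter.univ_mem one_pos
      have hy0' : 0 < ϑ y - 1 / 2 := hy0
      exact ⟨y, hy.1, by linarith⟩
    · exact ⟨x₀, H.base, fun h' => hx₀ ((H.stp.zl_half x₀ H.base).1 h')⟩
  -- layers have positive volume
  have hpos : ∀ j : ℤ,
      vol 3 (t3Y X ϑ) (t3hY h) (t3Lay X ϑ (j - 1 / 2) (j + 1 / 2)) ≠ 0 := by
    intro j h0
    have hO : IsOpen {z : V × ℝ | (j : ℝ) - 1 / 2 < z.2 ∧ z.2 < j + 1 / 2} :=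
      (isOpen_lt continuous_const continuous_snd).inter (isOpen_lt continuous_snd continuous_const)
    have hne' : (t3Y X ϑ ∩ {z : V × ℝ | (j : ℝ) - 1 / 2 < z.2 ∧ z.2 < j + 1 / 2}).Nonempty := by
      obtain ⟨x, hx, hxϑ⟩ := hne
      obtain ⟨r0, r1⟩ := H.stp.rng x
      rcases lt_or_gt_of_ne hxϑ with h' | h'
      · refine ⟨(x, ϑ x + j), ⟨hx, j, rfl⟩, ?_, ?_⟩
        · show (j : ℝ) - 1 / 2 < ϑ x + j
          linarith
        · show ϑ x + j < (j : ℝ) + 1 / 2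
          linarith
      · refine ⟨(x, ϑ x + ((j - 1 : ℤ) : ℝ)), ⟨hx, j - 1, rfl⟩, ?_, ?_⟩
        · show (j : ℝ) - 1 / 2 < ϑ x + ((j - 1 : ℤ) : ℝ)
          push_cast
          linarith
        · show ϑ x + ((j - 1 : ℤ) : ℝ) < (j : ℝ) + 1 / 2
          push_cast
          linarith
    have h1 := ct_wvol_pos hG hO hne'
    have h2 : vol 3 (t3Y X ϑ) (t3hY h)
        {z : V × ℝ | (j : ℝ) - 1 / 2 < z.2 ∧ z.2 < j + 1 / 2} = 0 := by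
      refine measure_mono_null (t := t3Lay X ϑ (j - 1 / 2) (j + 1 / 2) ∪ (t3Y X ϑ)ᶜ) ?_
        (measure_union_null h0 (if_vol_compl hG.mfd _))
      intro z hz
      by_cases hzY : z ∈ t3Y X ϑ
      · exact Or.inl ⟨hzY, hz⟩
      · exact Or.inr hzY
    exact h1.ne' ((ct_wvol_eq_zero_iff hG _).2 h2)
  obtain ⟨IN, hINdef⟩ : ∃ IN : ℤ → Prop, IN = fun j : ℤ =>
      vol 3 (t3Y X ϑ) (t3hY h) (t3Lay X ϑ (j - 1 / 2) (j + 1 / 2) \ A) = 0 := ⟨_, rfl⟩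
  obtain ⟨OUT, hOUTdef⟩ : ∃ OUT : ℤ → Prop, OUT = fun j : ℤ =>
      vol 3 (t3Y X ϑ) (t3hY h) (A ∩ t3Lay X ϑ (j - 1 / 2) (j + 1 / 2)) = 0 := ⟨_, rfl⟩
  have hnot : ∀ j, IN j → OUT j → False := by
    intro j h1 h2
    rw [hINdef] at h1
    rw [hOUTdef] at h2
    refine hpos j (measure_mono_null ?_ (measure_union_null h1 h2))
    intro z hz
    by_cases hzA : z ∈ A
    · exact Or.inr ⟨hzA, hz⟩
    · exact Or.inl ⟨hz, hzA⟩
  have hIN : ∀ j : ℤ, j ≤ -(n : ℤ) - 1 → IN j := by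
    intro j hj
    rw [hINdef]
    have : t3Lay X ϑ (j - 1 / 2) (j + 1 / 2) \ A = ∅ := by
      rw [Set.sdiff_eq_empty]
      intro z hz
      refine hA.2.1 ⟨hz.1, ?_⟩
      have h1 : z.2 < (j : ℝ) + 1 / 2 := hz.2.2
      have h2 : (j : ℝ) ≤ -(n : ℝ) - 1 := by exact_mod_cast hj
      linarith
    show vol 3 (t3Y X ϑ) (t3hY h) (t3Lay X ϑ (j - 1 / 2) (j + 1 / 2) \ A) = 0
    rw [this]
    exact measure_empty
  have hOUT : ∀ j : ℤ, (n : ℤ) + 2 ≤ j → OUT j := by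
    intro j hj
    rw [hOUTdef]
    have : A ∩ t3Lay X ϑ (j - 1 / 2) (j + 1 / 2) = ∅ := by
      rw [← disjoint_iff_inter_eq_empty, disjoint_left]
      intro z hzA hz
      refine (disjoint_left.1 hA.2.2.1) hzA ⟨hz.1, ?_⟩
      have h1 : (j : ℝ) - 1 / 2 < z.2 := hz.2.1
      have h2 : (n : ℝ) + 2 ≤ (j : ℝ) := by exact_mod_cast hj
      linarith
    show vol 3 (t3Y X ϑ) (t3hY h) (A ∩ t3Lay X ϑ (j - 1 / 2) (j + 1 / 2)) = 0
    rw [this]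
    exact measure_empty
  obtain ⟨j₁, hj₁, hj₁min⟩ := Int.exists_least_of_bdd (P := OUT)
    ⟨-(n : ℤ), fun z hz => by
      by_contra hlt
      exact hnot z (hIN z (by omega)) hz⟩ ⟨(n : ℤ) + 2, hOUT _ le_rfl⟩
  have hj₁lo : -(n : ℤ) - 1 < j₁ := by
    by_contra hlt
    exact hnot j₁ (hIN j₁ (by omega)) hj₁
  have hj₁hi : j₁ ≤ (n : ℤ) + 2 := hj₁min _ (hOUT _ le_rfl)
  obtain ⟨j₀, ⟨hj₀, hj₀lt⟩, hj₀max⟩ := Int.exists_greatest_of_bdd (P := fun j => IN j ∧ j < j₁)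
    ⟨j₁, fun z hz => hz.2.le⟩ ⟨-(n : ℤ) - 1, hIN _ le_rfl, hj₁lo⟩
  have hj₀lo : -(n : ℤ) - 1 ≤ j₀ := hj₀max _ ⟨hIN _ le_rfl, hj₁lo⟩
  have hcard : ((Finset.Ioo j₀ j₁).filter (fun j => -(n : ℤ) + 1 ≤ j ∧ j ≤ n)).card ≤ m₀ := by
    refine hm₀ n A hA _ (fun j hj => ?_)
    rw [Finset.mem_filter, Finset.mem_Ioo] at hj
    refine ⟨hj.2.1, hj.2.2, ?_⟩
    by_contra hemp
    rw [Set.not_nonempty_iff_eq_empty, ← Set.disjoint_iff_inter_eq_empty] at hemp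
    rcases H.C_type hc A j hemp with h' | h'
    · have h3 : IN j := by rw [hINdef]; exact h'
      have := hj₀max j ⟨h3, hj.1.2⟩
      omega
    · have h3 : OUT j := by rw [hOUTdef]; exact h'
      have := hj₁min j h3
      omega
  have hsub : Finset.Ioo j₀ j₁ ⊆
      (Finset.Ioo j₀ j₁).filter (fun j => -(n : ℤ) + 1 ≤ j ∧ j ≤ n) ∪ {-(n : ℤ), (n : ℤ) + 1} := by
    intro j hj
    rw [Finset.mem_Ioo] at hj
    simp only [Finset.mem_union, Finset.mem_filter, Finset.mem_Ioo, Finset.mem_insert,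
      Finset.mem_singleton]
    omega
  have hgap : j₁ - j₀ ≤ (m₀ : ℤ) + 3 := by
    have h1 := Finset.card_le_card hsub
    have h2 := Finset.card_union_le
      ((Finset.Ioo j₀ j₁).filter (fun j => -(n : ℤ) + 1 ≤ j ∧ j ≤ n)) {-(n : ℤ), (n : ℤ) + 1}
    have h3 : ({-(n : ℤ), (n : ℤ) + 1} : Finset ℤ).card ≤ 2 := Finset.card_le_two
    rw [Int.card_Ioo] at h1
    omega
  have h0' : vol 3 (t3Y X ϑ) (t3hY h) (t3Lay X ϑ (j₀ - 1 / 2) (j₀ + 1 / 2) \ A) = 0 := by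
    rw [hINdef] at hj₀; exact hj₀
  have h1' : vol 3 (t3Y X ϑ) (t3hY h) (A ∩ t3Lay X ϑ (j₁ - 1 / 2) (j₁ + 1 / 2)) = 0 := by
    rw [hOUTdef] at hj₁; exact hj₁
  obtain ⟨hlf, hle⟩ := H.C_cut hA.1 hj₀lt h0' h1'
  obtain ⟨A₁, hA₁⟩ : ∃ A₁, A₁ = (A ∩ {z : V × ℝ | z.2 < j₁}) ∪ t3E0 X ϑ (j₀ + 1 / 2) := ⟨_, rfl⟩
  rw [← hA₁] at hlf hle
  have hw : wper 3 (t3Y X ϑ) (t3hY h) (t3tY t) (t3Tk (-j₀) A₁) univ =
      wper 3 (t3Y X ϑ) (t3hY h) (t3tY t) A₁ univ := t3tk_wper hY hG (-j₀) hlf.meas univ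
  have hE1 : t3E0 X ϑ (1 / 2) ⊆ t3Tk (-j₀) A₁ := by
    have h1 : t3E0 X ϑ (j₀ + 1 / 2) ⊆ A₁ := by rw [hA₁]; exact subset_union_right
    have h2 := t3Tk_mono (-j₀) h1
    rw [t3Tk_E0] at h2
    have h3 : (j₀ : ℝ) + 1 / 2 + ((-j₀ : ℤ) : ℝ) = 1 / 2 := by push_cast; ring
    rwa [h3] at h2
  have hE2 : t3Tk (-j₀) A₁ ⊆ t3E0 X ϑ ((m₀ + 5 : ℕ) : ℝ) := by
    have h1 : A₁ ⊆ t3E0 X ϑ (j₁ : ℝ) := by
      rw [hA₁]
      rintro z (hz | hz)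
      · exact ⟨hA.1.sub hz.1, hz.2⟩
      · refine ⟨hz.1, ?_⟩
        have e1 : z.2 < (j₀ : ℝ) + 1 / 2 := hz.2
        have e2 : (j₀ : ℝ) + 1 ≤ (j₁ : ℝ) := by exact_mod_cast hj₀lt
        linarith
    have h2 := t3Tk_mono (-j₀) h1
    rw [t3Tk_E0] at h2
    intro z hz
    have h3 := h2 hz
    refine ⟨h3.1, ?_⟩
    have e1 : z.2 < (j₁ : ℝ) + ((-j₀ : ℤ) : ℝ) := h3.2
    have e2 : (j₁ : ℝ) - (j₀ : ℝ) ≤ (m₀ : ℝ) + 3 := by exact_mod_cast hgap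
    push_cast at e1 ⊢
    linarith
  have hn' : (m₀ : ℝ) + 5 ≤ (n : ℝ) := by exact_mod_cast hn
  refine ⟨t3Tk (-j₀) A₁, ⟨t3tk_lf hY hG (-j₀) hlf, ?_, ?_, ?_, ?_⟩, hE1, hE2⟩
  · intro z hz
    refine hE1 ⟨hz.1, ?_⟩
    have e1 : z.2 ≤ -(n : ℝ) := hz.2
    have e2 : (0 : ℝ) ≤ n := Nat.cast_nonneg _
    linarith
  · rw [disjoint_left]
    intro z hz hz'
    have e1 : z.2 < ((m₀ + 5 : ℕ) : ℝ) := (hE2 hz).2
    have e2 : (n : ℝ) + 1 ≤ z.2 := hz'.2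
    push_cast at e1
    linarith
  · rw [hw]
    exact ne_top_of_le_ne_top hA.2.2.2.1 hle
  · intro G g1 g2 g3
    rw [hw]
    exact hle.trans (hA.2.2.2.2 G g1 g2 g3)

/-! ### L-T3-ZcD-5 -/

/-- **one set solves all obstacle problems** (plan (5)).
[`H₀` from `C_center`; `A` = the recentred solution for `n = H₀` (`C_min`).  For `n ≥ H₀` let `A'_n` be a recentred solution: it is admissible for the problem `H₀` (`Lo (-H₀) ⊆ t3E0 (1/2) ⊆ A'_n`, `A'_n ⊆ t3E0 H₀` misses `Hi (H₀+1)`), so `P(A) ≤ P(A'_n)`;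
`A` is admissible for the problem `n`; hence `A` solves it.] -/
theorem T3ZS.C_stable (H : T3ZS X h t B O φ F N K ϑ x₀ L) (hX : IsCompact X)
    (hc : IsPreconnected (X \ F)) :
    ∃ (H₀ : ℕ) (A : Set (V × ℝ)), t3E0 X ϑ (1 / 2) ⊆ A ∧ A ⊆ t3E0 X ϑ H₀ ∧ ∀ n : ℕ, H₀ ≤ n →
      T3TMin 3 (t3Y X ϑ) (t3hY h) (t3tY t) (t3Lo (t3Y X ϑ) (-n)) (t3Hi (t3Y X ϑ) (n + 1)) A := by
  obtain ⟨H₀, hcen⟩ := H.C_center hX hc
  have hex : ∀ n : ℕ, H₀ ≤ n → ∃ A', T3TMin 3 (t3Y X ϑ) (t3hY h) (t3tY t) (t3Lo (t3Y X ϑ) (-n))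
      (t3Hi (t3Y X ϑ) (n + 1)) A' ∧ t3E0 X ϑ (1 / 2) ⊆ A' ∧ A' ⊆ t3E0 X ϑ H₀ := by
    intro n hn
    have hn0 : (0 : ℝ) ≤ n := Nat.cast_nonneg _
    obtain ⟨A0, hA0, -⟩ := H.C_min (a := -(n : ℝ)) (b := (n : ℝ) + 1) (by linarith) (by linarith)
    exact hcen n A0 hn hA0
  obtain ⟨A, hA, hA1, hA2⟩ := hex H₀ le_rfl
  refine ⟨H₀, A, hA1, hA2, fun n hn => ?_⟩
  obtain ⟨An, hAn, hAn1, hAn2⟩ := hex n hn
  have hH0 : (0 : ℝ) ≤ H₀ := Nat.cast_nonneg _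
  have hnH : (H₀ : ℝ) ≤ n := Nat.cast_le.2 hn
  have h1 : wper 3 (t3Y X ϑ) (t3hY h) (t3tY t) A univ ≤
      wper 3 (t3Y X ϑ) (t3hY h) (t3tY t) An univ := by
    refine hA.2.2.2.2 An hAn.1 (fun z hz => hAn1 ⟨hz.1, ?_⟩) ?_
    · have : z.2 ≤ -(H₀ : ℝ) := hz.2
      linarith
    · rw [disjoint_left]
      intro z hz hz'
      have h2 : z.2 < H₀ := (hAn2 hz).2
      have h3 : (H₀ : ℝ) + 1 ≤ z.2 := hz'.2
      linarith
  refine ⟨hA.1, fun z hz => hA1 ⟨hz.1, ?_⟩, ?_, hA.2.2.2.1,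
    fun G g1 g2 g3 => h1.trans (hAn.2.2.2.2 G g1 g2 g3)⟩
  · have : z.2 ≤ -(n : ℝ) := hz.2
    linarith
  · rw [disjoint_left]
    intro z hz hz'
    have h2 : z.2 < H₀ := (hA2 hz).2
    have h3 : (n : ℝ) + 1 ≤ z.2 := hz'.2
    linarith

/-! ### L-T3-ZcD-6 -/

/-- a set which solves obstacle problems with arbitrarily far obstacles is a local absolute minimiser.
[`K'` compact: `|snd| ≤ n₀ - 1` on `K'`.  Take `a ≤ -n₀`, `b ≥ n₀`.  A competitor `G` with `A △ G ⊆ K'` satisfies the obstacle conditions (they hold for `A`, and the obstacles miss `K'`).  `T3TMin.cmin`.] -/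
theorem t3zC_lam {Y : Set (V × ℝ)} (hG : CtGeo 3 Y (t3hY h) (t3tY t)) {A : Set (V × ℝ)}
    (hA : ∀ n₀ : ℕ, ∃ a b : ℝ, a ≤ -n₀ ∧ (n₀ : ℝ) ≤ b ∧
      T3TMin 3 Y (t3hY h) (t3tY t) (t3Lo Y a) (t3Hi Y b) A) :
    CtLAM 3 Y (t3hY h) (t3tY t) (fun _ => 0) A := by
  obtain ⟨a0, b0, -, -, h0⟩ := hA 0
  refine ⟨h0.1, fun K' G hK hKY hGlf hs => ?_⟩
  obtain ⟨R, hR⟩ := hK.exists_bound_of_continuousOn (f := fun z : V × ℝ => z.2)
    continuous_snd.continuousOn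
  obtain ⟨n₀, hn₀⟩ := exists_nat_gt R
  obtain ⟨a, b, ha, hb, hT⟩ := hA n₀
  refine (hT.cmin hG).2.2.2 K' G hK hKY hGlf ?_ ?_ hs
  · intro z hz
    by_contra hzG
    have h1 : z ∈ K' := hs (Or.inl ⟨hT.2.1 hz, hzG⟩)
    have h2 := hR z h1
    rw [Real.norm_eq_abs] at h2
    have h3 : z.2 ≤ a := hz.2
    have := (abs_le.1 h2).1
    linarith
  · rw [disjoint_left]
    intro z hzG hz
    have hzA : z ∉ A := fun hzA => (disjoint_left.1 hT.2.2.1) hzA hz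
    have h1 : z ∈ K' := hs (Or.inr ⟨hzG, hzA⟩)
    have h2 := hR z h1
    rw [Real.norm_eq_abs] at h2
    have h3 : b ≤ z.2 := hz.2
    have := (abs_le.1 h2).2
    linarith

theorem t3Tk_Lo {Y : Set (V × ℝ)} (hY : ∀ k, t3Tk k Y = Y) (a : ℝ) (k : ℤ) :
    t3Tk k (t3Lo Y a) = t3Lo Y (a + k) := by
  ext z
  have hz : z ∈ t3Tk k Y ↔ z ∈ Y := by rw [hY]
  constructor
  · rintro ⟨h1, h3⟩
    exact ⟨hz.1 h1, by have : z.2 - k ≤ a := h3; linarith⟩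
  · rintro ⟨h1, h3⟩
    exact ⟨hz.2 h1, by show z.2 - k ≤ a; linarith⟩

theorem t3Tk_Hi {Y : Set (V × ℝ)} (hY : ∀ k, t3Tk k Y = Y) (b : ℝ) (k : ℤ) :
    t3Tk k (t3Hi Y b) = t3Hi Y (b + k) := by
  ext z
  have hz : z ∈ t3Tk k Y ↔ z ∈ Y := by rw [hY]
  constructor
  · rintro ⟨h1, h3⟩
    exact ⟨hz.1 h1, by have : b ≤ z.2 - k := h3; linarith⟩
  · rintro ⟨h1, h3⟩
    exact ⟨hz.2 h1, by show b ≤ z.2 - k; linarith⟩

/-- all translates of the stable solution, and the intersections and unions of two of them, are local absolute minimisers in the whole cover. -/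
theorem T3ZS.C_lams (H : T3ZS X h t B O φ F N K ϑ x₀ L) {H₀ : ℕ} {A : Set (V × ℝ)}
    (h1 : t3E0 X ϑ (1 / 2) ⊆ A) (h2 : A ⊆ t3E0 X ϑ H₀)
    (hA : ∀ n : ℕ, H₀ ≤ n →
      T3TMin 3 (t3Y X ϑ) (t3hY h) (t3tY t) (t3Lo (t3Y X ϑ) (-n)) (t3Hi (t3Y X ϑ) (n + 1)) A)
    (k : ℤ) :
    CtLAM 3 (t3Y X ϑ) (t3hY h) (t3tY t) (fun _ => 0) (t3Tk k A) ∧
    (0 ≤ k → CtLAM 3 (t3Y X ϑ) (t3hY h) (t3tY t) (fun _ => 0) (A ∩ t3Tk k A) ∧
      CtLAM 3 (t3Y X ϑ) (t3hY h) (t3tY t) (fun _ => 0) (A ∪ t3Tk k A)) := by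
  have hY : ∀ k, t3Tk k (t3Y X ϑ) = t3Y X ϑ := t3Tk_Y X ϑ
  have hG := H.geoY.1
  have hAk : ∀ n : ℕ, H₀ ≤ n → T3TMin 3 (t3Y X ϑ) (t3hY h) (t3tY t) (t3Lo (t3Y X ϑ) (-n + k))
      (t3Hi (t3Y X ϑ) (n + 1 + k)) (t3Tk k A) := fun n hn => by
    have := t3tk_tmin hY hG k (hA n hn)
    rwa [t3Tk_Lo hY, t3Tk_Hi hY] at this
  refine ⟨t3zC_lam hG fun n₀ => ?_, fun hk => ?_⟩
  · refine ⟨_, _, ?_, ?_, hAk (H₀ + n₀ + k.natAbs) (by omega)⟩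
    · have : (k : ℝ) ≤ (k.natAbs : ℝ) := by
        rw [Nat.cast_natAbs, Int.cast_abs]; exact le_abs_self _
      push_cast
      have h0 : (0 : ℝ) ≤ H₀ := Nat.cast_nonneg _
      linarith
    · have : -(k : ℝ) ≤ (k.natAbs : ℝ) := by
        rw [Nat.cast_natAbs, Int.cast_abs]; exact neg_le_abs _
      push_cast
      have h0 : (0 : ℝ) ≤ H₀ := Nat.cast_nonneg _
      linarith
  · have hk0 : (0 : ℝ) ≤ k := Int.cast_nonneg hk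
    have hlat : ∀ n : ℕ, H₀ ≤ n →
        T3TMin 3 (t3Y X ϑ) (t3hY h) (t3tY t) (t3Lo (t3Y X ϑ) (-n)) (t3Hi (t3Y X ϑ) (n + 1))
          (A ∩ t3Tk k A) ∧
        T3TMin 3 (t3Y X ϑ) (t3hY h) (t3tY t) (t3Lo (t3Y X ϑ) (-n + k))
          (t3Hi (t3Y X ϑ) (n + 1 + k)) (A ∪ t3Tk k A) := fun n hn => by
      have hn0 : (0 : ℝ) ≤ n := Nat.cast_nonneg _
      have hnH : (H₀ : ℝ) ≤ n := Nat.cast_le.2 hn
      refine (hA n hn).lattice hG (hAk n hn) ?_ ?_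
      · intro z hz
        have hz2 : z.2 ≤ -(n : ℝ) := hz.2
        refine t3Tk_mono k h1 ?_
        rw [t3Tk_E0]
        exact ⟨hz.1, by linarith⟩
      · rw [disjoint_left]
        intro z hz hz'
        have e1 : z.2 < H₀ := (h2 hz).2
        have e2 : (n : ℝ) + 1 + k ≤ z.2 := hz'.2
        linarith
    refine ⟨t3zC_lam hG fun n₀ => ?_, t3zC_lam hG fun n₀ => ?_⟩
    · refine ⟨_, _, ?_, ?_, (hlat (H₀ + n₀) (by omega)).1⟩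
      · push_cast
        have h0 : (0 : ℝ) ≤ H₀ := Nat.cast_nonneg _
        linarith
      · push_cast
        have h0 : (0 : ℝ) ≤ H₀ := Nat.cast_nonneg _
        linarith
    · refine ⟨_, _, ?_, ?_, (hlat (H₀ + n₀ + k.natAbs) (by omega)).2⟩
      · have : (k : ℝ) ≤ (k.natAbs : ℝ) := by
          rw [Nat.cast_natAbs, Int.cast_abs]; exact le_abs_self _
        push_cast
        have h0 : (0 : ℝ) ≤ H₀ := Nat.cast_nonneg _
        linarith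
      · push_cast
        have h0 : (0 : ℝ) ≤ H₀ := Nat.cast_nonneg _
        have h3 : (0 : ℝ) ≤ (k.natAbs : ℝ) := Nat.cast_nonneg _
        linarith

/-- translates of minimisers in the whole cover (PROVED). -/
theorem t3tk_lam_univ {Y : Set (V × ℝ)} (hY : ∀ k, t3Tk k Y = Y)
    (hG : CtGeo 3 Y (t3hY h) (t3tY t)) (k : ℤ) {A : Set (V × ℝ)}
    (hA : CtLAM 3 Y (t3hY h) (t3tY t) (fun _ => 0) A) :
    CtLAM 3 Y (t3hY h) (t3tY t) (fun _ => 0) (t3Tk k A) := by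
  have := t3tk_lam hY hG k (A := A) (W := univ) isOpen_univ (by simpa using hA)
  simpa [t3Tk_univ] using this

/-! ### L-T3-ZcD-7 -/

/-- [`τᵏ (Lo a) = Lo (a + k)`, `τᵏ (Hi b) = Hi (b + k)`; `t3tk_tmin`.  `k ≥ 0`, `n ≥ H₀`: `T3TMin.lattice` for `A` (problem `(-n, n+1)`) and `τᵏ A` (problem `(-n+k, n+1+k)`): `Lo (-n) ⊆ t3E0 (1/2) ⊆ τᵏ A`, `A ⊆ t3E0 H₀` misses `Hi (n+1+k)`.
`t3zC_lam` for `A`, `τᵏ A`, `A ∩ τᵏ A`, `A ∪ τᵏ A`; `t3_smp2` in `Y`.  `k < 0`: exchange the roles.] -/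
theorem T3ZS.C_touch (H : T3ZS X h t B O φ F N K ϑ x₀ L) {H₀ : ℕ} {A : Set (V × ℝ)}
    (h1 : t3E0 X ϑ (1 / 2) ⊆ A) (h2 : A ⊆ t3E0 X ϑ H₀)
    (hA : ∀ n : ℕ, H₀ ≤ n →
      T3TMin 3 (t3Y X ϑ) (t3hY h) (t3tY t) (t3Lo (t3Y X ϑ) (-n)) (t3Hi (t3Y X ϑ) (n + 1)) A)
    (k : ℤ) (z : V × ℝ) (hz1 : z ∈ ctBd 3 (t3Y X ϑ) A)
    (hz2 : z ∈ ctBd 3 (t3Y X ϑ) (t3Tk k A)) :
    ∃ U : Set (V × ℝ), IsOpen U ∧ z ∈ U ∧
      ctBd 3 (t3Y X ϑ) A ∩ U = ctBd 3 (t3Y X ϑ) (t3Tk k A) ∩ U := by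
  have hY : ∀ k, t3Tk k (t3Y X ϑ) = t3Y X ϑ := t3Tk_Y X ϑ
  have hG := H.geoY.1
  have hp : SmoothAlong 3 (t3Y X ϑ) (fun _ : V × ℝ => (0 : ℝ)) := fun ψ U _ => contDiffOn_const
  have hA0 : CtLAM 3 (t3Y X ϑ) (t3hY h) (t3tY t) (fun _ => 0) A := by
    have := (H.C_lams h1 h2 hA 0).1
    rwa [t3Tk_zero] at this
  have hAk := (H.C_lams h1 h2 hA k).1
  rcases le_total 0 k with hk | hk
  · obtain ⟨hi, hu⟩ := (H.C_lams h1 h2 hA k).2 hk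
    exact t3_smp2 (m := 2) hG (by norm_num) (by norm_num) hp hA0 hAk hi hu hz1 hz2
  · obtain ⟨hi, hu⟩ := (H.C_lams h1 h2 hA (-k)).2 (by omega)
    have hi' := t3tk_lam_univ hY hG k hi
    have hu' := t3tk_lam_univ hY hG k hu
    rw [t3Tk_inter, t3Tk_neg_right, inter_comm] at hi'
    rw [t3Tk_union, t3Tk_neg_right, union_comm] at hu'
    exact t3_smp2 (m := 2) hG (by norm_num) (by norm_num) hp hA0 hAk hi' hu' hz1 hz2

/-! ### L-T3-ZcD-8: assembly -/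

/-- **the compact case.**
[`C_cpt`; `X \ F` connected (`H.conn`, `I = X`); `C_stable`: `A`; `Wj` from `free_open`.  `lam`: `t3zC_lam`, `t3tk_lam` (`W = univ`) or `t3tk_tmin`, `CtLAM.inter_open`.  `touch`: `C_touch`.
`fin`: `U = {y | |y.2 - z.2| < 1}`; for `k > z.2 + 1`: `Y ∩ U ⊆ τᵏ (t3E0 (1/2)) ⊆ τᵏ A`: `t3_in_of_ae`; for `k > H₀ - z.2 + 1`: `U` misses `τ⁻ᵏ A ⊆ {snd < H₀ - k}`: `t3_out_of_ae`.
`cpt`: closed subset (the boundary is closed in `Y`, `rdist` is continuous, `I = X`) of the compact box `T3Stp.box`.] -/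
theorem T3ZS.C (H : T3ZS X h t B O φ F N K ϑ x₀ L)
    (hC : ¬ (t3ExtO X O φ ∪ {x | x ∈ X ∧ L < rdist X h x₀ x}).Nonempty) :
    ∃ (Wj : Set V) (A : Set (V × ℝ)), T3Zm X h t (t3Int X O φ) x₀ L (t3Y X ϑ) Wj A := by
  obtain ⟨hXc, hI⟩ := H.C_cpt hC
  have hc : IsPreconnected (X \ F) := by
    have := H.conn
    rwa [hI] at this
  obtain ⟨H₀, A, h1, h2, hA⟩ := H.C_stable hXc hc
  obtain ⟨Wj, hW, hJ⟩ := H.free_open L
  have hY : ∀ k, t3Tk k (t3Y X ϑ) = t3Y X ϑ := t3Tk_Y X ϑ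
  have hG := H.geoY.1
  have hX := H.pc.col.geo.mfd
  refine ⟨Wj, A, hW, hJ, fun k => ((H.C_lams h1 h2 hA k).1).inter_open hG
    (hW.preimage continuous_fst), fun k z _ hz1 hz2 => H.C_touch h1 h2 hA k z hz1 hz2,
    fun z hz _ => ?_, fun a => ?_⟩
  · obtain ⟨n, hn⟩ := exists_nat_gt |z.2|
    have hU : IsOpen {y : V × ℝ | |y.2 - z.2| < 1} :=
      isOpen_lt ((continuous_snd.sub continuous_const).abs) continuous_const
    refine ⟨(n : ℤ) + H₀ + 2, {y | |y.2 - z.2| < 1}, hU, by simp, fun k hk => ?_⟩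
    have hk' : (n : ℝ) + H₀ + 2 ≤ k := by exact_mod_cast hk
    have hz' := abs_lt.1 hn
    have hH0 : (0 : ℝ) ≤ H₀ := Nat.cast_nonneg _
    constructor
    · refine t3_in_of_ae hG hU _ ?_
      have : (t3Y X ϑ ∩ {y | |y.2 - z.2| < 1}) \ t3Tk k A = ∅ := by
        rw [Set.sdiff_eq_empty]
        rintro y ⟨hy, hyU⟩
        refine t3Tk_mono k h1 ?_
        rw [t3Tk_E0]
        have hyU' : |y.2 - z.2| < 1 := hyU
        have := (abs_lt.1 hyU').2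
        exact ⟨hy, by linarith⟩
      rw [this]
      exact measure_empty
    · refine t3_out_of_ae hG hU _ ?_
      have : t3Y X ϑ ∩ {y | |y.2 - z.2| < 1} ∩ t3Tk (-k) A = ∅ := by
        rw [← disjoint_iff_inter_eq_empty, disjoint_left]
        rintro y ⟨hy, hyU⟩ hyA
        have h3 := t3Tk_mono (-k) h2 hyA
        rw [t3Tk_E0] at h3
        have h4 : y.2 < H₀ + ((-k : ℤ) : ℝ) := h3.2
        push_cast at h4
        have hyU' : |y.2 - z.2| < 1 := hyU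
        have := (abs_lt.1 hyU').1
        linarith
      rw [this]
      exact measure_empty
  · obtain ⟨C₁, hC₁, e₁⟩ := t3_bd_closed hG.mfd (by norm_num) A
    have hcont := if_rdist_continuousOn hX H.pc.conn H.pc.col.geo.ten H.base
    obtain ⟨C₂, hC₂, e₂⟩ := (continuousOn_iff_isClosed.1 hcont) (Iic (L - 1)) isClosed_Iic
    have hbox := H.stp.box hX hXc Subset.rfl a
    have : {y | y ∈ ctBd 3 (t3Y X ϑ) A ∧ y.1 ∈ t3Int X O φ ∧ rdist X h x₀ y.1 ≤ L - 1 ∧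
        |y.2| ≤ a} = {z | z ∈ t3Y X ϑ ∧ z.1 ∈ X ∧ |z.2| ≤ a} ∩ (C₁ ∩ Prod.fst ⁻¹' C₂) := by
      ext y
      constructor
      · rintro ⟨hy1, hy2, hy3, hy4⟩
        have hyY : y ∈ t3Y X ϑ := ct_bd_subset A hy1
        have hy1' : y ∈ t3Y X ϑ ∩ C₁ := by rw [e₁]; exact hy1
        have hy3' : y.1 ∈ C₂ ∩ X := by rw [← e₂]; exact ⟨hy3, hyY.1⟩
        exact ⟨⟨hyY, hyY.1, hy4⟩, hy1'.2, hy3'.1⟩
      · rintro ⟨⟨hyY, hyX, hy4⟩, hy1, hy3⟩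
        have hy1' : y ∈ ctBd 3 (t3Y X ϑ) A := by rw [← e₁]; exact ⟨hyY, hy1⟩
        have hy3' : y.1 ∈ rdist X h x₀ ⁻¹' Iic (L - 1) ∩ X := by rw [e₂]; exact ⟨hy3, hyX⟩
        exact ⟨hy1', by rw [hI]; exact hyX, hy3'.1, hy4⟩
    rw [this]
    exact hbox.inter_right (hC₁.inter (hC₂.preimage continuous_fst))

/-- **the minimiser package exists.** -/
theorem T3ZS.exists_zm (H : T3ZS X h t B O φ F N K ϑ x₀ L) :
    ∃ (Wj : Set V) (A : Set (V × ℝ)), T3Zm X h t (t3Int X O φ) x₀ L (t3Y X ϑ) Wj A := by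
  by_cases hP : (t3ExtO X O φ ∪ {x | x ∈ X ∧ L < rdist X h x₀ x}).Nonempty
  · exact H.P hP
  · exact H.C hP

end Claimed.Agent.R315
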