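import Claimed.Agent.R315.T3.ZcC

/-!
# Row 315, paper T (n = 3), package T3-ZcE: sheets of the minimiser, their projections, and the section over the complement

Sub-captain: helper72.  INPUT: the setting `T3ZS` and the minimiser package `T3Zm` (`T3/ZcC.lean`).  OUTPUT `T3ZS.down`: the data for the detection package `T3/ZcF.lean`:
`Z = {x ∈ J | some lift of x is a boundary point of A}` (closed in the free region `J = X ∩ Wj`), a continuous section `w` of the cover over `J \ Z`, and through every `q ∈ Z` with `rdist x₀ q < L - 23` a surface `S' ⊆ Z`, `T3XCut`, ISOLATED in `Z`.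

(E1) `t3_sheet` (general, dimension 3): `A` a `CtLAM 0` in `(M,h,t)`, `D ≥ 3/4`, `z ∈ ctBd A`, all boundary points at distance `≤ 21` from `z` lie in a compact subset of `M`.  Then the component `Σ` of the boundary through `z` is compact, relatively open in the boundary, and has a tube with a defining function whose negative side is a minimiser.
(E2) `T3Zm.sheet`: (E1) in `M = Y ∩ fst⁻¹ Wj`; the compact set comes from `T3Zm.cpt`, `T3Li.rdist_le`, `T3Stp.height`.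
(E3) `T3Zm.isolated`: `Σ` is isolated in `⋃_k ctBd (τᵏ A)` and disjoint from its translates (`touch`, `fin`; a compact set is not invariant under `τᵏ`).
(E4) `T3Zm.proj`: `fst` is injective near `Σ`: `S' = fst '' Σ` is a `T3XCut`, isolated in `Z`.
(E5) `T3Zm.section`: `n z = #{k ≥ 0 | τᵏ z ∈ ctIn A} - #{k < 0 | τᵏ z ∈ ctOut A}` is finite, locally constant off the boundaries, `n (τ z) = n z - 1`; `w (fst z) = snd z + n z`.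

LEAVES: L-T3-ZcE-1 (`t3_sheet`), -2 (`T3Zm.sheet`), -3 (`T3Zm.isolated`), -4 (`T3Zm.proj`), -5 (`T3Zm.zclosed`, `T3Zm.section`), -6 (`T3ZS.down`).
-/

set_option autoImplicit false
set_option linter.unusedSectionVars false
open scoped ContDiff Topology ENNReal
open MeasureTheory Claims.C0499 Set Filter

namespace Claimed.Agent.R315

variable {V : Type} [NormedAddCommGroup V] [NormedSpace ℝ V] [MeasurableSpace V] [BorelSpace V]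
  [FiniteDimensional ℝ V]

/-! ### helpers (prefix `t3ze_`) -/

/-- finite intersection principle along `ℤ`. -/
theorem t3ze_fin_inter {α : Type} [TopologicalSpace α] {z : α} (P : ℤ → Set α → Prop)
    (hmono : ∀ k U U', U' ⊆ U → P k U → P k U')
    (hloc : ∀ k, ∃ U, IsOpen U ∧ z ∈ U ∧ P k U)
    (hfar : ∃ (k₀ : ℤ) (U : Set α), IsOpen U ∧ z ∈ U ∧ ∀ k, k₀ ≤ |k| → P k U) :
    ∃ U, IsOpen U ∧ z ∈ U ∧ ∀ k, P k U := by
  obtain ⟨k₀, U₀, hU₀, hz₀, hP₀⟩ := hfar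
  choose Uk hUk hzk hPk using hloc
  refine ⟨U₀ ∩ ⋂ k ∈ Finset.Ioo (-k₀) k₀, Uk k,
    hU₀.inter (isOpen_biInter_finset fun k _ => hUk k),
    ⟨hz₀, mem_iInter₂.2 fun k _ => hzk k⟩, fun k => ?_⟩
  by_cases hk : k₀ ≤ |k|
  · exact hmono k _ _ inter_subset_left (hP₀ k hk)
  · have hk' := abs_lt.1 (not_le.1 hk)
    refine hmono k _ _ ?_ (hPk k)
    intro y hy
    exact mem_iInter₂.1 hy.2 k (Finset.mem_Ioo.2 hk')

/-- the boundary is relatively closed. -/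
theorem t3ze_bd_compl {d : ℕ} {M : Set V} (hM : IsMfd d M) (A : Set V) :
    ∃ G : Set V, IsOpen G ∧ M ∩ G = M \ ctBd d M A := by
  obtain ⟨O1, hO1, e1⟩ := ct_in_open hM A
  obtain ⟨O2, hO2, e2⟩ := ct_out_open hM A
  obtain ⟨hu, -, h13, h23⟩ := ct_trichotomy' hM A
  refine ⟨O1 ∪ O2, hO1.union hO2, ?_⟩
  rw [inter_union_distrib_left, e1, e2]
  ext x
  constructor
  · rintro (hx | hx)
    · exact ⟨ct_in_subset A hx, fun hb => (Set.disjoint_left.1 h13) hx hb⟩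
    · exact ⟨ct_out_subset A hx, fun hb => (Set.disjoint_left.1 h23) hx hb⟩
  · rintro ⟨hx, hb⟩
    rw [← hu] at hx
    rcases hx with (hx | hx) | hx
    · exact Or.inl hx
    · exact Or.inr hx
    · exact absurd hx hb

theorem t3ze_mem_bd {Y : Set (V × ℝ)} (hY : ∀ k, t3Tk k Y = Y) (k : ℤ) (A : Set (V × ℝ))
    (z : V × ℝ) : z ∈ ctBd 3 Y (t3Tk k A) ↔ (z.1, z.2 - (k : ℝ)) ∈ ctBd 3 Y A := by
  rw [(t3tk_sets hY k A).1]
  exact Iff.rfl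

theorem t3ze_mem_in {Y : Set (V × ℝ)} (hY : ∀ k, t3Tk k Y = Y) (k : ℤ) (A : Set (V × ℝ))
    (z : V × ℝ) : z ∈ ctIn 3 Y (t3Tk k A) ↔ (z.1, z.2 - (k : ℝ)) ∈ ctIn 3 Y A := by
  rw [(t3tk_sets hY k A).2.1]
  exact Iff.rfl

theorem t3ze_mem_out {Y : Set (V × ℝ)} (hY : ∀ k, t3Tk k Y = Y) (k : ℤ) (A : Set (V × ℝ))
    (z : V × ℝ) : z ∈ ctOut 3 Y (t3Tk k A) ↔ (z.1, z.2 - (k : ℝ)) ∈ ctOut 3 Y A := by
  rw [(t3tk_sets hY k A).2.2]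
  exact Iff.rfl

section zm
variable {X : Set V} {h : Ten V} {t : V → ℝ} {I : Set V} {x₀ : V} {L : ℝ} {Y : Set (V × ℝ)}
  {Wj : Set V} {A : Set (V × ℝ)}

/-- far translates have a constant status near a point over the free region. -/
theorem T3Zm.ze_far (hZ : T3Zm X h t I x₀ L Y Wj A) {z : V × ℝ} (hz : z ∈ Y) (hzW : z.1 ∈ Wj) :
    ∃ (k₀ : ℤ) (U : Set (V × ℝ)), IsOpen U ∧ z ∈ U ∧ ∀ k : ℤ, k₀ ≤ |k| →
      (Y ∩ U ⊆ ctIn 3 Y (t3Tk k A) ∨ Y ∩ U ⊆ ctOut 3 Y (t3Tk k A)) := by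
  obtain ⟨k₀, U, hU, hzU, hk⟩ := hZ.fin z hz hzW
  refine ⟨k₀, U, hU, hzU, fun k hk0 => ?_⟩
  rcases le_total 0 k with h0 | h0
  · rw [abs_of_nonneg h0] at hk0
    exact Or.inl (hk k hk0).1
  · rw [abs_of_nonpos h0] at hk0
    have := (hk (-k) hk0).2
    rw [neg_neg] at this
    exact Or.inr this

/-- near a point over the free region which lies on no translated boundary all translates have a
constant status. -/
theorem T3Zm.ze_status (hZ : T3Zm X h t I x₀ L Y Wj A) (hY : IsMfd 3 Y) {z : V × ℝ} (hz : z ∈ Y)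
    (hzW : z.1 ∈ Wj) (hnb : ∀ k : ℤ, z ∉ ctBd 3 Y (t3Tk k A)) :
    ∃ U : Set (V × ℝ), IsOpen U ∧ z ∈ U ∧ ∀ k : ℤ,
      (Y ∩ U ⊆ ctIn 3 Y (t3Tk k A) ∨ Y ∩ U ⊆ ctOut 3 Y (t3Tk k A)) := by
  refine t3ze_fin_inter
    (fun k U => Y ∩ U ⊆ ctIn 3 Y (t3Tk k A) ∨ Y ∩ U ⊆ ctOut 3 Y (t3Tk k A)) ?_ ?_
    (hZ.ze_far hz hzW)
  · intro k U U' hUU hP
    rcases hP with hP | hP
    · exact Or.inl ((inter_subset_inter_right _ hUU).trans hP)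
    · exact Or.inr ((inter_subset_inter_right _ hUU).trans hP)
  · intro k
    obtain ⟨hu, -, -, -⟩ := ct_trichotomy' hY (t3Tk k A)
    have hz' := hz
    rw [← hu] at hz'
    rcases hz' with (hz' | hz') | hz'
    · obtain ⟨O1, hO1, e1⟩ := ct_in_open hY (t3Tk k A)
      have : z ∈ Y ∩ O1 := e1 ▸ hz'
      exact ⟨O1, hO1, this.2, Or.inl e1.subset⟩
    · obtain ⟨O2, hO2, e2⟩ := ct_out_open hY (t3Tk k A)
      have : z ∈ Y ∩ O2 := e2 ▸ hz'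
      exact ⟨O2, hO2, this.2, Or.inr e2.subset⟩
    · exact absurd hz' (hnb k)

theorem t3ze_not_bd_of_status {d : ℕ} {M : Set V} (hM : IsMfd d M) {A U : Set V}
    (hst : M ∩ U ⊆ ctIn d M A ∨ M ∩ U ⊆ ctOut d M A) {y : V} (hy : y ∈ M ∩ U) :
    y ∉ ctBd d M A := by
  obtain ⟨-, -, h13, h23⟩ := ct_trichotomy' hM A
  rcases hst with hst | hst
  · exact fun hb => Set.disjoint_left.1 h13 (hst hy) hb
  · exact fun hb => Set.disjoint_left.1 h23 (hst hy) hb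

end zm

theorem t3ze_join_mono {S M : Set V} (hSM : S ⊆ M) {x y : V} (hj : if_Join S x y) :
    if_Join M x y := by
  obtain ⟨c, ⟨hc1, hc2⟩, h0, h1⟩ := hj
  exact ⟨c, ⟨hc1, fun s hs => hSM (hc2 s hs)⟩, h0, h1⟩

/-- defining functions restrict to open pieces. -/
theorem t3ze_ctDef_inter {d : ℕ} {M : Set V} {h : Ten V} {t : V → ℝ} (hG : CtGeo d M h t)
    {A : Set V} {φ : V → ℝ} (hφ : CtDef d M h A φ) {O : Set V} (hO : IsOpen O) :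
    CtDef d (M ∩ O) h (A ∩ O) φ := by
  refine ⟨if_smoothAlong_inter hφ.smooth hO, fun x hx => ?_, ?_⟩
  · rw [if_gradSq_inter' h φ hO hx.2]
    exact hφ.reg x hx.1
  · rw [ct_vol_inter hG hO]
    refine nonpos_iff_eq_zero.1 ((Measure.restrict_le_self _).trans ?_)
    rw [← hφ.eq]
    refine measure_mono ?_
    rintro x (⟨hx1, hx2⟩ | ⟨hx1, hx2⟩)
    · exact Or.inl ⟨hx1.1, fun hx3 => hx2 ⟨⟨hx3.1, hx1.2⟩, hx3.2⟩⟩
    · exact Or.inr ⟨⟨hx1.1.1, hx1.2⟩, fun hx3 => hx2 ⟨hx3, hx1.1.2⟩⟩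

/-- a `CtDef` on an open piece gives a `T3Def`. -/
theorem t3ze_def_of_ctDef {d : ℕ} {M : Set V} {h : Ten V} {N A S : Set V} {φ : V → ℝ}
    (hh : IsMetricOn d (M ∩ N) h) (hN : IsOpen N) (hφ : CtDef d (M ∩ N) h A φ) (hS : S ⊆ M ∩ N)
    (hz : ∀ x ∈ M ∩ N, φ x = 0 ↔ x ∈ S) : T3Def d M S N φ := by
  refine ⟨hN, hS, hφ.smooth, hz, fun ψ U hψ u hu _ hf => ?_⟩
  have h1 := hφ.reg (ψ u) (if_mem hψ hu)
  rw [if_gradSq_eq hh hφ.smooth hψ hu] at h1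
  have h2 : gradSqC (cm h ψ) (φ ∘ ψ) u = 0 := by
    unfold gradSqC
    refine Finset.sum_eq_zero fun i _ => Finset.sum_eq_zero fun j _ => ?_
    have : pdiff (φ ∘ ψ) i u = 0 := by
      unfold pdiff
      rw [hf]
      rfl
    rw [this]
    ring
  rw [h2] at h1
  exact lt_irrefl _ h1

/-- `T3Def` restricts to smaller tubes. -/
theorem t3ze_def_mono {d : ℕ} {M S O O' : Set V} {φ : V → ℝ} (hS : T3Def d M S O φ)
    (hO' : IsOpen O') (hOO : O' ⊆ O) (hSO : S ⊆ O') : T3Def d M S O' φ := by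
  have e : M ∩ O' = (M ∩ O) ∩ O' := by
    ext x
    exact ⟨fun hx => ⟨⟨hx.1, hOO hx.2⟩, hx.2⟩, fun hx => ⟨hx.1.1, hx.2⟩⟩
  refine ⟨hO', fun x hx => ⟨(hS.sub hx).1, hSO hx⟩, ?_, fun x hx => hS.zero x ⟨hx.1, hOO hx.2⟩,
    fun ψ U hψ => ?_⟩
  · rw [e]
    exact if_smoothAlong_inter hS.smooth hO'
  · rw [e] at hψ
    exact hS.reg ψ U (if_param_of_inter hO' hψ)


/-- **(E1) L-T3-ZcE-1: compact sheets.**
[`S₀ = ctBd 3 M A = ctWall 3 M A` (`CtLAM.sing_empty`), closed in `M` (`ct_trichotomy`, `ct_in_open`, `ct_out_open`), `CtGeo 2 S₀ h t` (`ct_wall_geo`).  `t3_tame` (`p = 0`, `c = 5/8`, `γ = 1/8`; `gradN 0 = 0`): drift `U` on `S₀` with `D > 5/8`.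
`S = connectedComponentIn S₀ z = S₀ ∩ O₁`, `O₁` open (`ct_component_open` for the manifold `S₀`, `O = univ`); `S` is also closed in `S₀`.  `CtGeo 2 S h U`, `D ≥ 5/8` on `S` (`CtGeo.inter`, `if_Dsc_inter`).
The closed ball `{y ∈ S | rdist S h z y ≤ 21}` lies in `Kz` (`t3_rdist_sub`: `rdist M ≤ rdist S`, `if_join_of_connected`) and is closed in `Kz` (`S` closed in `M`-relative sense, `rdist S h z` continuous on `S`): compact.  `t3_two` (`κ = 9/16`, `c = 5/8`, `R = 21 > 4 + 16π/3`): `S` = this ball: compact.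
`ct_def_near` with `K = S`: `O₂ ⊇ S`, `φ` with `CtDef 3 (M ∩ O₂) h (A ∩ O₂) φ`; `N = O₂ ∩ O₁ \ (closed set C with M ∩ C = S₀ \ S)`...: `S₀ \ S` is closed in `M` and `S` is compact, so they have disjoint open neighbourhoods.  `CtDef.sets` + `ct_bd_inter`: `{φ = 0} = S` in `M ∩ N`.
`T3Def.reg` from `gradSq φ > 0` (`if_gradSq_eq`).  Minimiser: `CtLAM.inter_open`, `CtLAM.congr` (`A ∩ N = {φ < 0}` a.e.).] -/
theorem t3_sheet {M : Set V} {h : Ten V} {t : V → ℝ} (hG : CtGeo 3 M h t) {A : Set V}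
    (hA : CtLAM 3 M h t (fun _ => 0) A) (hD : ∀ x ∈ M, 3 / 4 ≤ Dsc 3 M h t x) {z : V}
    (hz : z ∈ ctBd 3 M A) {Kz : Set V} (hK : IsCompact Kz) (hKM : Kz ⊆ M)
    (hKz : ∀ y ∈ ctBd 3 M A, if_Join M z y → rdist M h z y ≤ 21 → y ∈ Kz) :
    ∃ (S N : Set V) (φ : V → ℝ), IsCompact S ∧ IsConnected S ∧ z ∈ S ∧ IsOpen N ∧
      S = ctBd 3 M A ∩ N ∧ T3Def 3 M S N φ ∧
      CtLAM 3 (M ∩ N) h t (fun _ => 0) {x | x ∈ M ∩ N ∧ φ x < 0} := by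
  classical
  have hp : SmoothAlong 3 M (fun _ : V => (0 : ℝ)) := if_smoothAlong_const 0
  have hsing := hA.sing_empty hG hp (by norm_num) (by norm_num)
  have hbw : ctBd 3 M A = ctWall 3 M A := by
    apply Subset.antisymm
    · intro x hx
      by_contra hx'
      have : x ∈ ctSing 3 M A := ⟨hx, hx'⟩
      rw [hsing] at this
      exact this
    · exact ct_wall_subset_bd A
  have hG₀ : CtGeo 2 (ctWall 3 M A) h t := ct_wall_geo (d := 2) hG A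
  obtain ⟨U, hU, hUD⟩ : ∃ U : V → ℝ, SmoothAlong 2 (ctWall 3 M A) U ∧
      ∀ x ∈ ctWall 3 M A, 5 / 8 < Dsc 2 (ctWall 3 M A) h U x :=
    t3_tame (d := 2) (p := fun _ => 0) hG (by norm_num) (by norm_num) hp hA (c := 5 / 8)
      (γ := 1 / 8) (by norm_num) (fun x hx => by
        have hxM : x ∈ M := ct_bd_subset A (ct_wall_subset_bd A hx)
        have h0 : gradN 3 M h (fun _ => (0 : ℝ)) x = 0 := by
          unfold gradN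
          rw [gs_sq_const hG.mfd hG.met 0 hxM, Real.sqrt_zero]
        have h1 := hD x hxM
        show (5 / 8 : ℝ) + 1 / 8 ≤ Dsc 3 M h t x + (0 : ℝ) ^ 2 - 2 * gradN 3 M h (fun _ => 0) x
        rw [h0]
        linarith)
  obtain ⟨S₀, hS₀⟩ : ∃ S₀, S₀ = ctWall 3 M A := ⟨_, rfl⟩
  rw [← hS₀] at hbw hG₀ hU hUD
  have hzS₀ : z ∈ S₀ := hbw ▸ hz
  have hS₀M : S₀ ⊆ M := by
    rw [← hbw]
    exact ct_bd_subset A
  have hG₁ : CtGeo 2 S₀ h U := ⟨hG₀.mfd, hG₀.met, hU⟩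
  obtain ⟨O₁, hO₁, -, hO₁e⟩ := ct_component_open hG₀.mfd isOpen_univ (x := z) ⟨hzS₀, mem_univ _⟩
  rw [inter_univ] at hO₁e
  obtain ⟨S, hS⟩ : ∃ S, S = connectedComponentIn S₀ z := ⟨_, rfl⟩
  rw [← hS] at hO₁e
  have hzS : z ∈ S := hS ▸ mem_connectedComponentIn hzS₀
  have hSS₀ : S ⊆ S₀ := hS ▸ connectedComponentIn_subset _ _
  have hSpc : IsPreconnected S := hS ▸ isPreconnected_connectedComponentIn
  have hG₂ : CtGeo 2 S h U := hO₁e ▸ hG₁.inter hO₁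
  have hSO₁ : S ⊆ O₁ := fun x hx => (hO₁e ▸ hx : x ∈ S₀ ∩ O₁).2
  have hD₂ : ∀ x ∈ S, 5 / 8 ≤ Dsc 2 S h U x := by
    intro x hx
    rw [← hO₁e, if_Dsc_inter' h U hO₁ (hSO₁ hx)]
    exact (hUD x (hSS₀ hx)).le
  -- `S` is relatively closed in `M`
  obtain ⟨G, hGo, hGe⟩ := t3ze_bd_compl hG.mfd A
  have hoth : ∀ y ∈ S₀ \ S, ∃ Oy : Set V, IsOpen Oy ∧ y ∈ Oy ∧ Disjoint (S₀ ∩ Oy) S := by
    intro y hy
    obtain ⟨Oy, hOy, -, he⟩ := ct_component_open hG₀.mfd isOpen_univ (x := y) ⟨hy.1, mem_univ _⟩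
    rw [inter_univ] at he
    refine ⟨Oy, hOy, ?_, ?_⟩
    · have : y ∈ S₀ ∩ Oy := he ▸ mem_connectedComponentIn hy.1
      exact this.2
    · rw [he, Set.disjoint_left]
      intro x hx hx'
      rw [hS] at hx'
      have e1 := connectedComponentIn_eq hx
      have e2 := connectedComponentIn_eq hx'
      exact hy.2 (by rw [hS, e2, ← e1]; exact mem_connectedComponentIn hy.1)
  choose! Oy hOy1 hOy2 hOy3 using hoth
  obtain ⟨O₂, hO₂⟩ : ∃ O₂, O₂ = ⋃ y ∈ S₀ \ S, Oy y := ⟨_, rfl⟩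
  have hO₂o : IsOpen O₂ := hO₂ ▸ isOpen_biUnion hOy1
  have hSC : ∀ x, x ∈ S ↔ x ∈ M ∧ x ∉ G ∧ x ∉ O₂ := by
    intro x
    constructor
    · intro hx
      refine ⟨hS₀M (hSS₀ hx), fun hxG => ?_, fun hxO => ?_⟩
      · have : x ∈ M \ ctBd 3 M A := hGe ▸ ⟨hS₀M (hSS₀ hx), hxG⟩
        exact this.2 (hbw ▸ hSS₀ hx)
      · rw [hO₂] at hxO
        obtain ⟨y, hy, hxy⟩ := mem_iUnion₂.1 hxO
        exact Set.disjoint_left.1 (hOy3 y hy) ⟨hSS₀ hx, hxy⟩ hx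
    · rintro ⟨hxM, hxG, hxO⟩
      have hxb : x ∈ S₀ := by
        by_contra hxb
        have : x ∈ M ∩ G := hGe ▸ ⟨hxM, fun hb => hxb (hbw ▸ hb)⟩
        exact hxG this.2
      by_contra hxS
      exact hxO (hO₂ ▸ mem_iUnion₂.2 ⟨x, ⟨hxb, hxS⟩, hOy2 x ⟨hxb, hxS⟩⟩)
  -- the closed ball of radius `21` is compact
  have hcont := if_rdist_continuousOn hG₂.mfd hSpc hG₂.ten hzS
  obtain ⟨C₂, hC₂, hC₂e⟩ := (continuousOn_iff_isClosed.1 hcont) (Iic 21) isClosed_Iic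
  have hball : {y | y ∈ S ∧ rdist S h z y ≤ 21} = Kz ∩ ((G ∪ O₂)ᶜ ∩ C₂) := by
    ext y
    constructor
    · rintro ⟨hy, hr⟩
      have hj : if_Join S z y := if_join_of_connected hG₂.mfd hSpc hzS hy
      have hSM : S ⊆ M := hSS₀.trans hS₀M
      refine ⟨hKz y (hbw ▸ hSS₀ hy) (t3ze_join_mono hSM hj)
        ((t3_rdist_sub h hSM hj).trans hr), ?_, ?_⟩
      · obtain ⟨-, h2, h3⟩ := (hSC y).1 hy
        rintro (h4 | h4)
        · exact h2 h4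
        · exact h3 h4
      · have : y ∈ C₂ ∩ S := hC₂e ▸ (⟨hr, hy⟩ : y ∈ rdist S h z ⁻¹' Iic 21 ∩ S)
        exact this.1
    · rintro ⟨hyK, hyC, hy2⟩
      have hy : y ∈ S := (hSC y).2 ⟨hKM hyK, fun h4 => hyC (Or.inl h4), fun h4 => hyC (Or.inr h4)⟩
      have : y ∈ rdist S h z ⁻¹' Iic 21 ∩ S := hC₂e ▸ (⟨hy2, hy⟩ : y ∈ C₂ ∩ S)
      exact ⟨hy, this.1⟩
  have hcpt : IsCompact {y | y ∈ S ∧ rdist S h z y ≤ 21} := by
    rw [hball]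
    exact hK.inter_right ((hGo.union hO₂o).isClosed_compl.inter hC₂)
  have hR : 4 + 4 * Real.pi / Real.sqrt (9 / 16) < (21 : ℝ) := by
    have h1 : Real.sqrt (9 / 16) = 3 / 4 := by
      rw [show (9 / 16 : ℝ) = (3 / 4) ^ 2 by norm_num]
      exact Real.sqrt_sq (by norm_num)
    rw [h1]
    have h2 := Real.pi_lt_d2
    have h3 : 4 * Real.pi / (3 / 4) = 16 / 3 * Real.pi := by ring
    rw [h3]
    linarith
  have hlt := t3_two hG₂ hSpc (c := 5 / 8) (κ := 9 / 16) (R := 21) (by norm_num) (by norm_num)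
    hD₂ hR hzS hcpt
  have hScpt : IsCompact S := by
    have : S = {y | y ∈ S ∧ rdist S h z y ≤ 21} := by
      ext y
      exact ⟨fun hy => ⟨hy, (hlt y hy).le⟩, fun hy => hy.1⟩
    rw [this]
    exact hcpt
  -- the defining function
  obtain ⟨O₃, φ, hO₃, hSO₃, hφ, -⟩ := ct_def_near hG hA.lf.meas hScpt (hS₀ ▸ hSS₀)
  have hN : IsOpen (O₃ ∩ O₁) := hO₃.inter hO₁
  have hdef : CtDef 3 (M ∩ (O₃ ∩ O₁)) h (A ∩ (O₃ ∩ O₁)) φ := by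
    have := t3ze_ctDef_inter (hG.inter hO₃) hφ hO₁
    rwa [inter_assoc, inter_assoc] at this
  have hbdN : S = ctBd 3 M A ∩ (O₃ ∩ O₁) := by
    ext x
    constructor
    · intro hx
      exact ⟨hbw ▸ hSS₀ hx, hSO₃ hx, hSO₁ hx⟩
    · rintro ⟨hx1, -, hx3⟩
      rw [← hO₁e]
      exact ⟨hbw ▸ hx1, hx3⟩
  obtain ⟨-, hw2, hw3, -⟩ := ct_wall_inter_def hG hN hdef
  refine ⟨S, O₃ ∩ O₁, φ, hScpt, ⟨⟨z, hzS⟩, hSpc⟩, hzS, hN, hbdN, ?_, ?_⟩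
  · refine t3ze_def_of_ctDef (hG.inter hN).met hN hdef
      (fun x hx => ⟨hS₀M (hSS₀ hx), hSO₃ hx, hSO₁ hx⟩) fun x hx => ?_
    rw [hbdN, hw2]
    exact ⟨fun h0 => ⟨hx, h0⟩, fun h0 => h0.2⟩
  · refine (hA.inter_open hG hN).congr (hG.inter hN) ?_ (fun x hx => hx.1) hdef.eq
    rw [← hw3]
    obtain ⟨Oi, hOi, hOie⟩ := ct_in_open hG.mfd A
    rw [← hOie]
    exact ((ct_measurableSet hG.mfd).inter hOi.measurableSet).inter hN.measurableSet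

variable {X : Set V} {h : Ten V} {t : V → ℝ} {ι : Type} {B O : ι → Set V} {φ : ι → V → ℝ}
  {F N K : Set V} {ϑ : V → ℝ} {x₀ : V} {L : ℝ} {Wj : Set V} {A : Set (V × ℝ)}

/-- **(E2) L-T3-ZcE-2.**
[`M = Y ∩ fst⁻¹ Wj`; `hZ.lam 0` (`t3Tk 0 A = A`); `ct_bd_inter`; `D ≥ 3/4`: `T3ZS.geoY`, `if_Dsc_inter`.  `Lθ` from `T3Stp.height`; `Kz` = the compact set `hZ.cpt (|z.2| + 21 Lθ)`; it lies in `M` (`rdist ≤ L - 1 < L`, `hZ.reg`).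
If `y ∈ ctBd`, `if_Join M z y`, `rdist M z y ≤ 21`: `rdist Y z y ≤ 21` (`t3_rdist_sub`), `rdist X z.1 y.1 ≤ 21` (`T3Li.rdist_le`), triangle inequality (`if_rdist_tri`): `rdist X x₀ y.1 < L - 2`; `|y.2 - z.2| ≤ 21 Lθ`; `y.1 ∈ I` by `hZ.reg`.
`t3_sheet`; `(Y ∩ fst⁻¹ Wj) ∩ N = Y ∩ (fst⁻¹ Wj ∩ N)`.] -/
theorem T3Zm.sheet (H : T3ZS X h t B O φ F N K ϑ x₀ L)
    (hZ : T3Zm X h t (t3Int X O φ) x₀ L (t3Y X ϑ) Wj A) {z : V × ℝ}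
    (hz : z ∈ ctBd 3 (t3Y X ϑ) A) (hzI : z.1 ∈ t3Int X O φ) (hzL : rdist X h x₀ z.1 < L - 23) :
    ∃ (S U : Set (V × ℝ)) (f : V × ℝ → ℝ), IsCompact S ∧ IsConnected S ∧ z ∈ S ∧ IsOpen U ∧
      U ⊆ Prod.fst ⁻¹' Wj ∧ S = ctBd 3 (t3Y X ϑ) A ∩ U ∧ T3Def 3 (t3Y X ϑ) S U f ∧
      CtLAM 3 (t3Y X ϑ ∩ U) (t3hY h) (t3tY t) (fun _ => 0) {y | y ∈ t3Y X ϑ ∩ U ∧ f y < 0} := by
  have hX := H.pc.col.geo.mfd
  have hli := H.stp.li hX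
  have hYm : IsMfd 3 (t3Y X ϑ) := hli.mfd
  obtain ⟨hGY, hDY⟩ := H.geoY
  have hWo : IsOpen (Prod.fst ⁻¹' Wj : Set (V × ℝ)) := hZ.opn.preimage continuous_fst
  have hGM := hGY.inter hWo
  have hlam := hZ.lam 0
  rw [t3Tk_zero] at hlam
  have hbd := (ct_bd_inter hYm A hWo).1
  have hreg : ∀ x, x ∈ X ∩ Wj ↔ x ∈ t3Int X O φ ∧ rdist X h x₀ x < L := fun x => by
    rw [hZ.reg]
    exact Iff.rfl
  have hzW : z.1 ∈ Wj := ((hreg z.1).2 ⟨hzI, by linarith⟩).2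
  have hzY : z ∈ t3Y X ϑ := ct_bd_subset A hz
  obtain ⟨Lθ, hLθ, hheight⟩ := H.stp.height hX H.pc.col.geo.met
  have hD : ∀ y ∈ t3Y X ϑ ∩ Prod.fst ⁻¹' Wj,
      3 / 4 ≤ Dsc 3 (t3Y X ϑ ∩ Prod.fst ⁻¹' Wj) (t3hY h) (t3tY t) y := by
    intro y hy
    rw [if_Dsc_inter' (t3hY h) (t3tY t) hWo hy.2]
    exact hDY y hy.1
  have hKM : {y : V × ℝ | y ∈ ctBd 3 (t3Y X ϑ) A ∧ y.1 ∈ t3Int X O φ ∧
      rdist X h x₀ y.1 ≤ L - 1 ∧ |y.2| ≤ |z.2| + 21 * Lθ} ⊆ t3Y X ϑ ∩ Prod.fst ⁻¹' Wj := by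
    rintro y ⟨hy1, hy2, hy3, -⟩
    exact ⟨ct_bd_subset A hy1, ((hreg y.1).2 ⟨hy2, by linarith⟩).2⟩
  have hKz : ∀ y ∈ ctBd 3 (t3Y X ϑ ∩ Prod.fst ⁻¹' Wj) (A ∩ Prod.fst ⁻¹' Wj),
      if_Join (t3Y X ϑ ∩ Prod.fst ⁻¹' Wj) z y →
      rdist (t3Y X ϑ ∩ Prod.fst ⁻¹' Wj) (t3hY h) z y ≤ 21 →
      y ∈ {y : V × ℝ | y ∈ ctBd 3 (t3Y X ϑ) A ∧ y.1 ∈ t3Int X O φ ∧
        rdist X h x₀ y.1 ≤ L - 1 ∧ |y.2| ≤ |z.2| + 21 * Lθ} := by
    intro y hy hj hr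
    rw [hbd] at hy
    have hyY : y ∈ t3Y X ϑ := ct_bd_subset A hy.1
    have hjY : if_Join (t3Y X ϑ) z y := t3ze_join_mono inter_subset_left hj
    have r1 : rdist (t3Y X ϑ) (t3hY h) z y ≤ 21 :=
      (t3_rdist_sub (t3hY h) inter_subset_left hj).trans hr
    have r2 : rdist X h z.1 y.1 ≤ rdist (t3Y X ϑ) (t3hY h) z y := hli.rdist_le h hjY
    have hyX : y.1 ∈ X := hyY.1
    have r3 := if_rdist_tri hX H.pc.col.geo.ten
      (if_join_of_connected hX H.pc.conn H.base hzY.1)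
      (if_join_of_connected hX H.pc.conn hzY.1 hyX)
    have r4 := hheight z y hjY
    have r5 : Lθ * rdist (t3Y X ϑ) (t3hY h) z y ≤ Lθ * 21 := mul_le_mul_of_nonneg_left r1 hLθ
    refine ⟨hy.1, ((hreg y.1).1 ⟨hyX, hy.2⟩).1, by linarith, ?_⟩
    have r6 : |y.2| ≤ |z.2| + |y.2 - z.2| := by
      have := abs_add_le z.2 (y.2 - z.2)
      simpa using this
    have r7 : |y.2 - z.2| ≤ Lθ * rdist (t3Y X ϑ) (t3hY h) z y := r4
    linarith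
  obtain ⟨S, N', f, h1, h2, h3, h4, h5, h6, h7⟩ := t3_sheet hGM hlam hD (z := z)
    (by rw [hbd]; exact ⟨hz, hzW⟩) (hZ.cpt (|z.2| + 21 * Lθ)) hKM hKz
  refine ⟨S, Prod.fst ⁻¹' Wj ∩ N', f, h1, h2, h3, hWo.inter h4, inter_subset_left, ?_, ?_, ?_⟩
  · rw [h5, hbd, inter_assoc]
  · refine ⟨hWo.inter h4, ?_, ?_, ?_, ?_⟩
    · rw [← inter_assoc]
      exact h6.sub
    · rw [← inter_assoc]
      exact h6.smooth
    · rw [← inter_assoc]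
      exact h6.zero
    · rw [← inter_assoc]
      exact h6.reg
  · rw [← inter_assoc]
    exact h7

/-- **(E3) L-T3-ZcE-3: sheets are isolated and disjoint from their translates.**
[(a) Let `y ∈ S`.  `hZ.fin`: a neighbourhood `U_y` and `k₀` such that `U_y` misses `ctBd (τᵏ A)` for `|k| ≥ k₀` (`ct_trichotomy`).  For each of the finitely many `|k| < k₀`: if `y ∉ ctBd (τᵏ A)` shrink `U_y` to miss this relatively closed set; otherwise `hZ.touch`: shrink `U_y` so that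
`ctBd (τᵏ A) ∩ U_y = ctBd A ∩ U_y`.  Also `U_y ⊆ U`.  `U' = ⋃ U_y`.
(b) `T = S ∩ τᵏ S` is closed in `S`; it is open in `S`: for `y ∈ T`, near `y`: `S = ctBd A = ctBd (τᵏ A) = τᵏ S` (`τᵏ S = ctBd (τᵏ A) ∩ τᵏ U` by `t3tk_sets`).  `S` connected: `T = ∅` or `S ⊆ τᵏ S`.  In the second case `max_S snd ≥ max_S snd + k` and, by the same argument for `-k` (translate the inclusion), `S = τᵏ S`: impossible for `k ≠ 0` (`IsCompact.exists_isMaxOn`).] -/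
theorem T3Zm.isolated (H : T3ZS X h t B O φ F N K ϑ x₀ L)
    (hZ : T3Zm X h t (t3Int X O φ) x₀ L (t3Y X ϑ) Wj A) {S U : Set (V × ℝ)}
    (hS : IsCompact S) (hSc : IsConnected S) (hU : IsOpen U) (hUW : U ⊆ Prod.fst ⁻¹' Wj)
    (hSU : S = ctBd 3 (t3Y X ϑ) A ∩ U) :
    (∃ U' : Set (V × ℝ), IsOpen U' ∧ S ⊆ U' ∧ U' ⊆ U ∧
      ∀ k : ℤ, ctBd 3 (t3Y X ϑ) (t3Tk k A) ∩ U' ⊆ S) ∧
    ∀ k : ℤ, k ≠ 0 → Disjoint S (t3Tk k S) := by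
  classical
  have hX := H.pc.col.geo.mfd
  have hli := H.stp.li hX
  have hYm : IsMfd 3 (t3Y X ϑ) := hli.mfd
  have hYk : ∀ k, t3Tk k (t3Y X ϑ) = t3Y X ϑ := t3Tk_Y X ϑ
  have hSbd : ∀ y ∈ S, y ∈ ctBd 3 (t3Y X ϑ) A ∧ y ∈ U := fun y hy => by
    rw [hSU] at hy
    exact hy
  constructor
  · -- (a)
    have key : ∀ y ∈ S, ∃ Uy : Set (V × ℝ), IsOpen Uy ∧ y ∈ Uy ∧
        ∀ k : ℤ, ctBd 3 (t3Y X ϑ) (t3Tk k A) ∩ Uy ⊆ ctBd 3 (t3Y X ϑ) A := by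
      intro y hy
      obtain ⟨hyb, hyU⟩ := hSbd y hy
      have hyY : y ∈ t3Y X ϑ := ct_bd_subset A hyb
      have hyW : y.1 ∈ Wj := hUW hyU
      refine t3ze_fin_inter
        (fun k W => ctBd 3 (t3Y X ϑ) (t3Tk k A) ∩ W ⊆ ctBd 3 (t3Y X ϑ) A) ?_ ?_ ?_
      · intro k W W' hWW hP
        exact (inter_subset_inter_right _ hWW).trans hP
      · intro k
        by_cases hk : y ∈ ctBd 3 (t3Y X ϑ) (t3Tk k A)
        · obtain ⟨W, hW, hyW', he⟩ := hZ.touch k y hyW hyb hk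
          exact ⟨W, hW, hyW', fun x hx => (he ▸ hx : x ∈ ctBd 3 (t3Y X ϑ) A ∩ W).1⟩
        · obtain ⟨G, hG, he⟩ := t3ze_bd_compl hYm (t3Tk k A)
          have hyG : y ∈ t3Y X ϑ ∩ G := he ▸ ⟨hyY, hk⟩
          refine ⟨G, hG, hyG.2, fun x hx => ?_⟩
          have : x ∈ t3Y X ϑ \ ctBd 3 (t3Y X ϑ) (t3Tk k A) :=
            he ▸ ⟨ct_bd_subset _ hx.1, hx.2⟩
          exact absurd hx.1 this.2
      · obtain ⟨k₀, W, hW, hyW', hst⟩ := hZ.ze_far hyY hyW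
        refine ⟨k₀, W, hW, hyW', fun k hk x hx => ?_⟩
        exact absurd hx.1 (t3ze_not_bd_of_status hYm (hst k hk) ⟨ct_bd_subset _ hx.1, hx.2⟩)
    choose! Uy h1 h2 h3 using key
    refine ⟨⋃ y ∈ S, (Uy y ∩ U), isOpen_biUnion fun y hy => (h1 y hy).inter hU, ?_, ?_, ?_⟩
    · intro y hy
      exact mem_iUnion₂.2 ⟨y, hy, h2 y hy, (hSbd y hy).2⟩
    · intro x hx
      obtain ⟨y, _, hxy⟩ := mem_iUnion₂.1 hx
      exact hxy.2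
    · rintro k x ⟨hxb, hx⟩
      obtain ⟨y, hy, hxy⟩ := mem_iUnion₂.1 hx
      rw [hSU]
      exact ⟨h3 y hy k ⟨hxb, hxy.1⟩, hxy.2⟩
  · -- (b)
    intro k hk
    rw [Set.disjoint_left]
    intro y₀ hy₀ hy₀'
    have hcl : IsClosed (t3Tk k S) := hS.isClosed.preimage (t3Tk_continuous k)
    have hTS : t3Tk k S = ctBd 3 (t3Y X ϑ) (t3Tk k A) ∩ t3Tk k U := by
      rw [(t3tk_sets hYk k A).1, ← t3Tk_inter, ← hSU]
    -- openness of `S ∩ τᵏ S` in `S`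
    have key : ∀ y ∈ S ∩ t3Tk k S, ∃ Uy : Set (V × ℝ), IsOpen Uy ∧ y ∈ Uy ∧
        S ∩ Uy ⊆ t3Tk k S := by
      rintro y ⟨hy, hy'⟩
      obtain ⟨hyb, hyU⟩ := hSbd y hy
      have hy2 : y ∈ ctBd 3 (t3Y X ϑ) (t3Tk k A) ∩ t3Tk k U := hTS ▸ hy'
      obtain ⟨W, hW, hyW, he⟩ := hZ.touch k y (hUW hyU) hyb hy2.1
      refine ⟨W ∩ t3Tk k U, hW.inter (t3Tk_isOpen k hU), ⟨hyW, hy2.2⟩, fun x hx => ?_⟩
      rw [hTS]
      have : x ∈ ctBd 3 (t3Y X ϑ) (t3Tk k A) ∩ W := he ▸ ⟨(hSbd x hx.1).1, hx.2.1⟩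
      exact ⟨this.1, hx.2.2⟩
    choose! Uy h1 h2 h3 using key
    have hsub : S ⊆ t3Tk k S := by
      by_contra hns
      obtain ⟨y₁, hy₁, hy₁'⟩ := Set.not_subset.1 hns
      have := hSc.isPreconnected (⋃ y ∈ S ∩ t3Tk k S, Uy y) (t3Tk k S)ᶜ
        (isOpen_biUnion fun y hy => h1 y hy) hcl.isOpen_compl
        (fun y hy => by
          by_cases hyT : y ∈ t3Tk k S
          · exact Or.inl (mem_iUnion₂.2 ⟨y, ⟨hy, hyT⟩, h2 y ⟨hy, hyT⟩⟩)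
          · exact Or.inr hyT)
        ⟨y₀, hy₀, mem_iUnion₂.2 ⟨y₀, ⟨hy₀, hy₀'⟩, h2 y₀ ⟨hy₀, hy₀'⟩⟩⟩ ⟨y₁, hy₁, hy₁'⟩
      obtain ⟨x, hxS, hxu, hxv⟩ := this
      obtain ⟨y, hy, hxy⟩ := mem_iUnion₂.1 hxu
      exact hxv (h3 y hy ⟨hxS, hxy⟩)
    have hne : S.Nonempty := ⟨y₀, hy₀⟩
    rcases lt_or_gt_of_ne hk with hk' | hk'
    · obtain ⟨ym, hym, hmax⟩ := hS.exists_isMaxOn hne continuous_snd.continuousOn
      have h4 : (ym.1, ym.2 - (k : ℝ)) ∈ S := hsub hym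
      have h5 : ym.2 - (k : ℝ) ≤ ym.2 := hmax h4
      have h6 : (k : ℝ) < 0 := Int.cast_lt_zero.2 hk'
      linarith
    · obtain ⟨ym, hym, hmin⟩ := hS.exists_isMinOn hne continuous_snd.continuousOn
      have h4 : (ym.1, ym.2 - (k : ℝ)) ∈ S := hsub hym
      have h5 : ym.2 ≤ ym.2 - (k : ℝ) := hmin h4
      have h6 : (0 : ℝ) < k := Int.cast_pos.2 hk'
      linarith

/-- the projected boundary. -/
def t3zZ (X Wj : Set V) (Y A : Set (V × ℝ)) : Set V :=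
  {x | x ∈ X ∩ Wj ∧ ∃ s : ℝ, (x, s) ∈ ctBd 3 Y A}

theorem t3ZcE_eqns_cite : True := by
  have := @t3zZ.eq_1
  trivial

/-- **(E4) L-T3-ZcE-4: projection of a sheet.**
[`sheet`: `(S, U, f)`; `isolated`: `U'`, and `fst` is injective on `S` (two points of `S` in one fibre differ by a deck translation: `T3Cov.fib`).  `T3Li.injOn_nhd`: `W' ⊇ S` open with `fst` injective on `Y ∩ W'`.  `U'' = U' ∩ W'`; `T3Def` restricts to `U''`; `CtLAM.inter_open`.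
`T3Li.def_down`: `(O', φ')`, `fst '' (Y ∩ U'') = X ∩ O'`, `φ' ∘ fst = f`; `T3Li.iso_of_injOn`, `T3Iso.lam` (`{φ' < 0}` pulls back to `{f < 0}`).  `X ∩ O' ⊆ X ∩ Wj ⊆ I`.  `S' = fst '' S` compact, connected.
ISOLATED: `x ∈ Z ∩ O'`: `x = fst y`, `y ∈ Y ∩ U''`; a lift `y'` of `x` is in `ctBd A`; `y' = τʲ y`, so `y ∈ ctBd (τ⁻ʲ A) ∩ U' ⊆ S` (`t3tk_sets`).] -/
theorem T3Zm.proj (H : T3ZS X h t B O φ F N K ϑ x₀ L)
    (hZ : T3Zm X h t (t3Int X O φ) x₀ L (t3Y X ϑ) Wj A) {q : V}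
    (hq : q ∈ t3zZ X Wj (t3Y X ϑ) A) (hqL : rdist X h x₀ q < L - 23) :
    ∃ S' : Set V, T3XCut X h t (t3Int X O φ) S' ∧ q ∈ S' ∧
      ∃ U : Set V, IsOpen U ∧ S' ⊆ U ∧ X ∩ U ⊆ X ∩ Wj ∧ t3zZ X Wj (t3Y X ϑ) A ∩ U = S' := by
  have hX := H.pc.col.geo.mfd
  have hli := H.stp.li hX
  have hcov := H.stp.cov hX
  have hYm : IsMfd 3 (t3Y X ϑ) := hli.mfd
  have hYk : ∀ k, t3Tk k (t3Y X ϑ) = t3Y X ϑ := t3Tk_Y X ϑ
  obtain ⟨hGY, -⟩ := H.geoY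
  have hreg : ∀ x, x ∈ X ∩ Wj ↔ x ∈ t3Int X O φ ∧ rdist X h x₀ x < L := fun x => by
    rw [hZ.reg]
    exact Iff.rfl
  obtain ⟨hqJ, s, hs⟩ := hq
  obtain ⟨S, U, f, hS, hSc, hzS, hU, hUW, hSU, hdef, hlam⟩ :=
    hZ.sheet H (z := (q, s)) hs ((hreg q).1 hqJ).1 hqL
  obtain ⟨⟨U', hU', hSU', hU'U, hiso⟩, hdis⟩ := hZ.isolated H hS hSc hU hUW hSU
  have hSbd : ∀ y ∈ S, y ∈ ctBd 3 (t3Y X ϑ) A ∧ y ∈ U := fun y hy => by
    rw [hSU] at hy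
    exact hy
  have hSY : S ⊆ t3Y X ϑ := fun y hy => ct_bd_subset A (hSbd y hy).1
  have hinj : InjOn (ContinuousLinearMap.fst ℝ V ℝ) S := by
    intro a ha b hb hab
    have hab' : a.1 = b.1 := hab
    have haY : (b.1, a.2) ∈ t3Y X ϑ := by
      rw [← hab']
      exact hSY ha
    obtain ⟨k, hk⟩ := (hcov.fib b.1 a.2 b.2 haY).1 (hSY hb)
    by_cases hk0 : k = 0
    · rw [hk0] at hk
      exact Prod.ext hab' (by rw [hk]; simp)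
    · exfalso
      refine Set.disjoint_left.1 (hdis k hk0) hb ?_
      show (b.1, b.2 - (k : ℝ)) ∈ S
      have e : b.2 - (k : ℝ) = a.2 := by rw [hk]; ring
      rw [e, ← hab']
      exact ha
  obtain ⟨W', hW', hSW', hinjW⟩ := hli.injOn_nhd hS hSY hinj
  have hU2 : IsOpen (U' ∩ W') := hU'.inter hW'
  have hU2U : U' ∩ W' ⊆ U := inter_subset_left.trans hU'U
  have hSU2 : S ⊆ U' ∩ W' := fun y hy => ⟨hSU' hy, hSW' hy⟩
  have hdef2 : T3Def 3 (t3Y X ϑ) S (U' ∩ W') f := t3ze_def_mono hdef hU2 hU2U hSU2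
  have hinj2 : InjOn (ContinuousLinearMap.fst ℝ V ℝ) (t3Y X ϑ ∩ (U' ∩ W')) :=
    hinjW.mono (inter_subset_inter_right _ inter_subset_right)
  obtain ⟨O', φ', hdef', himg, hφ'⟩ := hli.def_down hdef2 hinj2
  have hiso' := hli.iso_of_injOn hU2 hdef'.opn hinj2 himg
  have hXO : ∀ x ∈ X ∩ O', ∃ y ∈ t3Y X ϑ ∩ (U' ∩ W'), y.1 = x := by
    intro x hx
    rw [← himg] at hx
    obtain ⟨y, hy, rfl⟩ := hx
    exact ⟨y, hy, rfl⟩
  have hXOW : X ∩ O' ⊆ X ∩ Wj := by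
    intro x hx
    obtain ⟨y, hy, rfl⟩ := hXO x hx
    exact ⟨hx.1, hUW (hU2U hy.2)⟩
  have hlam2 : CtLAM 3 (t3Y X ϑ ∩ (U' ∩ W')) (t3hY h) (t3tY t) (fun _ => 0)
      {y | y ∈ t3Y X ϑ ∩ (U' ∩ W') ∧ f y < 0} := by
    have h1 := hlam.inter_open (hGY.inter hU) hU2
    have e1 : t3Y X ϑ ∩ U ∩ (U' ∩ W') = t3Y X ϑ ∩ (U' ∩ W') := by
      ext y
      exact ⟨fun hy => ⟨hy.1.1, hy.2⟩, fun hy => ⟨⟨hy.1, hU2U hy.2⟩, hy.2⟩⟩
    have e2 : {y | y ∈ t3Y X ϑ ∩ U ∧ f y < 0} ∩ (U' ∩ W') =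
        {y | y ∈ t3Y X ϑ ∩ (U' ∩ W') ∧ f y < 0} := by
      ext y
      exact ⟨fun hy => ⟨⟨hy.1.1.1, hy.2⟩, hy.1.2⟩, fun hy => ⟨⟨⟨hy.1.1, hU2U hy.1.2⟩, hy.2⟩, hy.1.2⟩⟩
    rwa [e1, e2] at h1
  have hlam' : CtLAM 3 (X ∩ O') h t (fun _ => 0) {x | x ∈ X ∩ O' ∧ φ' x < 0} := by
    refine (hiso'.lam (p := fun _ => 0) (H.pc.col.geo.inter hdef'.opn) (fun x hx => hx.1)).2 ?_
    have e : t3Y X ϑ ∩ (U' ∩ W') ∩ (ContinuousLinearMap.fst ℝ V ℝ) ⁻¹' {x | x ∈ X ∩ O' ∧ φ' x < 0} =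
        {y | y ∈ t3Y X ϑ ∩ (U' ∩ W') ∧ f y < 0} := by
      ext y
      constructor
      · rintro ⟨hy, -, hy2⟩
        exact ⟨hy, by rw [← hφ' y hy]; exact hy2⟩
      · rintro ⟨hy, hy2⟩
        refine ⟨hy, ?_, by rw [← hφ' y hy] at hy2; exact hy2⟩
        rw [← himg]
        exact ⟨y, hy, rfl⟩
    rw [e]
    exact hlam2
  refine ⟨(ContinuousLinearMap.fst ℝ V ℝ) '' S,
    ⟨hS.image (ContinuousLinearMap.fst ℝ V ℝ).continuous,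
      hSc.image _ (ContinuousLinearMap.fst ℝ V ℝ).continuous.continuousOn, O', φ', hdef',
      fun x hx => ((hreg x).1 (hXOW hx)).1, hlam'⟩,
    ⟨(q, s), hzS, rfl⟩, O', hdef'.opn, fun x hx => (hdef'.sub hx).2, hXOW, ?_⟩
  ext x
  constructor
  · rintro ⟨⟨hxJ, s', hs'⟩, hxO⟩
    obtain ⟨y, hy, rfl⟩ := hXO x ⟨hxJ.1, hxO⟩
    obtain ⟨k, hk⟩ := (hcov.fib y.1 y.2 s' hy.1).1 (ct_bd_subset A hs')
    refine ⟨y, hiso (-k) ⟨?_, hy.2.1⟩, rfl⟩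
    rw [t3ze_mem_bd hYk]
    have e : y.2 - ((-k : ℤ) : ℝ) = s' := by rw [hk]; push_cast; ring
    rw [e]
    exact hs'
  · rintro ⟨y, hy, rfl⟩
    exact ⟨⟨⟨(hSY hy).1, hUW (hSbd y hy).2⟩, y.2, (hSbd y hy).1⟩, (hdef'.sub ⟨y, hy, rfl⟩).2⟩

/-- **(E5) L-T3-ZcE-5**: `Z` is closed in the free region.
[Let `x ∈ J \ Z`, `z` a lift.  `hZ.fin` gives `U ∋ z`, `k₀`; for `|k| < k₀` the point `z` is not in the relatively closed set `ctBd (τᵏ A)` (`t3tk_sets`: `z ∈ ctBd (τᵏ A) ↔ τ⁻ᵏ z ∈ ctBd A`): shrink `U`.  `fst '' (Y ∩ U)` is a neighbourhood of `x` in `X` (`T3Li.image_open`) which misses `Z`.] -/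
theorem T3Zm.zclosed (H : T3ZS X h t B O φ F N K ϑ x₀ L)
    (hZ : T3Zm X h t (t3Int X O φ) x₀ L (t3Y X ϑ) Wj A) :
    ∃ Wz : Set V, IsOpen Wz ∧ X ∩ Wz = (X ∩ Wj) \ t3zZ X Wj (t3Y X ϑ) A := by
  classical
  have hX := H.pc.col.geo.mfd
  have hli := H.stp.li hX
  have hcov := H.stp.cov hX
  have hYm : IsMfd 3 (t3Y X ϑ) := hli.mfd
  have hYk : ∀ k, t3Tk k (t3Y X ϑ) = t3Y X ϑ := t3Tk_Y X ϑ
  have key : ∀ x ∈ (X ∩ Wj) \ t3zZ X Wj (t3Y X ϑ) A, ∃ Ox : Set V, IsOpen Ox ∧ x ∈ Ox ∧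
      X ∩ Ox ⊆ (X ∩ Wj) \ t3zZ X Wj (t3Y X ϑ) A := by
    intro x hx
    obtain ⟨s, hs⟩ := hcov.surj x hx.1.1
    obtain ⟨U, hU, hzU, hst⟩ := hZ.ze_status hYm hs hx.1.2 (fun k hk => by
      rw [t3ze_mem_bd hYk] at hk
      exact hx.2 ⟨hx.1, _, hk⟩)
    obtain ⟨O', hO', he⟩ := hli.image_open (hU.inter (hZ.opn.preimage continuous_fst))
    have hxO : x ∈ X ∩ O' := by
      rw [← he]
      exact ⟨(x, s), ⟨hs, hzU, hx.1.2⟩, rfl⟩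
    refine ⟨O', hO', hxO.2, fun x' hx' => ?_⟩
    rw [← he] at hx'
    obtain ⟨y, ⟨hyY, hyU, hyW⟩, rfl⟩ := hx'
    refine ⟨⟨hcov.sub y hyY, hyW⟩, ?_⟩
    rintro ⟨-, s', hs'⟩
    have hs'' : (y.1, s') ∈ ctBd 3 (t3Y X ϑ) A := hs'
    obtain ⟨k, hk⟩ := (hcov.fib y.1 y.2 s' hyY).1 (ct_bd_subset A hs'')
    refine t3ze_not_bd_of_status hYm (hst (-k)) ⟨hyY, hyU⟩ ?_
    rw [t3ze_mem_bd hYk]
    have : y.2 - ((-k : ℤ) : ℝ) = s' := by rw [hk]; push_cast; ring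
    rw [this]
    exact hs''
  choose! Ox h1 h2 h3 using key
  refine ⟨⋃ x ∈ (X ∩ Wj) \ t3zZ X Wj (t3Y X ϑ) A, Ox x, isOpen_biUnion h1, ?_⟩
  ext x
  constructor
  · rintro ⟨hxX, hx⟩
    obtain ⟨y, hy, hxy⟩ := mem_iUnion₂.1 hx
    exact h3 y hy ⟨hxX, hxy⟩
  · intro hx
    exact ⟨hx.1.1, mem_iUnion₂.2 ⟨x, hx, h2 x hx⟩⟩

/-- **(E5) L-T3-ZcE-5: the section.**
[For `z ∈ Y` over `J \ Z` every `τᵏ z` lies in `ctIn A` or in `ctOut A`; `P z = {k : ℕ | τᵏ z ∈ ctIn A}` and `Q z = {k : ℕ | τ^{-k-1} z ∈ ctOut A}` are finite (`hZ.fin`, `t3tk_sets`, `ct_trichotomy`); `n z = ncard (P z) - ncard (Q z)`.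
`n (τ z) = n z - 1` (shift of the index; distinguish whether `z ∈ ctIn A`).  `n` is locally constant: on the neighbourhood `U` of `zclosed`'s proof, intersected with the finitely many relatively open sets `ctIn/ctOut (τᵏ A) ∋ z`, the sets `P`, `Q` do not change.
`w x = s + n (x, s)` for any lift (choice); independent of the lift; continuity: `w = σ + n ∘ (id, σ)` with a local section `σ` (`T3Cov.sec`).] -/
theorem T3Zm.section (H : T3ZS X h t B O φ F N K ϑ x₀ L)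
    (hZ : T3Zm X h t (t3Int X O φ) x₀ L (t3Y X ϑ) Wj A) :
    ∃ w : V → ℝ, ContinuousOn w ((X ∩ Wj) \ t3zZ X Wj (t3Y X ϑ) A) ∧
      ∀ x ∈ (X ∩ Wj) \ t3zZ X Wj (t3Y X ϑ) A, (x, w x) ∈ t3Y X ϑ := by
  classical
  have hX := H.pc.col.geo.mfd
  have hli := H.stp.li hX
  have hcov := H.stp.cov hX
  have hYm : IsMfd 3 (t3Y X ϑ) := hli.mfd
  have hYk : ∀ k, t3Tk k (t3Y X ϑ) = t3Y X ϑ := t3Tk_Y X ϑ
  obtain ⟨-, hio, -, -⟩ := ct_trichotomy' hYm A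
  have hio' : ∀ y, y ∈ ctIn 3 (t3Y X ϑ) A → y ∉ ctOut 3 (t3Y X ϑ) A :=
    fun y h1 h2 => Set.disjoint_left.1 hio h1 h2
  have hnb : ∀ z ∈ t3Y X ϑ, z.1 ∈ (X ∩ Wj) \ t3zZ X Wj (t3Y X ϑ) A → ∀ k : ℤ,
      z ∉ ctBd 3 (t3Y X ϑ) (t3Tk k A) := by
    intro z _ hzJ k hk
    rw [t3ze_mem_bd hYk] at hk
    exact hzJ.2 ⟨hzJ.1, _, hk⟩
  -- the characterisation of the section
  let C : V → ℝ → Prop := fun x w => (x, w) ∈ t3Y X ϑ ∧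
    (∀ k : ℕ, (x, w - (k : ℝ)) ∈ ctIn 3 (t3Y X ϑ) A) ∧ (x, w + 1) ∉ ctIn 3 (t3Y X ϑ) A
  have hex : ∀ x ∈ (X ∩ Wj) \ t3zZ X Wj (t3Y X ϑ) A, ∃ w, C x w := by
    intro x hx
    obtain ⟨s, hs⟩ := hcov.surj x hx.1.1
    obtain ⟨k₀, U, -, hzU, hk⟩ := hZ.fin (x, s) hs hx.1.2
    have hin : ∀ k : ℤ, k₀ ≤ k → (x, s - (k : ℝ)) ∈ ctIn 3 (t3Y X ϑ) A := fun k hk0 =>
      (t3ze_mem_in hYk k A (x, s)).1 ((hk k hk0).1 ⟨hs, hzU⟩)
    have hout : ∀ k : ℤ, k₀ ≤ k → (x, s + (k : ℝ)) ∈ ctOut 3 (t3Y X ϑ) A := fun k hk0 => by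
      have := (t3ze_mem_out hYk (-k) A (x, s)).1 ((hk k hk0).2 ⟨hs, hzU⟩)
      have e : s - ((-k : ℤ) : ℝ) = s + (k : ℝ) := by push_cast; ring
      simpa only [e] using this
    obtain ⟨m, hm, hmax⟩ := Int.exists_greatest_of_bdd
      (P := fun m : ℤ => ∀ j : ℤ, j ≤ m → (x, s + (j : ℝ)) ∈ ctIn 3 (t3Y X ϑ) A)
      ⟨k₀, fun m hm => by
        by_contra hlt
        exact hio' _ (hm k₀ (not_le.1 hlt).le) (hout k₀ le_rfl)⟩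
      ⟨-k₀, fun j hj => by
        have := hin (-j) (by omega)
        have e : s - ((-j : ℤ) : ℝ) = s + (j : ℝ) := by push_cast; ring
        simpa only [e] using this⟩
    refine ⟨s + (m : ℝ), (hcov.fib x s _ hs).2 ⟨m, rfl⟩, fun k => ?_, fun hc => ?_⟩
    · have := hm (m - (k : ℤ)) (by omega)
      have e : s + ((m - (k : ℤ) : ℤ) : ℝ) = s + (m : ℝ) - (k : ℝ) := by push_cast; ring
      simpa only [e] using this
    · have : m + 1 ≤ m := hmax (m + 1) fun j hj => by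
        rcases (Int.le_iff_lt_or_eq.1 hj) with hj' | hj'
        · exact hm j (by omega)
        · rw [hj']
          have e : s + ((m + 1 : ℤ) : ℝ) = s + (m : ℝ) + 1 := by push_cast; ring
          rw [e]
          exact hc
      omega
  have hlt : ∀ (x : V) (w w' : ℝ) (k : ℕ), C x w → C x w' → w' = w + ((k : ℝ) + 1) → False := by
    intro x w w' k hw hw' he
    have := hw'.2.1 k
    have e : w' - (k : ℝ) = w + 1 := by rw [he]; ring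
    rw [e] at this
    exact hw.2.2 this
  have huniq : ∀ (x : V) (w w' : ℝ), C x w → C x w' → w = w' := by
    intro x w w' hw hw'
    obtain ⟨k, hk⟩ := (hcov.fib x w w' hw.1).1 hw'.1
    rcases lt_trichotomy k 0 with h0 | h0 | h0
    · exfalso
      obtain ⟨n, hn⟩ : ∃ n : ℕ, k = -((n : ℤ) + 1) := ⟨(-k - 1).toNat, by omega⟩
      refine hlt x w' w n hw' hw ?_
      rw [hk, hn]
      push_cast
      ring
    · rw [hk, h0]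
      simp
    · exfalso
      obtain ⟨n, hn⟩ : ∃ n : ℕ, k = (n : ℤ) + 1 := ⟨(k - 1).toNat, by omega⟩
      refine hlt x w w' n hw hw' ?_
      rw [hk, hn]
      push_cast
      ring
  choose! w hw using hex
  refine ⟨w, ?_, fun x hx => (hw x hx).1⟩
  intro x₁ hx₁
  have hz : (x₁, w x₁) ∈ t3Y X ϑ := (hw x₁ hx₁).1
  obtain ⟨U, hU, hzU, hst⟩ := hZ.ze_status hYm hz hx₁.1.2 (hnb _ hz hx₁)
  obtain ⟨U₁, σ, hU₁, hxU₁, hσ, hσx, hσY⟩ := hcov.sec _ hz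
  have hσx' : σ x₁ = w x₁ := hσx
  have hxU₁' : x₁ ∈ U₁ := hxU₁
  have hmem : X ∩ U₁ ∈ 𝓝[(X ∩ Wj) \ t3zZ X Wj (t3Y X ϑ) A] x₁ :=
    Filter.inter_mem (Filter.mem_of_superset self_mem_nhdsWithin fun x hx => hx.1.1)
      (mem_nhdsWithin_of_mem_nhds (hU₁.mem_nhds hxU₁'))
  have hσc : ContinuousWithinAt σ (X ∩ U₁) x₁ := hσ x₁ ⟨hx₁.1.1, hxU₁'⟩
  have hpair : ContinuousWithinAt (fun x => (x, σ x)) (X ∩ U₁) x₁ :=
    continuousWithinAt_id.prodMk hσc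
  have hev : ∀ᶠ x in 𝓝[X ∩ U₁] x₁, (x, σ x) ∈ U :=
    hpair (hU.mem_nhds (by show (x₁, σ x₁) ∈ U; rw [hσx']; exact hzU))
  have hev' : ∀ᶠ x in 𝓝[(X ∩ Wj) \ t3zZ X Wj (t3Y X ϑ) A] x₁, (x, σ x) ∈ U :=
    hev.filter_mono (nhdsWithin_le_iff.2 hmem)
  have heq : w =ᶠ[𝓝[(X ∩ Wj) \ t3zZ X Wj (t3Y X ϑ) A] x₁] σ := by
    filter_upwards [hev', hmem, self_mem_nhdsWithin] with x hxU hxX hxJ
    refine huniq x _ _ (hw x hxJ) ⟨hσY x hxX, fun k => ?_, fun hc => ?_⟩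
    · have h1 : (x₁, w x₁) ∈ ctIn 3 (t3Y X ϑ) (t3Tk (k : ℤ) A) := by
        rw [t3ze_mem_in hYk]
        simpa using (hw x₁ hx₁).2.1 k
      rcases hst (k : ℤ) with h2 | h2
      · have := (t3ze_mem_in hYk (k : ℤ) A (x, σ x)).1 (h2 ⟨hσY x hxX, hxU⟩)
        simpa using this
      · exfalso
        obtain ⟨-, hd, -, -⟩ := ct_trichotomy' hYm (t3Tk (k : ℤ) A)
        exact Set.disjoint_left.1 hd h1 (h2 ⟨hz, hzU⟩)
    · rcases hst (-1) with h2 | h2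
      · have := (t3ze_mem_in hYk (-1) A (x₁, w x₁)).1 (h2 ⟨hz, hzU⟩)
        have e : w x₁ - ((-1 : ℤ) : ℝ) = w x₁ + 1 := by push_cast; ring
        exact (hw x₁ hx₁).2.2 (by simpa only [e] using this)
      · have := (t3ze_mem_out hYk (-1) A (x, σ x)).1 (h2 ⟨hσY x hxX, hxU⟩)
        have e : σ x - ((-1 : ℤ) : ℝ) = σ x + 1 := by push_cast; ring
        exact hio' _ hc (by simpa only [e] using this)
  exact ((hσc.mono_of_mem_nhdsWithin hmem).congr_of_eventuallyEq heq hσx'.symm)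

/-- **OUTPUT of the analytic part.** -/
theorem T3ZS.down (H : T3ZS X h t B O φ F N K ϑ x₀ L)
    (hZ : T3Zm X h t (t3Int X O φ) x₀ L (t3Y X ϑ) Wj A) :
    ∃ (Z : Set V) (w : V → ℝ), Z ⊆ X ∩ Wj ∧ (∃ Wz : Set V, IsOpen Wz ∧ X ∩ Wz = (X ∩ Wj) \ Z) ∧
      ContinuousOn w ((X ∩ Wj) \ Z) ∧ (∀ x ∈ (X ∩ Wj) \ Z, (x, w x) ∈ t3Y X ϑ) ∧
      ∀ q ∈ Z, rdist X h x₀ q < L - 23 → ∃ S' : Set V, T3XCut X h t (t3Int X O φ) S' ∧ q ∈ S' ∧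
        ∃ U : Set V, IsOpen U ∧ S' ⊆ U ∧ X ∩ U ⊆ X ∩ Wj ∧ Z ∩ U = S' := by
  obtain ⟨w, hw1, hw2⟩ := hZ.section H
  exact ⟨t3zZ X Wj (t3Y X ϑ) A, w, fun x hx => hx.1, hZ.zclosed H, hw1, hw2,
    fun q hq hqL => hZ.proj H hq hqL⟩

end Claimed.Agent.R315
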