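-- KEEP
import Claimed.Agent.R315.T3.ZcA
import Claimed.Agent.R315.T3.Cm

/-!
# Row 315, paper T (n = 3), package T3-ZcF: DETECTION of a non-separating surface (pure topology)

Sub-captain: helper72.  No analysis.  Replaces the Thom form / Stokes argument at the end of the proof of T Lemma 3.2.

DATA: a `3`-manifold `X`, `J ⊆ I ⊆ X` relatively open, `I` connected, a cyclic cover `Y` (`T3Cov X Y`), `Z ⊆ J` relatively closed, a continuous section `w` of `Y` over `J \ Z`, a path `c` in `Y` over `J` from `z₀` to `τ z₀`; every point of `Z` under the path lies on a closed two-sided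
connected surface `S' ⊆ Z` (with property `Pr`) which is ISOLATED in `Z` (`Z ∩ U = S'` for an open `U ⊇ S'`, `X ∩ U ⊆ J`).   CLAIM: some `S'` with `Pr S'` does not separate `I`.

PROOF.  (F1) `t3z_sides`: if `S'` separates `I`, then `I \ S' = P ⊔ P'` with the plus side of `S'` in `P` and the minus side in `P'`.
(F2) `t3z_extend`: the jump of `w` across `S'` is an integer `m`, constant along the connected `S'`; `w - m 1_P` extends continuously to a section over `(J \ Z) ∪ S'`.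
(F3) `t3z_detect`: finitely many isolated surfaces cover the compact set `Z ∩ fst (c [0,1])`; two of them are equal or disjoint; if all separate, (F2) repeatedly gives a section `w'` over a set containing `fst (c [0,1])`; `s ↦ (c s).2 - w' (c s).1` is continuous and integer valued, hence constant: contradiction with `c 1 = τ (c 0)`.
LEAVES: L-T3-ZcF-1 (`t3z_sides`), -2 (`t3z_extend`), -3 (`t3z_detect`).
-/

set_option autoImplicit false
set_option linter.unusedSectionVars false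
open scoped ContDiff Topology
open Claims.C0499 Set

namespace Claimed.Agent.R315

variable {V : Type} [NormedAddCommGroup V] [NormedSpace ℝ V] [FiniteDimensional ℝ V]

/-- abstract (F1) -/
theorem t3zf_sides {T : Type} [TopologicalSpace T] {I S O : Set T} {φ : T → ℝ} (hI : IsOpen I)
    (hIc : IsPreconnected I) (hw : TWall S O φ) (hScl : IsClosed S) (hSc : IsConnected S)
    (hSI : S ⊆ I) (hsep : ¬ IsPreconnected (I \ S)) :
    ∃ P P' : Set T, IsOpen P ∧ IsOpen P' ∧ Disjoint P P' ∧ P ∪ P' = I \ S ∧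
      ∀ q ∈ S, ∃ W ∈ 𝓝 q, W ∩ {x | 0 < φ x} ⊆ P ∧ W ∩ {x | φ x < 0} ⊆ P' := by
  have hIS : IsOpen (I \ S) := hI.sdiff hScl
  rw [IsPreconnected] at hsep
  push Not at hsep
  obtain ⟨u, v, hu, hv, huv, hnu, hnv, hdis⟩ := hsep
  set Z : Bool → Set T := fun b => if b then (I \ S) ∩ u else (I \ S) ∩ v with hZdef
  have hZt : Z true = (I \ S) ∩ u := rfl
  have hZf : Z false = (I \ S) ∩ v := rfl
  have hZo : ∀ b, IsOpen (Z b) := by
    rintro (_ | _)
    · exact hIS.inter hv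
    · exact hIS.inter hu
  have hZne : ∀ b, (Z b).Nonempty := by
    rintro (_ | _)
    · exact hnv
    · exact hnu
  have hZsub : ∀ b, Z b ⊆ I \ S := by
    rintro (_ | _)
    · exact inter_subset_left
    · exact inter_subset_left
  have htf : Disjoint (Z true) (Z false) := by
    rw [Set.disjoint_left]
    rintro x ⟨hx, hxu⟩ ⟨-, hxv⟩
    have h0 : x ∈ I \ S ∩ (u ∩ v) := ⟨hx, hxu, hxv⟩
    rw [hdis] at h0
    exact h0
  have hZd : Pairwise (Function.onFun Disjoint Z) := by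
    rintro (_ | _) (_ | _) hab
    · exact absurd rfl hab
    · exact htf.symm
    · exact htf
    · exact absurd rfl hab
  have hZun : ∀ b, I \ S ⊆ Z b ∪ Z (!b) := by
    intro b x hx
    rcases huv hx with h | h
    · cases b
      · exact Or.inr ⟨hx, h⟩
      · exact Or.inl ⟨hx, h⟩
    · cases b
      · exact Or.inl ⟨hx, h⟩
      · exact Or.inr ⟨hx, h⟩
  have hZU : I \ S ⊆ ⋃ b, Z b := fun x hx =>
    (hZun true hx).elim (fun h => mem_iUnion.2 ⟨_, h⟩) fun h => mem_iUnion.2 ⟨_, h⟩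
  obtain ⟨ip, hip⟩ := twall_side_one hI hw hSI hSc.isPreconnected hSc.nonempty Z hZo hZd hZU
  obtain ⟨im, him⟩ := twall_side_one hI hw.twall_neg hSI hSc.isPreconnected hSc.nonempty Z hZo hZd hZU
  simp only [Left.neg_pos_iff] at him
  have hne : ip ≠ im := by
    intro he
    obtain ⟨p, hp, h⟩ := twall_touch_side (Z := Z (!ip)) (Z' := Z ip) hI hIc hw hSI hSc.nonempty
      (hZo _) (hZo _) (hZd (by simp)) (fun x hx => (hZun ip hx).symm)
      (Set.disjoint_left.2 fun x hx hxS => (hZsub _ hx).2 hxS)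
      (by obtain ⟨x, hx⟩ := hZne (!ip); exact ⟨x, (hZsub _ hx).1, hx⟩)
    rcases h with ⟨U, hU, hUZ⟩ | ⟨U, hU, hUZ⟩
    · obtain ⟨U', hU', hUZ'⟩ := hip p hp
      obtain ⟨N, -, -, hNW, -, -, ⟨x, hxN, hx⟩, -, -⟩ := hw.loc p hp (U ∩ U') (Filter.inter_mem hU hU')
      exact Set.disjoint_left.1 (hZd (show (!ip) ≠ ip by simp)) (hUZ ⟨(hNW hxN).1, hx⟩)
        (hUZ' ⟨(hNW hxN).2, hx⟩)
    · obtain ⟨U', hU', hUZ'⟩ := him p hp
      obtain ⟨N, -, -, hNW, -, -, -, -, ⟨x, hxN, hx⟩⟩ := hw.loc p hp (U ∩ U') (Filter.inter_mem hU hU')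
      rw [← he] at hUZ'
      exact Set.disjoint_left.1 (hZd (show (!ip) ≠ ip by simp)) (hUZ ⟨(hNW hxN).1, hx⟩)
        (hUZ' ⟨(hNW hxN).2, hx⟩)
  have him' : im = !ip := by
    cases ip <;> cases im <;> simp_all
  refine ⟨Z ip, Z im, hZo _, hZo _, hZd hne, ?_, fun q hq => ?_⟩
  · rw [him']
    exact Subset.antisymm (union_subset (hZsub _) (hZsub _)) (hZun ip)
  · obtain ⟨U, hU, hUZ⟩ := hip q hq
    obtain ⟨U', hU', hUZ'⟩ := him q hq
    exact ⟨U ∩ U', Filter.inter_mem hU hU',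
      fun x hx => hUZ ⟨hx.1.1, hx.2⟩, fun x hx => hUZ' ⟨hx.1.2, hx.2⟩⟩

/-- abstract (F2), local structure of the section near a point of the surface -/
theorem t3zf_local {T : Type} [TopologicalSpace T] {J Z S U O P P' : Set T} {φ : T → ℝ}
    {Y : Set (T × ℝ)}
    (hfib : ∀ x s s', (x, s) ∈ Y → ((x, s') ∈ Y ↔ ∃ k : ℤ, s' = s + k))
    (hsec : ∀ x, ∃ (U : Set T) (σ : T → ℝ), IsOpen U ∧ x ∈ U ∧ ContinuousOn σ U ∧
      ∀ y ∈ U, (y, σ y) ∈ Y) {w : T → ℝ}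
    (hw : ContinuousOn w (J \ Z)) (hwY : ∀ x ∈ J \ Z, (x, w x) ∈ Y)
    (hwall : TWall S O φ) (hU : IsOpen U) (hSU : S ⊆ U) (hUJ : U ⊆ J) (hZU : Z ∩ U = S)
    (hside : ∀ q ∈ S, ∃ W ∈ 𝓝 q, W ∩ {x | 0 < φ x} ⊆ P ∧ W ∩ {x | φ x < 0} ⊆ P') {q : T}
    (hq : q ∈ S) :
    ∃ (N : Set T) (σ : T → ℝ) (m : ℤ), IsOpen N ∧ q ∈ N ∧ N ⊆ O ∧ ContinuousOn σ N ∧
      (∀ x ∈ N, (x, σ x) ∈ Y) ∧ (∀ x ∈ N, φ x < 0 → w x = σ x ∧ x ∈ P') ∧
      ∀ x ∈ N, 0 < φ x → w x = σ x + m ∧ x ∈ P := by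
  obtain ⟨Uσ, σ, hUσ, hqU, hσc, hσY⟩ := hsec q
  obtain ⟨W, hW, hWP, hWP'⟩ := hside q hq
  obtain ⟨N, hN, hqN, hNW, hNO, hcp, ⟨xp, hxp⟩, hcm, ⟨xm, hxm⟩⟩ := hwall.loc q hq ((Uσ ∩ U) ∩ W)
    (Filter.inter_mem (Filter.inter_mem (hUσ.mem_nhds hqU) (hU.mem_nhds (hSU hq))) hW)
  have hJZ : ∀ x ∈ N, φ x ≠ 0 → x ∈ J \ Z := by
    intro x hx h0
    refine ⟨hUJ (hNW hx).1.2, fun hxZ => h0 ?_⟩
    have hxS : x ∈ S := hZU ▸ (⟨hxZ, (hNW hx).1.2⟩ : x ∈ Z ∩ U)
    exact (hwall.zero x (hNO hx)).2 hxS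
  have hint : ∀ x ∈ N, φ x ≠ 0 → ∃ k : ℤ, w x - σ x = k := by
    intro x hx h0
    obtain ⟨k, hk⟩ := (hfib x (σ x) (w x) (hσY x (hNW hx).1.1)).1 (hwY x (hJZ x hx h0))
    exact ⟨k, by rw [hk]; ring⟩
  have hcont : ∀ A : Set T, A ⊆ N → (∀ x ∈ A, φ x ≠ 0) → ContinuousOn (fun x => w x - σ x) A := by
    intro A hA h0
    exact (hw.mono fun x hx => hJZ x (hA hx) (h0 x hx)).sub
      (hσc.mono fun x hx => (hNW (hA hx)).1.1)
  obtain ⟨ap, hap⟩ := hint xp hxp.1 (ne_of_gt hxp.2)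
  obtain ⟨am, ham⟩ := hint xm hxm.1 (ne_of_lt hxm.2)
  have hp : ∀ x ∈ N ∩ {x | 0 < φ x}, w x - σ x = ap := by
    intro x hx
    rw [← hap]
    exact t3fin_int_const hcp (hcont _ inter_subset_left fun y hy => ne_of_gt hy.2)
      (fun y hy => hint y hy.1 (ne_of_gt hy.2)) hx hxp
  have hm : ∀ x ∈ N ∩ {x | φ x < 0}, w x - σ x = am := by
    intro x hx
    rw [← ham]
    exact t3fin_int_const hcm (hcont _ inter_subset_left fun y hy => ne_of_lt hy.2)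
      (fun y hy => hint y hy.1 (ne_of_lt hy.2)) hx hxm
  refine ⟨N, fun x => σ x + am, ap - am, hN, hqN, hNO,
    (hσc.mono fun x hx => (hNW hx).1.1).add continuousOn_const, ?_, ?_, ?_⟩
  · intro x hx
    exact (hfib x (σ x) (σ x + am) (hσY x (hNW hx).1.1)).2 ⟨am, rfl⟩
  · intro x hx h0
    refine ⟨?_, hWP' ⟨(hNW hx).2, h0⟩⟩
    have := hm x ⟨hx, h0⟩
    linarith
  · intro x hx h0
    refine ⟨?_, hWP ⟨(hNW hx).2, h0⟩⟩
    have := hp x ⟨hx, h0⟩
    push_cast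
    linarith

/-- the two sides accumulate at every point of a wall -/
theorem t3zf_neBot {T : Type} [TopologicalSpace T] {S O : Set T} {φ : T → ℝ} (hwall : TWall S O φ)
    {q : T} (hq : q ∈ S) : (𝓝[{x | 0 < φ x}] q).NeBot ∧ (𝓝[{x | φ x < 0}] q).NeBot := by
  constructor
  · rw [← mem_closure_iff_nhdsWithin_neBot, mem_closure_iff_nhds]
    intro W hW
    obtain ⟨U, -, -, hUW, -, -, hne, -, -⟩ := hwall.loc q hq W hW
    exact hne.mono (inter_subset_inter_left _ hUW)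
  · rw [← mem_closure_iff_nhdsWithin_neBot, mem_closure_iff_nhds]
    intro W hW
    obtain ⟨U, -, -, hUW, -, -, -, -, hne⟩ := hwall.loc q hq W hW
    exact hne.mono (inter_subset_inter_left _ hUW)

open Classical in
/-- abstract (F2) -/
theorem t3zf_extend {T : Type} [TopologicalSpace T] {I J Z S U O : Set T} {φ : T → ℝ}
    {Y : Set (T × ℝ)}
    (hfib : ∀ x s s', (x, s) ∈ Y → ((x, s') ∈ Y ↔ ∃ k : ℤ, s' = s + k))
    (hsec : ∀ x, ∃ (U : Set T) (σ : T → ℝ), IsOpen U ∧ x ∈ U ∧ ContinuousOn σ U ∧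
      ∀ y ∈ U, (y, σ y) ∈ Y)
    (hI : IsOpen I) (hIc : IsPreconnected I) (hJI : J ⊆ I) (hZc : IsOpen (J \ Z)) {w : T → ℝ}
    (hw : ContinuousOn w (J \ Z)) (hwY : ∀ x ∈ J \ Z, (x, w x) ∈ Y)
    (hwall : TWall S O φ) (hScl : IsClosed S) (hSc : IsConnected S)
    (hU : IsOpen U) (hSU : S ⊆ U) (hUJ : U ⊆ J) (hZU : Z ∩ U = S)
    (hsep : ¬ IsPreconnected (I \ S)) :
    ∃ w' : T → ℝ, ContinuousOn w' (J \ (Z \ S)) ∧ ∀ x ∈ J \ (Z \ S), (x, w' x) ∈ Y := by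
  obtain ⟨P, P', hP, hP', hPP, hPun, hside⟩ :=
    t3zf_sides hI hIc hwall hScl hSc (hSU.trans (hUJ.trans hJI)) hsep
  have hloc : ∀ q : T, ∃ (N : Set T) (σ : T → ℝ) (m : ℤ), q ∈ S → (IsOpen N ∧ q ∈ N ∧ N ⊆ O ∧
      ContinuousOn σ N ∧
      (∀ x ∈ N, (x, σ x) ∈ Y) ∧ (∀ x ∈ N, φ x < 0 → w x = σ x ∧ x ∈ P') ∧
      ∀ x ∈ N, 0 < φ x → w x = σ x + m ∧ x ∈ P) := by
    intro q
    by_cases hq : q ∈ S
    · obtain ⟨N, σ, m, h⟩ := t3zf_local hfib hsec hw hwY hwall hU hSU hUJ hZU hside hq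
      exact ⟨N, σ, m, fun _ => h⟩
    · exact ⟨∅, fun _ => 0, 0, fun h => absurd h hq⟩
  choose N σ m hloc using hloc
  -- compatibility
  have hcomp : ∀ q ∈ S, ∀ q' ∈ S, q' ∈ N q → σ q' q' = σ q q' ∧ m q' = m q := by
    intro q hq q' hq' hq'N
    obtain ⟨hN, -, -, hσ, -, hneg, hpos⟩ := hloc q hq
    obtain ⟨hN', hqN', -, hσ', -, hneg', hpos'⟩ := hloc q' hq'
    obtain ⟨nb1, nb2⟩ := t3zf_neBot hwall hq'
    have c1 : Filter.Tendsto (σ q) (𝓝 q') (𝓝 (σ q q')) := (hσ q' hq'N).continuousAt (hN.mem_nhds hq'N)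
    have c2 : Filter.Tendsto (σ q') (𝓝 q') (𝓝 (σ q' q')) :=
      (hσ' q' hqN').continuousAt (hN'.mem_nhds hqN')
    have e1 : σ q' q' = σ q q' := by
      refine tendsto_nhds_unique (f := σ q') (l := 𝓝[{x | φ x < 0}] q')
        (c2.mono_left nhdsWithin_le_nhds) ((c1.mono_left nhdsWithin_le_nhds).congr' ?_)
      filter_upwards [self_mem_nhdsWithin, nhdsWithin_le_nhds (hN.mem_nhds hq'N),
        nhdsWithin_le_nhds (hN'.mem_nhds hqN')] with x hx hxN hxN'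
      rw [← (hneg x hxN hx).1, ← (hneg' x hxN' hx).1]
    refine ⟨e1, ?_⟩
    have e2 : σ q' q' + m q' = σ q q' + m q := by
      refine tendsto_nhds_unique (f := fun x => σ q' x + m q') (l := 𝓝[{x | 0 < φ x}] q')
        ((c2.mono_left nhdsWithin_le_nhds).add_const _)
        (((c1.mono_left nhdsWithin_le_nhds).add_const _).congr' ?_)
      filter_upwards [self_mem_nhdsWithin, nhdsWithin_le_nhds (hN.mem_nhds hq'N),
        nhdsWithin_le_nhds (hN'.mem_nhds hqN')] with x hx hxN hxN'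
      rw [← (hpos x hxN hx).1, ← (hpos' x hxN' hx).1]
    rw [e1] at e2
    exact_mod_cast add_left_cancel e2
  obtain ⟨q₀, hq₀⟩ := hSc.nonempty
  have hmconst : ∀ q ∈ S, m q = m q₀ := by
    intro q hq
    refine t3fin_const hSc.isPreconnected m ?_ hq hq₀
    intro x hx
    filter_upwards [self_mem_nhdsWithin, nhdsWithin_le_nhds ((hloc x hx).1.mem_nhds (hloc x hx).2.1)]
      with y hy hyN
    exact (hcomp x hx y hy hyN).2
  have hSZ : S ⊆ Z := fun x hx => (hZU ▸ hx : x ∈ Z ∩ U).1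
  have hPS : ∀ x ∈ P, x ∉ S := fun x hx => ((hPun ▸ Or.inl hx : x ∈ I \ S)).2
  have hP'S : ∀ x ∈ P', x ∉ S := fun x hx => ((hPun ▸ Or.inr hx : x ∈ I \ S)).2
  set w' : T → ℝ := fun x => if x ∈ S then σ x x else if x ∈ P then w x - m q₀ else w x with hw'
  have hw'N : ∀ q ∈ S, ∀ x ∈ N q, w' x = σ q x := by
    intro q hq x hx
    obtain ⟨-, -, hNO, -, -, hneg, hpos⟩ := hloc q hq
    by_cases hxS : x ∈ S
    · simp only [hw', if_pos hxS]
      exact (hcomp q hq x hxS hx).1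
    · have h0 : φ x ≠ 0 := fun h0 => hxS ((hwall.zero x (hNO hx)).1 h0)
      rcases lt_or_gt_of_ne h0 with h | h
      · have hxP : x ∉ P := fun hxP => Set.disjoint_left.1 hPP hxP (hneg x hx h).2
        simp only [hw', if_neg hxS, if_neg hxP]
        exact (hneg x hx h).1
      · simp only [hw', if_neg hxS, if_pos (hpos x hx h).2]
        rw [(hpos x hx h).1, hmconst q hq]
        ring
  have hcases : ∀ x ∈ J \ (Z \ S), x ∈ S ∨ (x ∈ J \ Z ∧ x ∈ P) ∨ (x ∈ J \ Z ∧ x ∈ P') := by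
    intro x hx
    by_cases hxS : x ∈ S
    · exact Or.inl hxS
    · have hxZ : x ∉ Z := fun h => hx.2 ⟨h, hxS⟩
      have : x ∈ P ∪ P' := hPun ▸ (⟨hJI hx.1, hxS⟩ : x ∈ I \ S)
      rcases this with h | h
      · exact Or.inr (Or.inl ⟨⟨hx.1, hxZ⟩, h⟩)
      · exact Or.inr (Or.inr ⟨⟨hx.1, hxZ⟩, h⟩)
  refine ⟨w', ?_, ?_⟩
  · intro x hx
    refine ContinuousAt.continuousWithinAt ?_
    rcases hcases x hx with h | ⟨h1, h2⟩ | ⟨h1, h2⟩
    · obtain ⟨hN, hxN, -, hσ, -, -, -⟩ := hloc x h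
      refine ((hσ x hxN).continuousAt (hN.mem_nhds hxN)).congr ?_
      filter_upwards [hN.mem_nhds hxN] with y hy
      exact (hw'N x h y hy).symm
    · refine (((hw x h1).continuousAt (hZc.mem_nhds h1)).sub
        (continuousAt_const (y := ((m q₀ : ℤ) : ℝ)))).congr ?_
      filter_upwards [hP.mem_nhds h2] with y hy
      simp only [hw', if_neg (hPS y hy), if_pos hy]
      rfl
    · refine ((hw x h1).continuousAt (hZc.mem_nhds h1)).congr ?_
      filter_upwards [hP'.mem_nhds h2] with y hy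
      have hyP : y ∉ P := fun hyP => Set.disjoint_left.1 hPP hyP hy
      simp only [hw', if_neg (hP'S y hy), if_neg hyP]
  · intro x hx
    rcases hcases x hx with h | ⟨h1, h2⟩ | ⟨h1, h2⟩
    · obtain ⟨-, hxN, -, -, hY, -, -⟩ := hloc x h
      simp only [hw', if_pos h]
      exact hY x hxN
    · simp only [hw', if_neg (hPS x h2), if_pos h2]
      refine (hfib x (w x) _ (hwY x h1)).2 ⟨-m q₀, ?_⟩
      push_cast
      ring
    · have hxP : x ∉ P := fun hxP => Set.disjoint_left.1 hPP hxP h2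
      simp only [hw', if_neg (hP'S x h2), if_neg hxP]
      exact hwY x h1

/-- two isolated surfaces: contained or disjoint -/
theorem t3zf_sub_or_disj {T : Type} [TopologicalSpace T] {Z Sa Sb Ub : Set T}
    (hSa : IsPreconnected Sa) (hSaZ : Sa ⊆ Z) (hSb : IsClosed Sb) (hUb : IsOpen Ub)
    (hZU : Z ∩ Ub = Sb) : Sa ⊆ Sb ∨ Disjoint Sa Sb := by
  rcases (isPreconnected_iff_subset_of_disjoint.1 hSa) Ub Sbᶜ hUb hSb.isOpen_compl (by
      intro x hx
      by_cases hxb : x ∈ Sb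
      · exact Or.inl (hZU ▸ hxb : x ∈ Z ∩ Ub).2
      · exact Or.inr hxb) (by
      rw [Set.eq_empty_iff_forall_notMem]
      rintro x ⟨hx, hxU, hxb⟩
      exact hxb (hZU ▸ (⟨hSaZ hx, hxU⟩ : x ∈ Z ∩ Ub))) with h | h
  · exact Or.inl fun x hx => hZU ▸ (⟨hSaZ hx, h hx⟩ : x ∈ Z ∩ Ub)
  · exact Or.inr (Set.disjoint_left.2 fun x hx hxb => h hx hxb)

theorem t3zf_pre_conn {X A : Set V} (hA : A ⊆ X) :
    IsPreconnected (Subtype.val ⁻¹' A : Set ↥X) ↔ IsPreconnected A := by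
  rw [← Topology.IsInducing.subtypeVal.isPreconnected_image, Subtype.image_preimage_coe,
    inter_eq_right.2 hA]

theorem t3zf_pre_open {X A : Set V} (h : T3RelOpen X A) :
    IsOpen (Subtype.val ⁻¹' A : Set ↥X) := by
  obtain ⟨O, hO, rfl⟩ := h
  have e : (Subtype.val ⁻¹' (X ∩ O) : Set ↥X) = Subtype.val ⁻¹' O := by
    ext x
    exact ⟨fun h => h.2, fun h => ⟨x.2, h⟩⟩
  rw [e]
  exact hO.preimage continuous_subtype_val

theorem t3zf_img_open {X : Set V} {P : Set ↥X} (h : IsOpen P) :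
    T3RelOpen X (Subtype.val '' P) := by
  obtain ⟨O, hO, rfl⟩ := isOpen_induced_iff.1 h
  exact ⟨O, hO, Subtype.image_preimage_coe X O⟩

theorem t3zf_pre_connected {X A : Set V} (hA : A ⊆ X) (h : IsConnected A) :
    IsConnected (Subtype.val ⁻¹' A : Set ↥X) := by
  obtain ⟨q, hq⟩ := h.nonempty
  exact ⟨⟨⟨q, hA hq⟩, hq⟩, (t3zf_pre_conn hA).2 h.isPreconnected⟩

/-- **(F1) L-T3-ZcF-1: the two sides of a separating surface lie in different parts.**
[`¬ IsPreconnected (I \ S')`: open `u, v` with `I \ S' ⊆ u ∪ v`, both parts nonempty, `(I \ S') ∩ (u ∩ v) = ∅`; `I \ S'` is relatively open (`S'` compact).  `Q = (I \ S') ∩ u`, `Q' = (I \ S') ∩ v`.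
Boxes `N_q ⊆ O' ∩ W_I` (`t3g_box`): the halves are connected subsets of `I \ S'`, so each lies in `Q` or in `Q'`.  The kinds of the plus half and of the minus half are locally constant in `q ∈ S'` (for `q' ∈ S' ∩ N_q` a smaller box around `q'` inside `N_q ∩ N_{q'}` has nonempty halves), hence constant.
If both halves were of the same kind, say `Q`, then `Q ∪ S'` and `Q'` would be relatively open, disjoint, nonempty, with union `I`: `I` is not connected.  So the kinds differ: `(P, P') = (Q, Q')` or `(Q', Q)`.] -/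
theorem t3z_sides {X I S' O' : Set V} {φ' : V → ℝ} {g : Ten V} (hX : IsMfd 3 X)
    (hg : IsMetricOn 3 X g) (hdef : T3Def 3 X S' O' φ') (hSk : IsCompact S')
    (hSc : IsConnected S') (hI : T3RelOpen X I) (hIc : IsPreconnected I) (hSI : S' ⊆ I)
    (hsep : ¬ IsPreconnected (I \ S')) :
    ∃ P P' : Set V, T3RelOpen X P ∧ T3RelOpen X P' ∧ Disjoint P P' ∧ P ∪ P' = I \ S' ∧
      ∀ q ∈ S', ∃ W ∈ 𝓝 q, (∀ x ∈ X ∩ W, 0 < φ' x → x ∈ P) ∧ ∀ x ∈ X ∩ W, φ' x < 0 → x ∈ P' := by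
  have hw := t3g_wall hX hdef
  have hIX : I ⊆ X := by
    obtain ⟨O, -, rfl⟩ := hI
    exact inter_subset_left
  have hsep' : ¬ IsPreconnected ((Subtype.val ⁻¹' I : Set ↥X) \ Subtype.val ⁻¹' S') := by
    show ¬ IsPreconnected (Subtype.val ⁻¹' (I \ S') : Set ↥X)
    rwa [t3zf_pre_conn (sdiff_subset.trans hIX)]
  obtain ⟨P, P', hP, hP', hPP, hPun, hside⟩ := t3zf_sides (t3zf_pre_open hI)
    ((t3zf_pre_conn hIX).2 hIc) hw (hSk.isClosed.preimage continuous_subtype_val)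
    (t3zf_pre_connected (hSI.trans hIX) hSc) (preimage_mono hSI) hsep'
  refine ⟨Subtype.val '' P, Subtype.val '' P', t3zf_img_open hP, t3zf_img_open hP',
    (disjoint_image_iff Subtype.val_injective).2 hPP, ?_, fun q hq => ?_⟩
  · rw [← image_union, hPun]
    show Subtype.val '' (Subtype.val ⁻¹' (I \ S') : Set ↥X) = I \ S'
    rw [Subtype.image_preimage_coe, inter_eq_right.2 (sdiff_subset.trans hIX)]
  · obtain ⟨W, hW, h1, h2⟩ := hside ⟨q, hIX (hSI hq)⟩ hq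
    obtain ⟨W', hW', hsub⟩ := (mem_nhds_subtype X ⟨q, hIX (hSI hq)⟩ W).1 hW
    exact ⟨W', hW', fun x hx h0 => ⟨⟨x, hx.1⟩, h1 ⟨hsub hx.2, h0⟩, rfl⟩,
      fun x hx h0 => ⟨⟨x, hx.1⟩, h2 ⟨hsub hx.2, h0⟩, rfl⟩⟩

/-- **(F2) L-T3-ZcF-2: extension of a section across a separating isolated surface.**
[`(O', φ')` from `T3Hyp`; `P, P'` from `t3z_sides`.  For `q ∈ S'`: a lift `(q, s) ∈ Y`, local section `σ_q` on `X ∩ U_q` (`T3Cov.sec`), box `N_q ⊆ U_q ∩ U ∩ O' ∩ W_q` (`t3g_box`): halves connected, nonempty, contained in `X ∩ U \ S' ⊆ J \ Z`; `X ∩ N_q` is connected (every point is joined to `q` in it).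
`w - σ_q` is continuous and integer valued (`T3Cov.fib`) on each half: constants `a⁺ q`, `a⁻ q`.  For `q' ∈ S' ∩ N_q`: on a small box around `q'` inside `N_q ∩ N_{q'}`: `σ_{q'} - σ_q = e` constant integer, so `a^± q' = a^± q - e`: `m = a⁺ - a⁻` is locally constant on `S'`, hence constant.
`w' = w - m` on `P ∩ (J \ Z)`, `w' = w` on `P' ∩ (J \ Z)`, `w' q = σ_q q + a⁻ q` on `S'`.  On `X ∩ N_q`: `w' = σ_q + a⁻ q` (three cases): continuity at the points of `S'`.  At the points of `J \ Z`: `P`, `P'` are relatively open.] -/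
theorem t3z_extend {X I J Z S' U : Set V} {Y : Set (V × ℝ)} {g : Ten V} (hX : IsMfd 3 X)
    (hg : IsMetricOn 3 X g) (hcov : T3Cov X Y) (hI : T3RelOpen X I) (hIc : IsPreconnected I)
    (hJI : J ⊆ I) (hZc : T3RelOpen X (J \ Z)) {w : V → ℝ}
    (hw : ContinuousOn w (J \ Z)) (hwY : ∀ x ∈ J \ Z, (x, w x) ∈ Y) (hS : T3Hyp 3 X S')
    (hU : IsOpen U) (hSU : S' ⊆ U) (hUJ : X ∩ U ⊆ J) (hZU : Z ∩ U = S')
    (hsep : ¬ IsPreconnected (I \ S')) :
    ∃ w' : V → ℝ, ContinuousOn w' (J \ (Z \ S')) ∧ ∀ x ∈ J \ (Z \ S'), (x, w' x) ∈ Y := by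
  classical
  obtain ⟨hSk, hSc, O', φ', hdef⟩ := hS
  have hwall := t3g_wall hX hdef
  have hIX : I ⊆ X := by
    obtain ⟨O, -, rfl⟩ := hI
    exact inter_subset_left
  have hSX : S' ⊆ X := fun x hx => (hdef.sub hx).1
  have hsep' : ¬ IsPreconnected ((Subtype.val ⁻¹' I : Set ↥X) \ Subtype.val ⁻¹' S') := by
    show ¬ IsPreconnected (Subtype.val ⁻¹' (I \ S') : Set ↥X)
    rwa [t3zf_pre_conn (sdiff_subset.trans hIX)]
  obtain ⟨w₁, hw₁, hw₁Y⟩ := t3zf_extend (T := ↥X) (I := Subtype.val ⁻¹' I) (J := Subtype.val ⁻¹' J)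
    (Z := Subtype.val ⁻¹' Z) (U := Subtype.val ⁻¹' U) (Y := {z : ↥X × ℝ | (z.1.1, z.2) ∈ Y})
    (w := fun x => w x.1)
    (fun x s s' h => hcov.fib x.1 s s' h)
    (fun x => by
      obtain ⟨s, hs⟩ := hcov.surj x.1 x.2
      obtain ⟨U₁, σ, hU₁, hxU, hσ, -, hY⟩ := hcov.sec (x.1, s) hs
      exact ⟨Subtype.val ⁻¹' U₁, fun y => σ y.1, hU₁.preimage continuous_subtype_val, hxU,
        hσ.comp continuous_subtype_val.continuousOn (fun y hy => ⟨y.2, hy⟩),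
        fun y hy => hY y.1 ⟨y.2, hy⟩⟩)
    (t3zf_pre_open hI) ((t3zf_pre_conn hIX).2 hIc) (preimage_mono hJI) (t3zf_pre_open hZc)
    (hw.comp continuous_subtype_val.continuousOn (fun x hx => hx)) (fun x hx => hwY x.1 hx)
    hwall (hSk.isClosed.preimage continuous_subtype_val) (t3zf_pre_connected hSX hSc)
    (hU.preimage continuous_subtype_val) (preimage_mono hSU) (fun x hx => hUJ ⟨x.2, hx⟩)
    (by rw [← preimage_inter, hZU]) hsep'
  have hAX : J \ (Z \ S') ⊆ X := sdiff_subset.trans (hJI.trans hIX)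
  refine ⟨fun x => if h : x ∈ X then w₁ ⟨x, h⟩ else 0, ?_, fun x hx => ?_⟩
  · have e : J \ (Z \ S') = Subtype.val '' (Subtype.val ⁻¹' (J \ (Z \ S')) : Set ↥X) := by
      rw [Subtype.image_preimage_coe, inter_eq_right.2 hAX]
    rw [e, Topology.IsInducing.subtypeVal.continuousOn_image_iff]
    refine hw₁.congr fun x _ => ?_
    show (if h : x.1 ∈ X then w₁ ⟨x.1, h⟩ else 0) = w₁ x
    rw [dif_pos x.2]
  · simp only [dif_pos (hAX hx)]
    exact hw₁Y ⟨x, hAX hx⟩ hx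

/-- **(F3) L-T3-ZcF-3: detection.**
[By contradiction: every `S'` with `Pr S'` separates `I`.  `C = fst '' (c '' Icc 0 1)` compact `⊆ J`; `C ∩ Z = C \ (J \ Z)` is compact; it is covered by the isolating open sets `U`: finitely many pairs `(S'_i, U_i)`.
Two isolated surfaces are equal or disjoint: `S'_a ∩ S'_b = S'_a ∩ U_b` (as `S'_a ⊆ Z`, `Z ∩ U_b = S'_b`) is open and closed in the connected set `S'_a`.
Induction over the finite set `𝒯` of these surfaces: there is a section over `J \ (Z \ ⋃₀ 𝒯)`.  Step: `Z₁ = Z \ ⋃₀ 𝒯`, `S' ∉ 𝒯`: `Z₁ ∩ U = S'`; `J \ Z₁ = (J \ Z) ∪ ⋃ (X ∩ U_i)` is relatively open; `t3z_extend`.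
Finally `s ↦ (c s).2 - w' (c s).1` is continuous on `Icc 0 1` with values in `ℤ` (`T3Cov.fib`): constant (`IsPreconnected.constant` / intermediate value theorem); but the values at `0` and `1` differ by `1`.] -/
theorem t3z_detect {X I J Z : Set V} {Y : Set (V × ℝ)} {g : Ten V} (hX : IsMfd 3 X)
    (hg : IsMetricOn 3 X g) (hcov : T3Cov X Y) (hI : T3RelOpen X I) (hIc : IsPreconnected I)
    (hJI : J ⊆ I) (hZJ : Z ⊆ J) (hZc : T3RelOpen X (J \ Z)) {w : V → ℝ}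
    (hw : ContinuousOn w (J \ Z)) (hwY : ∀ x ∈ J \ Z, (x, w x) ∈ Y) {c : ℝ → V × ℝ}
    (hc : ContinuousOn c (Icc 0 1)) (hcY : ∀ s ∈ Icc (0 : ℝ) 1, c s ∈ Y ∧ (c s).1 ∈ J)
    (hc01 : c 1 = ((c 0).1, (c 0).2 + 1)) {Pr : Set V → Prop}
    (hPr : ∀ S', Pr S' → T3Hyp 3 X S')
    (hsurf : ∀ s ∈ Icc (0 : ℝ) 1, (c s).1 ∈ Z → ∃ S', Pr S' ∧ (c s).1 ∈ S' ∧
      ∃ U : Set V, IsOpen U ∧ S' ⊆ U ∧ X ∩ U ⊆ J ∧ Z ∩ U = S') :
    ∃ S', Pr S' ∧ IsPreconnected (I \ S') := by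
  by_contra hcon
  push Not at hcon
  have hIX : I ⊆ X := by
    obtain ⟨O, -, rfl⟩ := hI
    exact inter_subset_left
  set C : Set V := (fun s => (c s).1) '' Icc 0 1 with hC
  have hc1 : ContinuousOn (fun s => (c s).1) (Icc 0 1) := continuous_fst.comp_continuousOn hc
  have hCc : IsCompact C := isCompact_Icc.image_of_continuousOn hc1
  have hCJ : C ⊆ J := by
    rintro _ ⟨s, hs, rfl⟩
    exact (hcY s hs).2
  obtain ⟨O₀, hO₀, hJZ⟩ := hZc
  have hCZe : C ∩ Z = C \ O₀ := by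
    ext x
    constructor
    · rintro ⟨hxC, hxZ⟩
      refine ⟨hxC, fun hxO => ?_⟩
      have : x ∈ J \ Z := hJZ ▸ (⟨hIX (hJI (hCJ hxC)), hxO⟩ : x ∈ X ∩ O₀)
      exact this.2 hxZ
    · rintro ⟨hxC, hxO⟩
      refine ⟨hxC, ?_⟩
      by_contra hxZ
      have : x ∈ X ∩ O₀ := hJZ ▸ (⟨hCJ hxC, hxZ⟩ : x ∈ J \ Z)
      exact hxO this.2
  have hCZ : IsCompact (C ∩ Z) := hCZe ▸ hCc.diff hO₀
  have h1 : ∀ x : V, ∃ S' U : Set V, x ∈ C ∩ Z → (Pr S' ∧ x ∈ S' ∧ IsOpen U ∧ S' ⊆ U ∧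
      X ∩ U ⊆ J ∧ Z ∩ U = S') := by
    intro x
    by_cases hx : x ∈ C ∩ Z
    · obtain ⟨⟨s, hs, rfl⟩, hxZ⟩ := hx
      obtain ⟨S', h1, h2, U, h3, h4, h5, h6⟩ := hsurf s hs hxZ
      exact ⟨S', U, fun _ => ⟨h1, h2, h3, h4, h5, h6⟩⟩
    · exact ⟨∅, ∅, fun h => absurd h hx⟩
  choose S' U hSU using h1
  obtain ⟨t, ht, hcovt⟩ := hCZ.elim_nhds_subcover U
    (fun x hx => (hSU x hx).2.2.1.mem_nhds ((hSU x hx).2.2.2.1 (hSU x hx).2.1))
  have key : ∀ t : Finset V, (∀ x ∈ t, x ∈ C ∩ Z) → ∃ w' : V → ℝ,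
      ContinuousOn w' (J \ (Z \ ⋃ x ∈ t, S' x)) ∧ ∀ x ∈ J \ (Z \ ⋃ x ∈ t, S' x), (x, w' x) ∈ Y := by
    classical
    intro t
    induction t using Finset.induction_on with
    | empty =>
      intro _
      refine ⟨w, ?_, ?_⟩
      · simpa using hw
      · simpa using hwY
    | insert a t hat ih =>
      intro hall
      obtain ⟨w₁, hw₁, hw₁Y⟩ := ih fun x hx => hall x (Finset.mem_insert_of_mem hx)
      obtain ⟨ha1, ha2, ha3, ha4, ha5, ha6⟩ := hSU a (hall a (Finset.mem_insert_self a t))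
      rw [Finset.set_biUnion_insert]
      by_cases hsub : ∃ x ∈ t, S' a ⊆ S' x
      · obtain ⟨x, hx, hax⟩ := hsub
        have e : S' a ∪ ⋃ x ∈ t, S' x = ⋃ x ∈ t, S' x :=
          union_eq_right.2 (hax.trans (subset_biUnion_of_mem (u := fun x => S' x) hx))
        rw [e]
        exact ⟨w₁, hw₁, hw₁Y⟩
      · push Not at hsub
        have hdisj : ∀ x ∈ t, Disjoint (S' a) (S' x) := by
          intro x hx
          obtain ⟨hx1, -, hx3, -, -, hx6⟩ := hSU x (hall x (Finset.mem_insert_of_mem hx))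
          exact (t3zf_sub_or_disj (hPr _ ha1).2.1.isPreconnected
            (fun y hy => (ha6 ▸ hy : y ∈ Z ∩ U a).1) (hPr _ hx1).1.isClosed hx3 hx6).resolve_left
            (hsub x hx)
        have hrel : T3RelOpen X (J \ (Z \ ⋃ x ∈ t, S' x)) := by
          refine ⟨O₀ ∪ ⋃ x ∈ t, U x, hO₀.union (isOpen_biUnion fun x hx =>
            (hSU x (hall x (Finset.mem_insert_of_mem hx))).2.2.1), ?_⟩
          ext y
          constructor
          · rintro ⟨hyJ, hy⟩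
            refine ⟨hIX (hJI hyJ), ?_⟩
            by_cases hyZ : y ∈ Z
            · have hyS : y ∈ ⋃ x ∈ t, S' x := by
                by_contra h
                exact hy ⟨hyZ, h⟩
              obtain ⟨x, hx, hyx⟩ := mem_iUnion₂.1 hyS
              exact Or.inr (mem_iUnion₂.2
                ⟨x, hx, (hSU x (hall x (Finset.mem_insert_of_mem hx))).2.2.2.1 hyx⟩)
            · exact Or.inl (hJZ ▸ (⟨hyJ, hyZ⟩ : y ∈ J \ Z) : y ∈ X ∩ O₀).2
          · rintro ⟨hyX, hy | hy⟩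
            · have : y ∈ J \ Z := hJZ ▸ (⟨hyX, hy⟩ : y ∈ X ∩ O₀)
              exact ⟨this.1, fun h => this.2 h.1⟩
            · obtain ⟨x, hx, hyx⟩ := mem_iUnion₂.1 hy
              obtain ⟨-, -, -, -, hx5, hx6⟩ := hSU x (hall x (Finset.mem_insert_of_mem hx))
              refine ⟨hx5 ⟨hyX, hyx⟩, fun h => h.2 (mem_iUnion₂.2 ⟨x, hx, ?_⟩)⟩
              exact hx6 ▸ (⟨h.1, hyx⟩ : y ∈ Z ∩ U x)
        have hZU₁ : (Z \ ⋃ x ∈ t, S' x) ∩ U a = S' a := by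
          ext y
          constructor
          · rintro ⟨⟨hyZ, -⟩, hyU⟩
            exact ha6 ▸ (⟨hyZ, hyU⟩ : y ∈ Z ∩ U a)
          · intro hy
            have h2 : y ∈ Z ∩ U a := ha6 ▸ hy
            refine ⟨⟨h2.1, fun h => ?_⟩, h2.2⟩
            obtain ⟨x, hx, hyx⟩ := mem_iUnion₂.1 h
            exact Set.disjoint_left.1 (hdisj x hx) hy hyx
        obtain ⟨w₂, hw₂, hw₂Y⟩ := t3z_extend hX hg hcov hI hIc hJI hrel hw₁ hw₁Y (hPr _ ha1) ha3 ha4
          ha5 hZU₁ (hcon _ ha1)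
        have e : (Z \ ⋃ x ∈ t, S' x) \ S' a = Z \ (S' a ∪ ⋃ x ∈ t, S' x) := by
          rw [sdiff_sdiff, union_comm]
        rw [e] at hw₂ hw₂Y
        exact ⟨w₂, hw₂, hw₂Y⟩
  obtain ⟨w', hw', hw'Y⟩ := key t ht
  have hCsub : ∀ s ∈ Icc (0 : ℝ) 1, (c s).1 ∈ J \ (Z \ ⋃ x ∈ t, S' x) := by
    intro s hs
    refine ⟨(hcY s hs).2, fun h => h.2 ?_⟩
    have hx : (c s).1 ∈ C ∩ Z := ⟨⟨s, hs, rfl⟩, h.1⟩
    obtain ⟨y, hy, hxy⟩ := mem_iUnion₂.1 (hcovt hx)
    exact mem_iUnion₂.2 ⟨y, hy, (hSU y (ht y hy)).2.2.2.2.2 ▸ (⟨h.1, hxy⟩ : (c s).1 ∈ Z ∩ U y)⟩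
  have hconst := t3fin_int_const (f := fun s => (c s).2 - w' (c s).1) (isPreconnected_Icc (a := (0 : ℝ)) (b := 1))
    ((continuous_snd.comp_continuousOn hc).sub (hw'.comp hc1 hCsub))
    (fun s hs => by
      obtain ⟨k, hk⟩ := (hcov.fib (c s).1 (w' (c s).1) (c s).2 (hw'Y _ (hCsub s hs))).1 (hcY s hs).1
      exact ⟨k, by rw [hk]; ring⟩)
    (left_mem_Icc.2 zero_le_one) (right_mem_Icc.2 zero_le_one)
  simp only [hc01] at hconst
  linarith

end Claimed.Agent.R315
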