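-- KEEP
import Claimed.Agent.R315.T3.ZcD
import Claimed.Agent.R315.T3.ZcE
import Claimed.Agent.R315.T3.ZcF

/-!
# Row 315, paper T (n = 3), package T3-Zc: a non-separating surface produces a non-separating CUT surface (T Lemma 3.2)

Sub-captain: helper72.  EXPORT `t3pc_sep` (PROVED here from the chain `T3/ZcA.lean` ... `T3/ZcF.lean`).

The paper minimises mass among integral cycles with a period constraint.  We minimise PERIMETER ON THE INFINITE CYCLIC COVER defined by `F`: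
* `ZcA`  the cover `Y = {(x,s) | s - ϑ x ∈ ℤ} ⊆ V × ℝ`, deck translations = ambient translations, `E₀ = {s < 1/2}`;
* `ZcB`  minimisers of the total perimeter (lattice property), touching lemma `t3_smp2`, uniform lower perimeter bound;
* `ZcC`  interface `T3Zm`; PINNED case (`A = E₀` over the exterior collars and outside a large ball);
* `ZcD`  COMPACT case (`X` compact without collars): vertical obstacles + recentring;
* `ZcE`  sheets over the central region are compact (`t3_tame`, `t3_two`), disjoint from their translates, project to isolated `T3XCut` surfaces; section of the cover over the complement;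
* `ZcF`  detection (topology): if all these surfaces separated `I`, the cover would have a continuous section along a loop crossing `F` once.
NO monotonicity `A ⊆ τA`, no currents, no forms, no transversality.
LEAVES here: L-T3-Zc-Aux (`t3_rdist_bdd`, `t3_int_conn`).
-/

set_option autoImplicit false
set_option linter.unusedSectionVars false
open scoped ContDiff Topology
open MeasureTheory Claims.C0499 Set

namespace Claimed.Agent.R315

variable {V : Type} [NormedAddCommGroup V] [NormedSpace ℝ V] [FiniteDimensional ℝ V]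

/-- distances are bounded on compact sets.
[`rdist X h x₀` is continuous on `X` (see `T3ZS.free_open`), or directly: every `x ∈ X` has a neighbourhood `N` in `X` with `rdist X h x y ≤ 1` for `y ∈ N` (`t3g_box`-type chart balls, `if_rdist_le_of_segment`); finite subcover; `if_rdist_tri`, `if_join_of_connected`.] -/
theorem t3_rdist_bdd {d : ℕ} {X : Set V} {h : Ten V} (hX : IsMfd d X) (hh : IsMetricOn d X h)
    (hc : IsPreconnected X) {x₀ : V} (hx₀ : x₀ ∈ X) {C : Set V} (hC : IsCompact C)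
    (hCX : C ⊆ X) : ∃ L₀ : ℝ, ∀ x ∈ C, rdist X h x₀ x ≤ L₀ := by
  have hcont := (if_rdist_continuousOn hX hc (if_isMetricOn_iff.1 hh).1 hx₀).mono hCX
  obtain ⟨R, hR⟩ := hC.exists_bound_of_continuousOn hcont
  exact ⟨R, fun x hx => (le_abs_self _).trans (hR x hx)⟩

/-- [`F ⊆ closure (I \ F)`: `t3g_box` gives points with `φ > 0` in every neighbourhood of `p ∈ F` inside `W_I`; `IsPreconnected.subset_closure`.] -/
theorem t3_int_conn {X I F : Set V} {g : Ten V} (hX : IsMfd 3 X) (hg : IsMetricOn 3 X g)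
    (hF : T3Hyp 3 X F) (hI : T3RelOpen X I) (hFI : F ⊆ I) (hc : IsPreconnected (I \ F)) :
    IsPreconnected I := by
  obtain ⟨-, -, O, φ, hdef⟩ := hF
  obtain ⟨WI, hWI, rfl⟩ := hI
  refine hc.subset_closure sdiff_subset fun p hp => ?_
  by_cases hpF : p ∈ F
  · rw [mem_closure_iff_nhds]
    intro W hW
    obtain ⟨N, -, -, hNW, -, ⟨x, hx, hx0⟩, -⟩ := t3g_box hX hg hdef hpF
      (Filter.inter_mem hW (hWI.mem_nhds hp.2)) one_pos
    refine ⟨x, (hNW hx.2).1.1, ⟨hx.1, (hNW hx.2).1.2⟩, fun hxF => ?_⟩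
    have := (hdef.zero x ⟨hx.1, (hNW hx.2).2⟩).2 hxF
    exact absurd this (ne_of_gt hx0)
  · exact subset_closure ⟨hp, hpF⟩

variable [MeasurableSpace V] [BorelSpace V]
variable {X : Set V} {h : Ten V} {t : V → ℝ} {ι : Type} {B O : ι → Set V} {φ : ι → V → ℝ}

/-- **T Lemma 3.2 on a piece.** -/
theorem t3pc_sep (H : T3Pc X h t B O φ) {F : Set V} (hF : T3Hyp 3 X F)
    (hFI : F ⊆ t3Int X O φ) (hc : IsPreconnected (t3Int X O φ \ F)) :
    ∃ (S' O' : Set V) (φ' : V → ℝ), IsCompact S' ∧ IsConnected S' ∧ T3Def 3 X S' O' φ' ∧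
      X ∩ O' ⊆ t3Int X O φ ∧ CtLAM 3 (X ∩ O') h t (fun _ => 0) {x | x ∈ X ∩ O' ∧ φ' x < 0} ∧
      IsPreconnected (t3Int X O φ \ S') := by
  have hX := H.col.geo.mfd
  have hh := H.col.geo.met
  obtain ⟨WI, hWI, hXI⟩ := H.col.int_open
  have hFW : F ⊆ WI := fun x hx => (hXI ▸ hFI hx : x ∈ X ∩ WI).2
  obtain ⟨N, K, ϑ, hS, hNW⟩ := t3_stp_exists hX hF hWI hFW
  have htube : X ∩ N ⊆ t3Int X O φ := fun x hx => hXI ▸ ⟨hx.1, hNW hx.2⟩
  obtain ⟨x₀, hx₀F⟩ := hF.2.1.nonempty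
  have hx₀ : x₀ ∈ X := (hFI hx₀F).1
  -- the cover over the interior is connected: a path from `z₀` to `τ z₀`
  have hSI : T3Stp (X ∩ WI) F N K ϑ := hS.inter fun x hx => hNW hx.2
  have hXI' : IsMfd 3 (X ∩ WI) := (H.col.geo.inter hWI).mfd
  have hcI : IsPreconnected ((X ∩ WI) \ F) := by rw [hXI]; exact hc
  have hYI := hSI.conn hXI' hcI ⟨x₀, hx₀F⟩
  have hϑ : ϑ x₀ = 1 / 2 := by
    have := (hS.df.zero x₀ (hS.df.sub hx₀F)).2 hx₀F
    linarith
  have hz0 : ((x₀, (1 / 2 : ℝ)) : V × ℝ) ∈ t3Y (X ∩ WI) ϑ :=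
    ⟨⟨hx₀, hFW hx₀F⟩, 0, by simp [hϑ]⟩
  have hz1 : ((x₀, (1 / 2 : ℝ) + 1) : V × ℝ) ∈ t3Y (X ∩ WI) ϑ :=
    ⟨⟨hx₀, hFW hx₀F⟩, 1, by simp [hϑ]⟩
  obtain ⟨c, hcadm, hc0, hc1⟩ := if_join_of_connected (hSI.li hXI').mfd hYI hz0 hz1
  have hcc : Continuous c := hcadm.1.continuous
  have hcm : ∀ s ∈ Icc (0 : ℝ) 1, c s ∈ t3Y X ϑ ∧ (c s).1 ∈ WI := fun s hs => by
    have := hcadm.2 s hs
    rw [t3Y_inter] at this
    exact this
  -- the radius
  have hCc : IsCompact (Prod.fst '' (c '' Icc (0 : ℝ) 1) ∪ K) :=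
    ((isCompact_Icc.image hcc).image continuous_fst).union hS.cpt
  have hCX : Prod.fst '' (c '' Icc (0 : ℝ) 1) ∪ K ⊆ X := by
    rintro x (⟨_, ⟨s, hs, rfl⟩, rfl⟩ | hx)
    · exact (hcm s hs).1.1
    · exact (hS.sub hx).1
  obtain ⟨L₀, hL₀⟩ := t3_rdist_bdd hX hh H.conn hx₀ hCc hCX
  have HS : T3ZS X h t B O φ F N K ϑ x₀ (L₀ + 24) :=
    ⟨H, hF, hS, htube, hc, hx₀, fun x hx => by have := hL₀ x (Or.inr hx); linarith⟩
  obtain ⟨Wj, A, hZ⟩ := HS.exists_zm
  obtain ⟨Z, w, hZJ, ⟨Wz, hWz, hXWz⟩, hw, hwY, hsurf⟩ := HS.down hZ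
  have hIo : T3RelOpen X (t3Int X O φ) := ⟨WI, hWI, hXI.symm⟩
  have hIc := t3_int_conn hX hh hF hIo hFI hc
  have hJI : X ∩ Wj ⊆ t3Int X O φ := fun x hx => by
    have : x ∈ {x | x ∈ t3Int X O φ ∧ rdist X h x₀ x < L₀ + 24} := hZ.reg ▸ hx
    exact this.1
  have hcJ : ∀ s ∈ Icc (0 : ℝ) 1, c s ∈ t3Y X ϑ ∧ (c s).1 ∈ X ∩ Wj := fun s hs => by
    refine ⟨(hcm s hs).1, ?_⟩
    rw [hZ.reg]
    refine ⟨hXI ▸ ⟨(hcm s hs).1.1, (hcm s hs).2⟩, ?_⟩
    have := hL₀ (c s).1 (Or.inl ⟨_, ⟨s, hs, rfl⟩, rfl⟩)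
    linarith
  obtain ⟨S', hS', hpre⟩ := t3z_detect (Pr := T3XCut X h t (t3Int X O φ)) hX hh (hS.cov hX) hIo
    hIc hJI hZJ ⟨Wz, hWz, hXWz.symm⟩ hw hwY hcc.continuousOn hcJ (by rw [hc0, hc1])
    (fun S' hS' => by
      obtain ⟨h1, h2, O', φ', h3, -, -⟩ := hS'
      exact ⟨h1, h2, O', φ', h3⟩)
    (fun s hs hsZ => by
      refine hsurf _ hsZ ?_
      have := hL₀ (c s).1 (Or.inl ⟨_, ⟨s, hs, rfl⟩, rfl⟩)
      linarith)
  obtain ⟨h1, h2, O', φ', h3, h4, h5⟩ := hS'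
  exact ⟨S', O', φ', h1, h2, h3, h4, h5, hpre⟩

end Claimed.Agent.R315
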