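import Claimed.Agent.R315.T3.Cm
import Claimed.Agent.R315.T3.Zc

/-!
# Row 315, paper T (n = 3): the level-2 statements `t3_bub`, `t3_sep` from the cut manifold

Sub-captain: helper72.
* `t3_bub'` from `t3_cm` (`T3/Cm.lean`), `t3_rad_of_pc`, `T3Pc.osc` (`T3/Pc.lean`);
* `t3_sep'` from `t3_cm`, `t3pc_sep` (`T3/Zc.lean`) and the transfer lemmas of `T3/Li.lean`.
LEAVES: L-T3-BubGlue, L-T3-SepGlue: BOTH PROVED (helper282); this file is sorry-free.
-/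

set_option autoImplicit false
set_option linter.unusedSectionVars false
open scoped ContDiff Topology
open MeasureTheory Claims.C0499 Set

namespace Claimed.Agent.R315

variable {V : Type} [NormedAddCommGroup V] [NormedSpace ℝ V] [FiniteDimensional ℝ V]
  [MeasurableSpace V] [BorelSpace V]

/-- `T3Rad` only depends on the values of `r` on `R` (PROVED). -/
theorem T3Rad.congr {M R : Set V} {g : Ten V} {o : V} {r r' : V → ℝ} (H : T3Rad M g R o r)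
    (he : ∀ x ∈ R, r' x = r x) : T3Rad M g R o r' where
  mem := H.mem
  le := fun x hx => by rw [he x hx]; exact H.le x hx
  pe := fun F A A' hF hFR hA hA' hd hU ho x hx ε hε => by
    obtain ⟨z, hz, h1⟩ := H.pe F A A' hF hFR hA hA' hd hU ho x hx ε hε
    have hxR : x ∈ R := (hU ▸ (Or.inr hx : x ∈ A ∪ A') : x ∈ R \ F).1
    exact ⟨z, hz, by rw [he x hxR, he z (hFR hz)]; exact h1⟩
  bub := fun l hl => by
    obtain ⟨m, F, Up, Um, h1, h2, h3, h4, h5, h6, h7, h8⟩ := H.bub l hl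
    refine ⟨m, F, Up, Um, fun i => ?_, h2, h3, h4, h5, h6, h7, fun x hx hlx => ?_⟩
    · obtain ⟨a, b, c, e⟩ := h1 i
      exact ⟨a, b, fun z hz => by rw [he z (b hz)]; exact c z hz, e⟩
    · exact h8 x hx (by rw [← he x hx]; exact hlx)

omit [FiniteDimensional ℝ V] [MeasurableSpace V] [BorelSpace V] in
/-- a component is the `connectedComponentIn` of each of its points. -/
theorem t3rad_comp_eq {Y R : Set V} (hR : T3Comp Y R) {x : V} (hx : x ∈ R) :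
    connectedComponentIn Y x = R := by
  obtain ⟨h1, -, h3, h4⟩ := hR
  refine Subset.antisymm ?_ (h3.subset_connectedComponentIn hx h1)
  exact h4 _ (connectedComponentIn_subset Y x) isPreconnected_connectedComponentIn
    ⟨x, mem_connectedComponentIn (h1 hx), hx⟩

omit [FiniteDimensional ℝ V] [MeasurableSpace V] [BorelSpace V] in
/-- `connectedComponentIn` is a component. -/
theorem t3rad_comp_of_mem {Y : Set V} {x : V} (hx : x ∈ Y) :
    T3Comp Y (connectedComponentIn Y x) := by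
  refine ⟨connectedComponentIn_subset Y x, ⟨x, mem_connectedComponentIn hx⟩,
    isPreconnected_connectedComponentIn, ?_⟩
  rintro C hCY hC ⟨z, hzC, hz⟩
  rw [connectedComponentIn_eq hz]
  exact hC.subset_connectedComponentIn hzC hCY

omit [FiniteDimensional ℝ V] [MeasurableSpace V] [BorelSpace V] in
/-- a preconnected subset of `X` which is covered by open sets whose traces on `X` are pairwise disjoint lies in one of them. -/
theorem t3rad_one_tube {ι : Type} {X A : Set V} {O : ι → Set V} (hO : ∀ i, IsOpen (O i))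
    (hd : Pairwise fun i j => Disjoint (X ∩ O i) (X ∩ O j)) (hA : IsPreconnected A) (hAX : A ⊆ X)
    (hcov : ∀ z ∈ A, ∃ i, z ∈ O i) {x : V} (hx : x ∈ A) {i : ι} (hi : x ∈ O i) : A ⊆ O i := by
  intro y hy
  by_contra hyi
  obtain ⟨j, hj⟩ := hcov y hy
  have hji : j ≠ i := fun e => hyi (e ▸ hj)
  have hv : IsOpen (⋃ k ∈ {k | k ≠ i}, O k) := isOpen_biUnion fun k _ => hO k
  obtain ⟨z, hzA, hzi, hzv⟩ := hA (O i) (⋃ k ∈ {k | k ≠ i}, O k) (hO i) hv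
    (fun z hz => by
      obtain ⟨k, hk⟩ := hcov z hz
      by_cases e : k = i
      · exact Or.inl (e ▸ hk)
      · exact Or.inr (mem_iUnion₂.2 ⟨k, e, hk⟩))
    ⟨x, hx, hi⟩ ⟨y, hy, mem_iUnion₂.2 ⟨j, hji, hj⟩⟩
  obtain ⟨k, hk, hzk⟩ := mem_iUnion₂.1 hzv
  exact disjoint_left.1 (hd hk) ⟨hAX hzA, hzk⟩ ⟨hAX hzA, hzi⟩

/-- the continuous section over `R` of the projection of a piece. -/
theorem t3rad_section {M R : Set V} {X : Set (V × ℝ)} {ι : Type} {B O : ι → Set (V × ℝ)}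
    {φ : ι → V × ℝ → ℝ} {h' : Ten (V × ℝ)} {t' : V × ℝ → ℝ}
    (hLi : T3Li 3 X M (ContinuousLinearMap.fst ℝ V ℝ)) (hcol : T3Col 3 X h' t' B O φ)
    (hinj : InjOn (ContinuousLinearMap.fst ℝ V ℝ) (t3Int X O φ))
    (himg : (ContinuousLinearMap.fst ℝ V ℝ) '' t3Int X O φ = R) :
    (∃ O' : Set V, IsOpen O' ∧ R = M ∩ O') ∧
      ContinuousOn (Function.invFunOn (ContinuousLinearMap.fst ℝ V ℝ) (t3Int X O φ)) R := by
  obtain ⟨W, hW, hXW⟩ := hcol.int_open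
  obtain ⟨O', hO', hO'e⟩ := hLi.image_open hW
  rw [hXW, himg] at hO'e
  refine ⟨⟨O', hO', hO'e⟩, ?_⟩
  have hiso : T3Iso 3 (X ∩ W) (M ∩ O') (ContinuousLinearMap.fst ℝ V ℝ) :=
    hLi.iso_of_injOn hW hO' (by rw [hXW]; exact hinj) (by rw [hXW, himg, hO'e])
  have := hiso.continuousOn_inv
  rwa [hXW, ← hO'e] at this

/-- the radial function of ONE complementary region. -/
theorem t3rad_one {M : Set V} {g : Ten V} {t : V → ℝ} (h : Drift 3 M g t (3 / 4))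
    {𝒮 : Set (Set V)} (h𝒮 : T3Fam M g t 𝒮) :
    ∃ Wt : Set V → Set V, (∀ S ∈ 𝒮, IsOpen (Wt S) ∧ S ⊆ Wt S) ∧
      ∀ R, T3Comp (M \ ⋃₀ 𝒮) R → ∃ (r : V → ℝ) (o : V), T3Rad M g R o r ∧ ContinuousOn r R ∧
        (∃ O' : Set V, IsOpen O' ∧ R = M ∩ O') ∧
        ∀ S ∈ 𝒮, ∀ A ⊆ R ∩ Wt S, IsPreconnected A → ∀ x ∈ A, ∀ y ∈ A, |r x - r y| ≤ 23 := by
  obtain ⟨Wt, hWt, hcm⟩ := t3_cm h h𝒮
  refine ⟨Wt, hWt, fun R hR => ?_⟩
  obtain ⟨X, ι, B, O, φ, hLi, hPc, hinj, himg, htube⟩ := hcm R hR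
  obtain ⟨hRo, hs⟩ := t3rad_section hLi hPc.col hinj himg
  obtain ⟨x₀, hx₀⟩ := hR.2.1
  obtain ⟨o, ho, -⟩ : x₀ ∈ (ContinuousLinearMap.fst ℝ V ℝ) '' t3Int X O φ := himg ▸ hx₀
  have hsmem : ∀ x ∈ R, Function.invFunOn (ContinuousLinearMap.fst ℝ V ℝ) (t3Int X O φ) x ∈
      t3Int X O φ := fun x hx => Function.invFunOn_mem (himg.symm.subset hx)
  have hseq : ∀ x ∈ R, (ContinuousLinearMap.fst ℝ V ℝ)
      (Function.invFunOn (ContinuousLinearMap.fst ℝ V ℝ) (t3Int X O φ) x) = x :=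
    fun x hx => Function.invFunOn_eq (himg.symm.subset hx)
  refine ⟨_, _, t3_rad_of_pc hLi hPc hinj himg ho, ?_, hRo, ?_⟩
  · have hc := if_rdist_continuousOn hPc.col.geo.mfd hPc.conn
      (if_isMetricOn_iff.1 hPc.col.geo.met).1 ho.1
    exact hc.comp hs fun x hx => (hsmem x hx).1
  · intro S hS A hA hAc x hx y hy
    have hAR : A ⊆ R := fun z hz => (hA hz).1
    have himA : IsPreconnected
        (Function.invFunOn (ContinuousLinearMap.fst ℝ V ℝ) (t3Int X O φ) '' A) :=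
      hAc.image _ (hs.mono hAR)
    have hsub : Function.invFunOn (ContinuousLinearMap.fst ℝ V ℝ) (t3Int X O φ) '' A ⊆ X := by
      rintro _ ⟨a, ha, rfl⟩
      exact (hsmem a (hAR ha)).1
    have hcov : ∀ z ∈ Function.invFunOn (ContinuousLinearMap.fst ℝ V ℝ) (t3Int X O φ) '' A,
        ∃ i, z ∈ O i := by
      rintro _ ⟨a, ha, rfl⟩
      refine htube S hS _ (hsmem a (hAR ha)) ?_
      have : (Function.invFunOn (ContinuousLinearMap.fst ℝ V ℝ) (t3Int X O φ) a).1 = a :=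
        hseq a (hAR ha)
      rw [this]
      exact (hA ha).2
    obtain ⟨i, hi⟩ := hcov _ (mem_image_of_mem _ hx)
    have hone := t3rad_one_tube (fun i => (hPc.col.df i).opn) hPc.col.dis himA hsub hcov
      (mem_image_of_mem _ hx) hi
    exact hPc.osc ho.1 i ⟨hsub (mem_image_of_mem _ hx), hi⟩
      ⟨hsub (mem_image_of_mem _ hy), hone (mem_image_of_mem _ hy)⟩

/-- **L-T3-BubGlue: the radial function of the cut manifold** (T Proposition 4.2 and Section 5).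
[`Wt` and, for every component `R` (by choice), `X_R, B, O, φ` from `t3_cm`, a point `ô_R ∈ t3Int` (`R ≠ ∅`), `r_R = rdist X_R ĝ ô_R ∘ invFunOn fst t3Int`.  Two components with a common point are equal (`T3Comp`), every point of
`M \ ⋃₀ 𝒮` lies in a component (`connectedComponentIn`).  `r x = r_R x` for the component `R ∋ x` (`dite` + choice).  `T3Rad`: `t3_rad_of_pc`, `T3Rad.congr`.
Continuity: `R` is relatively open in `M` (`T3Li.image_open` for `X ∩ W = t3Int`), `r = r_R` on `R`, `r_R` is continuous on `R` (`T3Iso.continuousOn_inv`, `if_rdist_continuousOn`).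
Oscillation: `A ⊆ (M ∩ Wt S) \ ⋃₀ 𝒮` preconnected, `x ∈ A`: `A ⊆ R` (`R ∋ x`); `s '' A` is preconnected and contained in the union of the pairwise disjoint relatively open tubes `X ∩ O i`: it lies in one tube; `T3Pc.osc`: `≤ 23`.] -/
theorem t3_bub' {M : Set V} {g : Ten V} {t : V → ℝ} (h : Drift 3 M g t (3 / 4))
    {𝒮 : Set (Set V)} (h𝒮 : T3Fam M g t 𝒮) :
    ∃ r : V → ℝ, ContinuousOn r (M \ ⋃₀ 𝒮) ∧
      (∀ S ∈ 𝒮, ∃ W, IsOpen W ∧ S ⊆ W ∧ ∀ A ⊆ (M ∩ W) \ ⋃₀ 𝒮, IsPreconnected A →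
        ∀ x ∈ A, ∀ y ∈ A, |r x - r y| ≤ 32) ∧
      ∀ R, T3Comp (M \ ⋃₀ 𝒮) R → ∃ o, T3Rad M g R o r := by
  classical
  obtain ⟨Wt, hWt, hone⟩ := t3rad_one h h𝒮
  choose! rr oo h1 h2 h3 h4 using hone
  obtain ⟨r, hr⟩ : ∃ r : V → ℝ, ∀ x, r x = rr (connectedComponentIn (M \ ⋃₀ 𝒮) x) x :=
    ⟨_, fun _ => rfl⟩
  have hrR : ∀ R, T3Comp (M \ ⋃₀ 𝒮) R → ∀ x ∈ R, r x = rr R x := by
    intro R hR x hx
    rw [hr, t3rad_comp_eq hR hx]
  refine ⟨r, ?_, ?_, fun R hR => ⟨oo R, (h1 R hR).congr (hrR R hR)⟩⟩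
  · intro x hx
    have hR := t3rad_comp_of_mem hx
    have hxR : x ∈ connectedComponentIn (M \ ⋃₀ 𝒮) x := mem_connectedComponentIn hx
    obtain ⟨O', hO', hO'e⟩ := h3 _ hR
    have hmem : connectedComponentIn (M \ ⋃₀ 𝒮) x ∈ 𝓝[M \ ⋃₀ 𝒮] x := by
      refine mem_nhdsWithin.2 ⟨O', hO', (hO'e ▸ hxR : x ∈ M ∩ O').2, fun z hz => ?_⟩
      rw [hO'e]
      exact ⟨hz.2.1, hz.1⟩
    have hc : ContinuousWithinAt r (connectedComponentIn (M \ ⋃₀ 𝒮) x) x :=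
      ((h2 _ hR) x hxR).congr (fun z hz => hrR _ hR z hz) (hrR _ hR x hxR)
    exact hc.mono_of_mem_nhdsWithin hmem
  · intro S hS
    refine ⟨Wt S, (hWt S hS).1, (hWt S hS).2, fun A hA hAc x hx y hy => ?_⟩
    have hAY : A ⊆ M \ ⋃₀ 𝒮 := fun z hz => ⟨(hA hz).1.1, (hA hz).2⟩
    have hR := t3rad_comp_of_mem (hAY hx)
    have hAR : A ⊆ connectedComponentIn (M \ ⋃₀ 𝒮) x := hAc.subset_connectedComponentIn hx hAY
    rw [hrR _ hR x (hAR hx), hrR _ hR y (hAR hy)]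
    have := h4 _ hR S hS A (fun z hz => ⟨hAR hz, (hA hz).1.2⟩) hAc x hx y hy
    linarith

/-- **L-T3-SepGlue: producing an additional cut surface** (T Lemma 3.2).
[`X, B, O, φ` from `t3_cm` for `R`; `W` open, `X ∩ W = t3Int`; `fst : t3Int → R` is a homeomorphism.  `F̂ = X ∩ W ∩ fst⁻¹ F`: `T3Li.hyp_up`; `t3Int \ F̂` is the image of `R \ F` under the continuous section: preconnected.
`t3pc_sep`: `Ŝ ⊆ t3Int`, `T3Def 3 X Ŝ Ô φ̂`, `X ∩ Ô ⊆ t3Int`, `CtLAM 3 (X ∩ Ô) .. 0 {φ̂ < 0}`, `t3Int \ Ŝ` preconnected.  `T3Li.def_down` (injective on `X ∩ Ô`): `O', φ'`; `T3Li.iso_of_injOn` + `T3Iso.lam`: `CtLAM 3 (M ∩ O') g t 0 {φ' < 0}`.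
`S' = fst '' Ŝ` is compact, connected, `⊆ R`, and `R \ S' = fst '' (t3Int \ Ŝ)` is preconnected.] -/
theorem t3_sep' {M : Set V} {g : Ten V} {t : V → ℝ} (h : Drift 3 M g t (3 / 4))
    {𝒮 : Set (Set V)} (h𝒮 : T3Fam M g t 𝒮) {R F : Set V} (hR : T3Comp (M \ ⋃₀ 𝒮) R)
    (hF : T3Hyp 3 M F) (hFR : F ⊆ R) (hc : IsPreconnected (R \ F)) :
    ∃ S', T3Cut M g t S' ∧ S' ⊆ R ∧ IsPreconnected (R \ S') := by
  obtain ⟨Wt, -, hcm⟩ := t3_cm h h𝒮
  obtain ⟨X, ι, B, O, φ, hLi, hPc, hinj, himg, -⟩ := hcm R hR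
  obtain ⟨-, hs⟩ := t3rad_section hLi hPc.col hinj himg
  obtain ⟨W, hW, hXW⟩ := hPc.col.int_open
  have hsmem : ∀ x ∈ R, Function.invFunOn (ContinuousLinearMap.fst ℝ V ℝ) (t3Int X O φ) x ∈
      t3Int X O φ := fun x hx => Function.invFunOn_mem (himg.symm.subset hx)
  have hseq : ∀ x ∈ R, (ContinuousLinearMap.fst ℝ V ℝ)
      (Function.invFunOn (ContinuousLinearMap.fst ℝ V ℝ) (t3Int X O φ) x) = x :=
    fun x hx => Function.invFunOn_eq (himg.symm.subset hx)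
  have hmapR : ∀ z ∈ t3Int X O φ, (ContinuousLinearMap.fst ℝ V ℝ) z ∈ R :=
    fun z hz => himg ▸ mem_image_of_mem _ hz
  -- the lifted hypersurface
  have hFh : T3Hyp 3 X (X ∩ W ∩ (ContinuousLinearMap.fst ℝ V ℝ) ⁻¹' F) :=
    hLi.hyp_up hW (by rw [hXW]; exact hinj) (by rw [hXW, himg]; exact hFR) hF
  rw [hXW] at hFh
  have hc' : IsPreconnected (t3Int X O φ \ (t3Int X O φ ∩ (ContinuousLinearMap.fst ℝ V ℝ) ⁻¹' F)) := by
    have he : t3Int X O φ \ (t3Int X O φ ∩ (ContinuousLinearMap.fst ℝ V ℝ) ⁻¹' F) =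
        Function.invFunOn (ContinuousLinearMap.fst ℝ V ℝ) (t3Int X O φ) '' (R \ F) := by
      ext z
      constructor
      · rintro ⟨hz, hzF⟩
        exact ⟨_, ⟨hmapR z hz, fun hF' => hzF ⟨hz, hF'⟩⟩, hinj.leftInvOn_invFunOn hz⟩
      · rintro ⟨x, ⟨hxR, hxF⟩, rfl⟩
        refine ⟨hsmem x hxR, fun hz => hxF ?_⟩
        have := hz.2
        rwa [mem_preimage, hseq x hxR] at this
    rw [he]
    exact hc.image _ (hs.mono sdiff_subset)
  obtain ⟨Sh, Oh, φh, hSc, hSconn, hdef, hOI, hlam, hpre⟩ :=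
    t3pc_sep hPc hFh inter_subset_left hc'
  have hinj' : InjOn (ContinuousLinearMap.fst ℝ V ℝ) (X ∩ Oh) := hinj.mono hOI
  obtain ⟨O', φ', hdef', himg', hφ'⟩ := hLi.def_down hdef hinj'
  have hiso : T3Iso 3 (X ∩ Oh) (M ∩ O') (ContinuousLinearMap.fst ℝ V ℝ) :=
    hLi.iso_of_injOn hdef.opn hdef'.opn hinj' himg'
  have hG : CtGeo 3 (M ∩ O') g t := (CtGeo.mk h.mfd h.met h.smooth).inter hdef'.opn
  have hShI : Sh ⊆ t3Int X O φ := fun z hz => hOI (hdef.sub hz)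
  refine ⟨(ContinuousLinearMap.fst ℝ V ℝ) '' Sh,
    ⟨hSc.image (ContinuousLinearMap.fst ℝ V ℝ).continuous,
      hSconn.image _ (ContinuousLinearMap.fst ℝ V ℝ).continuous.continuousOn, O', φ', hdef', ?_⟩,
    ?_, ?_⟩
  · rw [hiso.lam (p := fun _ => 0) hG (fun x hx => hx.1)]
    have he : X ∩ Oh ∩ (ContinuousLinearMap.fst ℝ V ℝ) ⁻¹' {x | x ∈ M ∩ O' ∧ φ' x < 0} =
        {x | x ∈ X ∩ Oh ∧ φh x < 0} := by
      ext z
      constructor
      · rintro ⟨hz, -, hz2⟩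
        exact ⟨hz, by rwa [hφ' z hz] at hz2⟩
      · rintro ⟨hz, hz2⟩
        exact ⟨hz, himg' ▸ mem_image_of_mem _ hz, by rw [hφ' z hz]; exact hz2⟩
    rw [he]
    exact hlam
  · rintro _ ⟨z, hz, rfl⟩
    exact hmapR z (hShI hz)
  · have he : R \ (ContinuousLinearMap.fst ℝ V ℝ) '' Sh =
        (ContinuousLinearMap.fst ℝ V ℝ) '' (t3Int X O φ \ Sh) := by
      ext x
      constructor
      · rintro ⟨hxR, hxS⟩
        refine ⟨_, ⟨hsmem x hxR, fun hz => hxS ⟨_, hz, hseq x hxR⟩⟩, hseq x hxR⟩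
      · rintro ⟨z, ⟨hz, hzS⟩, rfl⟩
        refine ⟨hmapR z hz, ?_⟩
        rintro ⟨z', hz', he⟩
        exact hzS (hinj (hShI hz') hz he ▸ hz')
    rw [he]
    exact hpre.image _ (ContinuousLinearMap.fst ℝ V ℝ).continuous.continuousOn

end Claimed.Agent.R315
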