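-- KEEP
import Claimed.Agent.R315.T3.Rad
import Claimed.Agent.R315.Pack011
import Claimed.Agent.R315.Pk.Out

/-!
# Row 315, paper T (n = 3): level-2 statements and the proof of `t3_main`

`t3_main'` (PROVED here): `Drift 3 M g t (3/4) ⟹ HasCover 2 M g 500`, from the abstract theorem
`t3_abs` (`T3/Abs.lean`) applied to the subtype `↥M`, and

ANALYTIC STATEMENTS (level 2)
* `t3_cut_diam` cut surfaces have diameter `≤ 30`                     (T Prop. 2.5),
* `t3_sep`      a non-separating closed surface in a complementary region produces a non-separating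
                cut surface                                          (T Lemma 3.2),
* `t3_bub`      the radial function of the cut manifold              (T Prop. 4.2, Section 5);
BRIDGES (smooth ⟹ topological): `T3/Br.lean`; `if_isRd` (package IF) `rdist` is a continuous metric.
-/

set_option autoImplicit false
set_option linter.unusedSectionVars false
open scoped ContDiff Topology
open MeasureTheory Claims.C0499 Set

namespace Claimed.Agent.R315

variable {V : Type} [NormedAddCommGroup V] [NormedSpace ℝ V]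

variable [MeasurableSpace V] [BorelSpace V]

/-! ### analytic statements -/

/-- **Diameter of cut surfaces** (T Proposition 2.5 with `c = 3/4`). -/
theorem t3_cut_diam [FiniteDimensional ℝ V] {M : Set V} {g : Ten V} {t : V → ℝ}
    (h : Drift 3 M g t (3 / 4)) {S : Set V} (hS : T3Cut M g t S) :
    ∀ x ∈ S, ∀ y ∈ S, rdist M g x y ≤ 30 :=
  t3_cut_diam' h hS

/-- **Producing an additional cut surface** (T Lemma 3.2). -/
theorem t3_sep [FiniteDimensional ℝ V] {M : Set V} {g : Ten V} {t : V → ℝ}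
    (h : Drift 3 M g t (3 / 4)) {𝒮 : Set (Set V)} (h𝒮 : T3Fam M g t 𝒮) {R F : Set V}
    (hR : T3Comp (M \ ⋃₀ 𝒮) R) (hF : T3Hyp 3 M F) (hFR : F ⊆ R) (hc : IsPreconnected (R \ F)) :
    ∃ S', T3Cut M g t S' ∧ S' ⊆ R ∧ IsPreconnected (R \ S') :=
  t3_sep' h h𝒮 hR hF hFR hc

/-- **The radial function of the cut manifold** (T Proposition 4.2 and Section 5). -/
theorem t3_bub [FiniteDimensional ℝ V] {M : Set V} {g : Ten V} {t : V → ℝ}
    (h : Drift 3 M g t (3 / 4)) {𝒮 : Set (Set V)} (h𝒮 : T3Fam M g t 𝒮) :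
    ∃ r : V → ℝ, ContinuousOn r (M \ ⋃₀ 𝒮) ∧
      (∀ S ∈ 𝒮, ∃ W, IsOpen W ∧ S ⊆ W ∧ ∀ A ⊆ (M ∩ W) \ ⋃₀ 𝒮, IsPreconnected A →
        ∀ x ∈ A, ∀ y ∈ A, |r x - r y| ≤ 32) ∧
      ∀ R, T3Comp (M \ ⋃₀ 𝒮) R → ∃ o, T3Rad M g R o r :=
  t3_bub' h h𝒮

end Claimed.Agent.R315
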