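-- KEEP
import Claimed.Agent.R315.T3.Geo

/-!
# Row 315, paper T (n = 3): `t3_main'`

`Drift 3 M g t (3/4) ⟹ HasCover 2 M g 500`, PROVED from the level-2 statements of `T3/Geo.lean` and
the abstract theorem `t3_abs`: translation between subsets of `V` and subsets of the subtype `↥M`.
-/

set_option autoImplicit false
set_option linter.unusedSectionVars false
open scoped ContDiff Topology
open MeasureTheory Claims.C0499 Set

namespace Claimed.Agent.R315

variable {V : Type} [NormedAddCommGroup V] [NormedSpace ℝ V]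

theorem t3m_image_preimage {M A : Set V} (hA : A ⊆ M) :
    (Subtype.val '' (Subtype.val ⁻¹' A : Set ↥M)) = A := by
  rw [Subtype.image_preimage_coe]
  exact inter_eq_right.mpr hA

theorem t3m_preimage_image {M : Set V} (A : Set ↥M) :
    (Subtype.val ⁻¹' (Subtype.val '' A) : Set ↥M) = A :=
  preimage_image_eq A Subtype.val_injective

theorem t3m_relOpen {M : Set V} {A : Set ↥M} (hA : IsOpen A) : T3RelOpen M (Subtype.val '' A) := by
  obtain ⟨O, hO, rfl⟩ := isOpen_induced_iff.mp hA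
  exact ⟨O, hO, by rw [Subtype.image_preimage_coe]⟩

theorem t3m_isOpen {M B : Set V} (hB : T3RelOpen M B) : IsOpen (Subtype.val ⁻¹' B : Set ↥M) := by
  obtain ⟨O, hO, rfl⟩ := hB
  have : (Subtype.val ⁻¹' (M ∩ O) : Set ↥M) = Subtype.val ⁻¹' O := by
    ext x
    simp
  rw [this]
  exact hO.preimage continuous_subtype_val

theorem t3m_preconn {M : Set V} {A : Set ↥M} :
    IsPreconnected (Subtype.val '' A) ↔ IsPreconnected A :=
  Topology.IsInducing.subtypeVal.isPreconnected_image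

theorem t3m_preconn' {M C : Set V} (hC : IsPreconnected C) (hCM : C ⊆ M) :
    IsPreconnected (Subtype.val ⁻¹' C : Set ↥M) := by
  rw [← t3m_preconn, t3m_image_preimage hCM]
  exact hC

/-- the family of images. -/
def t3mFam {M : Set V} (𝒮 : Set (Set ↥M)) : Set (Set V) := (fun S : Set ↥M => Subtype.val '' S) '' 𝒮

theorem t3mFam_eqns_cite : True := by
  have := @t3mFam.eq_1
  trivial

theorem t3m_sUnion {M : Set V} (𝒮 : Set (Set ↥M)) : ⋃₀ t3mFam 𝒮 = Subtype.val '' ⋃₀ 𝒮 := by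
  rw [t3mFam, Set.image_sUnion]

theorem t3m_compl {M : Set V} (𝒮 : Set (Set ↥M)) :
    Subtype.val '' (⋃₀ 𝒮)ᶜ = M \ ⋃₀ t3mFam 𝒮 := by
  rw [t3m_sUnion, Set.image_compl_eq_range_sdiff_image Subtype.val_injective, Subtype.range_coe]

theorem t3m_image_diff {M : Set V} (A B : Set ↥M) :
    Subtype.val '' (A \ B) = Subtype.val '' A \ Subtype.val '' B :=
  Set.image_sdiff Subtype.val_injective A B

theorem t3m_comp {M : Set V} {𝒮 : Set (Set ↥M)} {R : Set ↥M} (h : TComp 𝒮 R) :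
    T3Comp (M \ ⋃₀ t3mFam 𝒮) (Subtype.val '' R) := by
  obtain ⟨x, hx, rfl⟩ := h
  refine ⟨?_, ?_, ?_, ?_⟩
  · rw [← t3m_compl]
    exact image_mono (connectedComponentIn_subset _ _)
  · exact ⟨x, x, mem_connectedComponentIn hx, rfl⟩
  · exact t3m_preconn.mpr isPreconnected_connectedComponentIn
  · rintro C hCY hC ⟨_, hzC, z, hzR, rfl⟩
    have hCM : C ⊆ M := fun y hy => (hCY hy).1
    have hC' := t3m_preconn' hC hCM
    have hsub : (Subtype.val ⁻¹' C : Set ↥M) ⊆ (⋃₀ 𝒮)ᶜ := by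
      intro y hy
      have h1 : (y : V) ∈ M \ ⋃₀ t3mFam 𝒮 := hCY hy
      rw [← t3m_compl] at h1
      obtain ⟨y', hy', he⟩ := h1
      rwa [← Subtype.val_injective he]
    have h2 := hC'.subset_connectedComponentIn (x := z) hzC hsub
    rw [← connectedComponentIn_eq hzR] at h2
    intro y hy
    exact ⟨⟨y, hCM hy⟩, h2 hy, rfl⟩

variable [MeasurableSpace V] [BorelSpace V]

theorem t3m_fam {M : Set V} {g : Ten V} {t : V → ℝ} {𝒮 : Set (Set ↥M)}
    (h1 : ∀ S ∈ 𝒮, T3Cut M g t (Subtype.val '' S)) (h2 : 𝒮.PairwiseDisjoint id)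
    (h3 : LocallyFinite (fun S : 𝒮 => (S : Set ↥M))) : T3Fam M g t (t3mFam 𝒮) := by
  refine ⟨?_, ?_, ?_⟩
  · rintro _ ⟨S, hS, rfl⟩
    exact h1 S hS
  · rintro _ ⟨S, hS, rfl⟩ _ ⟨S', hS', rfl⟩ hne
    have hne' : S ≠ S' := fun hh => hne (by rw [hh])
    exact (Set.disjoint_image_iff Subtype.val_injective).mpr (h2 hS hS' hne')
  · intro x hx
    obtain ⟨T, hT, hfin⟩ := h3 ⟨x, hx⟩
    obtain ⟨W, hW, hWT⟩ := mem_nhds_subtype _ _ _ |>.mp hT
    refine ⟨W, hW, (hfin.image (fun S : 𝒮 => Subtype.val '' (S : Set ↥M))).subset ?_⟩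
    rintro _ ⟨⟨S, hS, rfl⟩, y, ⟨y', hy', rfl⟩, hyW⟩
    exact ⟨⟨S, hS⟩, ⟨y', hy', hWT hyW⟩, rfl⟩

theorem t3m_rad {M : Set V} {g : Ten V} {R : Set ↥M} {o : V} {r : V → ℝ}
    (h : T3Rad M g (Subtype.val '' R) o r) :
    ∃ o' : ↥M, TRad (fun x y : ↥M => rdist M g x y) (fun F : Set ↥M => T3Hyp 3 M (Subtype.val '' F)) R
      o' (fun x => r x) 100 100 60 := by
  obtain ⟨o', ho', rfl⟩ := h.mem
  refine ⟨o', ho', ?_, ?_, ?_⟩
  · intro x hx
    exact h.le x ⟨x, hx, rfl⟩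
  · intro F A A' hF hFR hA hA' hAA hU hoA x hx ε hε
    obtain ⟨z, ⟨z', hz', rfl⟩, hz⟩ := h.pe (Subtype.val '' F) (Subtype.val '' A) (Subtype.val '' A')
      (hF.image continuous_subtype_val) (image_mono hFR) (t3m_relOpen hA) (t3m_relOpen hA')
      ((Set.disjoint_image_iff Subtype.val_injective).mpr hAA)
      (by rw [← Set.image_union, hU, t3m_image_diff]) ⟨o', hoA, rfl⟩ x ⟨x, hx, rfl⟩ ε hε
    exact ⟨z', hz', hz⟩
  · intro l hl
    obtain ⟨m, F, Up, Um, hF, hdis, hUp, hUm, hUU, hcov, hoU, hfar⟩ := h.bub l hl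
    have hRM : (Subtype.val '' R : Set V) ⊆ M := by
      rintro _ ⟨y, _, rfl⟩
      exact y.2
    have hFM : ∀ i, F i ⊆ M := fun i => (hF i).2.1.trans hRM
    refine ⟨m, fun i => Subtype.val ⁻¹' F i, Subtype.val ⁻¹' Up, Subtype.val ⁻¹' Um, ?_, ?_,
      t3m_isOpen hUp, t3m_isOpen hUm, hUU.preimage _, ?_, hoU, ?_⟩
    · intro i
      refine ⟨?_, ?_, ?_, ?_⟩
      · show T3Hyp 3 M (Subtype.val '' (Subtype.val ⁻¹' F i : Set ↥M))
        rw [t3m_image_preimage (hFM i)]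
        exact (hF i).1
      · intro y hy
        obtain ⟨y', hy', he⟩ := (hF i).2.1 hy
        rwa [← Subtype.val_injective he]
      · intro z hz
        exact (hF i).2.2.1 z hz
      · intro z hz z' hz'
        exact (hF i).2.2.2 z hz z' hz'
    · intro i j hij
      exact (hdis hij).preimage _
    · rw [← Set.preimage_union, hcov]
      ext y
      simp only [mem_preimage, mem_sdiff, mem_image, mem_iUnion, not_exists]
      constructor
      · rintro ⟨⟨y', hy', he⟩, h2⟩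
        exact ⟨by rwa [← Subtype.val_injective he], h2⟩
      · rintro ⟨h1, h2⟩
        exact ⟨⟨y, h1, rfl⟩, h2⟩
    · intro x hx hlx
      exact hfar x ⟨x, hx, rfl⟩ hlx

/-- **Paper T** (`n = 3`). -/
theorem t3_main' [FiniteDimensional ℝ V] (M : Set V) (g : Ten V) (t : V → ℝ)
    (h : Drift 3 M g t (3 / 4)) : HasCover 2 M g 500 := by
  classical
  have hRd : IsRd M g := if_isRd h.mfd h.conn h.met
  have : ProperSpace V := FiniteDimensional.proper_real V
  have : ProperSpace ↥M := ProperSpace.of_isClosed h.closed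
  have : LocallyConnectedSpace ↥M := t3g_locconn h.mfd
  have : PreconnectedSpace ↥M := Subtype.preconnectedSpace h.conn.isPreconnected
  refine Exists.elim (t3_abs (X := ↥M) (fun x y => rdist M g x y)
    (fun x y => hRd.symm x x.2 y y.2) (fun x y z => hRd.tri x x.2 y y.2 z z.2) ?_ ?_
    (fun x W hW => t3g_lift h.mfd x W hW)
    (fun F => T3Hyp 3 M (Subtype.val '' F)) (fun S => T3Cut M g t (Subtype.val '' S)) ?_ ?_
    30 32 100 100 60 (by norm_num) ?_ ?_ ?_) ?_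
  · -- continuity of the distance at the diagonal
    intro p w hw
    have hc := (hRd.cont p p.2).comp_continuous continuous_subtype_val (fun x : ↥M => x.2)
    have hp : (rdist M g p ∘ Subtype.val) p = 0 := hRd.self p p.2
    have : ∀ᶠ x in 𝓝 p, (rdist M g p ∘ Subtype.val) x < w :=
      hc.continuousAt.eventually_lt continuousAt_const (by rw [hp]; exact hw)
    exact ⟨_, this, fun x hx => le_of_lt hx⟩
  · -- properness
    intro p ρ
    rw [Subtype.isCompact_iff]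
    have heq : (Subtype.val '' {x : ↥M | rdist M g p x ≤ ρ}) = {y | y ∈ M ∧ rdist M g p y ≤ ρ} := by
      ext y
      constructor
      · rintro ⟨y', hy', rfl⟩
        exact ⟨y'.2, hy'⟩
      · rintro ⟨hy, h1⟩
        exact ⟨⟨y, hy⟩, h1, rfl⟩
    rw [heq]
    exact h.proper p p.2 ρ
  · intro F hF
    have := t3g_surf h.mfd hF
    rwa [t3m_preimage_image] at this
  · intro S hS
    have := t3g_surf h.mfd hS.hyp
    rwa [t3m_preimage_image] at this
  · intro S hS x hx y hy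
    exact t3_cut_diam h hS x ⟨x, hx, rfl⟩ y ⟨y, hy, rfl⟩
  · -- SEP
    intro 𝒮 a1 a2 a3 R F hR hF hFR hc
    obtain ⟨S', hS', hS'R, hc'⟩ := t3_sep h (t3m_fam a1 a2 a3) (t3m_comp hR) hF (image_mono hFR)
      (by rw [← t3m_image_diff]; exact t3m_preconn.mpr hc)
    have hS'M : S' ⊆ M := by
      intro y hy
      obtain ⟨y', _, rfl⟩ := hS'R hy
      exact y'.2
    refine ⟨Subtype.val ⁻¹' S', ?_, ?_, ?_⟩
    · show T3Cut M g t (Subtype.val '' (Subtype.val ⁻¹' S' : Set ↥M))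
      rw [t3m_image_preimage hS'M]
      exact hS'
    · intro y hy
      obtain ⟨y', hy', he⟩ := hS'R hy
      rwa [← Subtype.val_injective he]
    · rw [← t3m_preconn, t3m_image_diff, t3m_image_preimage hS'M]
      exact hc'
  · -- BUB
    intro 𝒮 a1 a2 a3
    obtain ⟨r, hr, hosc, hrad⟩ := t3_bub h (t3m_fam a1 a2 a3)
    refine ⟨fun x => r x, ?_, ?_, ?_⟩
    · refine hr.comp continuous_subtype_val.continuousOn ?_
      intro x hx
      rw [← t3m_compl]
      exact ⟨x, hx, rfl⟩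
    · intro S hS
      obtain ⟨W, hW, hSW, hA⟩ := hosc (Subtype.val '' S) ⟨S, hS, rfl⟩
      refine ⟨Subtype.val ⁻¹' W, hW.preimage continuous_subtype_val, ?_, ?_⟩
      · intro x hx
        exact hSW ⟨x, hx, rfl⟩
      · intro A hAW hAc x hx y hy
        refine hA (Subtype.val '' A) ?_ (t3m_preconn.mpr hAc) x ⟨x, hx, rfl⟩ y ⟨y, hy, rfl⟩
        rintro _ ⟨z, hz, rfl⟩
        refine ⟨⟨z.2, (hAW hz).1⟩, ?_⟩
        rw [t3m_sUnion]
        rintro ⟨z', hz', he⟩
        exact (hAW hz).2 (by rwa [← Subtype.val_injective he])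
    · intro R hR
      obtain ⟨o, ho⟩ := hrad _ (t3m_comp hR)
      exact t3m_rad ho
  · rintro J ⟨U, h1, h2, h3, h4, h5⟩
    refine hasCover_of_rel M g 2 500 (fun j => Subtype.val '' U j) ?_ ?_ ?_ ?_ ?_
    · rintro j x ⟨⟨x', hx', rfl⟩, _⟩
      obtain ⟨O, hO, hOU⟩ := isOpen_induced_iff.mp (h1 j)
      refine ⟨O, hO.mem_nhds (by rw [← hOU] at hx'; exact hx'), ?_⟩
      rintro y ⟨hyO, hyM⟩
      refine ⟨⟨y, hyM⟩, ?_, rfl⟩
      rw [← hOU]
      exact hyO
    · intro x hx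
      obtain ⟨j, hj⟩ := h2 ⟨x, hx⟩
      exact ⟨j, ⟨x, hx⟩, hj, rfl⟩
    · intro x hx
      obtain ⟨T, hT, hfin⟩ := h3 ⟨x, hx⟩
      obtain ⟨W, hW, hWT⟩ := mem_nhds_subtype _ _ _ |>.mp hT
      refine ⟨W, hW, hfin.subset ?_⟩
      rintro j ⟨_, ⟨y, hy, rfl⟩, hyW, _⟩
      exact ⟨y, hy, hWT hyW⟩
    · intro x hx s hs
      refine h4 ⟨x, hx⟩ s ?_
      intro j hj
      obtain ⟨y, hy, he⟩ := hs j hj
      have : y = ⟨x, hx⟩ := Subtype.ext he
      rwa [← this]
    · rintro j _ ⟨⟨x, hx, rfl⟩, _⟩ _ ⟨⟨y, hy, rfl⟩, _⟩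
      refine (h5 j x hx y hy).trans ?_
      norm_num

end Claimed.Agent.R315
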